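import Vale.Agent.P338.Cmd

/-! Array commands.  Arrays live on stack `0`, first entry on top. -/

namespace Vale.Agent.P338

open Function Vale.Agent.PT Vale.Agent.P320

def arr {α : Type} (n : ℕ) (x : ℕ → α) : List α := (List.range n).map x

/-- index of `(h, α, l)` in an array of shape `H × A × L` -/
def ix (A L h α l : ℕ) : ℕ := (h * A + α) * L + l

@[simp] lemma arr_length {α : Type} (n : ℕ) (x : ℕ → α) : (arr n x).length = n := by simp [arr]

lemma arr_congr {α : Type} {n : ℕ} {x y : ℕ → α} (h : ∀ i < n, x i = y i) : arr n x = arr n y :=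
  List.map_congr_left fun i hi => h i (List.mem_range.1 hi)

lemma arr_add {α : Type} (n m : ℕ) (x : ℕ → α) :
    arr (n + m) x = arr n x ++ arr m fun i => x (n + i) := by
  simp [arr, List.range_add]

lemma ix_lt {H A L h α l : ℕ} (h1 : h < H) (h2 : α < A) (h3 : l < L) : ix A L h α l < H * A * L := by
  have : h * A + α + 1 ≤ H * A := by nlinarith
  unfold ix; nlinarith

lemma ix_mod {A L h α l : ℕ} (h3 : l < L) : ix A L h α l % L = l := by
  rw [ix, Nat.mul_add_mod_of_lt h3]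
lemma ix_div {A L h α l : ℕ} (h3 : l < L) : ix A L h α l / L = h * A + α := by
  rw [ix, add_comm, Nat.add_mul_div_right _ _ (by omega), Nat.div_eq_of_lt h3, zero_add]
lemma ix_mid {A L h α l : ℕ} (h2 : α < A) (h3 : l < L) : ix A L h α l / L % A = α := by
  rw [ix_div h3, Nat.mul_add_mod_of_lt h2]
lemma ix_top {A L h α l : ℕ} (h2 : α < A) (h3 : l < L) : ix A L h α l / L / A = h := by
  rw [ix_div h3, add_comm, Nat.add_mul_div_right _ _ (by omega), Nat.div_eq_of_lt h2, zero_add]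
lemma ix_surj {H A L i : ℕ} (hi : i < H * A * L) :
    ∃ h < H, ∃ α < A, ∃ l < L, i = ix A L h α l := by
  have hL : 0 < L := Nat.pos_of_ne_zero (by rintro rfl; simp at hi)
  have hA : 0 < A := Nat.pos_of_ne_zero (by rintro rfl; simp at hi)
  refine ⟨i / L / A, ?_, i / L % A, Nat.mod_lt _ hA, i % L, Nat.mod_lt _ hL, ?_⟩
  · rw [Nat.div_lt_iff_lt_mul hA, Nat.div_lt_iff_lt_mul hL]; exact hi
  · rw [ix, Nat.div_add_mod', Nat.div_add_mod']

/-- `c` replaces the top segment `xs` of stack `0` by `ys` and changes nothing else -/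
def Acts (X : Cx) (e c : Cmd) (a : Ar) (xs ys : List (Rec X.b)) (T : ℕ) : Prop :=
  ∀ (s : AS X.b) (r : List (Rec X.b)), s.D 0 = xs ++ r → Do X e c a s (s.set 0 (ys ++ r)) T

def skip : Cmd := .op .nop

namespace Acts
variable {X : Cx} {e c d : Cmd} {a : Ar} {xs ys zs : List (Rec X.b)} {T T' T1 T2 : ℕ}

theorem mono (h : Acts X e c a xs ys T) (hT : T ≤ T') : Acts X e c a xs ys T' :=
  fun s r hs => (h s r hs).mono hT
theorem congr {xs' ys'} (h : Acts X e c a xs ys T) (h1 : xs = xs') (h2 : ys = ys') :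
    Acts X e c a xs' ys' T := h1 ▸ h2 ▸ h
theorem skip (xs : List (Rec X.b)) : Acts X e skip a xs xs 1 := fun s r hs =>
  (Do.op (m := .nop) trivial).congr (by rw [← hs, AS.set_self]; rfl)
theorem seq (h1 : Acts X e c a xs ys T1) (h2 : Acts X e d a ys zs T2) :
    Acts X e (.seq c d) a xs zs (T1 + T2 + 1) := fun s r hs =>
  ((h1 s r hs).seq (h2 _ r (by simp))).congr (by simp)
theorem frame (h : Acts X e c a xs ys T) (w : List (Rec X.b)) :
    Acts X e c a (xs ++ w) (ys ++ w) T := fun s r hs => by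
  simpa using h s (w ++ r) (by simpa using hs)
theorem ite_pos {p : Ar → Bool} (hp : p a = true) (h : Acts X e c a xs ys T) :
    Acts X e (.ite p c d) a xs ys (T + 1) := fun s r hs => (h s r hs).ite_pos hp
theorem ite_neg {p : Ar → Bool} (hp : p a = false) (h : Acts X e d a xs ys T) :
    Acts X e (.ite p c d) a xs ys (T + 1) := fun s r hs => (h s r hs).ite_neg hp
theorem arg {f : Ar → List ℕ} {a' : Ar} (ha : a.w (f a) = a') (hs : Sm 0 a')
    (h : Acts X e c a' xs ys T) : Acts X e (.arg f c) a xs ys (T + 1) :=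
  fun s r hr => (h s r hr).arg ha hs
theorem fix (h : Acts X c c a xs ys T) : Acts X e (.fix c) a xs ys (T + 1) :=
  fun s r hs => (h s r hs).fix
theorem self (h : Acts X e e a xs ys T) : Acts X e .self a xs ys (T + 1) :=
  fun s r hs => (h s r hs).self
end Acts

variable {X : Cx} {e : Cmd} {a : Ar}

/-- number of word-level multiplication rounds of an operation -/
def BOp.mc : BOp → ℕ
  | .mul => 1
  | .muls => 1
  | _ => 0

/-! ### loops: the body `c` runs with arguments `a.c i` and must not use `self` -/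

def loopB (n : Ar → ℕ) (c : Cmd) : Cmd :=
  .ite (fun a => decide (a.g 0 < n a.t)) (.seq c (.arg (fun a => (a.g 0 + 1) :: a.t.l) .self)) skip

def loop (n : Ar → ℕ) (c : Cmd) : Cmd := .arg (fun a => 0 :: a.l) (.fix (loopB n c))

theorem loop_ok {n c} (hn : BT n) (hc : c.ok) : (loop n c).ok := by
  refine ⟨by fun_prop, by fun_prop, ⟨hc, by fun_prop, trivial⟩, trivial⟩

theorem loop_do {n : Ar → ℕ} {c : Cmd} (hs : Sm 2 a) (hn : n a < 2 ^ a.z)
    (P : ℕ → AS X.b → Prop) (T : ℕ → ℕ)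
    (h : ∀ i < n a, ∀ s, P i s → ∃ s', (∀ e', Do X e' c (a.c i) s s' (T i)) ∧ P (i + 1) s')
    (s : AS X.b) (h0 : P 0 s) :
    ∃ s', Do X e (loop n c) a s s' (∑ i ∈ Finset.range (n a), T i + 10 * (n a + 1)) ∧
      P (n a) s' := by
  have key : ∀ k i, i + k = n a → ∀ s, P i s → ∃ s', Do X (loopB n c) (loopB n c) (a.c i) s s'
      (∑ j ∈ Finset.Ico i (n a), T j + 4 * k + 2) ∧ P (n a) s' := by
    intro k
    induction k with
    | zero =>
      intro i hi s hP
      obtain rfl : i = n a := by omega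
      exact ⟨s, (Do.ite_neg (by simp) (Do.op (m := .nop) trivial)).mono (by simp [Mic.cost]), hP⟩
    | succ k ih =>
      intro i hi s hP
      obtain ⟨s1, h1, hP1⟩ := h i (by omega) s hP
      obtain ⟨s2, h2, hP2⟩ := ih (i + 1) (by omega) s1 hP1
      refine ⟨s2, (Do.ite_pos (decide_eq_true (show i < n a by omega)) ((h1 _).seq (Do.arg (a' := a.c (i + 1)) rfl
        (sm_c.2 ⟨by omega, hs.mono (by omega)⟩) h2.self))).mono ?_, hP2⟩
      rw [Finset.sum_eq_sum_Ico_succ_bot (show i < n a by omega)]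
      omega
  obtain ⟨s', h1, h2⟩ := key (n a) 0 (by simp) s h0
  refine ⟨s', (Do.arg (a' := a.c 0) rfl (sm_c.2 ⟨by omega, hs.mono (by omega)⟩) h1.fix).mono ?_, h2⟩
  rw [Finset.range_eq_Ico]; omega

theorem loop_acts {n : Ar → ℕ} {c : Cmd} (hs : Sm 2 a) (hn : n a < 2 ^ a.z)
    (P : ℕ → List (Rec X.b) → Prop) (T : ℕ → ℕ)
    (h : ∀ i < n a, ∀ xs, P i xs → ∃ ys, (∀ e', Acts X e' c (a.c i) xs ys (T i)) ∧ P (i + 1) ys)
    (xs : List (Rec X.b)) (h0 : P 0 xs) :
    ∃ ys, Acts X e (loop n c) a xs ys (∑ i ∈ Finset.range (n a), T i + 10 * (n a + 1)) ∧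
      P (n a) ys := by
  have key : ∀ k i, i + k = n a → ∀ s, P i s → ∃ s', Acts X (loopB n c) (loopB n c) (a.c i) s s'
      (∑ j ∈ Finset.Ico i (n a), T j + 4 * k + 2) ∧ P (n a) s' := by
    intro k
    induction k with
    | zero =>
      intro i hi s hP
      obtain rfl : i = n a := by omega
      exact ⟨s, (Acts.ite_neg (by simp) (Acts.skip s)).mono (by simp), hP⟩
    | succ k ih =>
      intro i hi s hP
      obtain ⟨s1, h1, hP1⟩ := h i (by omega) s hP
      obtain ⟨s2, h2, hP2⟩ := ih (i + 1) (by omega) s1 hP1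
      refine ⟨s2, (Acts.ite_pos (decide_eq_true (show i < n a by omega)) ((h1 _).seq (Acts.arg (a' := a.c (i + 1)) rfl
        (sm_c.2 ⟨by omega, hs.mono (by omega)⟩) h2.self))).mono ?_, hP2⟩
      rw [Finset.sum_eq_sum_Ico_succ_bot (show i < n a by omega)]
      omega
  obtain ⟨s', h1, h2⟩ := key (n a) 0 (by simp) xs h0
  refine ⟨s', (Acts.arg (a' := a.c 0) rfl (sm_c.2 ⟨by omega, hs.mono (by omega)⟩) h1.fix).mono ?_,
    h2⟩
  rw [Finset.range_eq_Ico]; omega

/-- a loop with explicitly given intermediate states and constant cost -/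
theorem loop_seq {n : Ar → ℕ} {c : Cmd} (hs : Sm 2 a) (hn : n a < 2 ^ a.z) (σ : ℕ → AS X.b) (T : ℕ)
    (h : ∀ i < n a, ∀ e', Do X e' c (a.c i) (σ i) (σ (i + 1)) T) :
    Do X e (loop n c) a (σ 0) (σ (n a)) ((T + 10) * n a + 10) := by
  obtain ⟨s', h1, rfl⟩ := loop_do (e := e) hs hn (fun i s => s = σ i) (fun _ => T)
    (fun i hi s hP => ⟨_, hP ▸ h i hi, rfl⟩) _ rfl
  refine h1.mono (le_of_eq ?_)
  simp only [Finset.sum_const, Finset.card_range, smul_eq_mul]; ring

lemma drop_cons {α : Type} [Inhabited α] {xs : List α} {k : ℕ} (hk : k < xs.length) (r : List α) :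
    (xs.drop k ++ r ≠ []) ∧ (xs.drop k ++ r).tail = xs.drop (k + 1) ++ r ∧
      (xs.drop k ++ r).headI = xs[k] := by
  rw [List.drop_eq_getElem_cons hk]
  exact ⟨List.cons_ne_nil _ _, rfl, rfl⟩

lemma take_rev {α : Type} {xs : List α} {k : ℕ} (hk : k < xs.length) :
    (xs.take (k + 1)).reverse = xs[k] :: (xs.take k).reverse := by
  rw [List.take_add_one, List.getElem?_eq_getElem hk]; simp

def mvN (n : Ar → ℕ) (i j : Fin 5) : Cmd := loop n (.op (.mv i j))
theorem mvN_ok {n i j} (hn : BT n) : (mvN n i j).ok := loop_ok hn trivial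
theorem mvN_do {n : Ar → ℕ} {i j : Fin 5} (hij : i ≠ j) (hs : Sm 2 a) (hn : n a < 2 ^ a.z)
    (xs r : List (Rec X.b)) (hx : xs.length = n a) {s : AS X.b} (h : s.D i = xs ++ r) :
    Do X e (mvN n i j) a s ((s.set i r).set j (xs.reverse ++ s.D j)) (11 * n a + 10) := by
  have := loop_seq (e := e) (c := .op (.mv i j)) hs hn
    (fun k => (s.set i (xs.drop k ++ r)).set j ((xs.take k).reverse ++ s.D j)) 1 (by
      intro k hk e'
      obtain ⟨h1, h2, h3⟩ := drop_cons (hx ▸ hk : k < xs.length) r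
      refine (Do.op (m := .mv i j) ⟨hij, by simpa [hij] using h1⟩).congr ?_
      refine AS.ext' (fun t => ?_) rfl rfl rfl
      simp only [Mic.sem, AS.set_D, if_neg hij, if_true, h2, h3, take_rev (hx ▸ hk : k < xs.length)]
      split_ifs <;> simp)
  rw [← hx] at this
  simp only [List.drop_zero, List.take_zero, List.reverse_nil, List.nil_append, ← h, AS.set_self,
    List.drop_length, List.take_length] at this
  rw [← hx]
  exact this

def drN (n : Ar → ℕ) (i : Fin 5) : Cmd := loop n (.op (.dr i))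
theorem drN_ok {n i} (hn : BT n) : (drN n i).ok := loop_ok hn trivial
theorem drN_do {n : Ar → ℕ} {i : Fin 5} (hs : Sm 2 a) (hn : n a < 2 ^ a.z)
    (xs r : List (Rec X.b)) (hx : xs.length = n a) {s : AS X.b} (h : s.D i = xs ++ r) :
    Do X e (drN n i) a s (s.set i r) (11 * n a + 10) := by
  have := loop_seq (e := e) (c := .op (.dr i)) hs hn (fun k => s.set i (xs.drop k ++ r)) 1 (by
      intro k hk e'
      obtain ⟨h1, h2, h3⟩ := drop_cons (hx ▸ hk : k < xs.length) r
      refine (Do.op (m := .dr i) (by simpa [Mic.pre] using h1)).congr ?_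
      simp only [Mic.sem, AS.set_D, if_true, h2, AS.set_set])
  rw [← hx] at this
  simp only [List.drop_zero, List.nil_append, ← h, AS.set_self, List.drop_length] at this
  rw [← hx]
  exact this

def cmN (n : Ar → ℕ) : Cmd := loop n (.seq (.op (.cp 0 1)) (.op (.mv 0 2)))
theorem cmN_do {n : Ar → ℕ} (hs : Sm 2 a) (hn : n a < 2 ^ a.z)
    (xs r : List (Rec X.b)) (hx : xs.length = n a) {s : AS X.b} (h : s.D 0 = xs ++ r) :
    Do X e (cmN n) a s (((s.set 0 r).set 1 (xs.reverse ++ s.D 1)).set 2 (xs.reverse ++ s.D 2))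
      (13 * n a + 10) := by
  have := loop_seq (e := e) (c := .seq (.op (.cp 0 1)) (.op (.mv 0 2))) hs hn
    (fun k => ((s.set 0 (xs.drop k ++ r)).set 1 ((xs.take k).reverse ++ s.D 1)).set 2
      ((xs.take k).reverse ++ s.D 2)) 3 (by
      intro k hk e'
      obtain ⟨h1, h2, h3⟩ := drop_cons (hx ▸ hk : k < xs.length) r
      refine ((Do.op (m := .cp 0 1) (by simpa [Mic.pre] using h1)).seq
        (Do.op (m := .mv 0 2) ⟨by decide, by simpa [Mic.sem] using h1⟩)).congr ?_
      refine AS.ext' (fun t => ?_) rfl rfl rfl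
      fin_cases t <;> simp [Mic.sem, h2, h3, take_rev (hx ▸ hk : k < xs.length)])
  rw [← hx] at this
  simp only [List.drop_zero, List.take_zero, List.reverse_nil, List.nil_append, ← h, AS.set_self,
    List.drop_length, List.take_length] at this
  rw [← hx]
  exact this

/-! ### duplication, removal, loading -/

def dup (n : Ar → ℕ) : Cmd := .seq (cmN n) (.seq (mvN n 1 0) (mvN n 2 0))
theorem dup_ok {n} (hn : BT n) : (dup n).ok :=
  ⟨loop_ok hn ⟨trivial, trivial⟩, mvN_ok hn, mvN_ok hn⟩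
theorem dup_acts' {n : Ar → ℕ} (hs : Sm 2 a) (hn : n a < 2 ^ a.z) (xs : List (Rec X.b))
    (hx : xs.length = n a) : Acts X e (dup n) a xs (xs ++ xs) (35 * n a + 32) := by
  intro s r h
  refine ((cmN_do hs hn xs r hx h).seq ((mvN_do (by decide) hs hn xs.reverse (s.D 1) (by simpa)
    (by simp)).seq (mvN_do (by decide) hs hn xs.reverse (s.D 2) (by simpa) (by simp)))).of ?_
    (by omega)
  refine AS.ext' (fun t => ?_) rfl rfl rfl
  fin_cases t <;> simp
theorem dup_acts {n : Ar → ℕ} (hs : Sm 10 a) (hn : n a < 2 ^ a.z) (xs : List (Rec X.b))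
    (hx : xs.length = n a) : Acts X e (dup n) a xs (xs ++ xs) (100 * (n a + 1)) :=
  (dup_acts' (hs.mono (by omega)) hn xs hx).mono (by omega)

def drp (n : Ar → ℕ) : Cmd := drN n 0
theorem drp_ok {n} (hn : BT n) : (drp n).ok := drN_ok hn
theorem drp_acts {n : Ar → ℕ} (hs : Sm 10 a) (hn : n a < 2 ^ a.z) (xs : List (Rec X.b))
    (hx : xs.length = n a) : Acts X e (drp n) a xs [] (100 * (n a + 1)) := fun s r h =>
  (drN_do (hs.mono (by omega)) hn xs r hx h).mono (by omega)

/-- exchange the two top arrays -/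
def swap2 (n m : Ar → ℕ) : Cmd :=
  .seq (mvN n 0 1) (.seq (mvN m 0 2) (.seq (mvN n 1 0) (mvN m 2 0)))
theorem swap2_ok {n m} (hn : BT n) (hm : BT m) : (swap2 n m).ok :=
  ⟨mvN_ok hn, mvN_ok hm, mvN_ok hn, mvN_ok hm⟩
theorem swap2_acts {n m : Ar → ℕ} (hs : Sm 10 a) (hn : n a + m a < 2 ^ a.z)
    (xs ys : List (Rec X.b)) (hx : xs.length = n a) (hy : ys.length = m a) :
    Acts X e (swap2 n m) a (xs ++ ys) (ys ++ xs) (100 * (n a + m a + 1)) := by
  intro s r h
  have hs2 : Sm 2 a := hs.mono (by omega)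
  refine ((mvN_do (by decide) hs2 (by omega) xs (ys ++ r) hx (by simpa using h)).seq
    ((mvN_do (by decide) hs2 (by omega) ys r hy (by simp)).seq
    ((mvN_do (by decide) hs2 (by omega) xs.reverse (s.D 1) (by simpa) (by simp)).seq
    (mvN_do (by decide) hs2 (by omega) ys.reverse (s.D 2) (by simpa) (by simp))))).of ?_
    (by omega)
  refine AS.ext' (fun t => ?_) rfl rfl rfl
  fin_cases t <;> simp

lemma arr_succ' {α : Type} (n : ℕ) (x : ℕ → α) : arr (n + 1) x = x 0 :: arr n fun i => x (i + 1) := by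
  simp [arr, List.range_succ_eq_map]

/-- load a table of `n` entries computed by the control -/
def ldN (n : Ar → ℕ) (f g : ℕ → Ar × ℕ → ℕ) : Cmd :=
  loop n (.ld (fun x => f (n x.1.t - 1 - x.1.g 0) (x.1.t, x.2))
    (fun x => g (n x.1.t - 1 - x.1.g 0) (x.1.t, x.2)))
theorem ldN_ok {n} {f g : ℕ → Ar × ℕ → ℕ} (hn : BT n)
    (hf : BT fun x : Bin × Ar × ℕ => f x.1.v x.2) (hg : BT fun x : Bin × Ar × ℕ => g x.1.v x.2) :
    (ldN n f g).ok := by
  have h1 : BT fun x : Ar × ℕ => n x.1.t - 1 - x.1.g 0 := by fun_prop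
  have h2 : PT Bool fun x : Ar × ℕ => (x.1.t, x.2) := by fun_prop
  exact loop_ok hn
    ⟨BT.comp (g := fun x : Ar × ℕ => (Bin.mk (n x.1.t - 1 - x.1.g 0), x.1.t, x.2)) hf (PT.pair h1 h2),
     BT.comp (g := fun x : Ar × ℕ => (Bin.mk (n x.1.t - 1 - x.1.g 0), x.1.t, x.2)) hg (PT.pair h1 h2)⟩
theorem ldN_acts {n : Ar → ℕ} {f g : ℕ → Ar × ℕ → ℕ} (hs : Sm 10 a) (hn : n a < 2 ^ a.z) :
    Acts X e (ldN n f g) a []
      (arr (n a) fun i => (Wd.ofNat X.b (f i (a, X.b)), Wd.ofNat X.b (g i (a, X.b))))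
      ((X.σ + 100) * (n a + 1)) := by
  intro s r h
  have := loop_seq (e := e) (c := .ld (fun x => f (n x.1.t - 1 - x.1.g 0) (x.1.t, x.2))
    (fun x => g (n x.1.t - 1 - x.1.g 0) (x.1.t, x.2))) (hs.mono (by omega)) hn
    (fun k => s.set 0 ((arr k fun i => (Wd.ofNat X.b (f (n a - k + i) (a, X.b)),
      Wd.ofNat X.b (g (n a - k + i) (a, X.b)))) ++ r)) (X.σ + 1) (by
      intro k hk e'
      refine Do.ld.congr ?_
      have e1 : n a - (k + 1) + 0 = n a - 1 - k := by omega
      have e2 : ∀ i, n a - (k + 1) + (i + 1) = n a - k + i := fun i => by omega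
      simp only [AS.set_set, AS.set_D, if_true, arr_succ', e1, e2, Ar.c_t, Ar.c_g0, List.cons_append])
  have e0 : s.set 0 r = s := by rw [← List.nil_append r, ← h, AS.set_self]
  simp only [arr, List.range_zero, List.map_nil, List.nil_append, e0, Nat.sub_self, zero_add] at this
  refine this.mono ?_
  nlinarith

/-! ### gathering from two arrays along monotone index maps -/

lemma sem_congr {b : ℕ} (o : BOp) {x x' y y' : Rec b} (h1 : o.u1 → x = x') (h2 : o.u2 → y = y') :
    o.sem x y = o.sem x' y' := by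
  cases o <;> simp_all [BOp.u1, BOp.u2, BOp.sem]

lemma arr_succ {α : Type} (n : ℕ) (x : ℕ → α) : arr (n + 1) x = arr n x ++ [x n] := by
  simp [arr, List.range_succ]

lemma arr_getElem {α : Type} {n k : ℕ} (x : ℕ → α) (h : k < (arr n x).length) :
    (arr n x)[k] = x k := by simp [arr]

lemma cost_le (o : BOp) (μ : ℕ) : o.cost μ = o.mc * μ + 1 := by
  cases o <;> simp [BOp.cost, BOp.mc]

def gatherB (n1 n2 n' : Ar → ℕ) (o1 o2 : BOp) (p : ℕ → Ar → Bool) (φ ψ : ℕ → Ar → ℕ) : Cmd :=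
  .ite (fun a => decide (a.g 2 < n' a.t.t.t))
    (.ite (fun a => (if ap1 p (a.g 2) a.t.t.t = true then o1.u1 else o2.u1) &&
        decide (a.g 0 < ap1 φ (a.g 2) a.t.t.t))
      (.seq (.op (.dr 0)) (.arg (fun a => (a.g 0 + 1) :: a.t.l) .self))
      (.ite (fun a => (if ap1 p (a.g 2) a.t.t.t = true then o1.u2 else o2.u2) &&
          decide (a.g 1 < ap1 ψ (a.g 2) a.t.t.t))
        (.seq (.op (.dr 1)) (.arg (fun a => a.g 0 :: (a.g 1 + 1) :: a.t.t.l) .self))
        (.seq (.ite (fun a => ap1 p (a.g 2) a.t.t.t) (.op (.bin o1)) (.op (.bin o2)))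
          (.arg (fun a => a.g 0 :: a.g 1 :: (a.g 2 + 1) :: a.t.t.t.l) .self))))
    (.seq (drN (fun a => n1 a.t.t.t - a.g 0) 0) (drN (fun a => n2 a.t.t.t - a.g 1) 1))

/-- consumes `z` (top, length `n2`) and `x` (below, length `n1`), produces length `n'` -/
def gather (n1 n2 n' : Ar → ℕ) (o1 o2 : BOp) (p : ℕ → Ar → Bool) (φ ψ : ℕ → Ar → ℕ) : Cmd :=
  .seq (mvN n2 0 3) (.seq (mvN n2 3 1)
    (.seq (.arg (fun a => 0 :: 0 :: 0 :: a.l) (.fix (gatherB n1 n2 n' o1 o2 p φ ψ))) (mvN n' 2 0)))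
theorem gather_ok {n1 n2 n' o1 o2 p φ ψ} (h1 : BT n1) (h2 : BT n2) (h3 : BT n') (hp : P1 p)
    (hφ : B1 φ) (hψ : B1 ψ) : (gather n1 n2 n' o1 o2 p φ ψ).ok := by
  refine ⟨mvN_ok h2, mvN_ok h2, ⟨by fun_prop, by fun_prop, ⟨?_, ⟨trivial, by fun_prop, trivial⟩,
    ?_, ⟨trivial, by fun_prop, trivial⟩, ⟨?_, trivial, trivial⟩, by fun_prop, trivial⟩,
    drN_ok (by fun_prop), drN_ok (by fun_prop)⟩, mvN_ok h3⟩
  all_goals fun_prop (disch := assumption)

theorem gatherB_do {n1 n2 n' : Ar → ℕ} {o1 o2 : BOp} {p : ℕ → Ar → Bool} {φ ψ : ℕ → Ar → ℕ}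
    (hs : Sm 5 a) (hn : n1 a + n2 a + n' a < 2 ^ a.z)
    (hφ : ∀ i < n' a, (cond (p i a) o1 o2).u1 → φ i a < n1 a)
    (hψ : ∀ i < n' a, (cond (p i a) o1 o2).u2 → ψ i a < n2 a)
    (mφ : ∀ i j, i < j → j < n' a → (cond (p i a) o1 o2).u1 → (cond (p j a) o1 o2).u1 →
      φ i a ≤ φ j a)
    (mψ : ∀ i j, i < j → j < n' a → (cond (p i a) o1 o2).u2 → (cond (p j a) o1 o2).u2 →
      ψ i a ≤ ψ j a) (x z : ℕ → Rec X.b) (s : AS X.b) (r0 r1 r2 : List (Rec X.b)) :
    ∀ k u v i, (n1 a - u) + (n2 a - v) + (n' a - i) = k → u < n1 a → v < n2 a → i ≤ n' a →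
      (∀ j, i ≤ j → j < n' a → (cond (p j a) o1 o2).u1 → u ≤ φ j a) →
      (∀ j, i ≤ j → j < n' a → (cond (p j a) o1 o2).u2 → v ≤ ψ j a) →
      Do X (gatherB n1 n2 n' o1 o2 p φ ψ) (gatherB n1 n2 n' o1 o2 p φ ψ) (((a.c i).c v).c u)
        (((s.set 0 ((arr (n1 a) x).drop u ++ r0)).set 1 ((arr (n2 a) z).drop v ++ r1)).set 2
          ((arr i fun i => (cond (p i a) o1 o2).sem (x (φ i a)) (z (ψ i a))).reverse ++ r2))
        (((s.set 0 r0).set 1 r1).set 2
          ((arr (n' a) fun i => (cond (p i a) o1 o2).sem (x (φ i a)) (z (ψ i a))).reverse ++ r2))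
        (20 * k + (o1.mc + o2.mc) * X.μ * (n' a - i) + 30) := by
  have sm : ∀ {u v i : ℕ}, u < n1 a → v < n2 a → i ≤ n' a → Sm 2 (((a.c i).c v).c u) :=
    fun h1 h2 h3 => sm_c.2 ⟨by simp only [Ar.c_z]; omega, sm_c.2 ⟨by simp only [Ar.c_z]; omega,
      sm_c.2 ⟨by omega, hs⟩⟩⟩
  have c1 : ∀ i, (if p i a = true then o1.u1 else o2.u1) = (cond (p i a) o1 o2).u1 := fun i => by
    cases p i a <;> rfl
  have c2 : ∀ i, (if p i a = true then o1.u2 else o2.u2) = (cond (p i a) o1 o2).u2 := fun i => by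
    cases p i a <;> rfl
  intro k
  induction k using Nat.strong_induction_on with
  | _ k ih =>
  intro u v i hk hu hv hi iu iv
  obtain ⟨a1, a2, a3⟩ := drop_cons (xs := arr (n1 a) x) (k := u) (by simpa) r0
  obtain ⟨b1, b2, b3⟩ := drop_cons (xs := arr (n2 a) z) (k := v) (by simpa) r1
  rw [arr_getElem] at a3 b3
  by_cases hin : i < n' a
  · by_cases t1 : (cond (p i a) o1 o2).u1 ∧ u < φ i a
    · have hu' : u + 1 < n1 a := by have := hφ i hin t1.1; omega
      have := ih (k - 1) (by omega) (u + 1) v i (by omega) hu' hv hi (fun j h1 h2 h3 => by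
        rcases h1.eq_or_lt with rfl | h1
        · exact t1.2
        · exact t1.2.trans_le (mφ i j h1 h2 t1.1 h3)) iv
      refine (Do.ite_pos (decide_eq_true hin) (Do.ite_pos ((congrArg (· && decide (u < φ i a)) (c1 i)).trans (by simp [t1.1, t1.2]))
        ((Do.op (m := .dr 0) (by simpa [Mic.pre] using a1)).seq
          (Do.arg (a' := ((a.c i).c v).c (u + 1)) rfl ((sm hu' hv hi).mono (by omega))
            (Do.self (T := 20 * (k - 1) + (o1.mc + o2.mc) * X.μ * (n' a - i) + 30) ?_))))).mono ?_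
      · refine (congrArg (fun s0 => Do X _ _ _ s0 _ _) ?_).mp this
        refine AS.ext' (fun t => ?_) rfl rfl rfl
        fin_cases t <;> simp [Mic.sem, a2]
      · simp only [Mic.cost]; omega
    by_cases t2 : (cond (p i a) o1 o2).u2 ∧ v < ψ i a
    · have hv' : v + 1 < n2 a := by have := hψ i hin t2.1; omega
      have := ih (k - 1) (by omega) u (v + 1) i (by omega) hu hv' hi iu (fun j h1 h2 h3 => by
        rcases h1.eq_or_lt with rfl | h1
        · exact t2.2
        · exact t2.2.trans_le (mψ i j h1 h2 t2.1 h3))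
      refine (Do.ite_pos (decide_eq_true hin) (Do.ite_neg ((congrArg (· && decide (u < φ i a)) (c1 i)).trans (by simpa using t1))
        (Do.ite_pos ((congrArg (· && decide (v < ψ i a)) (c2 i)).trans (by simp [t2.1, t2.2]))
        ((Do.op (m := .dr 1) (by simpa [Mic.pre] using b1)).seq
          (Do.arg (a' := ((a.c i).c (v + 1)).c u) rfl ((sm hu hv' hi).mono (by omega))
            (Do.self (T := 20 * (k - 1) + (o1.mc + o2.mc) * X.μ * (n' a - i) + 30) ?_)))))).mono ?_
      · refine (congrArg (fun s0 => Do X _ _ _ s0 _ _) ?_).mp this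
        refine AS.ext' (fun t => ?_) rfl rfl rfl
        fin_cases t <;> simp [Mic.sem, b2]
      · simp only [Mic.cost]; omega
    have := ih (k - 1) (by omega) u v (i + 1) (by omega) hu hv hin
      (fun j h1 => iu j (by omega)) (fun j h1 => iv j (by omega))
    have hb : ∀ s0 : AS X.b, s0.D 0 ≠ [] → s0.D 1 ≠ [] → Do X (gatherB n1 n2 n' o1 o2 p φ ψ)
        (.ite (fun a => ap1 p (a.g 2) a.t.t.t) (.op (.bin o1)) (.op (.bin o2)))
        (((a.c i).c v).c u) s0 ((Mic.bin (cond (p i a) o1 o2)).sem s0)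
        ((o1.mc + o2.mc) * X.μ + 2) := by
      intro s0 h0 h1
      cases hp : p i a
      · refine (Do.ite_neg (by simpa using hp) (Do.op (m := .bin o2) ⟨h0, h1⟩)).mono ?_
        simp only [Mic.cost, cost_le, add_mul]; omega
      · refine (Do.ite_pos (by simpa using hp) (Do.op (m := .bin o1) ⟨h0, h1⟩)).mono ?_
        simp only [Mic.cost, cost_le, add_mul]; omega
    refine (Do.ite_pos (decide_eq_true hin) (Do.ite_neg ((congrArg (· && decide (u < φ i a)) (c1 i)).trans (by simpa using t1))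
      (Do.ite_neg ((congrArg (· && decide (v < ψ i a)) (c2 i)).trans (by simpa using t2))
      ((hb _ (by simpa using a1) (by simpa using b1)).seq
        (Do.arg (a' := ((a.c (i + 1)).c v).c u) rfl ((sm hu hv hin).mono (by omega))
          (Do.self (T := 20 * (k - 1) + (o1.mc + o2.mc) * X.μ * (n' a - (i + 1)) + 30)
            ?_)))))).mono ?_
    · refine (congrArg (fun s0 => Do X _ _ _ s0 _ _) ?_).mp this
      have e : (cond (p i a) o1 o2).sem (x u) (z v) =
          (cond (p i a) o1 o2).sem (x (φ i a)) (z (ψ i a)) := sem_congr _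
        (fun h => by
          have := iu i le_rfl hin h
          have : ¬ u < φ i a := fun hh => t1 ⟨h, hh⟩
          congr 1; omega)
        (fun h => by
          have := iv i le_rfl hin h
          have : ¬ v < ψ i a := fun hh => t2 ⟨h, hh⟩
          congr 1; omega)
      refine AS.ext' (fun t => ?_) rfl rfl rfl
      fin_cases t <;> simp [Mic.sem, a3, b3, e, arr_succ]
    · have : n' a - i = n' a - (i + 1) + 1 := by omega
      rw [this, mul_add_one]
      omega
  · obtain rfl : i = n' a := by omega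
    refine (Do.ite_neg (by simp) ((drN_do (sm hu hv hi) (by simp only [Ar.c_z, Ar.c_t]; omega)
      ((arr (n1 a) x).drop u) r0 (by simp) (by simp)).seq
      (drN_do (sm hu hv hi) (by simp only [Ar.c_z, Ar.c_t]; omega)
      ((arr (n2 a) z).drop v) r1 (by simp) (by simp)))).of ?_ ?_
    · refine AS.ext' (fun t => ?_) rfl rfl rfl
      fin_cases t <;> simp
    · simp only [Ar.c_t, Ar.c_g0, Ar.c_gs]; omega

theorem gather_acts' {n1 n2 n' : Ar → ℕ} {o1 o2 : BOp} {p : ℕ → Ar → Bool} {φ ψ : ℕ → Ar → ℕ}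
    (hs : Sm 5 a) (hn : n1 a + n2 a + n' a < 2 ^ a.z) (h1 : 0 < n1 a) (h2 : 0 < n2 a)
    (hφ : ∀ i < n' a, (cond (p i a) o1 o2).u1 → φ i a < n1 a)
    (hψ : ∀ i < n' a, (cond (p i a) o1 o2).u2 → ψ i a < n2 a)
    (mφ : ∀ i j, i < j → j < n' a → (cond (p i a) o1 o2).u1 → (cond (p j a) o1 o2).u1 →
      φ i a ≤ φ j a)
    (mψ : ∀ i j, i < j → j < n' a → (cond (p i a) o1 o2).u2 → (cond (p j a) o1 o2).u2 →
      ψ i a ≤ ψ j a) (x z : ℕ → Rec X.b) :
    Acts X e (gather n1 n2 n' o1 o2 p φ ψ) a (arr (n2 a) z ++ arr (n1 a) x)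
      (arr (n' a) fun i => (cond (p i a) o1 o2).sem (x (φ i a)) (z (ψ i a)))
      (50 * (n1 a + n2 a + n' a) + 70 + (o1.mc + o2.mc) * X.μ * n' a) := by
  intro s r h
  have hs2 : Sm 2 a := hs.mono (by omega)
  have main := gatherB_do hs hn hφ hψ mφ mψ x z s r (s.D 1) (s.D 2) _ 0 0 0 rfl h1 h2 (by omega)
    (fun _ _ _ _ => Nat.zero_le _) (fun _ _ _ _ => Nat.zero_le _)
  refine ((mvN_do (by decide) hs2 (by omega) (arr (n2 a) z) (arr (n1 a) x ++ r) (by simp)
    (by simpa using h)).seq ((mvN_do (by decide) hs2 (by omega) (arr (n2 a) z).reverse (s.D 3)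
    (by simp) (by simp)).seq ((Do.arg (a' := ((a.c 0).c 0).c 0) rfl
      (sm_c.2 ⟨by simp, sm_c.2 ⟨by simp, sm_c.2 ⟨by simp, hs.mono (by omega)⟩⟩⟩)
      ((congrArg (fun s0 => Do X _ _ _ s0 _ _) ?_).mp main).fix).seq
      (mvN_do (by decide) hs2 (by omega) (arr (n' a) fun i =>
        (cond (p i a) o1 o2).sem (x (φ i a)) (z (ψ i a))).reverse (s.D 2) (by simp)
        (by simp))))).of ?_ ?_
  · refine AS.ext' (fun t => ?_) rfl rfl rfl
    fin_cases t <;> simp [arr]
  · refine AS.ext' (fun t => ?_) rfl rfl rfl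
    fin_cases t <;> simp
  · simp only [Nat.sub_zero]; omega

theorem gather_acts {n1 n2 n' : Ar → ℕ} {o1 o2 : BOp} {p : ℕ → Ar → Bool} {φ ψ : ℕ → Ar → ℕ}
    (hs : Sm 10 a) (hn : n1 a + n2 a + n' a < 2 ^ a.z) (h1 : 0 < n1 a) (h2 : 0 < n2 a)
    (hφ : ∀ i < n' a, (cond (p i a) o1 o2).u1 → φ i a < n1 a)
    (hψ : ∀ i < n' a, (cond (p i a) o1 o2).u2 → ψ i a < n2 a)
    (mφ : ∀ i j, i < j → j < n' a → (cond (p i a) o1 o2).u1 → (cond (p j a) o1 o2).u1 →
      φ i a ≤ φ j a)
    (mψ : ∀ i j, i < j → j < n' a → (cond (p i a) o1 o2).u2 → (cond (p j a) o1 o2).u2 →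
      ψ i a ≤ ψ j a) (x z : ℕ → Rec X.b) :
    Acts X e (gather n1 n2 n' o1 o2 p φ ψ) a (arr (n2 a) z ++ arr (n1 a) x)
      (arr (n' a) fun i => (cond (p i a) o1 o2).sem (x (φ i a)) (z (ψ i a)))
      (100 * (n1 a + n2 a + n' a + 1) + (o1.mc + o2.mc) * X.μ * n' a) :=
  (gather_acts' (hs.mono (by omega)) hn h1 h2 hφ hψ mφ mψ x z).mono (by omega)

lemma ix_mono {A A' L i j : ℕ} {f : ℕ → ℕ} (hij : i < j) (hL : 0 < L)
    (hi : f i < A) (h : i / L / A' = j / L / A' → i / L % A' < j / L % A' → f i < f j)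
    (h' : i / L = j / L → f i = f j) :
    ix A L (i / L / A') (f i) (i % L) ≤ ix A L (j / L / A') (f j) (j % L) := by
  have h1 : i / L ≤ j / L := Nat.div_le_div_right hij.le
  have h2 : i % L < L := Nat.mod_lt _ hL
  unfold ix
  rcases h1.eq_or_lt with h1 | h1
  · have : i % L < j % L := by
      have := Nat.div_add_mod i L
      have := Nat.div_add_mod j L
      rw [h1] at *; omega
    rw [h' h1, h1]; omega
  · have h3 : i / L / A' * A + f i + 1 ≤ j / L / A' * A + f j := by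
      have h4 : i / L / A' ≤ j / L / A' := Nat.div_le_div_right h1.le
      rcases h4.eq_or_lt with h4 | h4
      · have : i / L % A' < j / L % A' := by
          have := Nat.div_add_mod (i / L) A'
          have := Nat.div_add_mod (j / L) A'
          rw [h4] at *; omega
        have := h h4 this
        rw [h4]; omega
      · have := Nat.mul_le_mul_right A (Nat.succ_le_of_lt h4)
        rw [Nat.succ_mul] at this; omega
    have := Nat.mul_le_mul_right L h3
    rw [add_mul, one_mul] at this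
    omega

lemma ix_parts {H A L i : ℕ} (hi : i < H * A * L) :
    i / L / A < H ∧ i / L % A < A ∧ i % L < L := by
  have hL : 0 < L := Nat.pos_of_ne_zero (by rintro rfl; simp at hi)
  have hA : 0 < A := Nat.pos_of_ne_zero (by rintro rfl; simp at hi)
  refine ⟨?_, Nat.mod_lt _ hA, Nat.mod_lt _ hL⟩
  rw [Nat.div_lt_iff_lt_mul hA, Nat.div_lt_iff_lt_mul hL]; exact hi

/-- field gather: shape `H × A × L` to shape `H × A' × L` -/
def fg (H A A' L : Ar → ℕ) (o1 o2 : BOp) (p : ℕ → ℕ → Ar → Bool) (φ ψ : ℕ → ℕ → Ar → ℕ) : Cmd :=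
  .seq (dup fun a => H a * A a * L a)
    (gather (fun a => H a * A a * L a) (fun a => H a * A a * L a) (fun a => H a * A' a * L a) o1 o2
      (fun i a => p (i / L a / A' a) (i / L a % A' a) a)
      (fun i a => ix (A a) (L a) (i / L a / A' a) (φ (i / L a / A' a) (i / L a % A' a) a) (i % L a))
      (fun i a => ix (A a) (L a) (i / L a / A' a) (ψ (i / L a / A' a) (i / L a % A' a) a) (i % L a)))
theorem fg_ok {H A A' L o1 o2 p φ ψ} (h1 : BT H) (h2 : BT A) (h3 : BT A') (h4 : BT L) (hp : P2 p)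
    (hφ : B2 φ) (hψ : B2 ψ) : (fg H A A' L o1 o2 p φ ψ).ok := by
  refine ⟨dup_ok (by fun_prop), gather_ok (by fun_prop) (by fun_prop) (by fun_prop) ?_ ?_ ?_⟩
  · exact hp.app (by fun_prop) (by fun_prop) (by fun_prop)
  · have : BT fun x : Bin × Ar => φ (x.1.v / L x.2 / A' x.2) (x.1.v / L x.2 % A' x.2) x.2 :=
      hφ.app (by fun_prop) (by fun_prop) (by fun_prop)
    unfold B1 ix
    exact BT.add (BT.mul (BT.add (by fun_prop) this) (by fun_prop)) (by fun_prop)
  · have : BT fun x : Bin × Ar => ψ (x.1.v / L x.2 / A' x.2) (x.1.v / L x.2 % A' x.2) x.2 :=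
      hψ.app (by fun_prop) (by fun_prop) (by fun_prop)
    unfold B1 ix
    exact BT.add (BT.mul (BT.add (by fun_prop) this) (by fun_prop)) (by fun_prop)
theorem fg_acts {H A A' L : Ar → ℕ} {o1 o2 : BOp} {p : ℕ → ℕ → Ar → Bool}
    {φ ψ : ℕ → ℕ → Ar → ℕ} (hs : Sm 10 a) (h0 : 0 < H a * A a * L a)
    (hn : 3 * (H a * A a * L a + H a * A' a * L a) < 2 ^ a.z)
    (hφ : ∀ h < H a, ∀ α < A' a, (cond (p h α a) o1 o2).u1 → φ h α a < A a)
    (hψ : ∀ h < H a, ∀ α < A' a, (cond (p h α a) o1 o2).u2 → ψ h α a < A a)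
    (mφ : ∀ h < H a, ∀ α β, α < β → β < A' a → (cond (p h α a) o1 o2).u1 →
      (cond (p h β a) o1 o2).u1 → φ h α a < φ h β a)
    (mψ : ∀ h < H a, ∀ α β, α < β → β < A' a → (cond (p h α a) o1 o2).u2 →
      (cond (p h β a) o1 o2).u2 → ψ h α a < ψ h β a) (x : ℕ → Rec X.b) :
    ∃ y, Acts X e (fg H A A' L o1 o2 p φ ψ) a (arr (H a * A a * L a) x) (arr (H a * A' a * L a) y)
        (1000 * (H a * A a * L a + H a * A' a * L a) + (o1.mc + o2.mc) * X.μ * (H a * A' a * L a)) ∧
      ∀ h < H a, ∀ α < A' a, ∀ l < L a, y (ix (A' a) (L a) h α l) =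
        (cond (p h α a) o1 o2).sem (x (ix (A a) (L a) h (φ h α a) l))
          (x (ix (A a) (L a) h (ψ h α a) l)) := by
  have hL : 0 < L a := Nat.pos_of_mul_pos_left h0
  refine ⟨_, ((dup_acts hs (by omega) _ (by simp)).seq (gather_acts hs (by omega) h0 h0 ?_ ?_ ?_ ?_
    x x)).mono (by omega), ?_⟩
  · intro i hi hu
    obtain ⟨a1, a2, a3⟩ := ix_parts hi
    exact ix_lt a1 (hφ _ a1 _ a2 hu) a3
  · intro i hi hu
    obtain ⟨a1, a2, a3⟩ := ix_parts hi
    exact ix_lt a1 (hψ _ a1 _ a2 hu) a3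
  · intro i j hij hj hu hu'
    obtain ⟨a1, a2, a3⟩ := ix_parts (hij.trans hj)
    obtain ⟨b1, b2, b3⟩ := ix_parts hj
    exact ix_mono (f := fun i => φ (i / L a / A' a) (i / L a % A' a) a) hij hL (hφ _ a1 _ a2 hu)
      (fun e1 e2 => by
        rw [← e1] at hu' ⊢
        exact mφ _ a1 _ _ e2 b2 hu hu') (fun e1 => by rw [e1])
  · intro i j hij hj hu hu'
    obtain ⟨a1, a2, a3⟩ := ix_parts (hij.trans hj)
    obtain ⟨b1, b2, b3⟩ := ix_parts hj
    exact ix_mono (f := fun i => ψ (i / L a / A' a) (i / L a % A' a) a) hij hL (hψ _ a1 _ a2 hu)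
      (fun e1 e2 => by
        rw [← e1] at hu' ⊢
        exact mψ _ a1 _ _ e2 b2 hu hu') (fun e1 => by rw [e1])
  · intro h _ α hα l hl
    simp only [ix_top hα hl, ix_mid hα hl, ix_mod hl]

/-- re-indexing of the middle field by a map that is increasing on `p` and on its complement -/
def pm (H A A' L : Ar → ℕ) (p : ℕ → ℕ → Ar → Bool) (θ : ℕ → ℕ → Ar → ℕ) : Cmd :=
  fg H A A' L .fst .snd p θ θ
theorem pm_ok {H A A' L p θ} (h1 : BT H) (h2 : BT A) (h3 : BT A') (h4 : BT L) (hp : P2 p)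
    (hθ : B2 θ) : (pm H A A' L p θ).ok := fg_ok h1 h2 h3 h4 hp hθ hθ
theorem pm_acts {H A A' L : Ar → ℕ} {p : ℕ → ℕ → Ar → Bool} {θ : ℕ → ℕ → Ar → ℕ}
    (hs : Sm 10 a) (h0 : 0 < H a * A a * L a)
    (hn : 3 * (H a * A a * L a + H a * A' a * L a) < 2 ^ a.z)
    (hθ : ∀ h < H a, ∀ α < A' a, θ h α a < A a)
    (mθ : ∀ h < H a, ∀ α β, α < β → β < A' a → p h α a = p h β a → θ h α a < θ h β a)
    (x : ℕ → Rec X.b) :
    ∃ y, Acts X e (pm H A A' L p θ) a (arr (H a * A a * L a) x) (arr (H a * A' a * L a) y)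
        (1000 * (H a * A a * L a + H a * A' a * L a)) ∧
      ∀ h < H a, ∀ α < A' a, ∀ l < L a,
        y (ix (A' a) (L a) h α l) = x (ix (A a) (L a) h (θ h α a) l) := by
  obtain ⟨y, h1, h2⟩ := fg_acts (e := e) (o1 := .fst) (o2 := .snd) (p := p) (φ := θ) (ψ := θ) hs h0 hn
    (fun h hh α hα _ => hθ h hh α hα) (fun h hh α hα _ => hθ h hh α hα)
    (fun h hh α β h1 h2 h3 h4 => mθ h hh α β h1 h2 (by
      revert h3 h4; cases p h α a <;> cases p h β a <;> simp [BOp.u1]))
    (fun h hh α β h1 h2 h3 h4 => mθ h hh α β h1 h2 (by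
      revert h3 h4; cases p h α a <;> cases p h β a <;> simp [BOp.u2])) x
  refine ⟨y, h1.mono (by simp [BOp.mc]), fun h hh α hα l hl => ?_⟩
  rw [h2 h hh α hα l hl]
  cases p h α a <;> rfl

/-- translation of the middle field by a function of the upper field -/
def lt (H A L : Ar → ℕ) (f : ℕ → Ar → ℕ) : Cmd :=
  pm H A A L (fun h α a => decide (α + ap1 f h a % A a < A a)) (fun h α a => (α + ap1 f h a) % A a)
theorem lt_ok {H A L f} (h1 : BT H) (h2 : BT A) (h4 : BT L) (hf : B1 f) : (lt H A L f).ok := by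
  refine pm_ok h1 h2 h2 h4 ?_ ?_
  · unfold P2; fun_prop (disch := assumption)
  · unfold B2; fun_prop (disch := assumption)
theorem lt_acts {H A L : Ar → ℕ} {f : ℕ → Ar → ℕ} (hs : Sm 10 a) (h0 : 0 < H a * A a * L a)
    (hn : 6 * (H a * A a * L a) < 2 ^ a.z) (x : ℕ → Rec X.b) :
    ∃ y, Acts X e (lt H A L f) a (arr (H a * A a * L a) x) (arr (H a * A a * L a) y)
        (2000 * (H a * A a * L a)) ∧
      ∀ h < H a, ∀ α < A a, ∀ l < L a,
        y (ix (A a) (L a) h α l) = x (ix (A a) (L a) h ((α + f h a) % A a) l) := by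
  obtain ⟨y, h1, h2⟩ := pm_acts (e := e) (A' := A)
    (p := fun h α a => decide (α + ap1 f h a % A a < A a))
    (θ := fun h α a => (α + ap1 f h a) % A a) hs h0 (by omega)
    (fun h _ α hα => Nat.mod_lt _ (by omega)) (fun h _ α β h1 h2 h3 => by
      have hc : ap1 f h a % A a < A a := Nat.mod_lt _ (by omega)
      rw [← Nat.add_mod_mod α, ← Nat.add_mod_mod β]
      generalize ap1 f h a % A a = c at *
      by_cases hb : β + c < A a
      · rw [Nat.mod_eq_of_lt hb, Nat.mod_eq_of_lt (by omega)]; omega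
      · have ha : ¬ α + c < A a := by simpa [hb] using h3
        rw [Nat.mod_eq_sub_mod (by omega), Nat.mod_eq_sub_mod (a := β + c) (by omega),
          Nat.mod_eq_of_lt (by omega), Nat.mod_eq_of_lt (by omega)]
        omega) x
  exact ⟨y, h1.mono (by omega), h2⟩

lemma arr_reverse {α : Type} (n : ℕ) (x : ℕ → α) :
    (arr n x).reverse = arr n fun i => x (n - 1 - i) := by
  refine List.ext_getElem (by simp) fun i h1 h2 => ?_
  simp [arr]

lemma arr_drop {α : Type} (n k : ℕ) (x : ℕ → α) :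
    (arr n x).drop k = arr (n - k) fun i => x (k + i) := by
  refine List.ext_getElem (by simp) fun i h1 h2 => ?_
  simp [arr]

/-- reversal inside each of `K` blocks of length `B` -/
def brev (K B : Ar → ℕ) : Cmd :=
  .seq (loop K (.seq (mvN (fun a => B a.t) 0 3) (mvN (fun a => B a.t) 3 2)))
    (mvN (fun a => K a * B a) 2 0)
theorem brev_ok {K B} (h1 : BT K) (h2 : BT B) : (brev K B).ok :=
  ⟨loop_ok h1 ⟨mvN_ok (by fun_prop), mvN_ok (by fun_prop)⟩, mvN_ok (by fun_prop)⟩
theorem brev_acts {K B : Ar → ℕ} (hs : Sm 10 a) (h0 : 0 < K a * B a) (hn : K a * B a < 2 ^ a.z)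
    (x : ℕ → Rec X.b) : Acts X e (brev K B) a (arr (K a * B a) x)
      (arr (K a * B a) fun i => x (i / B a * B a + (B a - 1 - i % B a))) (100 * (K a * B a)) := by
  intro s r h
  have hB : 0 < B a := Nat.pos_of_mul_pos_left h0
  have hK : 0 < K a := Nat.pos_of_mul_pos_right h0
  have hK' : K a ≤ K a * B a := Nat.le_mul_of_pos_right _ hB
  have hB' : B a ≤ K a * B a := Nat.le_mul_of_pos_left _ hK
  set y : ℕ → Rec X.b := fun i => x (i / B a * B a + (B a - 1 - i % B a)) with hy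
  have := loop_seq (e := e)
    (c := .seq (mvN (fun a => B a.t) 0 3) (mvN (fun a => B a.t) 3 2)) (hs.mono (by omega))
    (hK'.trans_lt hn) (fun k => (s.set 0 ((arr (K a * B a) x).drop (k * B a) ++ r)).set 2
      ((arr (k * B a) y).reverse ++ s.D 2)) (22 * B a + 21) (by
      intro k hk e'
      have hsm : Sm 2 (a.c k) := sm_c.2 ⟨by omega, hs.mono (by omega)⟩
      have hk' : (k + 1) * B a ≤ K a * B a := Nat.mul_le_mul_right _ hk
      have e1 : (arr (K a * B a) x).drop (k * B a) = (arr (B a) fun j => x (k * B a + j)) ++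
          (arr (K a * B a) x).drop ((k + 1) * B a) := by
        rw [arr_drop, arr_drop, show K a * B a - k * B a = B a + (K a * B a - (k + 1) * B a) by
          rw [add_mul] at hk' ⊢; omega, arr_add]
        congr 2
        funext i; congr 1; ring
      have e2 : (arr ((k + 1) * B a) y).reverse = (arr (B a) fun j => x (k * B a + j)) ++
          (arr (k * B a) y).reverse := by
        rw [add_mul, one_mul, arr_add, List.reverse_append, arr_reverse (B a)]
        congr 1
        refine arr_congr fun j hj => ?_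
        have h1 : B a - 1 - j < B a := by omega
        have h2 : (k * B a + (B a - 1 - j)) / B a = k := by
          rw [add_comm, Nat.add_mul_div_right _ _ hB, Nat.div_eq_of_lt h1, zero_add]
        simp only [hy, h2, Nat.mul_add_mod_of_lt h1]
        congr 2; omega
      refine ((mvN_do (by decide) hsm (by simpa using hB'.trans_lt hn)
        (arr (B a) fun j => x (k * B a + j)) ((arr (K a * B a) x).drop ((k + 1) * B a) ++ r)
        (by simp) (by simp [e1])).seq (mvN_do (by decide) hsm (by simpa using hB'.trans_lt hn)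
        (arr (B a) fun j => x (k * B a + j)).reverse (s.D 3) (by simp) (by simp))).of ?_ ?_
      · refine AS.ext' (fun t => ?_) rfl rfl rfl
        fin_cases t <;> simp [e2]
      · simp only [Ar.c_t]; omega)
  have e0 : (s.set 0 ((arr (K a * B a) x).drop (0 * B a) ++ r)).set 2
      ((arr (0 * B a) y).reverse ++ s.D 2) = s := by
    refine AS.ext' (fun t => ?_) rfl rfl rfl
    fin_cases t <;> simp [arr, h]
  rw [e0] at this
  refine (this.seq (mvN_do (by decide) (hs.mono (by omega)) hn (arr (K a * B a) y).reverse (s.D 2)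
    (by simp) (by simp))).of ?_ ?_
  · refine AS.ext' (fun t => ?_) rfl rfl rfl
    have : (arr (K a * B a) x).drop (K a * B a) = [] := List.drop_of_length_le (by simp)
    fin_cases t <;> simp [this]
  · nlinarith

/-- negation of the middle field -/
def ng (H A L : Ar → ℕ) : Cmd :=
  .seq (brev H fun a => A a * L a) (.seq (brev (fun a => H a * A a) L) (lt H A L fun _ a => A a - 1))
theorem ng_ok {H A L} (h1 : BT H) (h2 : BT A) (h4 : BT L) : (ng H A L).ok :=
  ⟨brev_ok h1 (by fun_prop), brev_ok (by fun_prop) h4, lt_ok h1 h2 h4 (by unfold B1; fun_prop)⟩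
theorem ng_acts {H A L : Ar → ℕ} (hs : Sm 10 a) (h0 : 0 < H a * A a * L a)
    (hn : 6 * (H a * A a * L a) < 2 ^ a.z) (x : ℕ → Rec X.b) :
    ∃ y, Acts X e (ng H A L) a (arr (H a * A a * L a) x) (arr (H a * A a * L a) y)
        (4000 * (H a * A a * L a)) ∧
      ∀ h < H a, ∀ α < A a, ∀ l < L a,
        y (ix (A a) (L a) h α l) = x (ix (A a) (L a) h ((A a - α) % A a) l) := by
  have h1 := brev_acts (e := e) (K := H) (B := fun a => A a * L a) hs (by rwa [← mul_assoc])
    (by rw [← mul_assoc]; omega) x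
  simp only [← mul_assoc (H a), ← mul_assoc (_ / _)] at h1
  have h2 := brev_acts (e := e) (K := fun a => H a * A a) (B := L) hs h0 (by omega)
    (fun i => x (i / (A a * L a) * A a * L a + (A a * L a - 1 - i % (A a * L a))))
  obtain ⟨y, h3, h4⟩ := lt_acts (e := e) (f := fun _ a => A a - 1) hs h0 hn _
  refine ⟨y, (h1.seq (h2.seq h3)).mono (by omega), fun h hh α hα l hl => ?_⟩
  rw [h4 h hh α hα l hl]
  obtain ⟨β, hβ, e1, e2⟩ : ∃ β < A a, (α + (A a - 1)) % A a = β ∧ (A a - α) % A a = A a - 1 - β := by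
    rcases Nat.eq_zero_or_pos α with rfl | hp
    · exact ⟨A a - 1, by omega, by rw [zero_add, Nat.mod_eq_of_lt (by omega)], by simp⟩
    · refine ⟨α - 1, by omega, ?_, ?_⟩
      · rw [show α + (A a - 1) = α - 1 + A a by omega, Nat.add_mod_right, Nat.mod_eq_of_lt (by omega)]
      · rw [Nat.mod_eq_of_lt (by omega)]; omega
  rw [e1, e2, ix_div hl, ix_mod hl]
  have h5 : β * L a + (L a - 1 - l) < A a * L a := by
    have := Nat.mul_le_mul_right (L a) (Nat.succ_le_of_lt hβ)
    rw [Nat.succ_mul] at this; omega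
  have e3 : (h * A a + β) * L a + (L a - 1 - l) = h * (A a * L a) + (β * L a + (L a - 1 - l)) := by
    ring
  rw [e3, Nat.mul_add_mod_of_lt h5, add_comm (h * _), Nat.add_mul_div_right _ _ (by omega),
    Nat.div_eq_of_lt h5, zero_add]
  congr 1
  obtain ⟨γ, hγ⟩ := Nat.exists_eq_add_of_lt hβ
  have e4 : A a * L a = β * L a + γ * L a + L a := by rw [hγ]; ring
  rw [ix, show A a - 1 - β = γ by omega, add_mul]
  omega

/-- padding with zeros, or truncation, of the middle field -/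
def pad (H A A' L : Ar → ℕ) : Cmd :=
  fg H A A' L .fst .zero (fun _ α a => decide (α < A a)) (fun _ α _ => α) (fun _ _ _ => 0)
theorem pad_ok {H A A' L} (h1 : BT H) (h2 : BT A) (h3 : BT A') (h4 : BT L) :
    (pad H A A' L).ok := by
  refine fg_ok h1 h2 h3 h4 ?_ ?_ ?_
  · unfold P2; fun_prop
  · unfold B2; fun_prop
  · unfold B2; fun_prop
theorem pad_acts {H A A' L : Ar → ℕ} (hs : Sm 10 a) (h0 : 0 < H a * A a * L a)
    (hn : 3 * (H a * A a * L a + H a * A' a * L a) < 2 ^ a.z) (x : ℕ → Rec X.b) :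
    ∃ y, Acts X e (pad H A A' L) a (arr (H a * A a * L a) x) (arr (H a * A' a * L a) y)
        (1000 * (H a * A a * L a + H a * A' a * L a)) ∧
      ∀ h < H a, ∀ α < A' a, ∀ l < L a, y (ix (A' a) (L a) h α l) =
        if α < A a then x (ix (A a) (L a) h α l) else default := by
  obtain ⟨y, h1, h2⟩ := fg_acts (e := e) (o1 := .fst) (o2 := .zero)
    (p := fun _ α a => decide (α < A a)) (φ := fun _ α _ => α) (ψ := fun _ _ _ => 0) hs h0 hn
    (fun h _ α _ hu => by by_cases hh : α < A a <;> simp_all [BOp.u1])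
    (fun h _ α _ hu => by by_cases hh : α < A a <;> simp_all [BOp.u2])
    (fun h _ α β h1 _ _ _ => h1)
    (fun h _ α β _ _ hu _ => by by_cases hh : α < A a <;> simp_all [BOp.u2]) x
  refine ⟨y, h1.mono (by simp [BOp.mc]), fun h hh α hα l hl => ?_⟩
  rw [h2 h hh α hα l hl]
  by_cases hh : α < A a
  · simp [hh, BOp.sem]
  · simp only [hh, decide_false, cond_false, if_false]; rfl

/-- a gate between two values `i`, `j` of the middle field -/
def gate (H A L i j : Ar → ℕ) (o : BOp) : Cmd :=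
  fg H A A L o .fst (fun _ α a => decide (α = i a)) (fun _ α _ => α) (fun _ _ a => j a)
theorem gate_ok {H A L i j o} (h1 : BT H) (h2 : BT A) (h4 : BT L) (hi : BT i) (hj : BT j) :
    (gate H A L i j o).ok := by
  refine fg_ok h1 h2 h2 h4 ?_ ?_ ?_
  · unfold P2; fun_prop
  · unfold B2; fun_prop
  · unfold B2; fun_prop
theorem gate_acts {H A L i j : Ar → ℕ} {o : BOp} (hs : Sm 10 a) (h0 : 0 < H a * A a * L a)
    (hn : 6 * (H a * A a * L a) < 2 ^ a.z) (hj : j a < A a) (ho : o.mc = 0) (x : ℕ → Rec X.b) :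
    ∃ y, Acts X e (gate H A L i j o) a (arr (H a * A a * L a) x) (arr (H a * A a * L a) y)
        (2000 * (H a * A a * L a)) ∧
      ∀ h < H a, ∀ α < A a, ∀ l < L a, y (ix (A a) (L a) h α l) =
        if α = i a then o.sem (x (ix (A a) (L a) h α l)) (x (ix (A a) (L a) h (j a) l))
        else x (ix (A a) (L a) h α l) := by
  obtain ⟨y, h1, h2⟩ := fg_acts (e := e) (A' := A) (o1 := o) (o2 := .fst)
    (p := fun _ α a => decide (α = i a)) (φ := fun _ α _ => α) (ψ := fun _ _ a => j a) hs h0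
    (by omega) (fun h _ α hα _ => hα) (fun h _ α _ _ => hj) (fun h _ α β h1 _ _ _ => h1)
    (fun h _ α β h1 _ hu hu' => by
      exfalso
      by_cases hh : α = i a
      · have : ¬ β = i a := by omega
        simp [this, BOp.u2] at hu'
      · simp [hh, BOp.u2] at hu) x
  refine ⟨y, h1.mono (by rw [ho]; simp [BOp.mc]; omega), fun h hh α hα l hl => ?_⟩
  rw [h2 h hh α hα l hl]
  by_cases hh : α = i a
  · simp [hh]
  · simp [hh, BOp.sem]

/-- run `c` (which may use `self`) on the sub-array `B ≤ α < B + n` of shape `H × n × L` -/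
def focus (H A L B n : Ar → ℕ) (c : Cmd) : Cmd :=
  .seq (dup fun a => H a * A a * L a) (.seq (pm H A n L (fun _ _ _ => true) fun _ α a => B a + α)
    (.seq c (gather (fun a => H a * A a * L a) (fun a => H a * n a * L a) (fun a => H a * A a * L a)
      .snd .fst (fun i a => decide (B a ≤ i / L a % A a ∧ i / L a % A a < B a + n a)) (fun i _ => i)
      (fun i a => ix (n a) (L a) (i / L a / A a) (i / L a % A a - B a) (i % L a)))))
theorem focus_ok {H A L B n c} (h1 : BT H) (h2 : BT A) (h4 : BT L) (hB : BT B) (hn : BT n)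
    (hc : c.ok) : (focus H A L B n c).ok := by
  refine ⟨dup_ok (by fun_prop), pm_ok h1 h2 hn h4 ?_ ?_, hc,
    gather_ok (by fun_prop) (by fun_prop) (by fun_prop) ?_ ?_ ?_⟩
  · unfold P2; fun_prop
  · unfold B2; fun_prop
  · unfold P1; fun_prop
  · unfold B1; fun_prop
  · unfold B1 ix; fun_prop
theorem focus_acts {H A L B n : Ar → ℕ} {c : Cmd} (hs : Sm 10 a) (h0 : 0 < H a * n a * L a)
    (hn : 6 * (H a * A a * L a) < 2 ^ a.z) (hB : B a + n a ≤ A a) (x : ℕ → Rec X.b) :
    ∃ x', (∀ h < H a, ∀ α < n a, ∀ l < L a,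
        x' (ix (n a) (L a) h α l) = x (ix (A a) (L a) h (B a + α) l)) ∧
      ∀ y' T, Acts X e c a (arr (H a * n a * L a) x') (arr (H a * n a * L a) y') T →
        ∃ y, Acts X e (focus H A L B n c) a (arr (H a * A a * L a) x) (arr (H a * A a * L a) y)
            (T + 4000 * (H a * A a * L a)) ∧
          ∀ h < H a, ∀ α < A a, ∀ l < L a, y (ix (A a) (L a) h α l) =
            if B a ≤ α ∧ α < B a + n a then y' (ix (n a) (L a) h (α - B a) l)
            else x (ix (A a) (L a) h α l) := by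
  have hL : 0 < L a := Nat.pos_of_mul_pos_left h0
  have hle : H a * n a * L a ≤ H a * A a * L a := by gcongr; omega
  obtain ⟨x', h1, h2⟩ := pm_acts (e := e) (A' := n) (p := fun _ _ _ => true)
    (θ := fun _ α a => B a + α) hs (h0.trans_le hle) (by omega) (fun _ _ α hα => by omega)
    (fun _ _ α β h1 _ _ => by omega) x
  refine ⟨x', h2, fun y' T hc => ⟨_, ((dup_acts hs (by omega) _ (by simp)).seq
    ((h1.frame _).seq ((hc.frame _).seq (gather_acts hs (by omega) (h0.trans_le hle) h0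
      ?_ ?_ ?_ ?_ x y')))).mono (by simp only [BOp.mc]; omega), ?_⟩⟩
  · intro i hi _; exact hi
  · intro i hi hu
    obtain ⟨a1, a2, a3⟩ := ix_parts hi
    have : B a ≤ i / L a % A a ∧ i / L a % A a < B a + n a := by
      by_contra hh; simp [hh, BOp.u2] at hu
    exact ix_lt a1 (by omega) a3
  · intro i j hij _ _ _; exact hij.le
  · intro i j hij hj hu hu'
    have h3 : B a ≤ i / L a % A a ∧ i / L a % A a < B a + n a := by
      by_contra hh; simp [hh, BOp.u2] at hu
    exact ix_mono (f := fun i => i / L a % A a - B a) hij hL (by omega)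
      (fun e1 e2 => by omega) (fun e1 => by rw [e1])
  · intro h _ α hα l hl
    simp only [ix_top hα hl, ix_mid hα hl, ix_mod hl]
    by_cases hh : B a ≤ α ∧ α < B a + n a
    · simp [hh, BOp.sem]
    · simp only [hh, decide_false, cond_false, if_false]; rfl

/-- combine an array of shape `H × A × L` with a table of length `A` lying on top of it -/
def tab (H A L : Ar → ℕ) (o : BOp) : Cmd :=
  .seq (loop (fun a => H a - 1) (dup fun a => A a.t))
    (gather (fun a => H a * A a * L a) (fun a => H a * A a) (fun a => H a * A a * L a) o .fst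
      (fun _ _ => true) (fun i _ => i) (fun i a => i / L a))
theorem tab_ok {H A L o} (h1 : BT H) (h2 : BT A) (h4 : BT L) : (tab H A L o).ok := by
  refine ⟨loop_ok (by fun_prop) (dup_ok (by fun_prop)),
    gather_ok (by fun_prop) (by fun_prop) (by fun_prop) ?_ ?_ ?_⟩
  · unfold P1; fun_prop
  · unfold B1; fun_prop
  · unfold B1; fun_prop
theorem tab_acts {H A L : Ar → ℕ} {o : BOp} (hs : Sm 10 a) (h0 : 0 < H a * A a * L a)
    (hn : 6 * (H a * A a * L a) < 2 ^ a.z) (x t : ℕ → Rec X.b) :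
    ∃ y, Acts X e (tab H A L o) a (arr (A a) t ++ arr (H a * A a * L a) x)
        (arr (H a * A a * L a) y) ((2000 + 2 * X.μ) * (H a * A a * L a)) ∧
      ∀ h < H a, ∀ α < A a, ∀ l < L a,
        y (ix (A a) (L a) h α l) = o.sem (x (ix (A a) (L a) h α l)) (t α) := by
  have hL : 0 < L a := Nat.pos_of_mul_pos_left h0
  have hHA : 0 < H a * A a := Nat.pos_of_mul_pos_right h0
  have hA : 0 < A a := Nat.pos_of_mul_pos_left hHA
  have hH : 0 < H a := Nat.pos_of_mul_pos_right hHA
  have l1 : H a * A a ≤ H a * A a * L a := Nat.le_mul_of_pos_right _ hL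
  have l2 : H a ≤ H a * A a := Nat.le_mul_of_pos_right _ hA
  have l3 : A a ≤ H a * A a := Nat.le_mul_of_pos_left _ hH
  obtain ⟨ys, h1, h2⟩ := loop_acts (e := e) (n := fun a => H a - 1) (c := dup fun a => A a.t)
    (hs.mono (by omega)) (by omega) (fun k ys => ys = arr ((k + 1) * A a) fun j => t (j % A a))
    (fun _ => 35 * A a + 32) (by
      rintro k hk _ rfl
      have e1 : ∀ k, (arr ((k + 1) * A a) fun j => t (j % A a)) =
          arr (A a) t ++ arr (k * A a) fun j => t (j % A a) := fun k => by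
        rw [add_mul, one_mul, add_comm, arr_add]
        congr 1
        · exact arr_congr fun i hi => by rw [Nat.mod_eq_of_lt hi]
        · simp
      refine ⟨_, fun e' => ?_, rfl⟩
      rw [e1 (k + 1), e1 k, ← List.append_assoc]
      exact (dup_acts' (n := fun a => A a.t) (sm_c.2 ⟨by omega, hs.mono (by omega)⟩)
        (by simp only [Ar.c_t, Ar.c_z]; omega) _ (by simp)).frame _) (arr (A a) t)
      (by rw [zero_add, one_mul]; exact arr_congr fun i hi => by rw [Nat.mod_eq_of_lt hi])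
  rw [show H a - 1 + 1 = H a by omega] at h2
  subst h2
  refine ⟨_, ((h1.frame _).seq (gather_acts hs (by omega) h0 hHA (fun i hi _ => hi)
    (fun i hi _ => (Nat.div_lt_iff_lt_mul hL).2 hi) (fun i j hij _ _ _ => hij.le)
    (fun i j hij _ _ _ => Nat.div_le_div_right hij.le) x _)).mono ?_, ?_⟩
  · have : o.mc ≤ 1 := by cases o <;> simp [BOp.mc]
    have h3 : (o.mc + BOp.fst.mc) * X.μ * (H a * A a * L a) ≤ 2 * X.μ * (H a * A a * L a) := by
      have : BOp.fst.mc = 0 := rfl
      gcongr; omega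
    have h4 : (H a - 1) * (35 * A a + 32) ≤ 67 * (H a * A a) := by
      have : (H a - 1) * (35 * A a + 32) ≤ H a * (35 * A a + 32) := by gcongr; omega
      nlinarith
    simp only [Finset.sum_const, Finset.card_range, smul_eq_mul]
    rw [add_mul 2000]
    omega
  · intro h _ α hα l hl
    simp only [cond_true, ix_mid hα hl]

end Vale.Agent.P338
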