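import Vale.Agent.P338.Cmd

/-! Values of bit words. -/

namespace Vale.Agent.P338.Bt

open Function Vale.Agent.P320

lemma val_nil : ofBits [] = 0 := rfl

lemma val_cons (a : Bool) (l : List Bool) : ofBits (a :: l) = a.toNat + 2 * ofBits l := by
  simp only [ofBits, List.foldr_cons, Nat.bit_val]; ring

lemma val_append (l m : List Bool) : ofBits (l ++ m) = ofBits l + 2 ^ l.length * ofBits m := by
  induction l with
  | nil => simp [val_nil]
  | cons a l ih => rw [List.cons_append, val_cons, val_cons, ih, List.length_cons]; ring

lemma testBit_val (l : List Bool) (i : ℕ) : (ofBits l).testBit i = l.getD i false := by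
  induction l generalizing i with
  | nil => simp [val_nil]
  | cons a l ih =>
    have e : ofBits (a :: l) = Nat.bit a (ofBits l) := rfl
    cases i with
    | zero => rw [e, Nat.testBit_bit_zero]; rfl
    | succ i => rw [e, Nat.testBit_bit_succ, ih]; rfl

lemma bitsL_getD (k z i : ℕ) : (bitsL k z).getD i false = (decide (i < k) && z.testBit i) := by
  by_cases h : i < k
  · simp [bitsL, List.getD_eq_getElem?_getD, List.getElem?_range h, h]
  · rw [List.getD_eq_default _ _ (by simpa using h)]; simp [h]

lemma val_bitsL (k z : ℕ) : ofBits (bitsL k z) = z % 2 ^ k :=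
  Nat.eq_of_testBit_eq fun i => by rw [testBit_val, bitsL_getD, Nat.testBit_mod_two_pow]

lemma val_inj {l m : List Bool} (hl : l.length = m.length) (h : ofBits l = ofBits m) : l = m := by
  refine List.ext_getElem hl fun i h1 h2 => ?_
  have := testBit_val l i
  rw [h, testBit_val, List.getD_eq_getElem _ _ h1, List.getD_eq_getElem _ _ h2] at this
  exact this.symm

lemma eq_bitsL {l : List Bool} {k z : ℕ} (hl : l.length = k) (h : ofBits l = z % 2 ^ k) :
    l = bitsL k z := val_inj (by simp [hl]) (by rw [h, val_bitsL])

lemma val_false (k : ℕ) : ofBits (List.replicate k false) = 0 := by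
  induction k with
  | zero => rfl
  | succ k ih => rw [List.replicate_succ, val_cons, ih]; rfl

lemma val_true (k : ℕ) : ofBits (List.replicate k true) + 1 = 2 ^ k := by
  induction k with
  | zero => rfl
  | succ k ih => rw [List.replicate_succ, val_cons, pow_succ, ← ih]; simp; ring

lemma val_not (l : List Bool) : ofBits (l.map not) + ofBits l + 1 = 2 ^ l.length := by
  induction l with
  | nil => rfl
  | cons a l ih =>
    rw [List.map_cons, val_cons, val_cons, List.length_cons, pow_succ, ← ih]
    cases a <;> simp <;> ring

lemma val_drop (l : List Bool) (k : ℕ) : ofBits (l.drop k) = ofBits l / 2 ^ k :=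
  Nat.eq_of_testBit_eq fun i => by
    rw [Nat.testBit_div_two_pow, testBit_val, testBit_val]
    simp [List.getD_eq_getElem?_getD, add_comm]

lemma padTake_eq (k : ℕ) (l : List Bool) : padTake k l = bitsL k (ofBits l) := by
  simp [padTake, bitsL, testBit_val]

lemma val_zip (c : Bool) (x y : List Bool) (h : y.length ≤ x.length) :
    ofBits (zipL fa c x y).1 + 2 ^ x.length * (zipL fa c x y).2.toNat =
      c.toNat + ofBits x + ofBits y := by
  induction x generalizing c y with
  | nil =>
    have : y = [] := by simpa using h
    subst this; simp [zipL, val_nil]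
  | cons a x ih =>
    have hy : ofBits y = (y.headD false).toNat + 2 * ofBits y.tail := by
      cases y with
      | nil => rfl
      | cons d y => exact val_cons d y
    have := ih (fa c a (y.headD false)).2 y.tail (by simp at h ⊢; omega)
    simp only [zipL, val_cons, List.length_cons, pow_succ]
    rw [hy]
    generalize y.headD false = d at *
    have e : (fa c a d).1.toNat + 2 * (fa c a d).2.toNat = c.toNat + a.toNat + d.toNat := by
      cases c <;> cases a <;> cases d <;> rfl
    have e2 : 2 ^ x.length * 2 * (zipL fa (fa c a d).2 x y.tail).2.toNat =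
        2 * (2 ^ x.length * (zipL fa (fa c a d).2 x y.tail).2.toNat) := by ring
    omega

/-- addition with end-around carry -/
lemma val_addW (x y : List Bool) (h : y.length = x.length) :
    (ofBits x + ofBits y < 2 ^ x.length ∧ ofBits (addW x y) = ofBits x + ofBits y) ∨
    (2 ^ x.length ≤ ofBits x + ofBits y ∧
      ofBits (addW x y) + 2 ^ x.length = ofBits x + ofBits y + 1) := by
  have h1 := val_zip false x y h.le
  have h2 := val_zip (zipL fa false x y).2 (zipL fa false x y).1 [] (by simp)
  have hx := ofBits_lt x
  have hy := ofBits_lt y
  have hz := ofBits_lt (zipL fa false x y).1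
  have hw := ofBits_lt (addW x y)
  rw [h] at hy
  rw [addW_length] at hw
  rw [zipL_length] at h2 hz
  rw [val_nil] at h2
  unfold addW at hw ⊢
  generalize (zipL fa (zipL fa false x y).2 (zipL fa false x y).1 []).2 = c2 at *
  generalize (zipL fa false x y).2 = c1 at *
  cases c1 <;> cases c2 <;> simp at h1 h2 <;> omega

lemma val_halfW (a : Bool) (l : List Bool) :
    ofBits (halfW (a :: l)) = ofBits l + 2 ^ l.length * a.toNat := by
  simp [halfW, val_append, val_cons, val_nil]

lemma getLastD_eq (x : List Bool) : x.getLastD false = (ofBits x).testBit (x.length - 1) := by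
  rw [testBit_val, List.getLastD_eq_getLast?, List.getLast?_eq_getElem?,
    List.getD_eq_getElem?_getD]

lemma xor_getD (c : Bool) (x y : List Bool) (i : ℕ) (h : y.length ≤ x.length) :
    (zipL (fun c a y => (a ^^ y, c)) c x y).1.getD i false = (x.getD i false ^^ y.getD i false) := by
  induction x generalizing c y i with
  | nil =>
    have : y = [] := by simpa using h
    subst this; simp [zipL]
  | cons a x ih =>
    have := fun i => ih c y.tail i (by simp at h ⊢; omega)
    cases i with
    | zero => cases y <;> simp [zipL]
    | succ i =>
      simp only [zipL, List.getD_cons_succ, this]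
      cases y <;> simp

end Vale.Agent.P338.Bt
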