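import Vale.Agent.P320.Bin

/-! Polynomial-time numerics: binary naturals `BT`, integers `ZT`, Gaussian rationals `QT`,
approximable complex numbers `AC`. -/

namespace Vale.Agent.P338

open Vale.Agent.PT Vale.Agent.P320

variable {α β γ : Type} [Ctx Bool α] [Ctx Bool β] [Ctx Bool γ]

/-! ### Binary naturals -/

/-- `f` is computable in polynomial time, with the value written in binary. -/
@[fun_prop] def BT {α : Type} [Ctx Bool α] (f : α → ℕ) : Prop := PT Bool fun x => Bin.mk (f x)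

section decisions

variable {p q : α → Prop}

@[fun_prop] theorem pt_ite [∀ x, Decidable (p x)] {a b : α → β}
    (hp : PT Bool fun x => decide (p x)) (ha : PT Bool a) (hb : PT Bool b) :
    PT Bool fun x => if p x then a x else b x :=
  (PT.cond' hp ha hb).congr fun x => by by_cases h : p x <;> simp [h]

@[fun_prop] theorem pt_dec_true {c : α → Bool} [∀ x, Decidable (c x = true)] (hc : PT Bool c) :
    PT Bool fun x => decide (c x = true) :=
  hc.congr fun x => by rw [Bool.eq_iff_iff]; simp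

@[fun_prop] theorem pt_dec_false {c : α → Bool} [∀ x, Decidable (c x = false)] (hc : PT Bool c) :
    PT Bool fun x => decide (c x = false) :=
  hc.not'.congr fun x => by rw [Bool.eq_iff_iff]; simp

@[fun_prop] theorem pt_dec_and [∀ x, Decidable (p x)] [∀ x, Decidable (q x)]
    [∀ x, Decidable (p x ∧ q x)] (hp : PT Bool fun x => decide (p x))
    (hq : PT Bool fun x => decide (q x)) : PT Bool fun x => decide (p x ∧ q x) :=
  (hp.and' hq).congr fun x => by by_cases h : p x <;> by_cases h' : q x <;> simp [h, h']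

@[fun_prop] theorem pt_dec_or [∀ x, Decidable (p x)] [∀ x, Decidable (q x)]
    [∀ x, Decidable (p x ∨ q x)] (hp : PT Bool fun x => decide (p x))
    (hq : PT Bool fun x => decide (q x)) : PT Bool fun x => decide (p x ∨ q x) :=
  (hp.or' hq).congr fun x => by by_cases h : p x <;> by_cases h' : q x <;> simp [h, h']

@[fun_prop] theorem pt_dec_not [∀ x, Decidable (p x)] [∀ x, Decidable (¬ p x)]
    (hp : PT Bool fun x => decide (p x)) : PT Bool fun x => decide (¬ p x) :=
  hp.not'.congr fun x => by by_cases h : p x <;> simp [h]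

end decisions

namespace BT

variable {f g : α → ℕ} {k m : α → ℕ}

theorem pt (h : BT f) : PT Bool fun x => Bin.mk (f x) := h

theorem congr (h : BT f) (e : ∀ x, f x = g x) : BT g := (funext e : f = g) ▸ h

@[fun_prop] theorem const (n : ℕ) : BT fun _ : α => n := PT.const _

@[fun_prop] theorem comp {f : β → ℕ} {g : α → β} (hf : BT f) (hg : PT Bool g) :
    BT fun x => f (g x) := PT.comp (f := fun y => Bin.mk (f y)) hf hg

/-- unary to binary -/
@[fun_prop] theorem of (hf : PT Bool f) : BT f := pt_bof hf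

@[fun_prop] theorem id' : BT fun n : ℕ => n := of PT.id'

@[fun_prop] theorem fst {f : α → ℕ × β} (hf : PT Bool f) : BT fun x => (f x).1 := of hf.fst

@[fun_prop] theorem snd {f : α → β × ℕ} (hf : PT Bool f) : BT fun x => (f x).2 := of hf.snd

@[fun_prop] theorem v {b : α → Bin} (hb : PT Bool b) : BT fun x => (b x).v := hb

@[fun_prop] theorem add (hf : BT f) (hg : BT g) : BT fun x => f x + g x := pt_badd hf hg

@[fun_prop] theorem sub (hf : BT f) (hg : BT g) : BT fun x => f x - g x := pt_bsub hf hg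

@[fun_prop] theorem mul (hf : BT f) (hg : BT g) : BT fun x => f x * g x := pt_bmul hf hg

@[fun_prop] theorem min (hf : BT f) (hg : BT g) : BT fun x => min (f x) (g x) := pt_bmin hf hg

@[fun_prop] theorem max (hf : BT f) (hg : BT g) : BT fun x => max (f x) (g x) := pt_bmax hf hg

@[fun_prop] theorem ite {p : α → Prop} [∀ x, Decidable (p x)] (hp : PT Bool fun x => decide (p x))
    (hf : BT f) (hg : BT g) : BT fun x => if p x then f x else g x :=
  (pt_ite hp hf hg).congr fun x => by dsimp only; split_ifs <;> rfl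

@[fun_prop] theorem cond {c : α → Bool} (hc : PT Bool c) (hf : BT f) (hg : BT g) :
    BT fun x => cond (c x) (f x) (g x) :=
  (PT.cond' hc hf hg).congr fun x => by dsimp only; cases c x <;> rfl

end BT

section

variable {f g : α → ℕ} {k m : α → ℕ}

@[fun_prop] theorem pt_mk (hf : BT f) : PT Bool fun x => Bin.mk (f x) := hf

@[fun_prop] theorem pt_dec_le [∀ x, Decidable (f x ≤ g x)] (hf : BT f) (hg : BT g) :
    PT Bool fun x => decide (f x ≤ g x) :=
  (pt_ble hf hg).congr fun x => by simp [Bin.le]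

@[fun_prop] theorem pt_dec_lt [∀ x, Decidable (f x < g x)] (hf : BT f) (hg : BT g) :
    PT Bool fun x => decide (f x < g x) :=
  (pt_blt hf hg).congr fun x => by simp [Bin.lt]

@[fun_prop] theorem pt_dec_eq [∀ x, Decidable (f x = g x)] (hf : BT f) (hg : BT g) :
    PT Bool fun x => decide (f x = g x) :=
  ((pt_dec_le hf hg).and' (pt_dec_le hg hf)).congr fun x => by
    rw [Bool.eq_iff_iff]; simp [le_antisymm_iff]

@[fun_prop] theorem pt_dec_ne [∀ x, Decidable (f x ≠ g x)] (hf : BT f) (hg : BT g) :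
    PT Bool fun x => decide (f x ≠ g x) :=
  (pt_dec_eq hf hg).not'.congr fun x => by simp

theorem ite_le {a b : α → β} (hf : BT f) (hg : BT g) (ha : PT Bool a) (hb : PT Bool b) :
    PT Bool fun x => if f x ≤ g x then a x else b x := pt_ite (pt_dec_le hf hg) ha hb

theorem ite_lt {a b : α → β} (hf : BT f) (hg : BT g) (ha : PT Bool a) (hb : PT Bool b) :
    PT Bool fun x => if f x < g x then a x else b x := pt_ite (pt_dec_lt hf hg) ha hb

theorem ite_eq {a b : α → β} (hf : BT f) (hg : BT g) (ha : PT Bool a) (hb : PT Bool b) :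
    PT Bool fun x => if f x = g x then a x else b x := pt_ite (pt_dec_eq hf hg) ha hb

/-- binary to unary, under a unary cap -/
theorem BT.cap (hf : BT f) (hk : PT Bool k) : PT Bool fun x => Min.min (f x) (k x) := pt_cap hf hk

/-- binary to unary, given a unary bound -/
theorem BT.toPT (hf : BT f) (hk : PT Bool k) (h : ∀ x, f x ≤ k x) : PT Bool f :=
  (hf.cap hk).congr fun x => min_eq_left (h x)

@[fun_prop] theorem BT.size (hf : BT f) : PT Bool fun x => (f x).size := pt_bsize hf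

@[fun_prop] theorem BT.bits (hf : BT f) : PT Bool fun x => (f x).bits := ptB_iff.1 hf

@[fun_prop] theorem BT.ofBits {l : α → List Bool} (hl : PT Bool l) : BT fun x => ofBits (l x) :=
  ptB_iff.2 (pt_norm hl)

@[fun_prop] theorem BT.testBit (hf : BT f) (hk : PT Bool k) :
    PT Bool fun x => (f x).testBit (k x) :=
  (pt_odd (pt_shr hf hk)).congr fun x => by
    simp only [Bin.odd, Bin.shr, Nat.testBit_eq_decide_div_mod_eq]
    rw [Nat.mod_two_of_bodd]
    cases (f x / 2 ^ k x).bodd <;> simp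

lemma div_step (n y : ℕ) :
    n / y = if 0 < y ∧ y * (2 * (n / 2 / y) + 1) ≤ n then 2 * (n / 2 / y) + 1 else 2 * (n / 2 / y) := by
  rcases Nat.eq_zero_or_pos y with h | h
  · simp [h]
  · have e : n / 2 / y = n / y / 2 := by
      rw [Nat.div_div_eq_div_mul, Nat.div_div_eq_div_mul, mul_comm]
    rw [e]
    simp only [mul_comm y, ← Nat.le_div_iff_mul_le h]
    split_ifs <;> omega

@[fun_prop] theorem BT.div (hf : BT f) (hg : BT g) : BT fun x => f x / g x := by
  have hs : BT fun z : α × ℕ × Bin => f z.1 / 2 ^ z.2.1 :=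
    pt_shr (x := fun z : α × ℕ × Bin => Bin.mk (f z.1)) (by fun_prop) (by fun_prop)
  refine (pt_down (k := fun a => (f a).size) (by fun_prop)
    (fun a j => Bin.mk (f a / 2 ^ j / g a)) ((PT.const ⟨0⟩).congr fun a => ?_)
    (fun z => Bin.mk (if 0 < g z.1 ∧ g z.1 * (2 * z.2.2.v + 1) ≤ f z.1 / 2 ^ z.2.1 then
      2 * z.2.2.v + 1 else 2 * z.2.2.v))
    (pt_mk (BT.ite (pt_dec_and (by fun_prop) (pt_dec_le (by fun_prop) hs)) (by fun_prop)
      (by fun_prop))) (fun a j => ?_)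
    ⟨fun a => (f a).size, hf.size.pb, fun a j => ?_⟩).congr fun a => by simp
  · have := div_size (f a) 0
    simp only [add_zero] at this
    simp [this]
  · simp only [Bin.mk.injEq]
    rw [div_step (f a / 2 ^ j), pow_succ, ← Nat.div_div_eq_div_mul]
  · exact len_bits_le (lt_of_le_of_lt ((Nat.div_le_self _ _).trans (Nat.div_le_self _ _))
      (Nat.lt_size_self _))

@[fun_prop] theorem BT.mod (hf : BT f) (hg : BT g) : BT fun x => f x % g x :=
  (hf.sub (hg.mul (hf.div hg))).congr fun _ => (Nat.mod_eq_sub_mul_div).symm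

@[fun_prop] theorem pt_dec_dvd [∀ x, Decidable (f x ∣ g x)] (hf : BT f) (hg : BT g) :
    PT Bool fun x => decide (f x ∣ g x) :=
  (pt_dec_eq (hg.mod hf) (BT.const 0)).congr fun x => by simp [Nat.dvd_iff_mod_eq_zero]

@[fun_prop] theorem BT.pow (hf : BT f) (hk : PT Bool k) : BT fun x => f x ^ k x :=
  pt_rec hk (fun a i => Bin.mk (f a ^ i)) (by simpa using PT.const _)
    (fun z => Bin.mk (z.2.2.v * f z.1)) (by fun_prop) (fun _ i => by simp [pow_succ])
    ⟨fun a => (f a).size * k a + 1, (hf.size.pb.mul hk.pb).add (PB.const _ _), fun a i hi => by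
      refine len_bits_le ?_
      calc f a ^ i ≤ (2 ^ (f a).size) ^ i := Nat.pow_le_pow_left (Nat.lt_size_self _).le _
        _ ≤ (2 ^ (f a).size) ^ k a := Nat.pow_le_pow_right (by positivity) hi
        _ < _ := by rw [← pow_mul]; exact Nat.pow_lt_pow_right (by omega) (Nat.lt_succ_self _)⟩

lemma len_le_encL {l : List Bin} {c : Bin} (hc : c ∈ l) : c.v.bits.length ≤ (encL l).length := by
  induction l with
  | nil => simp at hc
  | cons d l ih =>
    simp only [encL, List.flatMap_cons, List.length_append, length_esc, pack_bin] at ih ⊢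
    rcases List.mem_cons.1 hc with h | h
    · rw [h]; omega
    · have := ih h; omega

theorem BT.listSum {l : α → List Bin} (hl : PT Bool l) : BT fun x => ((l x).map Bin.v).sum := by
  refine (pt_foldl hl (s := fun _ => Bin.mk 0) (PT.const _) (fun _ b c => Bin.mk (b.v + c.v))
    (by fun_prop) (fun a => (encL (l a)).length + 1) ((ptL_iff.1 hl).length.add (PT.const _))
    fun a b c hc => ?_).congr fun a => ?_
  · have h1 := lt_len_bits b.v
    have h2 := lt_len_bits c.v
    have h3 := len_le_encL hc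
    refine len_bits_le ?_
    have h4 : 2 ^ b.v.bits.length ≤ 2 ^ (b.v.bits.length + (encL (l a)).length) :=
      Nat.pow_le_pow_right (by omega) (by omega)
    have h5 : 2 ^ c.v.bits.length ≤ 2 ^ (b.v.bits.length + (encL (l a)).length) :=
      Nat.pow_le_pow_right (by omega) (by omega)
    simp only [pack_bin, ← add_assoc, pow_succ]
    omega
  · have : ∀ (l : List Bin) (s : ℕ), l.foldl (fun b c => Bin.mk (b.v + c.v)) ⟨s⟩ =
        ⟨s + (l.map Bin.v).sum⟩ := fun l => by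
      induction l with
      | nil => simp
      | cons c l ih => intro s; simp [ih, add_assoc]
    simp [this]

theorem BT.listProd {l : α → List Bin} (hl : PT Bool l) : BT fun x => ((l x).map Bin.v).prod := by
  refine (pt_foldl hl (s := fun _ => Bin.mk 1) (PT.const _) (fun _ b c => Bin.mk (b.v * c.v))
    (by fun_prop) (fun a => (encL (l a)).length) (ptL_iff.1 hl).length
    fun a b c hc => ?_).congr fun a => ?_
  · have h1 := lt_len_bits b.v
    have h2 := lt_len_bits c.v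
    have h3 := len_le_encL hc
    refine len_bits_le ?_
    simp only [pack_bin, pow_add]
    exact Nat.mul_lt_mul'' h1 (h2.trans_le (Nat.pow_le_pow_right (by omega) h3))
  · have : ∀ (l : List Bin) (s : ℕ), l.foldl (fun b c => Bin.mk (b.v * c.v)) ⟨s⟩ =
        ⟨s * (l.map Bin.v).prod⟩ := fun l => by
      induction l with
      | nil => simp
      | cons c l ih => intro s; simp [ih, mul_assoc]
    simp [this]

@[fun_prop] theorem BT.sum {t : α → ℕ → ℕ} (hm : PT Bool m) (ht : BT fun z : α × ℕ => t z.1 z.2) :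
    BT fun x => ∑ i ∈ Finset.range (m x), t x i :=
  (BT.listSum (pt_map (g := fun a i => Bin.mk (t a i)) ht (pt_range hm))).congr fun x => by
    rw [List.map_map, ← List.sum_toFinset _ List.nodup_range, List.toFinset_range]; rfl

@[fun_prop] theorem BT.prod {t : α → ℕ → ℕ} (hm : PT Bool m) (ht : BT fun z : α × ℕ => t z.1 z.2) :
    BT fun x => ∏ i ∈ Finset.range (m x), t x i :=
  (BT.listProd (pt_map (g := fun a i => Bin.mk (t a i)) ht (pt_range hm))).congr fun x => by
    rw [List.map_map, ← List.prod_toFinset _ List.nodup_range, List.toFinset_range]; rfl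

theorem BT.getD {l : α → List Bin} (hl : PT Bool l) (hk : PT Bool k) :
    BT fun x => ((l x).getD (k x) (Bin.mk 0)).v := by fun_prop

@[fun_prop] theorem BT.factorial (hk : PT Bool k) : BT fun x => (k x).factorial :=
  (BT.prod hk (t := fun _ i => i + 1) (by fun_prop)).congr fun _ =>
    Finset.prod_range_add_one_eq_factorial _

@[fun_prop] theorem BT.choose (hk : PT Bool k) (hm : PT Bool m) : BT fun x => (k x).choose (m x) := by
  have : BT fun x => if m x ≤ k x then (k x).factorial / ((m x).factorial * (k x - m x).factorial)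
    else 0 := by fun_prop
  refine this.congr fun x => ?_
  split_ifs with h
  · exact (Nat.choose_eq_factorial_div_factorial h).symm
  · exact (Nat.choose_eq_zero_of_lt (by omega)).symm

end

/-! ### Integers -/

/-- `f` is an integer computable in polynomial time (binary positive and negative parts). -/
@[fun_prop] def ZT {α : Type} [Ctx Bool α] (f : α → ℤ) : Prop :=
  BT (fun x => (f x).toNat) ∧ BT fun x => (-f x).toNat

namespace ZT

variable {f g : α → ℤ} {k m n : α → ℕ}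

theorem congr (h : ZT f) (e : ∀ x, f x = g x) : ZT g := (funext e : f = g) ▸ h

@[fun_prop] theorem const (z : ℤ) : ZT fun _ : α => z := ⟨BT.const _, BT.const _⟩

@[fun_prop] theorem comp {f : β → ℤ} {g : α → β} (hf : ZT f) (hg : PT Bool g) :
    ZT fun x => f (g x) := ⟨hf.1.comp hg, hf.2.comp hg⟩

@[fun_prop] theorem toNat (hf : ZT f) : BT fun x => (f x).toNat := hf.1

@[fun_prop] theorem natAbs (hf : ZT f) : BT fun x => (f x).natAbs :=
  (hf.1.add hf.2).congr fun x => by omega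

@[fun_prop] theorem natCast (hn : BT n) : ZT fun x => (n x : ℤ) :=
  ⟨hn.congr fun x => by simp, (BT.const 0).congr fun x => by simp⟩

@[fun_prop] theorem neg (hf : ZT f) : ZT fun x => -f x := ⟨hf.2, hf.1.congr fun x => by simp⟩

@[fun_prop] theorem add (hf : ZT f) (hg : ZT g) : ZT fun x => f x + g x :=
  ⟨((hf.1.add hg.1).sub (hf.2.add hg.2)).congr fun x => by dsimp only; omega,
    ((hf.2.add hg.2).sub (hf.1.add hg.1)).congr fun x => by dsimp only; omega⟩

@[fun_prop] theorem sub (hf : ZT f) (hg : ZT g) : ZT fun x => f x - g x :=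
  (hf.add hg.neg).congr fun _ => (sub_eq_add_neg _ _).symm

theorem of_sub {a b : α → ℕ} (ha : BT a) (hb : BT b) (h : ∀ x, f x = a x - b x) : ZT f :=
  ((natCast ha).sub (natCast hb)).congr fun x => (h x).symm

@[fun_prop] theorem mul (hf : ZT f) (hg : ZT g) : ZT fun x => f x * g x :=
  of_sub ((hf.1.mul hg.1).add (hf.2.mul hg.2)) ((hf.1.mul hg.2).add (hf.2.mul hg.1)) fun x => by
    have h1 := Int.toNat_sub_toNat_neg (f x)
    have h2 := Int.toNat_sub_toNat_neg (g x)
    push_cast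
    conv_lhs => rw [← h1, ← h2]
    ring

@[fun_prop] theorem ite {p : α → Prop} [∀ x, Decidable (p x)] (hp : PT Bool fun x => decide (p x))
    (hf : ZT f) (hg : ZT g) : ZT fun x => if p x then f x else g x :=
  ⟨(BT.ite hp hf.1 hg.1).congr fun x => by dsimp only; split_ifs <;> rfl,
    (BT.ite hp hf.2 hg.2).congr fun x => by dsimp only; split_ifs <;> rfl⟩

@[fun_prop] theorem cond {c : α → Bool} (hc : PT Bool c) (hf : ZT f) (hg : ZT g) :
    ZT fun x => cond (c x) (f x) (g x) :=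
  (ite (pt_dec_true hc) hf hg).congr fun x => by cases c x <;> simp

@[fun_prop] theorem dec_le [∀ x, Decidable (f x ≤ g x)] (hf : ZT f) (hg : ZT g) :
    PT Bool fun x => decide (f x ≤ g x) :=
  (pt_dec_eq (hf.sub hg).1 (BT.const 0)).congr fun x => by
    rw [Bool.eq_iff_iff]; simp

@[fun_prop] theorem dec_lt [∀ x, Decidable (f x < g x)] (hf : ZT f) (hg : ZT g) :
    PT Bool fun x => decide (f x < g x) :=
  (dec_le hg hf).not'.congr fun x => by rw [Bool.eq_iff_iff]; simp

@[fun_prop] theorem dec_eq [∀ x, Decidable (f x = g x)] (hf : ZT f) (hg : ZT g) :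
    PT Bool fun x => decide (f x = g x) :=
  ((dec_le hf hg).and' (dec_le hg hf)).congr fun x => by
    rw [Bool.eq_iff_iff]; simp [le_antisymm_iff]

@[fun_prop] theorem abs (hf : ZT f) : ZT fun x => |f x| :=
  (natCast hf.natAbs).congr fun _ => Int.natCast_natAbs _

lemma ediv_eq (z : ℤ) (d : ℕ) :
    z / (d : ℤ) = ((z.toNat / d : ℕ) : ℤ) - ((((-z).toNat + d - 1) / d : ℕ) : ℤ) := by
  rcases Nat.eq_zero_or_pos d with h | h
  · simp [h]
  · rcases z with n | n
    · have : (d - 1) / d = 0 := Nat.div_eq_of_lt (by omega)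
      simp [this]
    · have e : (-Int.negSucc n).toNat + d - 1 = n + d := by simp [Int.negSucc_eq]
      rw [e, Nat.add_div_right _ h, Int.negSucc_ediv n (by exact_mod_cast h)]
      simp [Int.toNat_negSucc]
      rfl

/-- floor division by a binary natural (no positivity needed) -/
@[fun_prop] theorem ediv (hf : ZT f) (hn : BT n) : ZT fun x => f x / (n x : ℤ) :=
  of_sub (hf.1.div hn) (((hf.2.add hn).sub (BT.const 1)).div hn) fun _ => ediv_eq _ _

@[fun_prop] theorem emod (hf : ZT f) (hn : BT n) : ZT fun x => f x % (n x : ℤ) :=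
  (hf.sub ((natCast hn).mul (hf.ediv hn))).congr fun _ => (Int.emod_def _ _).symm

@[fun_prop] theorem sum {t : α → ℕ → ℤ} (hm : PT Bool m) (ht : ZT fun z : α × ℕ => t z.1 z.2) :
    ZT fun x => ∑ i ∈ Finset.range (m x), t x i :=
  of_sub (BT.sum hm (t := fun a i => (t a i).toNat) ht.1)
    (BT.sum hm (t := fun a i => (-t a i).toNat) ht.2) fun x => by
    push_cast
    rw [← Finset.sum_sub_distrib]
    exact Finset.sum_congr rfl fun i _ => (Int.toNat_sub_toNat_neg _).symm

@[fun_prop] theorem pow (hf : ZT f) (hk : PT Bool k) : ZT fun x => f x ^ k x := by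
  have : ZT fun x => if f x < 0 ∧ k x % 2 = 1 then -(((f x).natAbs ^ k x : ℕ) : ℤ)
    else (((f x).natAbs ^ k x : ℕ) : ℤ) := by fun_prop
  refine this.congr fun x => ?_
  push_cast
  split_ifs with h
  · rw [abs_of_neg h.1, Odd.neg_pow (Nat.odd_iff.2 h.2), neg_neg]
  · rcases lt_or_ge (f x) 0 with h0 | h0
    · exact (Nat.even_iff.2 (by omega : k x % 2 = 0)).pow_abs _
    · rw [abs_of_nonneg h0]

end ZT

/-! ### Gaussian rationals -/

open Complex

/-- `q` is a Gaussian rational computable in polynomial time. -/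
@[fun_prop] def QT {α : Type} [Ctx Bool α] (q : α → ℂ) : Prop :=
  ∃ (a b : α → ℤ) (d : α → ℕ), ZT a ∧ ZT b ∧ BT d ∧ ∀ x, 0 < d x ∧ q x = (a x + b x * I) / d x

namespace QT

variable {f g : α → ℂ} {k m n : α → ℕ}

theorem congr (h : QT f) (e : ∀ x, f x = g x) : QT g := (funext e : f = g) ▸ h

@[fun_prop] theorem comp {f : β → ℂ} {g : α → β} (hf : QT f) (hg : PT Bool g) :
    QT fun x => f (g x) := by
  obtain ⟨a, b, d, ha, hb, hd, h⟩ := hf
  exact ⟨_, _, _, ha.comp hg, hb.comp hg, hd.comp hg, fun x => h _⟩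

@[fun_prop] theorem intCast {z : α → ℤ} (hz : ZT z) : QT fun x => (z x : ℂ) :=
  ⟨z, fun _ => 0, fun _ => 1, hz, ZT.const _, BT.const _, fun x => by simp⟩

@[fun_prop] theorem natCast (hn : BT n) : QT fun x => (n x : ℂ) :=
  (intCast (ZT.natCast hn)).congr fun x => by simp

theorem nat (n : ℕ) : QT fun _ : α => (n : ℂ) := natCast (BT.const n)

theorem one : QT fun _ : α => (1 : ℂ) := (nat 1).congr fun _ => by simp

theorem two : QT fun _ : α => (2 : ℂ) := (nat 2).congr fun _ => by simp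

theorem const_I : QT fun _ : α => I :=
  ⟨fun _ => 0, fun _ => 1, fun _ => 1, ZT.const _, ZT.const _, BT.const _, fun x => by simp⟩

@[fun_prop] theorem neg (hf : QT f) : QT fun x => -f x := by
  obtain ⟨a, b, d, ha, hb, hd, h⟩ := hf
  exact ⟨_, _, _, ha.neg, hb.neg, hd, fun x => ⟨(h x).1, by dsimp only; rw [(h x).2]; push_cast; ring⟩⟩

@[fun_prop] theorem add (hf : QT f) (hg : QT g) : QT fun x => f x + g x := by
  obtain ⟨a, b, d, ha, hb, hd, h⟩ := hf
  obtain ⟨a', b', d', ha', hb', hd', h'⟩ := hg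
  refine ⟨fun x => a x * d' x + a' x * d x, fun x => b x * d' x + b' x * d x, fun x => d x * d' x,
    by fun_prop, by fun_prop, by fun_prop, fun x => ⟨Nat.mul_pos (h x).1 (h' x).1, ?_⟩⟩
  have h1 : (d x : ℂ) ≠ 0 := by exact_mod_cast (h x).1.ne'
  have h2 : (d' x : ℂ) ≠ 0 := by exact_mod_cast (h' x).1.ne'
  dsimp only
  rw [(h x).2, (h' x).2]
  push_cast
  field_simp
  ring

@[fun_prop] theorem sub (hf : QT f) (hg : QT g) : QT fun x => f x - g x :=
  (hf.add hg.neg).congr fun _ => (sub_eq_add_neg _ _).symm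

@[fun_prop] theorem mul (hf : QT f) (hg : QT g) : QT fun x => f x * g x := by
  obtain ⟨a, b, d, ha, hb, hd, h⟩ := hf
  obtain ⟨a', b', d', ha', hb', hd', h'⟩ := hg
  refine ⟨fun x => a x * a' x - b x * b' x, fun x => a x * b' x + b x * a' x, fun x => d x * d' x,
    by fun_prop, by fun_prop, by fun_prop, fun x => ⟨Nat.mul_pos (h x).1 (h' x).1, ?_⟩⟩
  have h1 : (d x : ℂ) ≠ 0 := by exact_mod_cast (h x).1.ne'
  have h2 : (d' x : ℂ) ≠ 0 := by exact_mod_cast (h' x).1.ne'
  dsimp only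
  rw [(h x).2, (h' x).2]
  push_cast
  field_simp
  linear_combination (b x * b' x : ℂ) * I_sq

@[fun_prop] theorem inv (hf : QT f) : QT fun x => (f x)⁻¹ := by
  obtain ⟨a, b, d, ha, hb, hd, h⟩ := hf
  refine ⟨fun x => a x * d x, fun x => -(b x * d x), fun x => max 1 (a x * a x + b x * b x).toNat,
    by fun_prop, by fun_prop, by fun_prop, fun x => ⟨lt_max_of_lt_left one_pos, ?_⟩⟩
  dsimp only
  rw [(h x).2]
  by_cases h0 : a x = 0 ∧ b x = 0
  · simp [h0.1, h0.2]
  · have h1 : 0 < a x * a x + b x * b x := by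
      rcases not_and_or.1 h0 with h2 | h2
      · have := mul_self_pos.2 h2
        nlinarith [mul_self_nonneg (b x)]
      · have := mul_self_pos.2 h2
        nlinarith [mul_self_nonneg (a x)]
    have h2 : ((max 1 (a x * a x + b x * b x).toNat : ℕ) : ℂ) = a x * a x + b x * b x := by
      have : ((max 1 (a x * a x + b x * b x).toNat : ℕ) : ℤ) = a x * a x + b x * b x := by omega
      rw [← Int.cast_natCast, this]
      push_cast
      rfl
    have h3 : (a x * a x + b x * b x : ℂ) ≠ 0 := by exact_mod_cast h1.ne'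
    have h4 : (a x + b x * I) * (a x - b x * I) = a x * a x + b x * b x := by
      linear_combination -(b x * b x : ℂ) * I_sq
    have h5 : (a x + b x * I : ℂ) ≠ 0 := fun e => h3 (by rw [← h4, e, zero_mul])
    rw [h2, inv_div, div_eq_div_iff h5 h3, ← h4]
    push_cast
    ring

@[fun_prop] theorem div (hf : QT f) (hg : QT g) : QT fun x => f x / g x :=
  (hf.mul hg.inv).congr fun _ => (div_eq_mul_inv _ _).symm

@[fun_prop] theorem ite {p : α → Prop} [∀ x, Decidable (p x)] (hp : PT Bool fun x => decide (p x))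
    (hf : QT f) (hg : QT g) : QT fun x => if p x then f x else g x := by
  obtain ⟨a, b, d, ha, hb, hd, h⟩ := hf
  obtain ⟨a', b', d', ha', hb', hd', h'⟩ := hg
  refine ⟨_, _, _, ZT.ite hp ha ha', ZT.ite hp hb hb', BT.ite hp hd hd', fun x => ?_⟩
  dsimp only
  split_ifs
  · exact h x
  · exact h' x

@[fun_prop] theorem sum {t : α → ℕ → ℂ} (hm : PT Bool m) (ht : QT fun z : α × ℕ => t z.1 z.2) :
    QT fun x => ∑ i ∈ Finset.range (m x), t x i := by
  obtain ⟨a, b, d, ha, hb, hd, h⟩ := ht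
  have hD : BT fun x => ∏ i ∈ Finset.range (m x), d (x, i) := BT.prod hm (t := fun x i => d (x, i)) hd
  set D : α → ℕ := fun x => ∏ i ∈ Finset.range (m x), d (x, i) with eD
  refine ⟨fun x => ∑ i ∈ Finset.range (m x), a (x, i) * ((D x / d (x, i) : ℕ) : ℤ),
    fun x => ∑ i ∈ Finset.range (m x), b (x, i) * ((D x / d (x, i) : ℕ) : ℤ), D,
    ZT.sum hm (ha.mul (ZT.natCast ((hD.comp (PT.fst PT.id')).div hd))),
    ZT.sum hm (hb.mul (ZT.natCast ((hD.comp (PT.fst PT.id')).div hd))), hD, fun x => ?_⟩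
  have h0 : 0 < D x := Finset.prod_pos fun i _ => (h (x, i)).1
  refine ⟨h0, ?_⟩
  rw [Int.cast_sum, Int.cast_sum, Finset.sum_mul, ← Finset.sum_add_distrib, Finset.sum_div]
  refine Finset.sum_congr rfl fun i hi => ?_
  obtain ⟨c, hc⟩ : d (x, i) ∣ D x := Finset.dvd_prod_of_mem (fun i => d (x, i)) hi
  have h1 : (d (x, i) : ℂ) ≠ 0 := by exact_mod_cast (h (x, i)).1.ne'
  have h2 : (c : ℂ) ≠ 0 := by
    have : c ≠ 0 := fun e => by rw [e] at hc; omega
    exact_mod_cast this
  rw [show t x i = _ from (h (x, i)).2, hc, Nat.mul_div_cancel_left _ (h (x, i)).1]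
  push_cast
  field_simp

theorem I_pow (hk : PT Bool k) : QT fun x => I ^ k x := by
  have : QT fun x => (((-1 : ℤ) ^ (k x / 2) : ℤ) : ℂ) * if k x % 2 = 0 then 1 else I :=
    (intCast (by fun_prop)).mul (ite (by fun_prop) one const_I)
  refine this.congr fun x => ?_
  conv_rhs => rw [← Nat.div_add_mod (k x) 2, pow_add, pow_mul, I_sq]
  push_cast
  rcases Nat.mod_two_eq_zero_or_one (k x) with h | h <;> simp [h]

@[fun_prop] theorem pow (hf : QT f) (hk : PT Bool k) : QT fun x => f x ^ k x := by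
  obtain ⟨a, b, d, ha, hb, hd, h⟩ := hf
  have h1 : QT fun z : α × ℕ => ((a z.1 ^ z.2 : ℤ) : ℂ) *
      (((b z.1 ^ (k z.1 - z.2) : ℤ) : ℂ) * I ^ (k z.1 - z.2)) * (((k z.1).choose z.2 : ℕ) : ℂ) :=
    ((intCast (by fun_prop)).mul ((intCast (by fun_prop)).mul (I_pow (by fun_prop)))).mul
      (natCast (by fun_prop))
  refine ((sum (hk.add (PT.const 1)) (t := fun x i => ((a x ^ i : ℤ) : ℂ) *
      (((b x ^ (k x - i) : ℤ) : ℂ) * I ^ (k x - i)) * (((k x).choose i : ℕ) : ℂ)) h1).div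
    (natCast (hd.pow hk))).congr fun x => ?_
  rw [(h x).2, div_pow, add_pow]
  push_cast
  simp only [mul_pow]

@[fun_prop] theorem conj (hf : QT f) : QT fun x => starRingEnd ℂ (f x) := by
  obtain ⟨a, b, d, ha, hb, hd, h⟩ := hf
  exact ⟨_, _, _, ha, hb.neg, hd, fun x => ⟨(h x).1, by dsimp only; rw [(h x).2]; simp⟩⟩

/-- a polynomial-size bound -/
theorem bound (hf : QT f) : ∃ u : α → ℕ, PT Bool u ∧ ∀ x, ‖f x‖ ≤ 2 ^ u x := by
  obtain ⟨a, b, d, ha, hb, hd, h⟩ := hf
  refine ⟨fun x => ((a x).natAbs + (b x).natAbs).size, by fun_prop, fun x => ?_⟩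
  have h1 : (1 : ℝ) ≤ d x := by exact_mod_cast (h x).1
  have h2 : ‖(a x + b x * I : ℂ)‖ ≤ (((a x).natAbs + (b x).natAbs : ℕ) : ℝ) := by
    refine (norm_add_le _ _).trans (le_of_eq ?_)
    simp
  have h3 : (((a x).natAbs + (b x).natAbs : ℕ) : ℝ) ≤ 2 ^ ((a x).natAbs + (b x).natAbs).size := by
    exact_mod_cast (Nat.lt_size_self _).le
  rw [(h x).2, norm_div, Complex.norm_natCast]
  exact (div_le_self (norm_nonneg _) h1).trans (h2.trans h3)

end QT

/-! ### Approximable complex numbers -/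

/-- `f x` can be approximated to `F` binary places in time polynomial in `x` and `F`. -/
@[fun_prop] def AC {α : Type} [Ctx Bool α] (f : α → ℂ) : Prop :=
  (∃ g : α × ℕ → GaussianInt, ZT (fun x => (g x).re) ∧ ZT (fun x => (g x).im) ∧
    ∀ x F, ‖(g (x, F) : ℂ) - 2 ^ F * f x‖ ≤ 2) ∧
  ∃ u : α → ℕ, PT Bool u ∧ ∀ x, ‖f x‖ ≤ 2 ^ u x

lemma abs_ediv_sub (z : ℤ) {d : ℕ} (hd : 0 < d) : |((z / (d : ℤ) : ℤ) : ℝ) - z / d| ≤ 1 := by
  have h0 : (0 : ℝ) < d := by exact_mod_cast hd
  have h1 : (0 : ℝ) ≤ ((z % (d : ℤ) : ℤ) : ℝ) := by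
    exact_mod_cast Int.emod_nonneg z (by omega : (d : ℤ) ≠ 0)
  have h2 : ((z % (d : ℤ) : ℤ) : ℝ) < d := by
    exact_mod_cast Int.emod_lt_of_pos z (by omega : (0 : ℤ) < d)
  have h3 : (z : ℝ) = d * ((z / (d : ℤ) : ℤ) : ℝ) + ((z % (d : ℤ) : ℤ) : ℝ) := by
    exact_mod_cast (Int.mul_ediv_add_emod z d).symm
  have h4 : ((z / (d : ℤ) : ℤ) : ℝ) - z / d = -(((z % (d : ℤ) : ℤ) : ℝ) / d) := by
    field_simp
    linarith
  rw [h4, abs_neg, abs_of_nonneg (div_nonneg h1 h0.le), div_le_one h0]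
  exact h2.le

namespace AC

variable {f g : α → ℂ} {k m n : α → ℕ}

theorem congr (h : AC f) (e : ∀ x, f x = g x) : AC g := (funext e : f = g) ▸ h

theorem bound (h : AC f) : ∃ u : α → ℕ, PT Bool u ∧ ∀ x, ‖f x‖ ≤ 2 ^ u x := h.2

theorem of_approx {q : α × ℕ → ℂ} (hq : QT q) (h : ∀ x F, ‖q (x, F) - f x‖ ≤ 1 / 2 ^ F) :
    AC f := by
  constructor
  · obtain ⟨a, b, d, ha, hb, hd, e⟩ := hq.comp (g := fun z : α × ℕ => (z.1, z.2 + 1)) (by fun_prop)
    refine ⟨fun z => ⟨a z * ((2 ^ z.2 : ℕ) : ℤ) / (d z : ℤ), b z * ((2 ^ z.2 : ℕ) : ℤ) / (d z : ℤ)⟩,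
      by fun_prop, by fun_prop, fun x F => ?_⟩
    have h1 := abs_ediv_sub (a (x, F) * ((2 ^ F : ℕ) : ℤ)) (e (x, F)).1
    have h2 := abs_ediv_sub (b (x, F) * ((2 ^ F : ℕ) : ℤ)) (e (x, F)).1
    have h3 := h x (F + 1)
    have h4 : q (x, F + 1) = (a (x, F) + b (x, F) * I) / d (x, F) := (e (x, F)).2
    set A : ℤ := a (x, F) * ((2 ^ F : ℕ) : ℤ) / (d (x, F) : ℤ)
    set B : ℤ := b (x, F) * ((2 ^ F : ℕ) : ℤ) / (d (x, F) : ℤ)
    set r : ℝ := (A : ℝ) - ((a (x, F) * ((2 ^ F : ℕ) : ℤ) : ℤ) : ℝ) / d (x, F) with hr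
    set s : ℝ := (B : ℝ) - ((b (x, F) * ((2 ^ F : ℕ) : ℤ) : ℤ) : ℝ) / d (x, F) with hs
    have h5 : ((⟨A, B⟩ : GaussianInt) : ℂ) - 2 ^ F * f x =
        (r + s * I) + 2 ^ F * (q (x, F + 1) - f x) := by
      rw [GaussianInt.toComplex_def', h4, hr, hs]
      push_cast
      ring
    have h6 : ‖(r + s * I : ℂ)‖ ≤ 3 / 2 := by
      refine (pow_le_pow_iff_left₀ (norm_nonneg _) (by norm_num) two_ne_zero).1 ?_
      rw [Complex.sq_norm, Complex.normSq_add_mul_I]
      nlinarith [sq_abs r, sq_abs s, abs_nonneg r, abs_nonneg s]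
    have h7 : ‖(2 : ℂ) ^ F * (q (x, F + 1) - f x)‖ ≤ 1 / 2 := by
      rw [norm_mul, norm_pow, Complex.norm_two]
      calc (2 : ℝ) ^ F * ‖q (x, F + 1) - f x‖ ≤ 2 ^ F * (1 / 2 ^ (F + 1)) := by gcongr
        _ = 1 / 2 := by field_simp; ring
    rw [h5]
    linarith [norm_add_le (r + s * I : ℂ) (2 ^ F * (q (x, F + 1) - f x))]
  · obtain ⟨u, hu, e⟩ := (hq.comp (g := fun x : α => (x, 0)) (by fun_prop)).bound
    refine ⟨fun x => u x + 1, by fun_prop, fun x => ?_⟩
    have h1 := h x 0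
    have h2 := e x
    have h3 : (1 : ℝ) ≤ 2 ^ u x := one_le_pow₀ (by norm_num)
    have h4 := norm_sub_norm_le (f x) (q (x, 0))
    rw [norm_sub_rev] at h4
    simp only [pow_zero, div_one] at h1
    rw [pow_succ]
    linarith

theorem approx (h : AC f) : ∃ q : α × ℕ → ℂ, QT q ∧ ∀ x F, ‖q (x, F) - f x‖ ≤ 1 / 2 ^ F := by
  obtain ⟨⟨g, h1, h2, h3⟩, -⟩ := h
  refine ⟨fun z => (g (z.1, z.2 + 1) : ℂ) / 2 ^ (z.2 + 1), ⟨fun z => (g (z.1, z.2 + 1)).re,
    fun z => (g (z.1, z.2 + 1)).im, fun z => 2 ^ (z.2 + 1),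
    h1.comp (g := fun z : α × ℕ => (z.1, z.2 + 1)) (by fun_prop),
    h2.comp (g := fun z : α × ℕ => (z.1, z.2 + 1)) (by fun_prop), by fun_prop,
    fun z => ⟨by positivity, by dsimp only; rw [GaussianInt.toComplex_def]; push_cast; rfl⟩⟩, fun x F => ?_⟩
  have e : (g (x, F + 1) : ℂ) / 2 ^ (F + 1) - f x =
      ((g (x, F + 1) : ℂ) - 2 ^ (F + 1) * f x) / 2 ^ (F + 1) := by field_simp
  rw [e, norm_div, norm_pow, Complex.norm_two]
  calc _ ≤ (2 : ℝ) / 2 ^ (F + 1) := by gcongr; exact h3 x (F + 1)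
    _ = 1 / 2 ^ F := by field_simp; ring

/-- exact Gaussian rationals are approximable -/
@[fun_prop] theorem of_QT (h : QT f) : AC f :=
  of_approx (h.comp (g := fun z : α × ℕ => z.1) (by fun_prop)) fun x F => by simp

@[fun_prop] theorem comp {f : β → ℂ} {g : α → β} (hf : AC f) (hg : PT Bool g) :
    AC fun x => f (g x) := by
  obtain ⟨q, hq, h⟩ := hf.approx
  exact of_approx (hq.comp (g := fun z : α × ℕ => (g z.1, z.2)) (by fun_prop)) fun x F => h _ _

/-- effective limits -/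
theorem lim {t : α × ℕ → ℂ} (ht : AC t) (h : ∀ x F, ‖t (x, F) - f x‖ ≤ 1 / 2 ^ F) : AC f := by
  obtain ⟨q, hq, e⟩ := ht.approx
  refine of_approx (hq.comp (g := fun z : α × ℕ => ((z.1, z.2 + 1), z.2 + 1)) (by fun_prop))
    fun x F => ?_
  have h1 := norm_sub_le_norm_sub_add_norm_sub (q ((x, F + 1), F + 1)) (t (x, F + 1)) (f x)
  have h2 := e (x, F + 1) (F + 1)
  have h3 := h x (F + 1)
  have h4 : (1 : ℝ) / 2 ^ (F + 1) + 1 / 2 ^ (F + 1) = 1 / 2 ^ F := by field_simp; ring
  linarith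

@[fun_prop] theorem natCast (hn : BT n) : AC fun x => (n x : ℂ) := of_QT (QT.natCast hn)

@[fun_prop] theorem intCast {z : α → ℤ} (hz : ZT z) : AC fun x => (z x : ℂ) := of_QT (QT.intCast hz)

theorem nat (n : ℕ) : AC fun _ : α => (n : ℂ) := of_QT (QT.nat n)

theorem zero : AC fun _ : α => (0 : ℂ) := (nat 0).congr fun _ => by simp

theorem one : AC fun _ : α => (1 : ℂ) := of_QT QT.one

theorem two : AC fun _ : α => (2 : ℂ) := of_QT QT.two

theorem const_I : AC fun _ : α => I := of_QT QT.const_I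

@[fun_prop] theorem neg (hf : AC f) : AC fun x => -f x := by
  obtain ⟨q, hq, h⟩ := hf.approx
  refine of_approx hq.neg fun x F => ?_
  rw [neg_sub_neg, norm_sub_rev]
  exact h x F

@[fun_prop] theorem conj (hf : AC f) : AC fun x => starRingEnd ℂ (f x) := by
  obtain ⟨q, hq, h⟩ := hf.approx
  refine of_approx hq.conj fun x F => ?_
  rw [← map_sub, Complex.norm_conj]
  exact h x F

@[fun_prop] theorem add (hf : AC f) (hg : AC g) : AC fun x => f x + g x := by
  obtain ⟨q, hq, h⟩ := hf.approx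
  obtain ⟨q', hq', h'⟩ := hg.approx
  refine of_approx ((hq.add hq').comp (g := fun z : α × ℕ => (z.1, z.2 + 1)) (by fun_prop))
    fun x F => ?_
  have h1 := h x (F + 1)
  have h2 := h' x (F + 1)
  have h3 := norm_add_le (q (x, F + 1) - f x) (q' (x, F + 1) - g x)
  have h4 : (1 : ℝ) / 2 ^ (F + 1) + 1 / 2 ^ (F + 1) = 1 / 2 ^ F := by field_simp; ring
  rw [add_sub_add_comm]
  linarith

@[fun_prop] theorem sub (hf : AC f) (hg : AC g) : AC fun x => f x - g x :=
  (hf.add hg.neg).congr fun _ => (sub_eq_add_neg _ _).symm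

@[fun_prop] theorem ite {p : α → Prop} [∀ x, Decidable (p x)] (hp : PT Bool fun x => decide (p x))
    (hf : AC f) (hg : AC g) : AC fun x => if p x then f x else g x := by
  obtain ⟨q, hq, h⟩ := hf.approx
  obtain ⟨q', hq', h'⟩ := hg.approx
  refine of_approx (QT.ite (p := fun z : α × ℕ => p z.1)
    (hp.comp (g := fun z : α × ℕ => z.1) (by fun_prop)) hq hq') fun x F => ?_
  dsimp only
  split_ifs
  · exact h x F
  · exact h' x F

@[fun_prop] theorem cond {c : α → Bool} (hc : PT Bool c) (hf : AC f) (hg : AC g) :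
    AC fun x => cond (c x) (f x) (g x) :=
  (ite (pt_dec_true hc) hf hg).congr fun x => by cases c x <;> simp

lemma half_le {a b : ℕ} (h : a ≤ b) : (1 : ℝ) / 2 ^ b ≤ 1 / 2 ^ a := by
  gcongr
  norm_num

@[fun_prop] theorem mul (hf : AC f) (hg : AC g) : AC fun x => f x * g x := by
  obtain ⟨q, hq, h⟩ := hf.approx
  obtain ⟨q', hq', h'⟩ := hg.approx
  obtain ⟨u, hu, bu⟩ := hf.bound
  obtain ⟨v, hv, bv⟩ := hg.bound
  refine of_approx ((hq.mul hq').comp (g := fun z : α × ℕ => (z.1, z.2 + u z.1 + v z.1 + 2))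
    (by fun_prop)) fun x F => ?_
  dsimp only
  set N := F + u x + v x + 2 with hN
  have h1 := h x N
  have h2 := h' x N
  have h3 : (1 : ℝ) / 2 ^ N ≤ 1 := by simpa using half_le (Nat.zero_le N)
  have h4 : ‖q' (x, N)‖ ≤ 2 ^ v x + 1 := by
    have := norm_sub_norm_le (q' (x, N)) (g x)
    linarith [bv x]
  have h5 : (1 : ℝ) ≤ 2 ^ u x := one_le_pow₀ (by norm_num)
  have h6 : (1 : ℝ) ≤ 2 ^ v x := one_le_pow₀ (by norm_num)
  calc ‖q (x, N) * q' (x, N) - f x * g x‖
      = ‖(q (x, N) - f x) * q' (x, N) + f x * (q' (x, N) - g x)‖ := by congr 1; ring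
    _ ≤ ‖q (x, N) - f x‖ * ‖q' (x, N)‖ + ‖f x‖ * ‖q' (x, N) - g x‖ := by
      rw [← norm_mul, ← norm_mul]; exact norm_add_le _ _
    _ ≤ 1 / 2 ^ N * (2 ^ v x + 1) + 2 ^ u x * (1 / 2 ^ N) := by gcongr; exact bu x
    _ = (2 ^ v x + 1 + 2 ^ u x) / 2 ^ N := by ring
    _ ≤ (2 ^ u x * 2 ^ v x * 4) / 2 ^ N := by gcongr; nlinarith
    _ = 1 / 2 ^ F := by rw [hN]; field_simp; ring

@[fun_prop] theorem sum {t : α → ℕ → ℂ} (hm : PT Bool m) (ht : AC fun z : α × ℕ => t z.1 z.2) :
    AC fun x => ∑ i ∈ Finset.range (m x), t x i := by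
  obtain ⟨q, hq, h⟩ := ht.approx
  refine of_approx (QT.sum (m := fun z : α × ℕ => m z.1) (by fun_prop)
    (t := fun z i => q ((z.1, i), z.2 + m z.1)) (hq.comp (by fun_prop))) fun x F => ?_
  dsimp only
  rw [← Finset.sum_sub_distrib]
  refine (norm_sum_le _ _).trans ?_
  refine (Finset.sum_le_card_nsmul _ _ _ fun i _ => h (x, i) (F + m x)).trans ?_
  have : (m x : ℝ) ≤ 2 ^ m x := by exact_mod_cast Nat.lt_two_pow_self.le
  rw [Finset.card_range, nsmul_eq_mul]
  calc (m x : ℝ) * (1 / 2 ^ (F + m x)) ≤ 2 ^ m x * (1 / 2 ^ (F + m x)) := by gcongr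
    _ = 1 / 2 ^ F := by field_simp; ring

theorem inv (hf : AC f) {u : α → ℕ} (hu : PT Bool u) (hl : ∀ x, 1 ≤ 2 ^ u x * ‖f x‖) :
    AC fun x => (f x)⁻¹ := by
  obtain ⟨q, hq, h⟩ := hf.approx
  refine of_approx (hq.inv.comp (g := fun z : α × ℕ => (z.1, z.2 + 2 * u z.1 + 1)) (by fun_prop))
    fun x F => ?_
  dsimp only
  set N := F + 2 * u x + 1 with hN
  have h1 := h x N
  have h2 : (1 : ℝ) / 2 ^ N ≤ 1 / 2 ^ (u x + 1) := half_le (by omega)
  have h3 : (1 : ℝ) / 2 ^ u x ≤ ‖f x‖ := by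
    rw [div_le_iff₀ (by positivity), mul_comm]; exact hl x
  have h4 : (1 : ℝ) / 2 ^ (u x + 1) ≤ ‖q (x, N)‖ := by
    have e1 := norm_sub_norm_le (f x) (q (x, N))
    have e2 : (1 : ℝ) / 2 ^ (u x + 1) + 1 / 2 ^ (u x + 1) = 1 / 2 ^ u x := by field_simp; ring
    rw [norm_sub_rev] at e1
    linarith
  have h5 : f x ≠ 0 := norm_pos_iff.1 (lt_of_lt_of_le (by positivity) h3)
  have h6 : q (x, N) ≠ 0 := norm_pos_iff.1 (lt_of_lt_of_le (by positivity) h4)
  rw [inv_sub_inv h6 h5, norm_div, norm_mul, norm_sub_rev]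
  calc _ ≤ (1 / 2 ^ N) / (1 / 2 ^ (u x + 1) * (1 / 2 ^ u x) : ℝ) := by gcongr
    _ = 1 / 2 ^ F := by rw [hN]; field_simp; ring

lemma norm_pow_sub (a b : ℂ) {R : ℝ} (hR : 1 ≤ R) (ha : ‖a‖ ≤ R) (hb : ‖b‖ ≤ R) (k : ℕ) :
    ‖a ^ k - b ^ k‖ ≤ (2 * R) ^ k * ‖a - b‖ := by
  induction k with
  | zero => simp
  | succ k ih =>
    have h1 : ‖b‖ ^ k ≤ (2 * R) ^ k := pow_le_pow_left₀ (norm_nonneg _) (by linarith) _
    have h2 : (0 : ℝ) ≤ (2 * R) ^ k * ‖a - b‖ := by positivity
    calc ‖a ^ (k + 1) - b ^ (k + 1)‖ = ‖(a ^ k - b ^ k) * a + b ^ k * (a - b)‖ := by congr 1; ring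
      _ ≤ ‖a ^ k - b ^ k‖ * ‖a‖ + ‖b‖ ^ k * ‖a - b‖ := by
        rw [← norm_pow, ← norm_mul, ← norm_mul]; exact norm_add_le _ _
      _ ≤ (2 * R) ^ k * ‖a - b‖ * R + (2 * R) ^ k * ‖a - b‖ := by gcongr
      _ ≤ _ := by rw [pow_succ]; nlinarith

@[fun_prop] theorem pow (hf : AC f) (hk : PT Bool k) : AC fun x => f x ^ k x := by
  obtain ⟨q, hq, h⟩ := hf.approx
  obtain ⟨u, hu, bu⟩ := hf.bound
  refine of_approx ((hq.comp (g := fun z : α × ℕ => (z.1, z.2 + (u z.1 + 2) * k z.1))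
    (by fun_prop)).pow (k := fun z : α × ℕ => k z.1) (by fun_prop)) fun x F => ?_
  dsimp only
  set N := F + (u x + 2) * k x with hN
  have h1 := h x N
  have h3 : (1 : ℝ) / 2 ^ N ≤ 1 := by simpa using half_le (Nat.zero_le N)
  have h5 : (1 : ℝ) ≤ 2 ^ u x := one_le_pow₀ (by norm_num)
  have h4 : ‖q (x, N)‖ ≤ 2 * 2 ^ u x := by
    have := norm_sub_norm_le (q (x, N)) (f x)
    linarith [bu x]
  refine (norm_pow_sub _ _ (by linarith) h4 (by linarith [bu x]) _).trans ?_
  calc ((2 : ℝ) * (2 * 2 ^ u x)) ^ k x * ‖q (x, N) - f x‖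
      ≤ (2 * (2 * 2 ^ u x)) ^ k x * (1 / 2 ^ N) := by gcongr
    _ = 1 / 2 ^ F := by
      rw [hN, pow_add, pow_mul, show (2 : ℝ) ^ (u x + 2) = 2 * (2 * 2 ^ u x) by ring]
      field_simp

/-- geometrically dominated series -/
theorem hasSum {t : α → ℕ → ℂ} (ht : AC fun z : α × ℕ => t z.1 z.2) {u : α → ℕ} (hu : PT Bool u)
    (hs : ∀ x, HasSum (t x) (f x)) (hb : ∀ x i, ‖t x i‖ ≤ 2 ^ u x * (1 / 2) ^ i) : AC f := by
  refine lim (sum (m := fun z : α × ℕ => z.2 + u z.1 + 1) (by fun_prop) (t := fun z i => t z.1 i)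
    (ht.comp (g := fun w : (α × ℕ) × ℕ => (w.1.1, w.2)) (by fun_prop))) fun x F => ?_
  refine (norm_sub_le_of_geometric_bound_of_hasSum (by norm_num) (hb x) (hs x) _).trans
    (le_of_eq ?_)
  dsimp only
  rw [one_div_pow]
  field_simp
  ring

theorem arctan_inv {c : ℕ} (hc : 2 ≤ c) : AC fun _ : α => ((Real.arctan (c : ℝ)⁻¹ : ℝ) : ℂ) := by
  have h2 : (2 : ℝ) ≤ c := by exact_mod_cast hc
  have h1 : (c : ℝ)⁻¹ ≤ 1 / 2 := by rw [one_div]; gcongr
  have h0 : (0 : ℝ) ≤ (c : ℝ)⁻¹ := by positivity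
  refine hasSum (t := fun _ i => (-1 : ℂ) ^ i * ((c : ℂ)⁻¹) ^ (2 * i + 1) / ((2 * i + 1 : ℕ) : ℂ))
    (of_QT (((QT.one.neg.pow (by fun_prop)).mul ((QT.nat c).inv.pow (by fun_prop))).div
      (QT.natCast (by fun_prop)))) (PT.const 0) (fun _ => ?_) fun _ i => ?_
  · have := Complex.hasSum_ofReal.2 (Real.hasSum_arctan (x := (c : ℝ)⁻¹)
      (by rw [Real.norm_of_nonneg h0]; linarith))
    simpa using this
  · rw [norm_div, norm_mul, norm_pow, norm_pow, norm_neg, norm_one, one_pow, one_mul, norm_inv,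
      Complex.norm_natCast, Complex.norm_natCast, pow_zero, one_mul]
    refine (div_le_self (by positivity) (by exact_mod_cast Nat.succ_pos _)).trans ?_
    exact (pow_le_pow_left₀ h0 h1 _).trans (pow_le_pow_of_le_one (by norm_num) (by norm_num)
      (by omega))

theorem pi : AC fun _ : α => ((Real.pi : ℝ) : ℂ) := by
  refine ((nat 4).mul ((arctan_inv (c := 2) le_rfl).add (arctan_inv (c := 3) (by omega)))).congr
    fun _ => ?_
  have := Real.arctan_inv_2_add_arctan_inv_3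
  rw [← Complex.ofReal_add,
    show Real.arctan ((2 : ℕ) : ℝ)⁻¹ + Real.arctan ((3 : ℕ) : ℝ)⁻¹ = Real.pi / 4 by simpa using this]
  push_cast
  ring

/-- the exponential of an argument with unary bound -/
theorem exp (hf : AC f) {v : α → ℕ} (hv : PT Bool v) (hb : ∀ x, ‖f x‖ ≤ v x) :
    AC fun x => Complex.exp (f x) := by
  refine hasSum (t := fun x i => f x ^ i * ((i.factorial : ℕ) : ℂ)⁻¹)
    (((hf.comp (g := fun z : α × ℕ => z.1) (by fun_prop)).pow (by fun_prop)).mul
      (of_QT (QT.natCast (by fun_prop)).inv)) (u := fun x => 4 * v x) (by fun_prop)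
    (fun x => ?_) fun x i => ?_
  · have := NormedSpace.expSeries_div_hasSum_exp (f x)
    rw [← Complex.exp_eq_exp_ℂ] at this
    simpa only [div_eq_mul_inv] using this
  · have h1 := Real.pow_div_factorial_le_exp (2 * ‖f x‖) (by positivity) i
    have h2 : Real.exp (2 * ‖f x‖) ≤ 2 ^ (4 * v x) := by
      calc Real.exp (2 * ‖f x‖) ≤ Real.exp ((2 * v x : ℕ) * 1) := by
            rw [Real.exp_le_exp]; push_cast; linarith [hb x]
        _ = Real.exp 1 ^ (2 * v x) := Real.exp_nat_mul _ _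
        _ ≤ 4 ^ (2 * v x) := by gcongr; linarith [Real.exp_one_lt_d9]
        _ = 2 ^ (4 * v x) := by
            rw [show (4 : ℝ) = 2 ^ 2 by norm_num, ← pow_mul]; congr 1; ring
    rw [norm_mul, norm_pow, norm_inv, Complex.norm_natCast]
    calc ‖f x‖ ^ i * ((i.factorial : ℕ) : ℝ)⁻¹ = (2 * ‖f x‖) ^ i / i.factorial * (1 / 2) ^ i := by
          rw [mul_pow, one_div_pow]; field_simp
      _ ≤ 2 ^ (4 * v x) * (1 / 2) ^ i := by gcongr; exact h1.trans h2

/-- roots of unity -/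
theorem e {p q : α → ℕ} (hp : BT p) (hq : BT q) :
    AC fun x => Complex.exp (2 * Real.pi * I * (p x) / (q x)) := by
  have h1 : AC fun x => 2 * (Real.pi : ℂ) * I * (((p x % q x : ℕ) : ℂ) / (q x : ℂ)) :=
    ((two.mul pi).mul const_I).mul (of_QT ((QT.natCast (hp.mod hq)).div (QT.natCast hq)))
  refine (h1.exp (PT.const 8) fun x => ?_).congr fun x => ?_
  · have h2 : ((p x % q x : ℕ) : ℝ) / (q x : ℝ) ≤ 1 := by
      rcases Nat.eq_zero_or_pos (q x) with h | h
      · simp [h]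
      · rw [div_le_one (by exact_mod_cast h)]
        exact_mod_cast (Nat.mod_lt _ h).le
    rw [norm_mul, norm_mul, norm_mul, norm_div, Complex.norm_natCast, Complex.norm_natCast,
      Complex.norm_two, Complex.norm_I, Complex.norm_real, Real.norm_of_nonneg Real.pi_pos.le]
    have h3 : (0 : ℝ) ≤ ((p x % q x : ℕ) : ℝ) / (q x : ℝ) := by positivity
    have h4 := Real.pi_le_four
    push_cast at *
    nlinarith [Real.pi_pos]
  · rcases Nat.eq_zero_or_pos (q x) with h | h
    · simp [h]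
    · have h0 : (q x : ℂ) ≠ 0 := by exact_mod_cast h.ne'
      have h2 : (p x : ℂ) = (q x : ℂ) * ((p x / q x : ℕ) : ℂ) + ((p x % q x : ℕ) : ℂ) := by
        exact_mod_cast (Nat.div_add_mod (p x) (q x)).symm
      have h3 : 2 * (Real.pi : ℂ) * I * (p x) / (q x) =
          2 * (Real.pi : ℂ) * I * (((p x % q x : ℕ) : ℂ) / (q x : ℂ)) +
            ((p x / q x : ℕ) : ℂ) * (2 * Real.pi * I) := by
        conv_lhs => rw [h2]
        field_simp
        ring
      rw [h3, Complex.exp_add, Complex.exp_nat_mul_two_pi_mul_I, mul_one]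

@[fun_prop] theorem div_nat (hf : AC f) (hn : BT n) : AC fun x => f x / (n x : ℂ) :=
  (hf.mul (of_QT (QT.natCast hn).inv)).congr fun _ => (div_eq_mul_inv _ _).symm

theorem div_QT (hf : AC f) (hg : QT g) : AC fun x => f x / g x :=
  (hf.mul (of_QT hg.inv)).congr fun _ => (div_eq_mul_inv _ _).symm

/-- roots of unity, integer numerator -/
theorem e_int {p : α → ℤ} {q : α → ℕ} (hp : ZT p) (hq : BT q) :
    AC fun x => Complex.exp (2 * Real.pi * I * (p x) / (q x)) := by
  refine ((e hp.1 hq).mul (e hp.2 hq).conj).congr fun x => ?_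
  have h : (p x : ℂ) = ((p x).toNat : ℂ) - ((-p x).toNat : ℂ) := by
    rw [← Int.cast_natCast, ← Int.cast_natCast (-p x).toNat, ← Int.cast_sub,
      Int.toNat_sub_toNat_neg]
  rw [← Complex.exp_conj, ← Complex.exp_add, h]
  congr 1
  simp only [map_div₀, map_mul, Complex.conj_I, Complex.conj_ofReal, map_natCast, map_ofNat]
  ring

end AC

/-! ### Constants, for `fun_prop` -/

/-- Gaussian rational constants -/
class QTc (c : ℂ) : Prop where
  out : QT fun _ : Unit => c

/-- approximable constants -/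
class ACc (c : ℂ) : Prop where
  out : AC fun _ : Unit => c

@[fun_prop] theorem QT.const (c : ℂ) [h : QTc c] : QT fun _ : α => c :=
  h.out.comp (g := fun _ => ()) (PT.const _)

@[fun_prop] theorem AC.const (c : ℂ) [h : ACc c] : AC fun _ : α => c :=
  h.out.comp (g := fun _ => ()) (PT.const _)

instance : QTc 0 := ⟨(QT.nat 0).congr fun _ => by simp⟩
instance : QTc 1 := ⟨QT.one⟩
instance : QTc I := ⟨QT.const_I⟩
instance (n : ℕ) : QTc n := ⟨QT.nat n⟩
instance (n : ℤ) : QTc n := ⟨QT.intCast (ZT.const n)⟩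
instance (n : ℕ) [n.AtLeastTwo] : QTc ofNat(n) := ⟨(QT.nat n).congr fun _ => rfl⟩
instance (a : ℂ) [h : QTc a] : QTc (-a) := ⟨h.out.neg⟩
instance (a : ℂ) [h : QTc a] : QTc a⁻¹ := ⟨h.out.inv⟩
instance (a : ℂ) (n : ℕ) [h : QTc a] : QTc (a ^ n) := ⟨h.out.pow (PT.const n)⟩
instance (a b : ℂ) [h : QTc a] [h' : QTc b] : QTc (a + b) := ⟨h.out.add h'.out⟩
instance (a b : ℂ) [h : QTc a] [h' : QTc b] : QTc (a - b) := ⟨h.out.sub h'.out⟩
instance (a b : ℂ) [h : QTc a] [h' : QTc b] : QTc (a * b) := ⟨h.out.mul h'.out⟩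
instance (a b : ℂ) [h : QTc a] [h' : QTc b] : QTc (a / b) := ⟨h.out.div h'.out⟩
instance (priority := low) (a : ℂ) [h : QTc a] : ACc a := ⟨AC.of_QT h.out⟩
instance : ACc (Real.pi : ℝ) := ⟨AC.pi⟩
instance (a : ℂ) [h : ACc a] : ACc (-a) := ⟨h.out.neg⟩
instance (a : ℂ) (n : ℕ) [h : ACc a] : ACc (a ^ n) := ⟨h.out.pow (PT.const n)⟩
instance (a b : ℂ) [h : ACc a] [h' : ACc b] : ACc (a + b) := ⟨h.out.add h'.out⟩
instance (a b : ℂ) [h : ACc a] [h' : ACc b] : ACc (a - b) := ⟨h.out.sub h'.out⟩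
instance (a b : ℂ) [h : ACc a] [h' : ACc b] : ACc (a * b) := ⟨h.out.mul h'.out⟩
instance (a b : ℂ) [h : ACc a] [h' : QTc b] : ACc (a / b) := ⟨h.out.div_QT h'.out⟩

end Vale.Agent.P338
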