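import Vale.Agent.P338.WDef
import Vale.Agent.P338.Num

/-! A record-level machine with recursive commands whose control is polynomial-time. -/

namespace Vale.Agent.P338

open Function Vale.Agent.PT Vale.Agent.P320

/-! ### Arguments -/

/-- arguments: a unary budget `z` and a list of binary numbers -/
structure Ar where
  z : ℕ
  l : List ℕ

instance : Ctx Bool Ar :=
  ⟨Ctx.ι Bool (ℕ × List Bin), inferInstance,
    fun a => Ctx.enc (Γ := Bool) ((a.z, a.l.map Bin.mk) : ℕ × List Bin)⟩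

namespace Ar
/-- `i`-th argument -/
def g (a : Ar) (i : ℕ) : ℕ := a.l.getD i 0
/-- push an argument -/
def c (a : Ar) (n : ℕ) : Ar := ⟨a.z, n :: a.l⟩
/-- drop the first argument -/
def t (a : Ar) : Ar := ⟨a.z, a.l.tail⟩
/-- replace the arguments -/
def w (a : Ar) (l : List ℕ) : Ar := ⟨a.z, l⟩
/-- a binary number capped by the budget, as a unary number -/
def u (a : Ar) (n : ℕ) : ℕ := min n a.z

@[simp] lemma c_z (a : Ar) (n) : (a.c n).z = a.z := rfl
@[simp] lemma t_z (a : Ar) : a.t.z = a.z := rfl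
@[simp] lemma w_z (a : Ar) (l) : (a.w l).z = a.z := rfl
@[simp] lemma c_l (a : Ar) (n) : (a.c n).l = n :: a.l := rfl
@[simp] lemma w_l (a : Ar) (l) : (a.w l).l = l := rfl
@[simp] lemma c_t (a : Ar) (n) : (a.c n).t = a := rfl
@[simp] lemma w_w (a : Ar) (l l') : (a.w l).w l' = a.w l' := rfl
@[simp] lemma c_w (a : Ar) (n l') : (a.c n).w l' = a.w l' := rfl
@[simp] lemma t_w (a : Ar) (l') : a.t.w l' = a.w l' := rfl
@[simp] lemma w_self (a : Ar) : a.w a.l = a := rfl
@[simp] lemma w_cons_l (a : Ar) (n) : a.w (n :: a.l) = a.c n := rfl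
@[simp] lemma c_g0 (a : Ar) (n) : (a.c n).g 0 = n := rfl
@[simp] lemma c_gs (a : Ar) (n i) : (a.c n).g (i + 1) = a.g i := rfl
@[simp] lemma w_g (a : Ar) (l i) : (a.w l).g i = l.getD i 0 := rfl
@[simp] lemma mk_g (z l i) : (Ar.mk z l).g i = l.getD i 0 := rfl
lemma u_eq (a : Ar) {n : ℕ} (h : n ≤ a.z) : a.u n = n := min_eq_left h
lemma u_pow (a : Ar) {n q N : ℕ} (hq : 2 ≤ q) (h : q ^ n ≤ N) (hN : N < 2 ^ a.z) : a.u n = n :=
  a.u_eq ((Nat.pow_lt_pow_iff_right (by norm_num)).1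
    (((Nat.pow_le_pow_left hq n).trans h).trans_lt hN)).le
end Ar

/-- polynomial-time lists of binary numbers -/
@[fun_prop] def LB {α : Type} [Ctx Bool α] (l : α → List ℕ) : Prop :=
  PT Bool fun x => (l x).map Bin.mk

section
variable {α β : Type} [Ctx Bool α] [Ctx Bool β] {f : α → ℕ} {l : α → List ℕ} {a : α → Ar}

lemma pt_ar : PT Bool a ↔ PT Bool fun x => (((a x).z, (a x).l.map Bin.mk) : ℕ × List Bin) :=
  Iff.rfl

@[fun_prop] theorem LB.const (l : List ℕ) : LB fun _ : α => l := PT.const _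
@[fun_prop] theorem LB.comp {l : β → List ℕ} {g : α → β} (hl : LB l) (hg : PT Bool g) :
    LB fun x => l (g x) := PT.comp (f := fun y => (l y).map Bin.mk) hl hg
@[fun_prop] theorem LB.cons (hf : BT f) (hl : LB l) : LB fun x => f x :: l x := pt_cons hf hl
@[fun_prop] theorem LB.args (ha : PT Bool a) : LB fun x => (a x).l := (pt_ar.1 ha).snd
@[fun_prop] theorem LB.tail (hl : LB l) : LB fun x => (l x).tail :=
  (pt_tail hl).congr fun x => by simp
@[fun_prop] theorem pt_z (ha : PT Bool a) : PT Bool fun x => (a x).z := (pt_ar.1 ha).fst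
@[fun_prop] theorem bt_z (ha : PT Bool a) : BT fun x => (a x).z := BT.of (pt_z ha)
@[fun_prop] theorem pt_w (ha : PT Bool a) (hl : LB l) : PT Bool fun x => (a x).w (l x) :=
  pt_ar.2 ((pt_z ha).pair hl)
@[fun_prop] theorem pt_c (ha : PT Bool a) (hf : BT f) : PT Bool fun x => (a x).c (f x) :=
  pt_w ha (LB.cons hf (LB.args ha))
@[fun_prop] theorem pt_t (ha : PT Bool a) : PT Bool fun x => (a x).t :=
  pt_ar.2 ((pt_z ha).pair ((pt_tail (LB.args ha)).congr fun x => by simp [Ar.t]))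
@[fun_prop] theorem bt_g (ha : PT Bool a) (i : ℕ) : BT fun x => (a x).g i :=
  (BT.getD (LB.args ha) (PT.const i)).congr fun x => by
    simp only [Ar.g, List.getD_eq_getElem?_getD, List.getElem?_map]
    cases (a x).l[i]? <;> rfl
@[fun_prop] theorem pt_u (ha : PT Bool a) (hf : BT f) : PT Bool fun x => (a x).u (f x) :=
  hf.cap (pt_z ha)
@[fun_prop] theorem bt_u (ha : PT Bool a) (hf : BT f) : BT fun x => (a x).u (f x) :=
  BT.of (pt_u ha hf)
end

/-- functions of one binary number and the arguments -/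
def B1 (φ : ℕ → Ar → ℕ) : Prop := BT fun x : Bin × Ar => φ x.1.v x.2
def B2 (φ : ℕ → ℕ → Ar → ℕ) : Prop := BT fun x : Bin × Bin × Ar => φ x.1.v x.2.1.v x.2.2
def P1 (φ : ℕ → Ar → Bool) : Prop := PT Bool fun x : Bin × Ar => φ x.1.v x.2
def P2 (φ : ℕ → ℕ → Ar → Bool) : Prop := PT Bool fun x : Bin × Bin × Ar => φ x.1.v x.2.1.v x.2.2

theorem B1.app {φ} (h : B1 φ) {α : Type} [Ctx Bool α] {e : α → ℕ} {a : α → Ar} (he : BT e)
    (ha : PT Bool a) : BT fun x => φ (e x) (a x) :=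
  BT.comp (g := fun x => (Bin.mk (e x), a x)) h (PT.pair he ha)
theorem B2.app {φ} (h : B2 φ) {α : Type} [Ctx Bool α] {e e' : α → ℕ} {a : α → Ar} (he : BT e)
    (he' : BT e') (ha : PT Bool a) : BT fun x => φ (e x) (e' x) (a x) :=
  BT.comp (g := fun x => (Bin.mk (e x), Bin.mk (e' x), a x)) h (PT.pair he (PT.pair he' ha))
theorem P1.app {φ} (h : P1 φ) {α : Type} [Ctx Bool α] {e : α → ℕ} {a : α → Ar} (he : BT e)
    (ha : PT Bool a) : PT Bool fun x => φ (e x) (a x) :=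
  PT.comp (g := fun x => (Bin.mk (e x), a x)) h (PT.pair he ha)
theorem P2.app {φ} (h : P2 φ) {α : Type} [Ctx Bool α] {e e' : α → ℕ} {a : α → Ar} (he : BT e)
    (he' : BT e') (ha : PT Bool a) : PT Bool fun x => φ (e x) (e' x) (a x) :=
  PT.comp (g := fun x => (Bin.mk (e x), Bin.mk (e' x), a x)) h (PT.pair he (PT.pair he' ha))

/-- application wrappers recognised by `fun_prop (disch := assumption)` -/
def ap1 {β : Type} (φ : ℕ → Ar → β) (n : ℕ) (a : Ar) : β := φ n a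
def ap2 {β : Type} (φ : ℕ → ℕ → Ar → β) (n m : ℕ) (a : Ar) : β := φ n m a
@[simp] lemma ap1_eq {β : Type} (φ : ℕ → Ar → β) (n a) : ap1 φ n a = φ n a := rfl
@[simp] lemma ap2_eq {β : Type} (φ : ℕ → ℕ → Ar → β) (n m a) : ap2 φ n m a = φ n m a := rfl

section
variable {α : Type} [Ctx Bool α] {e e' : α → ℕ} {a : α → Ar}
@[fun_prop] theorem bt_ap1 {φ} (h : B1 φ) (he : BT e) (ha : PT Bool a) :
    BT fun x => ap1 φ (e x) (a x) := h.app he ha
@[fun_prop] theorem bt_ap2 {φ} (h : B2 φ) (he : BT e) (he' : BT e') (ha : PT Bool a) :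
    BT fun x => ap2 φ (e x) (e' x) (a x) := h.app he he' ha
@[fun_prop] theorem pt_ap1 {φ} (h : P1 φ) (he : BT e) (ha : PT Bool a) :
    PT Bool fun x => ap1 φ (e x) (a x) := h.app he ha
@[fun_prop] theorem pt_ap2 {φ} (h : P2 φ) (he : BT e) (he' : BT e') (ha : PT Bool a) :
    PT Bool fun x => ap2 φ (e x) (e' x) (a x) := h.app he he' ha
end

/-- small arguments, with room for `k` more entries -/
def Sm (k : ℕ) (a : Ar) : Prop := a.l.length + k ≤ a.z ∧ ∀ x ∈ a.l, x < 2 ^ a.z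

lemma Sm.mono {k k' a} (h : Sm k a) (hk : k' ≤ k) : Sm k' a := ⟨by have := h.1; omega, h.2⟩
@[simp] lemma sm_c {k n} {a : Ar} : Sm k (a.c n) ↔ n < 2 ^ a.z ∧ Sm (k + 1) a := by
  simp only [Sm, Ar.c_l, Ar.c_z, List.length_cons, List.mem_cons, forall_eq_or_imp]
  constructor
  · rintro ⟨h1, h2, h3⟩; exact ⟨h2, by omega, h3⟩
  · rintro ⟨h1, h2, h3⟩; exact ⟨by omega, h1, h3⟩
lemma sm_w {k l} {a : Ar} : Sm k (a.w l) ↔ l.length + k ≤ a.z ∧ ∀ x ∈ l, x < 2 ^ a.z := Iff.rfl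
lemma Sm.g {k a} (h : Sm k a) (i : ℕ) : a.g i < 2 ^ a.z := by
  unfold Ar.g
  rw [List.getD_eq_getElem?_getD]
  cases e : a.l[i]? with
  | none => simp
  | some x => exact h.2 x (List.mem_of_getElem? e)

/-! ### Records -/

abbrev Wd (b : ℕ) := {l : List Bool // l.length = 10 * b}

namespace Wd
variable {b : ℕ}
def zero (b : ℕ) : Wd b := ⟨List.replicate (10 * b) false, by simp⟩
def ofNat (b n : ℕ) : Wd b := ⟨bitsL (10 * b) n, by simp⟩
def add (x y : Wd b) : Wd b := ⟨addW x.1 y.1, by simp [x.2]⟩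
def neg (x : Wd b) : Wd b := ⟨x.1.map not, by simp [x.2]⟩
def xor (x y : Wd b) : Wd b := ⟨xorW x.1 y.1, by simp [x.2]⟩
def half (x : Wd b) : Wd b := ⟨halfW x.1, by simp [x.2]⟩
def shr (x : Wd b) : Wd b := ⟨shrW b x.1, shrW_length x.2⟩
def mul (x y : Wd b) : Wd b := ⟨mulW b x.1 y.1, by simp⟩
def sub (x y : Wd b) : Wd b := x.add y.neg
end Wd

abbrev Rec (b : ℕ) := Wd b × Wd b

instance (b : ℕ) : Inhabited (Rec b) := ⟨(Wd.zero b, Wd.zero b)⟩

inductive BOp
  | fst | snd | zero | xor | add | sub | addh | subh | bfly | mul | muls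
  deriving DecidableEq

def BOp.sem {b : ℕ} : BOp → Rec b → Rec b → Rec b
  | .fst, x, _ => x
  | .snd, _, y => y
  | .zero, _, _ => (Wd.zero b, Wd.zero b)
  | .xor, x, y => (x.1.xor y.1, x.2.xor y.2)
  | .add, x, y => (x.1.add y.1, x.2.add y.2)
  | .sub, x, y => (x.1.sub y.1, x.2.sub y.2)
  | .addh, x, y => (x.1.add y.1.half, x.2.add y.2.half)
  | .subh, x, y => (x.1.sub y.1.half, x.2.sub y.2.half)
  | .bfly, x, y => (((x.1.add y.1).sub (x.2.sub y.2)).half, ((x.2.add y.2).add (x.1.sub y.1)).half)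
  | .mul, x, y => ((x.1.mul y.1).sub (x.2.mul y.2), (x.1.mul y.2).add (x.2.mul y.1))
  | .muls, x, y =>
    (((x.1.mul y.1).sub (x.2.mul y.2)).shr, ((x.1.mul y.2).add (x.2.mul y.1)).shr)

/-- uses its first argument -/
def BOp.u1 : BOp → Bool
  | .snd => false
  | .zero => false
  | _ => true

/-- uses its second argument -/
def BOp.u2 : BOp → Bool
  | .fst => false
  | .zero => false
  | _ => true

def BOp.cost (μ : ℕ) : BOp → ℕ
  | .mul => μ + 1
  | .muls => μ + 1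
  | _ => 1

structure AS (b : ℕ) where
  D : Fin 5 → List (Rec b)
  In : Bool → List Bool
  Acc : Wd b
  Out : List Bool

namespace AS
variable {b : ℕ}
def set (s : AS b) (i : Fin 5) (l : List (Rec b)) : AS b := { s with D := update s.D i l }
@[simp] lemma set_D (s : AS b) (i l j) : (s.set i l).D j = if j = i then l else s.D j := by
  simp [set, update_apply]
@[simp] lemma set_In (s : AS b) (i l) : (s.set i l).In = s.In := rfl
@[simp] lemma set_Acc (s : AS b) (i l) : (s.set i l).Acc = s.Acc := rfl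
@[simp] lemma set_Out (s : AS b) (i l) : (s.set i l).Out = s.Out := rfl
@[simp] lemma set_set (s : AS b) (i l l') : (s.set i l).set i l' = s.set i l' := by simp [set]
@[simp] lemma set_self (s : AS b) (i) : s.set i (s.D i) = s := by simp [set]
lemma ext' {s s' : AS b} (h : ∀ i, s.D i = s'.D i) (h1 : s.In = s'.In) (h2 : s.Acc = s'.Acc)
    (h3 : s.Out = s'.Out) : s = s' := by
  cases s; cases s'; simp_all [funext_iff]
end AS

/-! ### Commands -/

inductive Mic
  | nop | mv (i j : Fin 5) | cp (i j : Fin 5) | dr (i : Fin 5) | bin (o : BOp)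
  | read (y : Bool) | emit

def Mic.pre {b : ℕ} : Mic → AS b → Prop
  | .mv i j, s => i ≠ j ∧ s.D i ≠ []
  | .cp i _, s => s.D i ≠ []
  | .dr i, s => s.D i ≠ []
  | .bin _, s => s.D 0 ≠ [] ∧ s.D 1 ≠ []
  | .emit, s => s.D 0 ≠ []
  | _, _ => True

def Mic.sem {b : ℕ} : Mic → AS b → AS b
  | .nop, s => s
  | .mv i j, s => (s.set i (s.D i).tail).set j ((s.D i).headI :: s.D j)
  | .cp i j, s => s.set j ((s.D i).headI :: s.D j)
  | .dr i, s => s.set i (s.D i).tail
  | .bin o, s => s.set 2 (o.sem (s.D 0).headI (s.D 1).headI :: s.D 2)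
  | .read y, s => { s.set 0 ((⟨readW b (s.In y), by simp⟩, Wd.zero b) :: s.D 0) with
      In := update s.In y ((s.In y).drop b) }
  | .emit, s => { s.set 0 (s.D 0).tail with
      Acc := ⟨((s.D 0).headI.1.add s.Acc).1.drop b ++ List.replicate b false, by
        simp [((s.D 0).headI.1.add s.Acc).2]; omega⟩,
      Out := (padTake b ((s.D 0).headI.1.add s.Acc).1).reverse ++ s.Out }

def Mic.cost (μ : ℕ) : Mic → ℕ
  | .bin o => o.cost μ
  | _ => 1

inductive Cmd
  | op (m : Mic)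
  | ld (f g : Ar × ℕ → ℕ)
  | seq (c d : Cmd)
  | ite (p : Ar → Bool) (c d : Cmd)
  | arg (f : Ar → List ℕ) (c : Cmd)
  | fix (c : Cmd)
  | self

def Cmd.ok : Cmd → Prop
  | .op _ => True
  | .ld f g => BT f ∧ BT g
  | .seq c d => c.ok ∧ d.ok
  | .ite p c d => PT Bool p ∧ c.ok ∧ d.ok
  | .arg f c => LB f ∧ c.ok
  | .fix c => c.ok
  | .self => True

/-- word size `10 b`, weight `μ` of a multiplication, weight `σ` of a table load -/
structure Cx where
  b : ℕ
  μ : ℕ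
  σ : ℕ

/-- `Ex X e c a s s' t`: command `c`, inside the recursion `e`, with arguments `a`. -/
inductive Ex (X : Cx) : Cmd → Cmd → Ar → AS X.b → AS X.b → ℕ → Prop
  | op {e m a s} : Mic.pre m s → Ex X e (.op m) a s (m.sem s) (m.cost X.μ)
  | ld {e f g a s} : Ex X e (.ld f g) a s
      (s.set 0 ((Wd.ofNat X.b (f (a, X.b)), Wd.ofNat X.b (g (a, X.b))) :: s.D 0)) (X.σ + 1)
  | seq {e c d a s s1 s2 t1 t2} : Ex X e c a s s1 t1 → Ex X e d a s1 s2 t2 →
      Ex X e (.seq c d) a s s2 (t1 + t2 + 1)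
  | ite {e p c d a s s' t} : Ex X e (cond (p a) c d) a s s' t → Ex X e (.ite p c d) a s s' (t + 1)
  | arg {e f c a s s' t} : Sm 0 (a.w (f a)) → Ex X e c (a.w (f a)) s s' t →
      Ex X e (.arg f c) a s s' (t + 1)
  | fix {e c a s s' t} : Ex X c c a s s' t → Ex X e (.fix c) a s s' (t + 1)
  | self {e a s s' t} : Ex X e e a s s' t → Ex X e .self a s s' (t + 1)

def Do (X : Cx) (e c : Cmd) (a : Ar) (s s' : AS X.b) (T : ℕ) : Prop :=
  ∃ t ≤ T, Ex X e c a s s' t

namespace Do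
variable {X : Cx} {e c d : Cmd} {a : Ar} {s s' s1 s2 : AS X.b} {T T' T1 T2 : ℕ}

theorem mono (h : Do X e c a s s' T) (hT : T ≤ T') : Do X e c a s s' T' := by
  obtain ⟨t, ht, h⟩ := h
  exact ⟨t, ht.trans hT, h⟩
theorem congr {s''} (h : Do X e c a s s' T) (e' : s' = s'') : Do X e c a s s'' T := e' ▸ h
theorem of {s''} (h : Do X e c a s s' T) (e' : s' = s'') (hT : T ≤ T') : Do X e c a s s'' T' :=
  (h.congr e').mono hT
theorem op {m : Mic} (h : m.pre s) : Do X e (.op m) a s (m.sem s) (m.cost X.μ) :=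
  ⟨_, le_rfl, Ex.op h⟩
theorem ld {f g} : Do X e (.ld f g) a s
    (s.set 0 ((Wd.ofNat X.b (f (a, X.b)), Wd.ofNat X.b (g (a, X.b))) :: s.D 0)) (X.σ + 1) :=
  ⟨_, le_rfl, Ex.ld⟩
theorem seq (h1 : Do X e c a s s1 T1) (h2 : Do X e d a s1 s2 T2) :
    Do X e (.seq c d) a s s2 (T1 + T2 + 1) := by
  obtain ⟨t1, ht1, h1⟩ := h1
  obtain ⟨t2, ht2, h2⟩ := h2
  exact ⟨_, by omega, h1.seq h2⟩
theorem ite_pos {p : Ar → Bool} (hp : p a = true) (h : Do X e c a s s' T) :
    Do X e (.ite p c d) a s s' (T + 1) := by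
  obtain ⟨t, ht, h⟩ := h
  exact ⟨t + 1, by omega, Ex.ite (by rw [hp]; exact h)⟩
theorem ite_neg {p : Ar → Bool} (hp : p a = false) (h : Do X e d a s s' T) :
    Do X e (.ite p c d) a s s' (T + 1) := by
  obtain ⟨t, ht, h⟩ := h
  exact ⟨t + 1, by omega, Ex.ite (by rw [hp]; exact h)⟩
theorem arg {f : Ar → List ℕ} {a' : Ar} (ha : a.w (f a) = a') (hs : Sm 0 a')
    (h : Do X e c a' s s' T) : Do X e (.arg f c) a s s' (T + 1) := by
  subst ha
  obtain ⟨t, ht, h⟩ := h
  exact ⟨_, by omega, Ex.arg hs h⟩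
theorem fix (h : Do X c c a s s' T) : Do X e (.fix c) a s s' (T + 1) := by
  obtain ⟨t, ht, h⟩ := h
  exact ⟨_, by omega, h.fix⟩
theorem self (h : Do X e e a s s' T) : Do X e .self a s s' (T + 1) := by
  obtain ⟨t, ht, h⟩ := h
  exact ⟨_, by omega, h.self⟩
end Do

/-- initial abstract state (inputs least significant bit first) -/
def AS.init (b : ℕ) (x y : List Bool) : AS b :=
  ⟨fun _ => [], fun j => cond j y x, Wd.zero b, []⟩

/-- `c`, started with arguments `a`, multiplies `n`-bit numbers at weight `t` -/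
def MulDo (X : Cx) (c : Cmd) (a : Ar) (n t : ℕ) : Prop :=
  ∀ x y : List Bool, x.length = n → y.length = n → ∃ (s' : AS X.b) (m : ℕ),
    Do X .self c a (AS.init X.b x y) s' t ∧ (∀ i, s'.D i = []) ∧ 2 * n ≤ m ∧
      s'.Out = bin m (ofBits x * ofBits y)

example (φ : ℕ → Ar → ℕ) (h : B1 φ) (n : Ar → ℕ) (hn : BT n) :
    BT fun x : Ar => ap1 φ (x.g 0 + 1) x.t.t * 3 ^ x.u (x.g 2) + n x.t := by
  fun_prop (disch := assumption)

example (φ : ℕ → Ar → ℕ) (h : B1 φ) (n : Ar → ℕ) (hn : BT n) (p) (hp : P2 p) :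
    B2 fun i j x => if ap2 p i j x = true then ap1 φ (i + 1) x * j + n x else 0 := by
  unfold B2
  fun_prop (disch := assumption)

example : B1 fun i a => if i < a.g 2 then i * a.g 0 else 3 ^ a.u (a.g 1) := by
  unfold B1
  fun_prop

example : LB fun a : Ar => [a.g 1 + 1, a.g 0 * 2] := by fun_prop
example : LB fun a : Ar => (a.g 1 + 1) :: a.t.l := by fun_prop
example : PT Bool fun a : Ar => decide (a.g 1 + 1 < a.g 2 ∧ a.g 3 % 2 = 0) := by fun_prop

end Vale.Agent.P338
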