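import Vale.Agent.P338.CompC

/-! Simulation of the record-level machine by stack programs. -/

namespace Vale.Agent.P338

open Function Vale.Agent.PT Vale.Agent.P320

/-- a polynomial-time multiplier to start from -/
theorem base_mul : ∃ (p : Pg Reg Sym) (C D : ℕ), IsMul p fun n => C * (n + 1) ^ D := base_mul'

abbrev rN : Reg := .loc .N

def ini1 : Pg Reg Sym :=
  (cpy rW (XR false) rH).seq ((moveF (fun _ => .sep) rH rN).seq ((cpy rW rN rH).seq
    (szP rH rV rC (.slow 3))))

/-- the state after measuring the input -/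
def st3 (x y : List Bool) (u : List Sym) : Reg → List Sym
  | .loc (.X j) => eb (cond j y x)
  | .loc .N => List.replicate x.length .sep
  | .loc .C => u
  | .slow 3 => eb (List.replicate x.length.size false)
  | _ => []

lemma ini1_run (x y : List Bool) : Run ini1 (st2 XR x y)
    (st3 x y (List.replicate x.length.size (.b false))) (46 * x.length + 6) := by
  have e : (List.map ((fun _ => Sym.sep) ∘ Sym.b) x).reverse = List.replicate x.length Sym.sep := by
    simp [Function.comp_def, List.map_const']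
  refine Run.of (Run.seq (cpy_run (by simp [XR]) (by simp) (by simp [XR]) _ (by simp [st2, XR]))
    (Run.seq (moveF_run _ (by simp) _) (Run.seq (cpy_run (by simp) (by simp) (by simp) _
      (by simp [st2, XR])) (szP_run (by simp) (by simp) (by simp) (by simp) (by simp) (by simp)
      x.length _ (by simp [st2, XR, e]) (by simp [st2, XR])))))
    (st_ext (fun l => ?_) (fun n => ?_) fun r => ?_) (by simp [st2, XR]; omega)
  · rcases l with (_ | _) | _ | _ | _ | _ | _ | _ | _ | _ | _ | _ | _ | _ | _ <;>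
      simp [st2, XR, st3, e]
  · rcases n with _ | _ | _ | _ | n <;> simp [st2, XR, st3]
  · simp [st2, XR, st3]

lemma st3_upd (x y : List Bool) (u : List Sym) : update (st3 x y u) rC [] = st3 x y [] := by
  refine st_ext (fun l => ?_) (fun n => ?_) fun r => ?_
  · cases l <;> simp [st3]
  · rcases n with _ | _ | _ | _ | n <;> simp [st3]
  · simp [st3]

lemma small_run (x y : List Bool) : Run ((clear (.slow 3)).seq (clear rN)) (st3 x y [])
    (st2 XR x y) (4 * x.length.size + 4 * x.length + 2) := by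
  refine Run.of (Run.seq (clear_run _ _) (clear_run _ _))
    (st_ext (fun l => ?_) (fun n => ?_) fun r => ?_) (by simp [st3]; omega)
  · rcases l with (_ | _) | _ | _ | _ | _ | _ | _ | _ | _ | _ | _ | _ | _ | _ <;>
      simp [st2, XR, st3]
  · rcases n with _ | _ | _ | _ | n <;> simp [st2, XR, st3]
  · simp [st2, XR, st3]

lemma st3_slowB (x y : List Bool) : SlowB (st3 x y []) := fun r => by
  rcases r with _ | _ | _ | _ | n
  all_goals first | exact ⟨_, rfl⟩ | exact ⟨[], rfl⟩

lemma nat_run {F : ℕ → List Bool} (hF : PT Bool F) (j : ℕ) (h3 : 3 ≠ j) (h5 : j < 5) :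
    ∃ (P : Pg Reg Sym) (C : ℕ), ∀ (n : ℕ) (S : Reg → List Sym),
      S (.slow 3) = eb (List.replicate n.size false) → (∀ r, S (.slow (r + 5)) = []) → SlowB S →
      S (.slow j) = [] → Run P S (update S (.slow j) (eb (F n.size))) (C * (n + 1)) := by
  obtain ⟨P, c, hP⟩ := pf_run hF (fun _ => 3) j (by simp) h5 fun _ => h3
  obtain ⟨C, hC⟩ := poly_size c
  exact ⟨P, C, fun n S e0 e1 e2 e3 => (hP n.size S (fun _ => e0) e1 e2 e3).mono
    (by rw [size_nat]; exact hC n)⟩

lemma size_le_self (n : ℕ) : n.size ≤ n := Nat.size_le.2 Nat.lt_two_pow_self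

lemma ini2_run (zf bf : ℕ → ℕ) (hz : PT Bool zf) (hb : BT bf) : ∃ (P : Pg Reg Sym) (C : ℕ),
    ∀ x y : List Bool, Run P (st3 x y [])
      (stt (bf x.length.size) (zf x.length.size) (List.replicate x.length .sep) []
        (encA ⟨zf x.length.size, [x.length.size]⟩) (AS.init _ x y))
      (C * (x.length + 1) + 122 * bf x.length.size) := by
  obtain ⟨P0, C0, h0⟩ := nat_run (F := fun k => List.replicate (zf k) false) hz.toUnary 0
    (by omega) (by omega)
  obtain ⟨P1, C1, h1⟩ := nat_run (F := fun k => encL [Bin.mk k])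
    (ptL_iff.1 (pt_cons BT.id'.pt (PT.const []))) 1 (by omega) (by omega)
  obtain ⟨P4, C4, h4⟩ := nat_run (F := fun k => (bf k).bits) hb.bits 4 (by omega) (by omega)
  refine ⟨P0.seq (P1.seq (P4.seq ((clear (.slow 3)).seq ((move (.slow 4) rH).seq
    ((dblP rH rU rV).seq ((fill rU rV (.slow 2) (.b false) 1).seq
      (fill rU rV (.loc .Acc) (.b false) 10))))))), C0 + C1 + C4 + 40, fun x y => ?_⟩
  set k := x.length.size with hk
  set S : Reg → List Sym := update (update (update (update (st3 x y []) (.slow 0)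
    (eb (List.replicate (zf k) false))) (.slow 1) (eb (encL [Bin.mk k]))) (.slow 3) []) rH
    (eb (bf k).bits.reverse) with hS
  obtain ⟨t, ht, a6⟩ := dblP_run (H := rH) (U := rU) (V := rV) (by simp) (by simp) (by simp)
    (bf k).bits.reverse 0 S (by simp [hS]) (by simp [hS, st3]) (by simp [hS, st3])
  rw [foldl_rev_bits] at ht a6
  have hl : (bf k).bits.length ≤ bf k := by rw [Nat.size_eq_bits_len]; exact size_le_self _
  have hk' : k ≤ x.length := size_le_self _
  refine Run.of (Run.seq (h0 x.length _ rfl (fun _ => rfl) (st3_slowB x y) rfl)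
    (Run.seq (h1 x.length _ (by simp [st3]) (fun _ => by simp [st3]) ((st3_slowB x y).upd _ _)
      (by simp [st3]))
    (Run.seq (h4 x.length _ (by simp [st3]) (fun _ => by simp [st3])
      (((st3_slowB x y).upd _ _).upd _ _) (by simp [st3]))
    (Run.seq (clear_run _ _) (Run.seq ((move_run (by simp) _).congr (s'' := S)
      (st_ext (fun l => ?_) (fun n => ?_) fun r => ?_)) (Run.seq a6
    (Run.seq (fill_run (by simp) (by simp) (by simp) _ 1 (bf k) _ (by simp) (by simp [hS, st3]))
      (fill_run (by simp) (by simp) (by simp) _ 10 (bf k) _ (by simp) (by simp [hS, st3])))))))))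
    (st_ext (fun l => ?_) (fun n => ?_) fun r => ?_) ?_
  · cases l <;> simp [hS, st3, ← hk]
  · rcases n with _ | _ | _ | _ | _ | n <;> simp [hS, st3, ← hk]
  · simp [hS, st3]
  · cases l <;> simp [hS, st3, stt, enc, toWS, AS.init, Wd.zero, encD]
  · rcases n with _ | _ | _ | _ | _ | n <;> simp [hS, st3, stt, enc, toWS, encA]
  · simp [hS, st3, stt, enc]
  · simp [st3, ← hk] at ht ⊢
    have : (C0 + C1 + C4 + 40) * (x.length + 1) =
      C0 * (x.length + 1) + C1 * (x.length + 1) + C4 * (x.length + 1) + 40 * x.length + 40 := by ring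
    omega

def finP : Pg Reg Sym :=
  (move (.loc .Out) rH).seq ((takeU rN rV rH (.loc .Z) 2).seq ((clear rH).seq ((clear rN).seq
    ((clear rU).seq ((clear (.loc .Acc)).seq ((clear (XR false)).seq ((clear (XR true)).seq
    ((clear (.slow 0)).seq (clear (.slow 2))))))))))

lemma finP_run {b z n m v : ℕ} (s : AS b) (hD : ∀ i, s.D i = []) (hm : 2 * n ≤ m)
    (hO : s.Out = bin m v) : Run finP (stt b z (List.replicate n .sep) [] [] s)
      (update (fun _ => []) (.loc .Z) (eb (bin (2 * n) v)))
      (8 * m + 26 * n + 48 * b + 4 * z + 4 * (s.In false).length + 4 * (s.In true).length + 14) := by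
  obtain ⟨m, rfl⟩ := Nat.exists_eq_add_of_le hm
  have hA := s.Acc.2
  refine Run.of (Run.seq (move_run (by simp) _) (Run.seq (takeU_run (by simp) (by simp) (by simp)
    (by simp) (by simp) (by simp) 2 n _ (bitsL (2 * n + m) v)
    (by simp [stt, enc, toWS, hO, bin_eq]) (by simp [stt, enc]) (by simp [stt, enc]))
    (Run.seq (clear_run _ _) (Run.seq (clear_run _ _) (Run.seq (clear_run _ _)
    (Run.seq (clear_run _ _) (Run.seq (clear_run _ _) (Run.seq (clear_run _ _)
    (Run.seq (clear_run _ _) (clear_run _ _))))))))))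
    (st_ext (fun l => ?_) (fun n => ?_) fun r => ?_) ?_
  · rcases l with (_ | _) | _ | _ | _ | _ | _ | _ | _ | _ | _ | _ | _ | _ | _ <;>
      simp [XR, stt, enc, toWS, hD, encD, padTake_bitsL, bin_eq]
  · rcases n with _ | _ | _ | _ | _ | n <;> simp [XR, stt, enc, toWS]
  · simp [XR, stt, enc]
  · simp [XR, stt, enc, toWS, hO, hA, bin]
    omega

/-- For inputs of length `n` with `k = size n`: below the threshold `k0` run the old multiplier `q`;
otherwise compute `zf k` (unary), `bf k`, and run `c` with arguments `⟨zf k, [k]⟩`. -/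
theorem compile (c : Cmd) (hc : c.ok) (zf bf : ℕ → ℕ) (hz : PT Bool zf) (hb : BT bf)
    (q : Pg Reg Sym) (Tq : ℕ → ℕ) (hq : IsMul q Tq) :
    ∃ C D : ℕ, ∀ k0 : ℕ, ∃ p : Pg Reg Sym, ∀ T : ℕ → ℕ,
      (∀ n, n.size < k0 → Tq n + C * (n + 1) ≤ T n) →
      (∀ n, k0 ≤ n.size → ∃ μ σ t : ℕ,
        Sm 0 ⟨zf n.size, [n.size]⟩ ∧ C * (zf n.size + 1) ^ D ≤ bf n.size ∧
        Tq (10 * bf n.size) ≤ μ * bf n.size ∧
        C * (zf n.size + bf n.size + 1) ^ D ≤ σ * bf n.size ∧
        MulDo ⟨bf n.size, μ, σ⟩ c ⟨zf n.size, [n.size]⟩ n t ∧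
        C * ((t + 1) * bf n.size + n) ≤ T n) →
      IsMul p T := by
  obtain ⟨P, i0, C1, hP⟩ := interp hq c hc
  obtain ⟨P2, C2, hP2⟩ := ini2_run zf bf hz hb
  obtain ⟨C, hC⟩ : ∃ C, C = 17 * C1 + C2 + i0 + 300 := ⟨_, rfl⟩
  refine ⟨C, C, fun k0 => ⟨ini1.seq (thr rC (((clear (.slow 3)).seq (clear rN)).seq q)
    (P2.seq ((pushItem i0).seq ((clear (.slow 1)).seq (P.seq finP)))) k0),
    fun T h1 h2 x y hl => ?_⟩⟩
  have hk := size_le_self x.length
  rcases lt_or_ge x.length.size k0 with h | h
  · refine ((ini1_run x y).seq (thr_lt _ _ _ (.b false) k0 _ _ _ _ h rfl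
      (by rw [st3_upd]; exact (small_run x y).seq (hq x y hl)))).mono (le_trans ?_ (h1 _ h))
    have : 300 * (x.length + 1) ≤ C * (x.length + 1) := Nat.mul_le_mul_right _ (by omega)
    omega
  · obtain ⟨μ, σ, t, e1, e2, e3, e4, e5, e6⟩ := h2 _ h
    obtain ⟨s', m, ⟨t', ht, hx⟩, f1, f2, f3⟩ := e5 x y rfl hl.symm
    obtain ⟨b1, b2⟩ := budget (a := ⟨zf x.length.size, [x.length.size]⟩) (by omega) e1 e2
    have b3 : zf x.length.size ≤ bf x.length.size := by
      have g1 : zf x.length.size + 1 ≤ (zf x.length.size + 1) ^ C := Nat.le_self_pow (by omega) _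
      have g2 := Nat.le_mul_of_pos_left ((zf x.length.size + 1) ^ C) (show 0 < C by omega)
      omega
    have a4 := hP ⟨bf x.length.size, μ, σ⟩ (List.replicate x.length .sep) _ _ s' t' e1
      ((pw_mono (by omega)).trans e2) e3 ((pw_mono (by omega)).trans e4) hx
    have l1 := a4.length_le (.loc .Out)
    have l2 := a4.length_le (XR false)
    have l3 := a4.length_le (XR true)
    simp only [stt, enc, toWS, XR, AS.init, f3, bin, List.length_map, List.length_range,
      List.length_nil, cond_true, cond_false, ← hl] at l1 l2 l3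
    refine ((ini1_run x y).seq (thr_ge _ _ _ (.b false) k0 _ _ _ _ h rfl
      (by
        rw [st3_upd]
        exact (hP2 x y).seq ((pushItem_run i0).seq (clrEnv_run.seq
          ((by simpa using a4 : Run P _ _ _).seq (finP_run s' f1 f2 f3))))))).mono
      (le_trans ?_ e6)
    clear e2 e4 a4 hx e5 h2 hP hP2
    dsimp only at *
    generalize bf x.length.size = b at *
    have g1 : t' * (C1 * b) ≤ t * (C1 * b) := Nat.mul_le_mul_right _ ht
    have g2 : C * ((t + 1) * b + x.length) = 17 * (t * (C1 * b)) + (C2 + i0 + 300) * (t * b) +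
        17 * (C1 * b) + (C2 + i0) * b + 300 * b + (17 * C1 + i0) * x.length + C2 * x.length +
        300 * x.length := by rw [hC]; ring
    have g3 : C2 + i0 ≤ (C2 + i0) * b := Nat.le_mul_of_pos_right _ (by omega)
    have g4 : C2 * (x.length + 1) = C2 * x.length + C2 := by ring
    omega

end Vale.Agent.P338
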