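import Vale.Agent.P338.WDef

/-! A word-level machine and its simulation by stack programs. -/

namespace Vale.Agent.P338

open Function
open Vale.Agent.P320 (ofBits)

structure WS where
  R : Fin 8 → List Bool
  D : Fin 5 → List (List Bool)
  In : Bool → List Bool
  Acc : List Bool
  Out : List Bool
  L : Bool → List Bool

structure Fx where
  b : ℕ
  k : List Sym
  nn : List Sym
  x0 : List Bool
  env : List Bool

def encD (l : List (List Bool)) : List Sym := l.flatMap fun w => eb w ++ [.sep]

def enc (f : Fx) (w : WS) : Reg → List Sym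
  | .loc (.X y) => eb (w.In y)
  | .loc .K => f.k
  | .loc .U => List.replicate f.b .sep
  | .loc .N => f.nn
  | .loc .Acc => eb w.Acc
  | .loc .Out => eb w.Out
  | .loc (.R i) => eb (w.R i)
  | .loc (.D i) => encD (w.D i)
  | .loc _ => []
  | .slow 0 => eb f.x0
  | .slow 1 => eb f.env
  | .slow 2 => eb (List.replicate f.b false)
  | .slow 3 => eb (w.L false)
  | .slow 4 => eb (w.L true)
  | .slow _ => []
  | .sub _ => []

inductive WOp
  | get (i : Fin 5) (r : Fin 8) | put (r : Fin 8) (i : Fin 5) | cpy (r r' : Fin 8)
  | neg (r : Fin 8) | add (r r' : Fin 8) | xor (r r' : Fin 8) | half (r : Fin 8) | shr (r : Fin 8)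
  | mul (r r' r'' : Fin 8) | zero (r : Fin 8) | clr (r : Fin 8) | read (y : Bool) (r : Fin 8)
  | emit (r : Fin 8) | ld (j : Bool) (r : Fin 8)

def WOp.pre (b : ℕ) : WOp → WS → Prop
  | .get i r, w => w.D i ≠ [] ∧ w.R r = [] ∧ ((w.D i).headD []).length = 10 * b
  | .put r _, w => (w.R r).length = 10 * b
  | .cpy r r', w => r ≠ r' ∧ w.R r' = [] ∧ (w.R r).length = 10 * b
  | .neg r, w => (w.R r).length = 10 * b
  | .add r r', w => r ≠ r' ∧ (w.R r).length = 10 * b ∧ (w.R r').length = 10 * b
  | .xor r r', w => r ≠ r' ∧ (w.R r).length = 10 * b ∧ (w.R r').length = 10 * b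
  | .half r, w => (w.R r).length = 10 * b
  | .shr r, w => (w.R r).length = 10 * b
  | .mul r r' r'', w => r ≠ r' ∧ w.R r'' = [] ∧ (w.R r).length = 10 * b ∧
      (w.R r').length = 10 * b
  | .zero r, w => w.R r = []
  | .clr r, w => (w.R r).length = 10 * b
  | .read _ r, w => w.R r = []
  | .emit r, w => (w.R r).length = 10 * b ∧ w.Acc.length = 10 * b
  | .ld j r, w => w.R r = [] ∧ (w.L j).length = 10 * b

def WOp.sem (b : ℕ) : WOp → WS → WS
  | .get i r, w => { w with R := update w.R r ((w.D i).headD []), D := update w.D i (w.D i).tail }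
  | .put r i, w => { w with R := update w.R r [], D := update w.D i (w.R r :: w.D i) }
  | .cpy r r', w => { w with R := update w.R r' (w.R r) }
  | .neg r, w => { w with R := update w.R r ((w.R r).map not) }
  | .add r r', w => { w with R := update (update w.R r (addW (w.R r) (w.R r'))) r' [] }
  | .xor r r', w => { w with R := update (update w.R r (xorW (w.R r) (w.R r'))) r' [] }
  | .half r, w => { w with R := update w.R r (halfW (w.R r)) }
  | .shr r, w => { w with R := update w.R r (shrW b (w.R r)) }
  | .mul r r' r'', w => { w with R := update w.R r'' (mulW b (w.R r) (w.R r')) }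
  | .zero r, w => { w with R := update w.R r (List.replicate (10 * b) false) }
  | .clr r, w => { w with R := update w.R r [] }
  | .read y r, w =>
    { w with R := update w.R r (readW b (w.In y)), In := update w.In y ((w.In y).drop b) }
  | .emit r, w =>
    { w with R := update w.R r [],
             Acc := (addW (w.R r) w.Acc).drop b ++ List.replicate b false,
             Out := (padTake b (addW (w.R r) w.Acc)).reverse ++ w.Out }
  | .ld j r, w => { w with R := update w.R r (w.L j), L := update w.L j [] }

abbrev rU : Reg := .loc .U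
abbrev rV : Reg := .loc .V
abbrev rF : Reg := .loc .F
abbrev rW : Reg := .loc .W
abbrev rC : Reg := .loc .C
abbrev rH : Reg := .loc .H
abbrev rR (i : Fin 8) : Reg := .loc (.R i)
abbrev rD (i : Fin 5) : Reg := .loc (.D i)

def Sym.not : Sym → Sym
  | .b x => .b (!x)
  | .sep => .sep

def addP (A B : Reg) : Pg Reg Sym :=
  (Pg.push rC (.b false)).seq ((zipP fa rW rC A B).seq ((zipP fa rW rC A B).seq (Pg.pop rC)))

lemma addP_run {A B : Reg} (h1 : A ≠ rW) (h2 : A ≠ rC) (h3 : A ≠ B) (h5 : rW ≠ B) (h6 : rC ≠ B)
    (s : Reg → List Sym) (x y : List Bool) (hA : s A = eb x) (hB : s B = eb y) (hC : s rC = [])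
    (hW : s rW = []) (hl : y.length = x.length) :
    Run (addP A B) s (update (update s A (eb (addW x y))) B []) (26 * x.length + 6) := by
  refine ((Run.push _ _ _).seq ((zipP_run fa h1 h2 h3 (by simp) h5 h6 _ x y false
    (by simp [h2, hA]) (by simp [h6.symm, hB]) (by simp [hC]) (by simp [hW])).seq
    ((zipP_run fa h1 h2 h3 (by simp) h5 h6 _ (zipL fa false x y).1 [] (zipL fa false x y).2
      (by simp [h2, h3]) (by simp [h6.symm, hl]) (by simp) (by simp [hW, h1.symm, h5])).seq
      (Run.pop _ _)))).of ?_ (by simp [zipL_length]; omega)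
  funext k
  simp only [update_apply]
  split_ifs <;> simp_all [addW]

def subP (q : Pg Reg Sym) : Pg Reg Sym := q.map Reg.sub id some

lemma subP_run {q : Pg Reg Sym} {T : ℕ → ℕ} (hq : IsMul q T) (x y : List Bool)
    (hl : x.length = y.length) (s : Reg → List Sym) (hs : ∀ r, s (.sub r) = st2 XR x y r) :
    Run (subP q) s (update (update (update s (.sub (XR false)) []) (.sub (XR true)) [])
      (.sub (.loc .Z)) (eb (bin (2 * x.length) (ofBits x * ofBits y)))) (T x.length) := by
  obtain ⟨t, ht, h⟩ := hq x y hl
  obtain ⟨S, h1, h2, h3⟩ := h.map (f := Reg.sub) (fun a b h => by simpa using h) (g := id)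
    (g' := some) (fun _ => rfl) s (by simpa using hs)
  refine Run.congr ⟨t, ht, h1⟩ ?_
  funext k
  cases k with
  | sub r =>
    rw [h2]
    have := hs r
    simp only [update_apply, st2, XR] at this ⊢
    split_ifs <;> simp_all
  | loc l => rw [h3 _ (by simp)]; simp [XR]
  | slow l => rw [h3 _ (by simp)]; simp [XR]

def WOp.prog (q : Pg Reg Sym) : WOp → Pg Reg Sym
  | .get i r => getW rF rW (rD i) (rR r)
  | .put r i => putW rW (rR r) (rD i)
  | .cpy r r' => P338.cpy rW (rR r) (rR r')
  | .neg r => (moveF Sym.not (rR r) rW).seq (move rW (rR r))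
  | .add r r' => addP (rR r) (rR r')
  | .xor r r' => (Pg.push rC (.b false)).seq
      ((zipP (fun c a y => (a ^^ y, c)) rW rC (rR r) (rR r')).seq (Pg.pop rC))
  | .half r => Pg.cas (rR r) fun o => (Pg.pop (rR r)).seq ((move (rR r) rW).seq
      ((Pg.push rW (o.getD .sep)).seq (move rW (rR r))))
  | .shr r => (takeU rU rV (rR r) rH 3).seq ((clear rH).seq ((move (rR r) rW).seq
      ((Pg.cas rW fun o => fill rU rV rW (o.getD .sep) 3).seq (move rW (rR r)))))
  | .mul r r' r'' => (P338.cpy rW (rR r) (.sub (XR false))).seq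
      ((P338.cpy rW (rR r') (.sub (XR true))).seq ((subP q).seq ((move (.sub (.loc .Z)) rH).seq
        ((takeU rU rV rH rW 10).seq ((move rW (rR r'')).seq (addP (rR r'') rH))))))
  | .zero r => fill rU rV (rR r) (.b false) 10
  | .clr r => clear (rR r)
  | .read y r => (fill rU rV rW (.b false) 3).seq ((takeU rU rV (XR y) rW 1).seq
      ((fill rU rV rW (.b false) 6).seq (move rW (rR r))))
  | .emit r => (addP (rR r) (.loc .Acc)).seq ((takeU rU rV (rR r) (.loc .Out) 1).seq
      ((move (rR r) rW).seq ((fill rU rV rW (.b false) 1).seq (move rW (.loc .Acc)))))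
  | .ld j r => shift rW (.slow (cond j 4 3)) (rR r)

lemma enc_ext {f : Fx} {w : WS} {s : Reg → List Sym} (h1 : ∀ l, s (.loc l) = enc f w (.loc l))
    (h2 : ∀ n, s (.slow n) = enc f w (.slow n)) (h3 : ∀ r, s (.sub r) = []) : s = enc f w := by
  funext k
  cases k with
  | loc l => exact h1 l
  | slow n => exact h2 n
  | sub r => exact h3 r

lemma enc_slow (f : Fx) {w w' : WS} (h : w.L = w'.L) (n : ℕ) :
    enc f w (.slow n) = enc f w' (.slow n) := by
  rcases n with _ | _ | _ | _ | _ | n <;> simp [enc, h]

lemma padTake_bitsL (k m z : ℕ) : padTake k (bitsL (k + m) z) = bitsL k z := by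
  refine List.ext_getElem (by simp) fun i h1 h2 => ?_
  simp only [bitsL_length] at h2
  simp [padTake, bitsL, List.getD_eq_getElem?_getD, List.getElem?_range (show i < k + m by omega)]

lemma drop_bitsL (k m z : ℕ) : (bitsL (k + m) z).drop k = bitsL m (z / 2 ^ k) := by
  refine List.ext_getElem (by simp) fun i h1 h2 => ?_
  simp [bitsL, Nat.testBit_div_two_pow, add_comm]

def WOp.isMul : WOp → Bool
  | .mul _ _ _ => true
  | _ => false

theorem WOp.run {q : Pg Reg Sym} {T : ℕ → ℕ} (hq : IsMul q T) (f : Fx) (hb : 1 ≤ f.b) (o : WOp)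
    (w : WS) (h : o.pre f.b w) :
    Run (o.prog q) (enc f w) (enc f (o.sem f.b w))
      (1000 * f.b + cond o.isMul (T (10 * f.b)) 0) := by
  cases o with
  | get i r =>
    obtain ⟨h1, h2, h3⟩ := h
    obtain ⟨a, l, hl⟩ := List.exists_cons_of_ne_nil h1
    simp only [hl, List.headD_cons] at h3
    refine (getW_run (by simp) (by simp) (by simp) (by simp) (by simp) a (encD l) _ rfl rfl
      (by simp [enc, h2]) (by simp [enc, hl, encD])).of
      (enc_ext (fun l => ?_) (fun n => ?_) fun _ => ?_) (by simp [isMul]; omega)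
    · cases l <;> simp [enc, sem, update_apply, hl] <;> split_ifs <;> simp_all
    · rcases n with _ | _ | _ | _ | _ | n <;> simp [enc, sem]
    · simp [enc]
  | put r i =>
    refine (putW_run (by simp) (by simp) (by simp) _ rfl).of
      (enc_ext (fun l => ?_) (fun n => ?_) fun _ => ?_) (by simp [isMul, enc, pre] at h ⊢; omega)
    · cases l <;> simp [enc, sem, update_apply] <;> split_ifs <;> simp_all [encD]
    · rcases n with _ | _ | _ | _ | _ | n <;> simp [enc, sem]
    · simp [enc]
  | cpy r r' =>
    obtain ⟨h1, h2, h3⟩ := h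
    refine (cpy_run (by simp) (by simp) (by simpa using h1) _ rfl).of
      (enc_ext (fun l => ?_) (fun n => ?_) fun _ => ?_) (by simp [isMul, enc]; omega)
    · cases l <;> simp [enc, sem, update_apply] <;> split_ifs <;> simp_all
    · rcases n with _ | _ | _ | _ | _ | n <;> simp [enc, sem]
    · simp [enc]
  | neg r =>
    refine ((moveF_run _ (by simp) _).seq (move_run (by simp) _)).of
      (enc_ext (fun l => ?_) (fun n => ?_) fun _ => ?_) (by simp [isMul, enc, pre] at h ⊢; omega)
    · cases l <;> simp [enc, sem, update_apply] <;> split_ifs <;> simp_all [Sym.not]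
    · rcases n with _ | _ | _ | _ | _ | n <;> simp [enc, sem]
    · simp [enc]
  | add r r' =>
    obtain ⟨h1, h2, h3⟩ := h
    refine (addP_run (by simp) (by simp) (by simpa using h1) (by simp) (by simp) _ (w.R r) (w.R r')
      rfl rfl rfl rfl (by omega)).of
      (enc_ext (fun l => ?_) (fun n => ?_) fun _ => ?_) (by simp [isMul]; omega)
    · cases l <;> simp [enc, sem, update_apply] <;> split_ifs <;> simp_all
    · rcases n with _ | _ | _ | _ | _ | n <;> simp [enc, sem]
    · simp [enc]
  | xor r r' =>
    obtain ⟨h1, h2, h3⟩ := h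
    refine ((Run.push _ _ _).seq ((zipP_run _ (by simp) (by simp) (by simpa using h1) (by simp)
      (by simp) (by simp) _ (w.R r) (w.R r') false (by simp [enc]) (by simp [enc]) (by simp [enc])
      (by simp [enc])).seq (Run.pop _ _))).of
      (enc_ext (fun l => ?_) (fun n => ?_) fun _ => ?_) (by simp [isMul]; omega)
    · cases l <;> simp [enc, sem, update_apply] <;> split_ifs <;> simp_all [xorW]
    · rcases n with _ | _ | _ | _ | _ | n <;> simp [enc, sem]
    · simp [enc]
  | half r =>
    have h' : (w.R r).length = 10 * f.b := h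
    obtain ⟨a, l, hl⟩ := List.exists_cons_of_ne_nil (l := w.R r) (by
      intro e; rw [e] at h'; simp at h'; omega)
    refine (Run.cas (o := some (.b a)) (by simp [enc, hl]) ((Run.pop _ _).seq
      ((move_run (by simp) _).seq ((Run.push _ _ _).seq (move_run (by simp) _))))).of
      (enc_ext (fun l => ?_) (fun n => ?_) fun _ => ?_) (by simp [isMul, enc]; omega)
    · cases l <;> simp [enc, sem, update_apply] <;> split_ifs <;> simp_all [halfW]
    · rcases n with _ | _ | _ | _ | _ | n <;> simp [enc, sem]
    · simp [enc]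
  | shr r =>
    have h' : (w.R r).length = 10 * f.b := h
    have e : (eb ((w.R r).drop (3 * f.b))).getLast? = some (.b ((w.R r).getLastD false)) := by
      rw [eb, List.getLast?_map, List.getLast?_drop, if_neg (by omega), List.getLastD_eq_getLast?]
      cases h3 : (w.R r).getLast? with
      | none => rw [List.getLast?_eq_none_iff] at h3; rw [h3] at h'; simp at h'; omega
      | some a => rfl
    refine Run.of (Run.seq (takeU_run (by simp) (by simp) (by simp) (by simp) (by simp) (by simp) 3
      f.b _ (w.R r) (by rfl) (by rfl) (by rfl)) (Run.seq (clear_run _ _) (Run.seq (move_run (by simp) _)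
      (Run.seq (Run.cas (o := some (.b ((w.R r).getLastD false))) (by simpa [enc] using e)
        (fill_run (by simp) (by simp) (by simp) _ 3 f.b _ (by simp [enc]) (by simp [enc])))
        (move_run (by simp) _)))))
      (enc_ext (fun l => ?_) (fun n => ?_) fun _ => ?_) (by simp [isMul, enc]; omega)
    · cases l <;> simp [enc, sem, update_apply] <;> split_ifs <;> simp_all [shrW]
    · rcases n with _ | _ | _ | _ | _ | n <;> simp [enc, sem]
    · simp [enc]
  | mul r r' r'' =>
    obtain ⟨h1, h2, h3, h4⟩ := h
    have e1 := padTake_bitsL (10 * f.b) (10 * f.b) (ofBits (w.R r) * ofBits (w.R r'))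
    have e2 := drop_bitsL (10 * f.b) (10 * f.b) (ofBits (w.R r) * ofBits (w.R r'))
    have a3 := subP_run hq (w.R r) (w.R r') (by omega)
      (update (update (enc f w) (.sub (XR false)) (eb (w.R r))) (.sub (XR true)) (eb (w.R r')))
      (fun k => by simp only [update_apply, st2, XR]; split_ifs <;> simp_all [enc])
    rw [h3, bin_eq, two_mul] at a3
    have a1 : Run (P338.cpy rW (rR r) (.sub (XR false))) (enc f w)
        (update (enc f w) (.sub (XR false)) (eb (w.R r))) (90 * f.b + 2) :=
      (cpy_run (by simp) (by simp) (by simp) (enc f w) rfl).of (by simp [enc])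
        (by simp [enc]; omega)
    have a2 : Run (P338.cpy rW (rR r') (.sub (XR true)))
        (update (enc f w) (.sub (XR false)) (eb (w.R r)))
        (update (update (enc f w) (.sub (XR false)) (eb (w.R r))) (.sub (XR true)) (eb (w.R r')))
        (90 * f.b + 2) :=
      (cpy_run (by simp) (by simp) (by simp) _ (by simp [enc])).of (by simp [enc, XR])
        (by simp [enc]; omega)
    refine Run.of (Run.seq a1 (Run.seq a2 (Run.seq a3 (Run.seq (move_run (by simp) _)
      (Run.seq (takeU_run (by simp) (by simp) (by simp) (by simp)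
        (by simp) (by simp) 10 f.b _ (bitsL (10 * f.b + 10 * f.b) (ofBits (w.R r) * ofBits (w.R r')))
        (by simp [enc]) (by simp [enc]) (by simp [enc])) (Run.seq (move_run (by simp) _)
        (addP_run (by simp) (by simp) (by simp) (by simp) (by simp) _
          (bitsL (10 * f.b) (ofBits (w.R r) * ofBits (w.R r')))
          (bitsL (10 * f.b) (ofBits (w.R r) * ofBits (w.R r') / 2 ^ (10 * f.b)))
          (by simp [enc, e1, h2]) (by simp [e2]) (by simp [enc]) (by simp) (by simp))))))))
      (enc_ext (fun l => ?_) (fun n => ?_) fun k => ?_) (by simp [isMul, enc]; omega)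
    · cases l <;> simp [enc, sem, update_apply] <;> split_ifs <;> simp_all [mulW]
    · rcases n with _ | _ | _ | _ | _ | n <;> simp [enc, sem]
    · simp only [update_apply, XR]; split_ifs <;> simp_all [enc]
  | zero r =>
    refine Run.of (fill_run (by simp) (by simp) (by simp) _ 10 f.b _ (by rfl) (by rfl))
      (enc_ext (fun l => ?_) (fun n => ?_) fun _ => ?_) (by simp [isMul]; omega)
    · cases l <;> simp [enc, sem, update_apply] <;> split_ifs <;> simp_all [pre]
    · rcases n with _ | _ | _ | _ | _ | n <;> simp [enc, sem]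
    · simp [enc]
  | clr r =>
    refine (clear_run _ _).of
      (enc_ext (fun l => ?_) (fun n => ?_) fun _ => ?_) (by simp [isMul, enc, pre] at h ⊢; omega)
    · cases l <;> simp [enc, sem, update_apply] <;> split_ifs <;> simp_all
    · rcases n with _ | _ | _ | _ | _ | n <;> simp [enc, sem]
    · simp [enc]
  | read y r =>
    refine Run.of (Run.seq (fill_run (by simp) (by simp) (by simp) _ 3 f.b _ (by rfl) (by rfl))
      (Run.seq (takeU_run (by simp) (by simp [XR]) (by simp [XR]) (by simp) (by simp)
        (by simp [XR]) 1 f.b _ (w.In y) (by simp [XR, enc]) (by simp [enc]) (by simp [enc]))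
      (Run.seq (fill_run (by simp) (by simp) (by simp) _ 6 f.b _ (by simp [enc, XR])
        (by simp [enc, XR])) (move_run (by simp) _))))
      (enc_ext (fun l => ?_) (fun n => ?_) fun _ => ?_) (by simp [isMul, enc, XR]; omega)
    · cases l <;> simp [enc, sem, update_apply, XR] <;> split_ifs <;> simp_all [pre, readW]
    · rcases n with _ | _ | _ | _ | _ | n <;> simp [enc, sem, XR]
    · simp [enc, XR]
  | emit r =>
    obtain ⟨h1, h2⟩ := h
    refine ((addP_run (by simp) (by simp) (by simp) (by simp) (by simp) _ (w.R r) w.Acc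
      rfl rfl rfl rfl (by omega)).seq ((takeU_run (by simp) (by simp) (by simp) (by simp) (by simp)
        (by simp) 1 f.b _ (addW (w.R r) w.Acc) (by simp) (by simp [enc]) (by simp [enc])).seq
      ((move_run (by simp) _).seq ((fill_run (by simp) (by simp) (by simp) _ 1 f.b _
        (by simp [enc]) (by simp [enc])).seq (move_run (by simp) _))))).of
      (enc_ext (fun l => ?_) (fun n => ?_) fun _ => ?_) (by simp [isMul, enc]; omega)
    · cases l <;> simp [enc, sem, update_apply] <;> split_ifs <;> simp_all
    · rcases n with _ | _ | _ | _ | _ | n <;> simp [enc, sem]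
    · simp [enc]
  | ld j r =>
    obtain ⟨h1, h2⟩ := h
    refine (shift_run (by simp) (by simp) (by simp) _ rfl).of
      (enc_ext (fun l => ?_) (fun n => ?_) fun _ => ?_)
      (by cases j <;> simp [isMul, enc] <;> omega)
    · cases j <;> cases l <;> simp [enc, sem, update_apply] <;> split_ifs <;> simp_all
    · cases j <;> rcases n with _ | _ | _ | _ | _ | n <;> simp [enc, sem]
    · simp [enc]

def wpre (b : ℕ) : List WOp → WS → Prop
  | [], _ => True
  | o :: l, w => o.pre b w ∧ wpre b l (o.sem b w)

def wrun (b : ℕ) : List WOp → WS → WS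
  | [], w => w
  | o :: l, w => wrun b l (o.sem b w)

def wprog (q : Pg Reg Sym) : List WOp → Pg Reg Sym
  | [] => Pg.skip
  | o :: l => (o.prog q).seq (wprog q l)

theorem wprog_run {q : Pg Reg Sym} {T : ℕ → ℕ} (hq : IsMul q T) (f : Fx) (hb : 1 ≤ f.b)
    (l : List WOp) : ∀ w : WS, wpre f.b l w → Run (wprog q l) (enc f w) (enc f (wrun f.b l w))
      (l.length * (1000 * f.b) + l.countP WOp.isMul * T (10 * f.b) + 1) := by
  induction l with
  | nil => exact fun w _ => (Run.skip _).mono (by simp)
  | cons o l ih =>
    intro w h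
    refine ((o.run hq f hb w h.1).seq (ih _ h.2)).mono ?_
    cases e : o.isMul <;> simp [e, add_mul] <;> omega

end Vale.Agent.P338
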