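import Vale.Agent.P338.Cmd
import Vale.Agent.P338.WOp

/-! Auxiliary stack programs: polynomial-time subroutines, halving, doubling, thresholds. -/

namespace Vale.Agent.P338

open Function Vale.Agent.PT Vale.Agent.P320

section gen
variable {ρ Γ : Type} [DecidableEq ρ]

theorem Exec.length_le {p : Pg ρ Γ} {s s' : ρ → List Γ} {t : ℕ} (h : Exec p s s' t) (r : ρ) :
    (s' r).length ≤ (s r).length + t := by
  induction h with
  | skip s => omega
  | push r' c s =>
    by_cases h : r = r'
    · subst h; simp
    · simp [update_of_ne h]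
  | pop r' s =>
    by_cases h : r = r'
    · subst h; simp; omega
    · simp [update_of_ne h]
  | seq _ _ ih1 ih2 => omega
  | cas _ ih => omega
  | loop0 _ => omega
  | loop1 _ _ _ ih1 ih2 => omega

theorem Run.length_le {p : Pg ρ Γ} {s s' : ρ → List Γ} {T : ℕ} (h : Run p s s' T) (r : ρ) :
    (s' r).length ≤ (s r).length + T := by
  obtain ⟨t, ht, h⟩ := h
  have := h.length_le r
  omega

end gen

/-- all slow registers hold bits only -/
def SlowB (S : Reg → List Sym) : Prop := ∀ r, ∃ l, S (.slow r) = eb l

theorem pf_run {α : Type} [Ctx Bool α] {F : α → List Bool} (hF : PT Bool F)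
    (inp : Ctx.ι Bool α → ℕ) (out : ℕ) (h1 : ∀ i, inp i < 5) (h2 : out < 5)
    (h3 : ∀ i, inp i ≠ out) :
    ∃ (P : Pg Reg Sym) (c : ℕ), ∀ (a : α) (S : Reg → List Sym),
      (∀ i, S (.slow (inp i)) = eb (Ctx.enc a i)) → (∀ r, S (.slow (r + 5)) = []) → SlowB S →
      S (.slow out) = [] →
      Run P S (update S (.slow out) (eb (F a))) (c * (PT.size Bool a + 1) ^ c) := by
  obtain ⟨p, T, ⟨c, d, hT⟩, hp⟩ := PT.list_iff.1 hF inp out 5 h1 h2 h3
  refine ⟨(ofPT p).map Reg.slow Sym.b fun x => match x with | .b y => some y | .sep => none,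
    c + d, fun a S hi hb hS ho => ?_⟩
  choose s hs using hS
  have inj : ∀ l m : List Bool, eb l = eb m → l = m := fun l m h =>
    List.map_injective_iff.2 (fun x y h => by simpa using h) h
  obtain ⟨t, ht, hx⟩ := hp a s (fun i => inj _ _ (by rw [← hs, hi])) fun r hr => inj _ _ (by
    obtain ⟨r, rfl⟩ := Nat.exists_eq_add_of_le' hr
    rw [← hs, hb]; rfl)
  obtain ⟨S', e1, e2, e3⟩ := (exec_ofPT hx).map (f := Reg.slow) (fun a b h => by simpa using h)
    (g := Sym.b) (g' := fun x => match x with | .b y => some y | .sep => none) (fun _ => rfl) S hs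
  have hso : s out = [] := inj _ _ (by rw [← hs, ho]; rfl)
  refine Run.of ⟨t, le_rfl, e1⟩ ?_ (ht.trans ((hT a).trans (Nat.mul_le_mul (by omega)
    (Nat.pow_le_pow_right (by omega) (by omega)))))
  funext k
  cases k with
  | slow n =>
    rw [e2]
    by_cases e : n = out
    · subst e; simp [hso]
    · simp [e, hs]
  | loc l => rw [e3 _ (by simp)]; simp
  | sub l => rw [e3 _ (by simp)]; simp

theorem pt_bitsL {α : Type} [Ctx Bool α] {k f : α → ℕ} (hk : PT Bool k) (hf : BT f) :
    PT Bool fun a => bitsL (k a) (f a) := by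
  have := PT.flatMapRange (Γ := Bool) hk (g := fun a i => cond ((f a).testBit i) [true] [false])
    (by fun_prop)
  refine this.congr fun a => ?_
  have e : (fun i => cond ((f a).testBit i) [true] [false]) = fun i => [(f a).testBit i] :=
    funext fun i => by cases (f a).testBit i <;> rfl
  rw [e, ← List.map_eq_flatMap, bitsL]

theorem pt_bin {α : Type} [Ctx Bool α] {k f : α → ℕ} (hk : PT Bool k) (hf : BT f) :
    PT Bool fun a => bin (k a) (f a) := by
  have := PT.flatMapRange (Γ := Bool) hk
    (g := fun a i => cond ((f a).testBit (k a - 1 - i)) [true] [false]) (by fun_prop)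
  refine this.congr fun a => ?_
  have e : (fun i => cond ((f a).testBit (k a - 1 - i)) [true] [false]) =
      fun i => [(f a).testBit (k a - 1 - i)] :=
    funext fun i => by cases (f a).testBit (k a - 1 - i) <;> rfl
  rw [e, ← List.map_eq_flatMap, bin]

lemma st_ext {s s' : Reg → List Sym} (h1 : ∀ l, s (.loc l) = s' (.loc l))
    (h2 : ∀ n, s (.slow n) = s' (.slow n)) (h3 : ∀ r, s (.sub r) = s' (.sub r)) : s = s' := by
  funext k
  cases k with
  | loc l => exact h1 l
  | slow n => exact h2 n
  | sub r => exact h3 r

theorem base_mul' : ∃ (p : Pg Reg Sym) (C D : ℕ), IsMul p fun n => C * (n + 1) ^ D := by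
  obtain ⟨P, c, hP⟩ := pf_run (α := List Bool × List Bool)
    (F := fun a => bin (2 * a.1.length) (ofBits a.1 * ofBits a.2))
    (pt_bin ((PT.const 2).mul (PT.length (PT.fst PT.id')))
      ((BT.ofBits (PT.fst PT.id')).mul (BT.ofBits (PT.snd PT.id'))))
    (Sum.elim (fun _ => 0) fun _ => 1) 2 (by rintro (_ | _) <;> simp) (by omega)
    (by rintro (_ | _) <;> simp)
  refine ⟨(shift rW (XR false) (.slow 0)).seq ((shift rW (XR true) (.slow 1)).seq (P.seq
    ((shift rW (.slow 2) (.loc .Z)).seq ((clear (.slow 0)).seq (clear (.slow 1)))))),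
    c * 2 ^ c + 40, c + 1, fun x y hl => ?_⟩
  refine Run.of (Run.seq (shift_run (by simp [XR]) (by simp) (by simp [XR]) _ (by simp [st2, XR]))
    (Run.seq (shift_run (by simp [XR]) (by simp) (by simp [XR]) _ (by simp [st2, XR]))
    (Run.seq (hP (x, y) _ (by rintro (_ | _) <;> simp [st2, XR, Ctx.enc])
      (fun r => by simp [st2, XR])
      (fun r => by
        rcases r with _ | _ | r
        · exact ⟨x, by simp [st2, XR]⟩
        · exact ⟨y, by simp [st2, XR]⟩
        · exact ⟨[], by simp [st2, XR]⟩) (by simp [st2, XR]))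
    (Run.seq (shift_run (by simp) (by simp) (by simp) _ (by simp [st2, XR]))
    (Run.seq (clear_run _ _) (clear_run _ _)))))) (st_ext (fun l => ?_) (fun n => ?_) fun r => ?_) ?_
  · rcases l with (_ | _) | _ | _ | _ | _ | _ | _ | _ | _ | _ | _ | _ | _ | _ <;> simp [st2, XR]
  · rcases n with _ | _ | _ | n <;> simp [st2, XR]
  · simp [st2, XR]
  · simp only [size_prod, size_list, ← hl]
    simp [st2, XR, bin, ← hl]
    have h1 : (x.length + x.length + 1) ^ c ≤ 2 ^ c * (x.length + 1) ^ (c + 1) := by
      calc _ ≤ (2 * (x.length + 1)) ^ c := Nat.pow_le_pow_left (by omega) _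
        _ = 2 ^ c * (x.length + 1) ^ c := mul_pow _ _ _
        _ ≤ _ := Nat.mul_le_mul_left _ (Nat.pow_le_pow_right (by omega) (by omega))
    have h2 : x.length + 1 ≤ (x.length + 1) ^ (c + 1) := Nat.le_self_pow (by omega) _
    have h3 := Nat.mul_le_mul_left c h1
    nlinarith

/-! ### Halving -/

def hv1 (H V : Reg) : Pg Reg Sym :=
  Pg.loop H ((Pg.pop H).seq (Pg.cas H fun o => match o with
    | none => Pg.skip
    | some c => (Pg.pop H).seq (Pg.push V c)))

lemma hv1_run {H V : Reg} (h : H ≠ V) (m : ℕ) : ∀ (s : Reg → List Sym),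
    s H = List.replicate m .sep →
    Run (hv1 H V) s (update (update s H []) V (List.replicate (m / 2) .sep ++ s V)) (5 * m + 1) := by
  induction m using Nat.strong_induction_on with
  | _ m ih =>
    intro s hs
    rcases m with _ | _ | m
    · refine (Run.loop0 hs).of ?_ (by omega)
      funext k
      simp only [update_apply]
      split_ifs <;> simp_all
    · refine (Run.loop1 (by simp [hs]) ((Run.pop _ _).seq (Run.cas (o := none) (by simp [hs])
        (Run.skip _))) (Run.loop0 (by simp [hs]))).of ?_ (by omega)
      funext k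
      simp only [update_apply]
      split_ifs <;> simp_all
    · refine (Run.loop1 (by simp [hs]) ((Run.pop _ _).seq (Run.cas (o := some .sep)
        (by simp [hs, List.replicate_succ]) ((Run.pop _ _).seq (Run.push _ _ _))))
        (ih m (by omega) _ (by simp [hs, h, List.replicate_succ]))).of ?_ (by omega)
      have e : (m + 1 + 1) / 2 = m / 2 + 1 := by omega
      funext k
      simp only [update_apply, e]
      split_ifs <;> simp_all [List.replicate_succ']

def szP (H V A B : Reg) : Pg Reg Sym :=
  Pg.loop H ((Pg.push A (.b false)).seq ((Pg.push B (.b false)).seq ((hv1 H V).seq (move V H))))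

lemma size_half {m : ℕ} (h : m ≠ 0) : m.size = (m / 2).size + 1 := by
  have := Nat.size_bit (b := m.bodd) (n := m.div2) (by rwa [Nat.bit_bodd_div2])
  rwa [Nat.bit_bodd_div2, Nat.div2_val] at this

lemma szP_run {H V A B : Reg} (h : H ≠ V) (h1 : A ≠ H) (h2 : A ≠ V) (h3 : B ≠ H) (h4 : B ≠ V)
    (h5 : A ≠ B) (m : ℕ) : ∀ (s : Reg → List Sym), s H = List.replicate m .sep → s V = [] →
    Run (szP H V A B) s (update (update (update s H []) A (List.replicate m.size (.b false) ++ s A))
      B (List.replicate m.size (.b false) ++ s B)) (24 * m + 1) := by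
  induction m using Nat.strong_induction_on with
  | _ m ih =>
    intro s hs hV
    rcases Nat.eq_zero_or_pos m with rfl | hm
    · refine (Run.loop0 hs).of ?_ (by omega)
      funext k
      simp only [update_apply]
      split_ifs <;> simp_all
    · refine (Run.loop1 (by simp [hs]; omega) ((Run.push _ _ _).seq ((Run.push _ _ _).seq
        ((hv1_run h m _ (by simp [hs, h1.symm, h3.symm])).seq (move_run h.symm _))))
        (ih (m / 2) (by omega) _ (by simp [h, h2.symm, h4.symm, hV])
          (by simp [h.symm]))).of ?_ (by simp [h2.symm, h4.symm, hV]; omega)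
      rw [size_half hm.ne']
      funext k
      simp only [update_apply]
      split_ifs <;> simp_all [List.replicate_succ']

/-! ### Doubling -/

def dblP (H U V : Reg) : Pg Reg Sym :=
  each H fun c => (each U fun x => (Pg.push V x).seq (Pg.push V x)).seq ((move V U).seq
    (cond c.bit (Pg.push U .sep) Pg.skip))

lemma dbl1_run {U V : Reg} (h : U ≠ V) (m : ℕ) (s : Reg → List Sym)
    (hU : s U = List.replicate m .sep) (hV : s V = []) :
    Run (each U fun x => (Pg.push V x).seq (Pg.push V x)) s
      (update (update s U []) V (List.replicate (2 * m) .sep)) (5 * m + 1) := by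
  have := each_run' U (fun x => (Pg.push V x).seq (Pg.push V x)) 2
    (fun u l => update (update s U l) V (List.replicate (2 * u.length) .sep))
    (fun u l => by simp [h]) (List.replicate m .sep) (fun u c l hu => by
      have hc : c = .sep := List.eq_of_mem_replicate (n := m) (by rw [← hu]; simp)
      subst hc
      refine ((Run.push _ _ _).seq (Run.push _ _ _)).congr ?_
      funext k
      simp only [update_apply]
      split_ifs <;> simp_all [mul_add, List.replicate_succ])
  simp only [List.length_nil, mul_zero, List.replicate_zero, List.length_replicate] at this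
  rw [← hU, update_eq_self, ← hV, update_eq_self, hV] at this
  exact this.mono (by omega)

lemma dblP_run {H U V : Reg} (h : U ≠ V) (h1 : H ≠ U) (h2 : H ≠ V) (l : List Bool) :
    ∀ (m : ℕ) (s : Reg → List Sym), s H = eb l → s U = List.replicate m .sep → s V = [] →
    ∃ t, t + 13 * m ≤ 13 * l.foldl (fun a b => 2 * a + b.toNat) m + 6 * l.length + 1 ∧
    Run (dblP H U V) s (update (update s H []) U
      (List.replicate (l.foldl (fun a b => 2 * a + b.toNat) m) .sep)) t := by
  induction l with
  | nil =>
    intro m s hH hU hV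
    refine ⟨1, by simp [add_comm], (Run.loop0 hH).congr ?_⟩
    funext k
    simp only [update_apply]
    split_ifs <;> simp_all
  | cons c l ih =>
    intro m s hH hU hV
    have a1 : Run ((each U fun x => (Pg.push V x).seq (Pg.push V x)).seq ((move V U).seq
        (cond c (Pg.push U .sep) Pg.skip))) (update s H (eb l))
        (update (update s H (eb l)) U (List.replicate (2 * m + c.toNat) .sep)) (13 * m + 3) := by
      cases c
      · refine ((dbl1_run h m _ (by simp [h1.symm, hU]) (by simp [h2.symm, hV])).seq
          ((move_run h.symm _).seq (Run.skip _))).of ?_ (by simp; omega)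
        funext k
        simp only [update_apply]
        split_ifs <;> simp_all
      · refine ((dbl1_run h m _ (by simp [h1.symm, hU]) (by simp [h2.symm, hV])).seq
          ((move_run h.symm _).seq (Run.push _ _ _))).of ?_ (by simp; omega)
        funext k
        simp only [update_apply]
        split_ifs <;> simp_all [List.replicate_succ]
    obtain ⟨t, ht, h3⟩ := ih (2 * m + c.toNat)
      (update (update s H (eb l)) U (List.replicate (2 * m + c.toNat) .sep)) (by simp [h1])
      (by simp) (by simp [h.symm, h2.symm, hV])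
    refine ⟨_, ?_, (Run.loop1 (by simp [hH]) (Run.cas (o := some (.b c)) (by simp [hH])
      ((Run.pop _ _).seq (by simpa [hH, Sym.bit] using a1))) h3).congr ?_⟩
    · simp only [List.foldl_cons, List.length_cons]
      omega
    · funext k
      simp only [update_apply]
      split_ifs <;> simp_all

lemma foldl_rev_bits (n : ℕ) : n.bits.reverse.foldl (fun a b => 2 * a + b.toNat) 0 = n := by
  rw [List.foldl_reverse]
  conv_rhs => rw [← ofBits_bits n, ofBits]
  congr 1
  funext b a
  simp [Nat.bit_val]

/-! ### Threshold test -/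

def thr (r : Reg) (p1 p2 : Pg Reg Sym) : ℕ → Pg Reg Sym
  | 0 => (clear r).seq p2
  | k + 1 => Pg.cas r fun o => match o with
    | none => p1
    | some _ => (Pg.pop r).seq (thr r p1 p2 k)

lemma thr_lt (r : Reg) (p1 p2 : Pg Reg Sym) (c : Sym) (k0 : ℕ) : ∀ (k : ℕ) (s s' : Reg → List Sym)
    (T : ℕ), k < k0 → s r = List.replicate k c → Run p1 (update s r []) s' T →
    Run (thr r p1 p2 k0) s s' (T + 4 * k + 1) := by
  induction k0 with
  | zero => intro k _ _ _ h; omega
  | succ k0 ih =>
    rintro (_ | k) s s' T hk hs h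
    · rw [← hs.trans List.replicate_zero, update_eq_self] at h
      exact Run.cas (o := none) (by simp [hs]) h
    · exact (Run.cas (o := some c) (by simp [hs, List.replicate_succ]) ((Run.pop _ _).seq
        (ih k _ s' T (by omega) (by simp [hs, List.replicate_succ]) (by simpa using h)))).mono
        (by omega)

lemma thr_ge (r : Reg) (p1 p2 : Pg Reg Sym) (c : Sym) (k0 : ℕ) : ∀ (k : ℕ) (s s' : Reg → List Sym)
    (T : ℕ), k0 ≤ k → s r = List.replicate k c → Run p2 (update s r []) s' T →
    Run (thr r p1 p2 k0) s s' (T + 4 * k + 1) := by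
  induction k0 with
  | zero =>
    intro k s s' T _ hs h
    exact ((clear_run r s).seq h).mono (by simp [hs]; omega)
  | succ k0 ih =>
    rintro (_ | k) s s' T hk hs h
    · omega
    · exact (Run.cas (o := some c) (by simp [hs, List.replicate_succ]) ((Run.pop _ _).seq
        (ih k _ s' T (by omega) (by simp [hs, List.replicate_succ]) (by simpa using h)))).mono
        (by omega)

lemma poly_size (c : ℕ) : ∃ C, ∀ n : ℕ, c * (n.size + 1) ^ c ≤ C * (n + 1) := by
  refine ⟨c * (c.factorial * 2 ^ c * 2), fun n => ?_⟩
  have h1 := Nat.pow_succ_le_ascFactorial (n.size + 1) c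
  rw [Nat.ascFactorial_eq_factorial_mul_choose] at h1
  have h2 := Nat.choose_le_two_pow (n.size + c) c
  have h3 : 2 ^ n.size ≤ 2 * (n + 1) := by
    rcases Nat.eq_zero_or_pos n with rfl | h
    · simp
    · have := Nat.lt_size.1 (show n.size - 1 < n.size by have := Nat.size_pos.2 h; omega)
      have e : n.size = n.size - 1 + 1 := by have := Nat.size_pos.2 h; omega
      rw [e, pow_succ]; omega
  rw [mul_assoc]
  refine Nat.mul_le_mul_left _ (h1.trans ?_)
  calc _ ≤ c.factorial * (2 ^ n.size * 2 ^ c) := by rw [← pow_add]; exact Nat.mul_le_mul_left _ h2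
    _ ≤ c.factorial * (2 * (n + 1) * 2 ^ c) := by gcongr
    _ = _ := by ring

end Vale.Agent.P338
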