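import Vale.Agent.P338.Cmd
import Vale.Agent.P338.WOp

/-! Record operations as lists of word operations. -/

namespace Vale.Agent.P338

open Function

def toD {b : ℕ} (l : List (Rec b)) : List (List Bool) := l.flatMap fun r => [r.1.1, r.2.1]

@[simp] lemma toD_cons {b : ℕ} (x : Rec b) (l) : toD (x :: l) = x.1.1 :: x.2.1 :: toD l := rfl
@[simp] lemma toD_nil {b : ℕ} : toD ([] : List (Rec b)) = [] := rfl

def toWS {b : ℕ} (s : AS b) : WS :=
  ⟨fun _ => [], fun i => toD (s.D i), s.In, s.Acc.1, s.Out, fun _ => []⟩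

def BOp.ops : BOp → List WOp
  | .fst => [.clr 2, .clr 3, .put 1 2, .put 0 2]
  | .snd => [.clr 0, .clr 1, .put 3 2, .put 2 2]
  | .zero => [.clr 0, .clr 1, .clr 2, .clr 3, .zero 0, .zero 1, .put 1 2, .put 0 2]
  | .xor => [.xor 0 2, .xor 1 3, .put 1 2, .put 0 2]
  | .add => [.add 0 2, .add 1 3, .put 1 2, .put 0 2]
  | .sub => [.neg 2, .add 0 2, .neg 3, .add 1 3, .put 1 2, .put 0 2]
  | .addh => [.half 2, .add 0 2, .half 3, .add 1 3, .put 1 2, .put 0 2]
  | .subh => [.half 2, .neg 2, .add 0 2, .half 3, .neg 3, .add 1 3, .put 1 2, .put 0 2]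
  | .bfly => [.cpy 0 4, .cpy 2 5, .add 4 5, .cpy 1 5, .cpy 3 6, .neg 6, .add 5 6, .neg 5, .add 4 5,
      .half 4, .add 1 3, .neg 2, .add 0 2, .add 1 0, .half 1, .put 1 2, .put 4 2]
  | .mul => [.mul 0 2 4, .mul 1 3 5, .neg 5, .add 4 5, .mul 0 3 5, .mul 1 2 6, .add 5 6,
      .clr 0, .clr 1, .clr 2, .clr 3, .put 5 2, .put 4 2]
  | .muls => [.mul 0 2 4, .mul 1 3 5, .neg 5, .add 4 5, .mul 0 3 5, .mul 1 2 6, .add 5 6,
      .clr 0, .clr 1, .clr 2, .clr 3, .shr 4, .shr 5, .put 5 2, .put 4 2]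

def ldOps : List WOp :=
  [.get 0 0, .get 0 1, .cpy 0 2, .cpy 1 3, .put 3 0, .put 2 0,
    .get 1 2, .get 1 3, .cpy 2 4, .cpy 3 5, .put 5 1, .put 4 1]

def Mic.ops : Mic → List WOp
  | .nop => []
  | .mv i j => [.get i 0, .get i 1, .put 1 j, .put 0 j]
  | .cp i j => [.get i 0, .get i 1, .cpy 0 2, .cpy 1 3, .put 1 i, .put 0 i, .put 3 j, .put 2 j]
  | .dr i => [.get i 0, .get i 1, .clr 0, .clr 1]
  | .bin o => ldOps ++ o.ops
  | .read y => [.zero 1, .read y 0, .put 1 0, .put 0 0]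
  | .emit => [.get 0 0, .get 0 1, .clr 1, .emit 0]

lemma wpre_append (b : ℕ) (l m : List WOp) (w : WS) :
    wpre b (l ++ m) w ↔ wpre b l w ∧ wpre b m (wrun b l w) := by
  induction l generalizing w with
  | nil => simp [wpre, wrun]
  | cons o l ih => simp [wpre, wrun, ih, and_assoc]

lemma wrun_append (b : ℕ) (l m : List WOp) (w : WS) :
    wrun b (l ++ m) w = wrun b m (wrun b l w) := by
  induction l generalizing w with
  | nil => rfl
  | cons o l ih => simp [wrun, ih]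

lemma WS.ext' {w w' : WS} (h1 : ∀ r, w.R r = w'.R r) (h2 : ∀ i, w.D i = w'.D i)
    (h3 : w.In = w'.In) (h4 : w.Acc = w'.Acc) (h5 : w.Out = w'.Out) (h6 : w.L = w'.L) : w = w' := by
  cases w; cases w'; simp_all [funext_iff]

/-- the state after loading both operands -/
def ldWS {b : ℕ} (s : AS b) (x y : Rec b) : WS :=
  { toWS s with R := ![x.1.1, x.2.1, y.1.1, y.2.1, [], [], [], []] }

lemma ld_sim {b : ℕ} (s : AS b) (x y : Rec b) (l m) (hx : s.D 0 = x :: l) (hy : s.D 1 = y :: m) :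
    wpre b ldOps (toWS s) ∧ wrun b ldOps (toWS s) = ldWS s x y := by
  have := x.1.2; have := x.2.2; have := y.1.2; have := y.2.2
  constructor
  · simp [ldOps, wpre, WOp.pre, WOp.sem, toWS, *]
  · refine WS.ext' (fun r => ?_) (fun i => ?_) rfl rfl rfl rfl
    · fin_cases r <;> simp [ldOps, wrun, WOp.sem, toWS, ldWS, *]
    · fin_cases i <;> simp [ldOps, wrun, WOp.sem, toWS, ldWS, *]

lemma bop_sim {b : ℕ} (s : AS b) (x y : Rec b) (o : BOp) :
    wpre b o.ops (ldWS s x y) ∧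
      wrun b o.ops (ldWS s x y) = toWS (s.set 2 (o.sem x y :: s.D 2)) := by
  have := x.1.2; have := x.2.2; have := y.1.2; have := y.2.2
  have hs : ∀ l : List Bool, l.length = 10 * b → (shrW b l).length = 10 * b := fun l => shrW_length
  constructor
  · cases o <;> simp [BOp.ops, wpre, WOp.pre, WOp.sem, toWS, ldWS, *]
  · refine WS.ext' (fun r => ?_) (fun i => ?_) ?_ ?_ ?_ ?_
    · cases o <;> fin_cases r <;> simp [BOp.ops, wrun, WOp.sem, toWS, ldWS]
    · cases o <;> fin_cases i <;> simp [BOp.ops, wrun, WOp.sem, toWS, ldWS, BOp.sem, Wd.zero,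
        Wd.xor, Wd.add, Wd.sub, Wd.neg, Wd.half, Wd.mul, Wd.shr]
    all_goals cases o <;> rfl

lemma mic_sim {b : ℕ} (m : Mic) (s : AS b) (h : m.pre s) :
    wpre b m.ops (toWS s) ∧ wrun b m.ops (toWS s) = toWS (m.sem s) := by
  cases m with
  | nop => exact ⟨trivial, rfl⟩
  | mv i j =>
    obtain ⟨x, l, hl⟩ := List.exists_cons_of_ne_nil h.2
    have := x.1.2; have := x.2.2; have := h.1
    refine ⟨by simp [Mic.ops, wpre, WOp.pre, WOp.sem, toWS, *], ?_⟩
    refine WS.ext' (fun r => ?_) (fun k => ?_) rfl rfl rfl rfl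
    · fin_cases r <;> simp [Mic.ops, wrun, WOp.sem, toWS]
    · simp only [Mic.ops, wrun, WOp.sem, toWS, Mic.sem, AS.set_D, update_apply]
      split_ifs <;> simp_all
  | cp i j =>
    obtain ⟨x, l, hl⟩ := List.exists_cons_of_ne_nil h
    have := x.1.2; have := x.2.2
    refine ⟨by simp [Mic.ops, wpre, WOp.pre, WOp.sem, toWS, *], ?_⟩
    refine WS.ext' (fun r => ?_) (fun k => ?_) rfl rfl rfl rfl
    · fin_cases r <;> simp [Mic.ops, wrun, WOp.sem, toWS]
    · by_cases h1 : k = j <;> by_cases h2 : k = i <;> by_cases h3 : j = i <;>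
        simp_all [Mic.ops, wrun, WOp.sem, toWS, Mic.sem, update_apply]
  | dr i =>
    obtain ⟨x, l, hl⟩ := List.exists_cons_of_ne_nil h
    have := x.1.2; have := x.2.2
    refine ⟨by simp [Mic.ops, wpre, WOp.pre, WOp.sem, toWS, *], ?_⟩
    refine WS.ext' (fun r => ?_) (fun k => ?_) rfl rfl rfl rfl
    · fin_cases r <;> simp [Mic.ops, wrun, WOp.sem, toWS]
    · by_cases h2 : k = i <;> simp_all [Mic.ops, wrun, WOp.sem, toWS, Mic.sem, update_apply]
  | bin o =>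
    obtain ⟨x, l, hl⟩ := List.exists_cons_of_ne_nil h.1
    obtain ⟨y, m, hm⟩ := List.exists_cons_of_ne_nil h.2
    obtain ⟨h1, h2⟩ := ld_sim s x y l m hl hm
    obtain ⟨h3, h4⟩ := bop_sim s x y o
    refine ⟨(wpre_append _ _ _ _).2 ⟨h1, by rwa [h2]⟩, ?_⟩
    rw [Mic.ops, wrun_append, h2, h4]
    simp [Mic.sem, hl, hm]
  | read y =>
    refine ⟨by simp [Mic.ops, wpre, WOp.pre, WOp.sem, toWS], ?_⟩
    refine WS.ext' (fun r => ?_) (fun k => ?_) rfl rfl rfl rfl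
    · fin_cases r <;> simp [Mic.ops, wrun, WOp.sem, toWS]
    · fin_cases k <;> simp [Mic.ops, wrun, WOp.sem, toWS, Mic.sem, AS.set, Wd.zero]
  | emit =>
    obtain ⟨x, l, hl⟩ := List.exists_cons_of_ne_nil h
    have := x.1.2; have := x.2.2; have := s.Acc.2
    refine ⟨by simp [Mic.ops, wpre, WOp.pre, WOp.sem, toWS, *], ?_⟩
    refine WS.ext' (fun r => ?_) (fun k => ?_) rfl ?_ ?_ rfl
    · fin_cases r <;> simp [Mic.ops, wrun, WOp.sem, toWS]
    · fin_cases k <;> simp [Mic.ops, wrun, WOp.sem, toWS, Mic.sem, AS.set, hl]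
    · simp [Mic.ops, wrun, WOp.sem, toWS, Mic.sem, hl, Wd.add]
    · simp [Mic.ops, wrun, WOp.sem, toWS, Mic.sem, hl, Wd.add]

lemma mic_cost (m : Mic) {b μ T : ℕ} (hb : 1 ≤ b) (hT : T ≤ μ * b) :
    m.ops.length * (1000 * b) + m.ops.countP WOp.isMul * T + 1 ≤ m.cost μ * (30001 * b) := by
  cases m with
  | bin o => cases o <;> simp [Mic.ops, BOp.ops, ldOps, Mic.cost, BOp.cost, WOp.isMul,
      List.countP_cons] <;> nlinarith
  | _ => simp [Mic.ops, Mic.cost, WOp.isMul] <;> omega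

theorem mic_run {q : Pg Reg Sym} {T : ℕ → ℕ} (hq : IsMul q T) (f : Fx) (hb : 1 ≤ f.b) {μ : ℕ}
    (hT : T (10 * f.b) ≤ μ * f.b) (m : Mic) (s : AS f.b) (h : m.pre s) :
    Run (wprog q m.ops) (enc f (toWS s)) (enc f (toWS (m.sem s))) (m.cost μ * (30001 * f.b)) := by
  obtain ⟨h1, h2⟩ := mic_sim m s h
  exact (wprog_run hq f hb _ _ h1).of (by rw [h2]) (mic_cost m hb hT)

end Vale.Agent.P338
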