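import Vale.Agent.P338.CompA
import Vale.Agent.P338.CompB

/-! The interpreter loop with a control stack. -/

namespace Vale.Agent.P338

open Function Vale.Agent.PT Vale.Agent.P320

def encA (a : Ar) : List Bool := encL (a.l.map Bin.mk)

lemma encA_len {a : Ar} (h : Sm 0 a) : (encA a).length ≤ 3 * (a.z + 1) ^ 2 := by
  have key : ∀ l : List ℕ, (∀ x ∈ l, x < 2 ^ a.z) →
      (encL (l.map Bin.mk)).length ≤ l.length * (2 * a.z + 1) := fun l => by
    induction l with
    | nil => simp [encL]
    | cons x l ih =>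
      intro hl
      have h1 := ih fun y hy => hl y (List.mem_cons_of_mem _ hy)
      have h2 := len_bits_le (hl x List.mem_cons_self)
      simp only [encL, List.map_cons, List.flatMap_cons, List.length_append, length_esc, pack_bin,
        List.length_cons] at h1 ⊢
      nlinarith
  have h1 := key a.l h.2
  have h2 : a.l.length ≤ a.z := h.1
  have h3 := Nat.mul_le_mul_right (2 * a.z + 1) h2
  unfold encA
  nlinarith

lemma size_ar (a : Ar) : PT.size Bool a = a.z + (encA a).length := by
  have : PT.size Bool a = PT.size Bool ((a.z, a.l.map Bin.mk) : ℕ × List Bin) := rfl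
  rw [this, size_prod, size_nat, size_L, encA]

def stt (b z : ℕ) (nn k : List Sym) (env : List Bool) (s : AS b) : Reg → List Sym :=
  enc ⟨b, k, nn, List.replicate z false, env⟩ (toWS s)

abbrev rK : Reg := .loc .K

def item (i : ℕ) (env : List Bool) : List Sym :=
  eb (List.replicate i false) ++ .sep :: (eb env ++ [.sep])

def pushLab (i : ℕ) : Pg Reg Sym := (Pg.push rK .sep).seq (rep i (Pg.push rK (.b false)))

lemma pushLab_run (i : ℕ) (s : Reg → List Sym) :
    Run (pushLab i) s (update s rK (eb (List.replicate i false) ++ .sep :: s rK)) (i + 2) := by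
  have := rep_run (Pg.push rK (.b false)) 1 i
    (fun j => update s rK (eb (List.replicate j false) ++ .sep :: s rK)) fun j _ =>
      (Run.push _ _ _).congr (by simp [List.replicate_succ])
  exact ((Run.push _ _ _).seq (by simpa using this)).of (by simp) (by omega)

def pushItem (i : ℕ) : Pg Reg Sym :=
  (cpy rW (.slow 1) rH).seq ((putW rW rH rK).seq (pushLab i))

lemma pushItem_run (i : ℕ) {b z : ℕ} {nn k env} {s : AS b} :
    Run (pushItem i) (stt b z nn k env s) (stt b z nn (item i env ++ k) env s)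
      (17 * env.length + i + 7) := by
  refine Run.of (Run.seq (cpy_run (by simp) (by simp) (by simp) _ (by rfl))
    (Run.seq (putW_run (by simp) (by simp) (by simp) _ (by simp [stt, enc])) (pushLab_run _ _)))
    (st_ext (fun l => ?_) (fun n => ?_) fun r => ?_) (by simp [stt, enc]; omega)
  · cases l <;> simp [stt, enc, item]
  · rcases n with _ | _ | _ | _ | _ | n <;> simp [stt, enc]
  · simp [stt, enc]

lemma clrEnv_run {b z : ℕ} {nn k env} {s : AS b} :
    Run (clear (.slow 1)) (stt b z nn k env s) (stt b z nn k [] s) (4 * env.length + 1) := by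
  refine Run.of (clear_run _ _) (st_ext (fun l => ?_) (fun n => ?_) fun r => ?_)
    (by simp [stt, enc]; omega)
  · cases l <;> simp [stt, enc]
  · rcases n with _ | _ | _ | _ | _ | n <;> simp [stt, enc]
  · simp [stt, enc]

lemma stt_slowB {b z : ℕ} {nn k env} {s : AS b} : SlowB (stt b z nn k env s) := fun r => by
  rcases r with _ | _ | _ | _ | _ | n
  all_goals first | exact ⟨_, rfl⟩ | exact ⟨[], rfl⟩

lemma SlowB.upd {S} (h : SlowB S) (j : ℕ) (l : List Bool) : SlowB (update S (.slow j) (eb l)) :=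
  fun r => by
    by_cases e : r = j
    · exact ⟨l, by simp [e]⟩
    · simpa [e] using h r

/-- the precondition of one interpreter step -/
def spre {b : ℕ} : Cmd → Ar → AS b → Prop
  | .op m, _, s => m.pre s
  | .arg f _, a, _ => Sm 0 (a.w (f a))
  | _, _, _ => True

def spush (lab : Cmd × Cmd → ℕ) (e : Cmd) : Cmd → Ar → List Sym
  | .op _, _ => []
  | .ld _ _, _ => []
  | .seq c d, a => item (lab (e, c)) (encA a) ++ item (lab (e, d)) (encA a)
  | .ite p c d, a => item (lab (e, cond (p a) c d)) (encA a)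
  | .arg f c, a => item (lab (e, c)) (encA (a.w (f a)))
  | .fix c, a => item (lab (c, c)) (encA a)
  | .self, a => item (lab (e, e)) (encA a)

def seff {b : ℕ} : Cmd → Ar → AS b → AS b
  | .op m, _, s => m.sem s
  | .ld f g, a, s => s.set 0 ((Wd.ofNat b (f (a, b)), Wd.ofNat b (g (a, b))) :: s.D 0)
  | _, _, s => s

def scost (μ σ : ℕ) : Cmd → ℕ
  | .op m => m.cost μ
  | .ld _ _ => σ + 1
  | _ => 1

lemma scost_pos (μ σ : ℕ) (c : Cmd) : 1 ≤ scost μ σ c := by
  cases c with
  | op m =>
    cases m with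
    | bin o => cases o <;> simp [scost, Mic.cost, BOp.cost]
    | _ => simp [scost, Mic.cost]
  | _ => simp [scost]

def Spec (lab : Cmd × Cmd → ℕ) (Tq : ℕ → ℕ) (C : ℕ) (x : Cmd × Cmd) (P : Pg Reg Sym) : Prop :=
  ∀ (b μ σ : ℕ) (nn k : List Sym) (a : Ar) (s : AS b), Sm 0 a → C * (a.z + 1) ^ C ≤ b →
    Tq (10 * b) ≤ μ * b → C * (a.z + b + 1) ^ C ≤ σ * b → spre x.2 a s →
    Run P (stt b a.z nn k (encA a) s) (stt b a.z nn (spush lab x.1 x.2 a ++ k) [] (seff x.2 a s))
      (scost μ σ x.2 * (C * b))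

lemma pw_mono {C C' u : ℕ} (h : C ≤ C') : C * (u + 1) ^ C ≤ C' * (u + 1) ^ C' :=
  Nat.mul_le_mul h (Nat.pow_le_pow_right (by omega) h)

lemma Spec.mono {lab Tq C C' x P} (h : Spec lab Tq C x P) (hC : C ≤ C') : Spec lab Tq C' x P :=
  fun b μ σ nn k a s h1 h2 h3 h4 h5 =>
    (h b μ σ nn k a s h1 ((pw_mono hC).trans h2) h3 ((pw_mono hC).trans h4) h5).mono
      (Nat.mul_le_mul_left _ (Nat.mul_le_mul_right _ hC))

/-- basic consequences of the budget hypothesis -/
lemma budget {C b : ℕ} {a : Ar} (hC : 3 ≤ C) (h : Sm 0 a) (h2 : C * (a.z + 1) ^ C ≤ b) :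
    (encA a).length ≤ b ∧ C ≤ b := by
  have h1 := encA_len h
  have h3 : (a.z + 1) ^ 2 ≤ (a.z + 1) ^ C := Nat.pow_le_pow_right (by omega) (by omega)
  have h4 : 1 ≤ (a.z + 1) ^ C := Nat.one_le_pow _ _ (by omega)
  constructor <;> nlinarith

lemma poly_bd (c : ℕ) : ∃ C, 3 ≤ C ∧ ∀ u v : ℕ, v ≤ u + 3 * (u + 1) ^ 2 →
    c * (v + 1) ^ c ≤ C * (u + 1) ^ C := by
  refine ⟨c * 4 ^ c + 2 * c + 3, by omega, fun u v h => ?_⟩
  have h1 : v + 1 ≤ 4 * (u + 1) ^ 2 := by nlinarith
  calc c * (v + 1) ^ c ≤ c * (4 * (u + 1) ^ 2) ^ c := Nat.mul_le_mul_left _ (Nat.pow_le_pow_left h1 _)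
    _ = c * 4 ^ c * (u + 1) ^ (2 * c) := by rw [mul_pow, ← pow_mul]; ring
    _ ≤ _ := Nat.mul_le_mul (by omega) (Nat.pow_le_pow_right (by omega) (by omega))

lemma ar_run {F : Ar → List Bool} (hF : PT Bool F) : ∃ (P : Pg Reg Sym) (C : ℕ), 3 ≤ C ∧
    ∀ (b : ℕ) nn k (a : Ar) (s : AS b), Sm 0 a → Run P (stt b a.z nn k (encA a) s)
      (update (stt b a.z nn k (encA a) s) (.slow 3) (eb (F a))) (C * (a.z + 1) ^ C) := by
  obtain ⟨P, c, hP⟩ := pf_run hF (Sum.elim (fun _ => 0) fun _ => 1) 3 (by rintro (_ | _) <;> simp)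
    (by omega) (by rintro (_ | _) <;> simp)
  obtain ⟨C, h1, h2⟩ := poly_bd c
  refine ⟨P, C, h1, fun b nn k a s ha => (hP a _ (by rintro (_ | _) <;> rfl) (fun _ => rfl)
    stt_slowB rfl).mono (h2 _ _ ?_)⟩
  have := encA_len ha
  rw [size_ar]; omega

lemma arb_run {F : Ar × ℕ → List Bool} (hF : PT Bool F) (j : ℕ) (h3 : 3 ≤ j) (h5 : j < 5) :
    ∃ (P : Pg Reg Sym) (C : ℕ), 3 ≤ C ∧
    ∀ (b : ℕ) (a : Ar) (S : Reg → List Sym), Sm 0 a → S (.slow 0) = eb (List.replicate a.z false) →
      S (.slow 1) = eb (encA a) → S (.slow 2) = eb (List.replicate b false) →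
      (∀ r, S (.slow (r + 5)) = []) → SlowB S → S (.slow j) = [] →
      Run P S (update S (.slow j) (eb (F (a, b)))) (C * (a.z + b + 1) ^ C) := by
  obtain ⟨P, c, hP⟩ := pf_run hF (Sum.elim (Sum.elim (fun _ => 0) fun _ => 1) fun _ => 2) j
    (by rintro ((_ | _) | _) <;> simp) h5 (by rintro ((_ | _) | _) <;> simp <;> omega)
  obtain ⟨C, h1, h2⟩ := poly_bd c
  refine ⟨P, C, h1, fun b a S ha e0 e1 e2 e3 e4 e5 => (hP (a, b) _
    (by rintro ((_ | _) | _) <;> assumption) e3 e4 e5).mono (h2 _ _ ?_)⟩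
  have := encA_len ha
  have : (a.z + 1) ^ 2 ≤ (a.z + b + 1) ^ 2 := Nat.pow_le_pow_left (by omega) _
  rw [size_prod, size_ar, size_nat]
  simp only
  omega

theorem spec_exists {q : Pg Reg Sym} {Tq : ℕ → ℕ} (hq : IsMul q Tq) (lab : Cmd × Cmd → ℕ) (M : ℕ)
    (hM : ∀ x, lab x ≤ M) (x : Cmd × Cmd) (hx : x.2.ok) : ∃ P C, Spec lab Tq C x P := by
  obtain ⟨e, c⟩ := x
  cases c with
  | op m =>
    refine ⟨(wprog q m.ops).seq (clear (.slow 1)), 30006, fun b μ σ nn k a s h1 h2 h3 h4 h5 => ?_⟩
    obtain ⟨b1, b2⟩ := budget (by omega) h1 h2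
    have := scost_pos μ σ (.op m)
    refine ((mic_run hq ⟨b, k, nn, _, _⟩ (by simp; omega) h3 m s h5).seq clrEnv_run).mono ?_
    simp only [scost] at this ⊢
    clear h2 h4 h3
    have e1 := Nat.le_mul_of_pos_left (5 * b) this
    have e2 : m.cost μ * (30006 * b) = m.cost μ * (30001 * b) + m.cost μ * (5 * b) := by ring
    omega
  | ld f g =>
    obtain ⟨P1, C1, c1, hP1⟩ := arb_run (F := fun y => bitsL (10 * y.2) (f y))
      (pt_bitsL (by fun_prop) hx.1) 3 (by omega) (by omega)
    obtain ⟨P2, C2, c2, hP2⟩ := arb_run (F := fun y => bitsL (10 * y.2) (g y))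
      (pt_bitsL (by fun_prop) hx.2) 4 (by omega) (by omega)
    refine ⟨P1.seq (P2.seq ((wprog q [.ld false 0, .ld true 1, .put 1 0, .put 0 0]).seq
      (clear (.slow 1)))), C1 + C2 + 4006, fun b μ σ nn k a s h1 h2 h3 h4 h5 => ?_⟩
    obtain ⟨b1, b2⟩ := budget (by omega) h1 h2
    have a3 := wprog_run hq ⟨b, k, nn, List.replicate a.z false, encA a⟩ (by simp; omega)
      [.ld false 0, .ld true 1, .put 1 0, .put 0 0]
      { toWS s with L := fun j => cond j (bitsL (10 * b) (g (a, b))) (bitsL (10 * b) (f (a, b))) }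
      (by simp [wpre, WOp.pre, WOp.sem, toWS])
    have e3 : wrun b [.ld false 0, .ld true 1, .put 1 0, .put 0 0]
        { toWS s with L := fun j => cond j (bitsL (10 * b) (g (a, b))) (bitsL (10 * b) (f (a, b))) } =
        toWS (seff (.ld f g) a s) := by
      refine WS.ext' (fun r => ?_) (fun i => ?_) rfl rfl rfl ?_
      · fin_cases r <;> simp [wrun, WOp.sem, toWS]
      · fin_cases i <;> simp [wrun, WOp.sem, toWS, seff, Wd.ofNat]
      · funext j; cases j <;> simp [wrun, WOp.sem, toWS]
    rw [e3] at a3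
    refine ((hP1 b a _ h1 rfl rfl rfl (fun _ => rfl) stt_slowB rfl).seq
      (((hP2 b a _ h1 (by simp [stt, enc]) (by simp [stt, enc]) (by simp [stt, enc])
        (fun _ => by simp [stt, enc]) (stt_slowB.upd _ _) (by simp [stt, enc, toWS])).congr
        (st_ext (fun l => ?_) (fun n => ?_) fun r => ?_)).seq (a3.seq clrEnv_run))).mono ?_
    · cases l <;> simp [stt, enc, toWS]
    · rcases n with _ | _ | _ | _ | _ | n <;> simp [stt, enc, toWS]
    · simp [stt, enc]
    · have e1 := Nat.mul_le_mul_left C1 (Nat.pow_le_pow_right (n := a.z + b + 1) (by omega)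
        (show C1 ≤ C1 + C2 + 4006 by omega))
      have e2 := Nat.mul_le_mul_left C2 (Nat.pow_le_pow_right (n := a.z + b + 1) (by omega)
        (show C2 ≤ C1 + C2 + 4006 by omega))
      have e4 : σ * b ≤ σ * ((C1 + C2 + 4006) * b) :=
        Nat.mul_le_mul_left _ (Nat.le_mul_of_pos_left _ (by omega))
      have e5 : (σ + 1) * ((C1 + C2 + 4006) * b) =
          σ * ((C1 + C2 + 4006) * b) + (C1 + C2) * b + 4006 * b := by ring
      simp only [scost, List.length_cons, List.length_nil, WOp.isMul, List.countP_cons,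
        List.countP_nil]
      rw [e5]
      rw [add_mul, add_mul] at h4
      generalize (a.z + b + 1) ^ (C1 + C2 + 4006) = u at *
      simp
      omega
  | seq c d =>
    refine ⟨(pushItem (lab (e, d))).seq ((pushItem (lab (e, c))).seq (clear (.slow 1))), 2 * M + 60,
      fun b μ σ nn k a s h1 h2 h3 h4 h5 => ?_⟩
    obtain ⟨b1, b2⟩ := budget (by omega) h1 h2
    have := hM (e, c); have := hM (e, d)
    refine ((pushItem_run _).seq ((pushItem_run _).seq clrEnv_run)).of (by simp [spush, seff]) ?_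
    simp only [scost]
    clear h2 h4
    nlinarith
  | ite p c d =>
    obtain ⟨P1, C1, c1, hP1⟩ := ar_run (F := fun a => cond (p a) [false] [])
      (PT.cond' hx.1 (PT.const _) (PT.const _))
    refine ⟨P1.seq ((Pg.cas (.slow 3) fun o => (Pg.pop (.slow 3)).seq
      (pushItem (lab (e, cond o.isSome c d)))).seq (clear (.slow 1))), C1 + M + 40,
      fun b μ σ nn k a s h1 h2 h3 h4 h5 => ?_⟩
    obtain ⟨b1, b2⟩ := budget (by omega) h1 h2
    have := hM (e, cond (p a) c d)
    have e1 := pw_mono (u := a.z) (show C1 ≤ C1 + M + 40 by omega)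
    refine ((hP1 b nn k a s h1).seq ((Run.cas (o := cond (p a) (some (.b false)) none)
      (by cases p a <;> simp) (((Run.pop _ _).congr (s'' := stt b a.z nn k (encA a) s) ?_).seq
      (T2 := 17 * (encA a).length + lab (e, cond (p a) c d) + 7) ?_)).seq
      (clrEnv_run (env := encA a)))).mono ?_
    · refine st_ext (fun l => by simp) (fun n => ?_) fun r => by simp
      rcases n with _ | _ | _ | _ | _ | n <;> cases p a <;> simp [stt, enc, toWS]
    · simp only [spush, seff]
      cases p a <;> exact pushItem_run _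
    · simp only [scost]
      have e2 := e1.trans h2
      clear h2 h4 e1
      generalize C1 * (a.z + 1) ^ C1 = u at *
      nlinarith
  | arg f c =>
    obtain ⟨P1, C1, c1, hP1⟩ := ar_run (F := fun a => encL ((f a).map Bin.mk)) (ptL_iff.1 hx.1)
    refine ⟨P1.seq (((putW rW (.slow 3) rK).seq (pushLab (lab (e, c)))).seq (clear (.slow 1))),
      C1 + M + 40, fun b μ σ nn k a s h1 h2 h3 h4 h5 => ?_⟩
    obtain ⟨b1, b2⟩ := budget (by omega) h1 h2
    obtain ⟨b3, -⟩ := budget (a := a.w (f a)) (by omega) h5 h2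
    have := hM (e, c)
    have e1 := pw_mono (u := a.z) (show C1 ≤ C1 + M + 40 by omega)
    refine ((hP1 b nn k a s h1).seq ((((putW_run (by simp) (by simp) (by simp) _
      (by simp [stt, enc])).seq (pushLab_run _ _)).congr
        (st_ext (fun l => ?_) (fun n => ?_) fun r => ?_)).seq
        (clrEnv_run (env := encA a)))).mono ?_
    · cases l <;> simp [stt, enc, toWS, seff, spush, item, encA]
    · rcases n with _ | _ | _ | _ | _ | n <;> simp [stt, enc, toWS]
    · simp [stt, enc]
    · simp only [scost, encA, Ar.w_l] at b3 ⊢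
      simp only [update_self, List.length_map]
      simp only [encA] at b1
      have e2 := e1.trans h2
      clear h2 h4 e1
      generalize C1 * (a.z + 1) ^ C1 = u at *
      nlinarith
  | fix c =>
    refine ⟨(pushItem (lab (c, c))).seq (clear (.slow 1)), M + 40,
      fun b μ σ nn k a s h1 h2 h3 h4 h5 => ?_⟩
    obtain ⟨b1, b2⟩ := budget (by omega) h1 h2
    have := hM (c, c)
    refine ((pushItem_run _).seq clrEnv_run).mono ?_
    simp only [scost]
    clear h2 h4
    nlinarith
  | self =>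
    refine ⟨(pushItem (lab (e, e))).seq (clear (.slow 1)), M + 40,
      fun b μ σ nn k a s h1 h2 h3 h4 h5 => ?_⟩
    obtain ⟨b1, b2⟩ := budget (by omega) h1 h2
    have := hM (e, e)
    refine ((pushItem_run _).seq clrEnv_run).mono ?_
    simp only [scost]
    clear h2 h4
    nlinarith

/-! ### Labels -/

def subs : Cmd → Cmd → List (Cmd × Cmd)
  | e, .seq c d => (e, .seq c d) :: (subs e c ++ subs e d)
  | e, .ite p c d => (e, .ite p c d) :: (subs e c ++ subs e d)
  | e, .arg f c => (e, .arg f c) :: subs e c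
  | e, .fix c => (e, .fix c) :: subs c c
  | e, c => [(e, c)]

lemma self_mem_subs (e c : Cmd) : (e, c) ∈ subs e c := by cases c <;> simp [subs]

/-- closure under the interpreter's successors -/
def Cl (L : List (Cmd × Cmd)) (e : Cmd) : Cmd → Prop
  | .seq c d => (e, c) ∈ L ∧ (e, d) ∈ L
  | .ite _ c d => (e, c) ∈ L ∧ (e, d) ∈ L
  | .arg _ c => (e, c) ∈ L
  | .fix c => (c, c) ∈ L
  | .self => (e, e) ∈ L
  | _ => True

lemma subs_cl (L : List (Cmd × Cmd)) (c : Cmd) : ∀ e, (e, e) ∈ L → subs e c ⊆ L → c.ok →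
    ∀ x ∈ subs e c, Cl L x.1 x.2 ∧ x.2.ok := by
  induction c with
  | op m => intro e _ _ h x hx; simp only [subs, List.mem_singleton] at hx; subst hx; exact ⟨trivial, h⟩
  | ld f g => intro e _ _ h x hx; simp only [subs, List.mem_singleton] at hx; subst hx; exact ⟨trivial, h⟩
  | self => intro e he _ h x hx; simp only [subs, List.mem_singleton] at hx; subst hx; exact ⟨he, h⟩
  | seq c d ih1 ih2 =>
    intro e he hL h x hx
    simp only [subs, List.cons_subset, List.append_subset] at hL
    simp only [subs, List.mem_cons, List.mem_append] at hx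
    rcases hx with rfl | hx | hx
    · exact ⟨⟨hL.2.1 (self_mem_subs _ _), hL.2.2 (self_mem_subs _ _)⟩, h⟩
    · exact ih1 e he hL.2.1 h.1 x hx
    · exact ih2 e he hL.2.2 h.2 x hx
  | ite p c d ih1 ih2 =>
    intro e he hL h x hx
    simp only [subs, List.cons_subset, List.append_subset] at hL
    simp only [subs, List.mem_cons, List.mem_append] at hx
    rcases hx with rfl | hx | hx
    · exact ⟨⟨hL.2.1 (self_mem_subs _ _), hL.2.2 (self_mem_subs _ _)⟩, h⟩
    · exact ih1 e he hL.2.1 h.2.1 x hx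
    · exact ih2 e he hL.2.2 h.2.2 x hx
  | arg f c ih =>
    intro e he hL h x hx
    simp only [subs, List.cons_subset] at hL
    simp only [subs, List.mem_cons] at hx
    rcases hx with rfl | hx
    · exact ⟨hL.2 (self_mem_subs _ _), h⟩
    · exact ih e he hL.2 h.2 x hx
  | fix c ih =>
    intro e he hL h x hx
    simp only [subs, List.cons_subset] at hL
    simp only [subs, List.mem_cons] at hx
    rcases hx with rfl | hx
    · exact ⟨hL.2 (self_mem_subs _ _), h⟩
    · exact ih c (hL.2 (self_mem_subs _ _)) hL.2 h x hx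

def mainP (n : ℕ) (A : ℕ → Pg Reg Sym) : Pg Reg Sym :=
  Pg.loop rK ((getW rF rW rK rH).seq ((getW rF rW rK (.slow 1)).seq (disp rH n A)))

lemma main_step {n i : ℕ} {A : ℕ → Pg Reg Sym} (hi : i < n) {b z : ℕ} {nn k env} {s : AS b}
    {S S' : Reg → List Sym} {T1 T2 : ℕ} (h1 : Run (A i) (stt b z nn k env s) S T1)
    (h2 : Run (mainP n A) S S' T2) :
    Run (mainP n A) (stt b z nn (item i env ++ k) [] s) S'
      (T2 + T1 + 10 * n + 8 * env.length + 16) := by
  refine (Run.loop1 (by simp [stt, enc, item]) (Run.seq (getW_run (by simp) (by simp) (by simp)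
    (by simp) (by simp) (List.replicate i false) (eb env ++ .sep :: k) _ rfl rfl rfl
    (by simp [stt, enc, item])) (Run.seq (getW_run (by simp) (by simp) (by simp)
    (by simp) (by simp) env k _ (by simp [stt, enc]) (by simp [stt, enc]) (by simp [stt, enc])
    (by simp)) (disp_run rH (.b false) i n A _ S T1 hi (by simp) ?_))) h2).mono (by simp; omega)
  refine (congrArg (fun u => Run (A i) u S T1) ?_).mp h1
  refine st_ext (fun l => ?_) (fun n => ?_) fun r => ?_
  · cases l <;> simp [stt, enc]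
  · rcases n with _ | _ | _ | _ | _ | n <;> simp [stt, enc]
  · simp [stt, enc]

theorem interp {q : Pg Reg Sym} {Tq : ℕ → ℕ} (hq : IsMul q Tq) (c : Cmd) (hc : c.ok) :
    ∃ (P : Pg Reg Sym) (i0 C : ℕ), ∀ (X : Cx) (nn : List Sym) (a : Ar) (s s' : AS X.b) (t : ℕ),
      Sm 0 a → C * (a.z + 1) ^ C ≤ X.b → Tq (10 * X.b) ≤ X.μ * X.b →
      C * (a.z + X.b + 1) ^ C ≤ X.σ * X.b → Ex X .self c a s s' t →
      Run P (stt X.b a.z nn (item i0 (encA a)) [] s) (stt X.b a.z nn [] [] s')
        (t * (C * X.b) + 1) := by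
  classical
  set L : List (Cmd × Cmd) := (.self, .self) :: subs .self c with hL
  have hcl : ∀ x ∈ L, Cl L x.1 x.2 ∧ x.2.ok := fun x hx => by
    rcases List.mem_cons.1 hx with rfl | hx
    · exact ⟨List.mem_cons_self, trivial⟩
    · exact subs_cl L c .self List.mem_cons_self (List.subset_cons_self _ _) hc x hx
  set lab : Cmd × Cmd → ℕ := fun x => L.idxOf x with hlab
  have h1 : ∀ x : Cmd × Cmd, ∃ P C, x.2.ok → Spec lab Tq C x P := fun x => by
    by_cases hx : x.2.ok
    · obtain ⟨P, C, h⟩ := spec_exists hq lab L.length (fun _ => List.idxOf_le_length) x hx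
      exact ⟨P, C, fun _ => h⟩
    · exact ⟨.skip, 0, fun h => absurd h hx⟩
  choose PP CC hPP using h1
  set C0 := (L.map CC).sum + 3 with hC0
  have h2 : ∀ x ∈ L, Spec lab Tq C0 x (PP x) := fun x hx => (hPP x (hcl x hx).2).mono
    ((List.le_sum_of_mem (List.mem_map_of_mem hx)).trans (by omega))
  set A : ℕ → Pg Reg Sym := fun i => PP (L.getD i (.self, .self)) with hA
  refine ⟨mainP L.length A, lab (.self, c), C0 + 10 * L.length + 24,
    fun X nn a s s' t ha hb hT hσ hx => ?_⟩
  set C := C0 + 10 * L.length + 24 with hC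
  have step : ∀ (x : Cmd × Cmd) (a' : Ar) (s : AS X.b) k S T, x ∈ L → Sm 0 a' → a'.z = a.z →
      spre x.2 a' s → Run (mainP L.length A)
        (stt X.b a.z nn (spush lab x.1 x.2 a' ++ k) [] (seff x.2 a' s)) S T →
      Run (mainP L.length A) (stt X.b a.z nn (item (lab x) (encA a') ++ k) [] s) S
        (T + scost X.μ X.σ x.2 * (C * X.b)) := by
    intro x a' s k S T hx ha' hz hp hr
    rw [← hz] at hb hσ hr ⊢
    have hi : lab x < L.length := List.idxOf_lt_length_iff.2 hx
    have e : A (lab x) = PP x := by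
      simp only [hA, hlab]
      rw [List.getD_eq_getElem _ _ hi, List.getElem_idxOf]
    obtain ⟨b1, b2⟩ := budget (by omega) ha' hb
    have := h2 x hx X.b X.μ X.σ nn k a' s ha' ((pw_mono (by omega)).trans hb) hT
      ((pw_mono (by omega)).trans hσ) hp
    rw [← e] at this
    refine (main_step hi this hr).mono ?_
    have h3 := scost_pos X.μ X.σ x.2
    have h4 : 10 * L.length + 8 * (encA a').length + 16 ≤ (10 * L.length + 24) * X.b := by
      nlinarith
    have h5 := Nat.le_mul_of_pos_left ((10 * L.length + 24) * X.b) h3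
    rw [hC]
    nlinarith
  have key : ∀ e c a' (s s' : AS X.b) t, Ex X e c a' s s' t → (e, c) ∈ L → Sm 0 a' → a'.z = a.z →
      ∀ k S T, Run (mainP L.length A) (stt X.b a.z nn k [] s') S T →
      Run (mainP L.length A) (stt X.b a.z nn (item (lab (e, c)) (encA a') ++ k) [] s) S
        (T + t * (C * X.b)) := by
    intro e c a' s s' t hx
    induction hx with
    | op h => exact fun hm ha' hz k S T hr => step _ _ _ k S T hm ha' hz h hr
    | ld => exact fun hm ha' hz k S T hr => step _ _ _ k S T hm ha' hz trivial hr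
    | seq _ _ ih1 ih2 =>
      intro hm ha' hz k S T hr
      have := ih1 (hcl _ hm).1.1 ha' hz _ S _ (ih2 (hcl _ hm).1.2 ha' hz k S T hr)
      refine (step _ _ _ k S _ hm ha' hz trivial (by simpa [spush, seff] using this)).mono ?_
      simp only [scost]; nlinarith
    | @ite e p c d a' s s' t _ ih =>
      intro hm ha' hz k S T hr
      have := ih (by cases p a'; exacts [(hcl _ hm).1.2, (hcl _ hm).1.1]) ha' hz k S T hr
      refine (step _ _ _ k S _ hm ha' hz trivial this).mono ?_
      simp only [scost]; nlinarith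
    | arg hs _ ih =>
      intro hm ha' hz k S T hr
      refine (step _ _ _ k S _ hm ha' hz hs (ih (hcl _ hm).1 hs hz k S T hr)).mono ?_
      simp only [scost]; nlinarith
    | fix _ ih =>
      intro hm ha' hz k S T hr
      refine (step _ _ _ k S _ hm ha' hz trivial (ih (hcl _ hm).1 ha' hz k S T hr)).mono ?_
      simp only [scost]; nlinarith
    | self _ ih =>
      intro hm ha' hz k S T hr
      refine (step _ _ _ k S _ hm ha' hz trivial (ih (hcl _ hm).1 ha' hz k S T hr)).mono ?_
      simp only [scost]; nlinarith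
  have := key _ _ _ _ _ _ hx (List.mem_cons_of_mem _ (self_mem_subs _ _)) ha rfl [] _ 1
    (Run.loop0 rfl)
  simpa [add_comm] using this

end Vale.Agent.P338
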