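import Vale.Agent.P338.Lang

/-! Compiling stack programs to multitape Turing machines. -/

namespace Vale.Agent.P338

open Function

variable {ρ Γ : Type}

inductive Ins (ρ Γ Λ : Type) : Type
  | nop (n : Option Λ)
  | push (r : ρ) (c : Γ) (n : Option Λ)
  | pop (r : ρ) (n : Option Λ)
  | br (r : ρ) (f : Option Γ → Option Λ)

def Lab : Pg ρ Γ → Type
  | .skip => Unit
  | .push _ _ => Unit
  | .pop _ => Unit
  | .seq p q => Lab p ⊕ Lab q
  | .cas _ f => Option (Σ o : Option Γ, Lab (f o))
  | .loop _ p => Option (Lab p)

theorem finite_lab [Finite Γ] : ∀ p : Pg ρ Γ, Finite (Lab p)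
  | .skip => inferInstanceAs (Finite Unit)
  | .push _ _ => inferInstanceAs (Finite Unit)
  | .pop _ => inferInstanceAs (Finite Unit)
  | .seq p q => by
    have := finite_lab p
    have := finite_lab q
    exact inferInstanceAs (Finite (Lab p ⊕ Lab q))
  | .cas _ f => by
    have := fun o => finite_lab (f o)
    exact inferInstanceAs (Finite (Option (Σ o : Option Γ, Lab (f o))))
  | .loop _ p => by
    have := finite_lab p
    exact inferInstanceAs (Finite (Option (Lab p)))

def entry : (p : Pg ρ Γ) → Lab p
  | .skip => ()
  | .push _ _ => ()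
  | .pop _ => ()
  | .seq p _ => Sum.inl (entry p)
  | .cas _ _ => none
  | .loop _ _ => none

def regs : Pg ρ Γ → Set ρ
  | .skip => ∅
  | .push r _ => {r}
  | .pop r => {r}
  | .seq p q => regs p ∪ regs q
  | .cas r f => insert r (⋃ o, regs (f o))
  | .loop r p => insert r (regs p)

theorem regs_finite [Finite Γ] : ∀ p : Pg ρ Γ, (regs p).Finite
  | .skip => Set.finite_empty
  | .push _ _ => Set.finite_singleton _
  | .pop _ => Set.finite_singleton _
  | .seq p q => (regs_finite p).union (regs_finite q)
  | .cas _ f => (Set.finite_iUnion fun o => regs_finite (f o)).insert _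
  | .loop _ p => (regs_finite p).insert _

variable {Λ : Type}

def code : (p : Pg ρ Γ) → (Lab p → Λ) → Option Λ → Lab p → Ins ρ Γ Λ
  | .skip, _, ex, _ => .nop ex
  | .push r c, _, ex, _ => .push r c ex
  | .pop r, _, ex, _ => .pop r ex
  | .seq p q, emb, _, Sum.inl l =>
      code p (fun x => emb (Sum.inl x)) (some (emb (Sum.inr (entry q)))) l
  | .seq _ q, emb, ex, Sum.inr l => code q (fun x => emb (Sum.inr x)) ex l
  | .cas r f, emb, _, none => .br r fun o => some (emb (some ⟨o, entry (f o)⟩))
  | .cas _ f, emb, ex, some ⟨o, l⟩ => code (f o) (fun x => emb (some ⟨o, x⟩)) ex l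
  | .loop r p, emb, ex, none => .br r fun o => if o.isSome then some (emb (some (entry p))) else ex
  | .loop _ p, emb, _, some l => code p (fun x => emb (some x)) (some (emb none)) l

def Ins.In (U : Set ρ) : Ins ρ Γ Λ → Prop
  | .nop _ => True
  | .push r _ _ => r ∈ U
  | .pop r _ => r ∈ U
  | .br r _ => r ∈ U

theorem code_in (U : Set ρ) : ∀ (p : Pg ρ Γ) (emb : Lab p → Λ) (ex : Option Λ) (l : Lab p),
    regs p ⊆ U → (code p emb ex l).In U
  | .skip, _, _, _, _ => trivial
  | .push _ _, _, _, _, h => h rfl
  | .pop _, _, _, _, h => h rfl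
  | .seq p _, _, _, Sum.inl l, h => code_in U p _ _ l (Set.subset_union_left.trans h)
  | .seq _ q, _, _, Sum.inr l, h => code_in U q _ _ l (Set.subset_union_right.trans h)
  | .cas _ _, _, _, none, h => h (Set.mem_insert _ _)
  | .cas _ f, _, _, some ⟨o, l⟩, h => code_in U (f o) _ _ l
      (((Set.subset_iUnion (fun o => regs (f o)) o).trans (Set.subset_insert _ _)).trans h)
  | .loop _ _, _, _, none, h => h (Set.mem_insert _ _)
  | .loop _ p, _, _, some l, h => code_in U p _ _ l ((Set.subset_insert _ _).trans h)

variable [DecidableEq ρ]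

def fstep (M : Λ → Ins ρ Γ Λ) : Option Λ × (ρ → List Γ) → Option Λ × (ρ → List Γ)
  | (none, s) => (none, s)
  | (some l, s) => match M l with
    | .nop n => (n, s)
    | .push r c n => (n, update s r (c :: s r))
    | .pop r n => (n, update s r (s r).tail)
    | .br r f => (f (s r).head?, s)

theorem simulate (M : Λ → Ins ρ Γ Λ) {p : Pg ρ Γ} {s s' : ρ → List Γ} {t : ℕ}
    (h : Exec p s s' t) : ∀ (emb : Lab p → Λ) (ex : Option Λ),
      (∀ l, M (emb l) = code p emb ex l) → (fstep M)^[t] (some (emb (entry p)), s) = (ex, s') := by
  induction h with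
  | skip s => intro emb ex hM; simp [fstep, hM, code]
  | push r c s => intro emb ex hM; simp [fstep, hM, code]
  | pop r s => intro emb ex hM; simp [fstep, hM, code]
  | @seq p q s s1 s2 t1 t2 _ _ ih1 ih2 =>
    intro emb ex hM
    rw [add_comm t1 t2, iterate_add_apply]
    have h1 := ih1 (fun x => emb (Sum.inl x)) (some (emb (Sum.inr (entry q))))
      (fun l => hM (Sum.inl l))
    have h2 := ih2 (fun x => emb (Sum.inr x)) ex (fun l => hM (Sum.inr l))
    exact (congrArg _ h1).trans h2
  | @cas r f s s' t _ ih =>
    intro emb ex hM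
    have h1 := ih (fun x => emb (some ⟨_, x⟩)) ex (fun l => hM (some ⟨_, l⟩))
    have h0 : M (emb (entry (Pg.cas r f))) =
      .br r fun o => some (emb (some ⟨o, entry (f o)⟩)) := hM none
    rw [iterate_succ_apply]
    simp only [fstep, h0]
    exact h1
  | @loop0 r p s hs =>
    intro emb ex hM
    have h0 : M (emb (entry (Pg.loop r p))) =
      .br r fun o => if o.isSome then some (emb (some (entry p))) else ex := hM none
    simp [fstep, h0, hs]
  | @loop1 r p s s1 s2 t1 t2 hs _ _ ih1 ih2 =>
    intro emb ex hM
    have h1 := ih1 (fun x => emb (some x)) (some (emb none)) (fun l => hM (some l))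
    have h2 := ih2 emb ex hM
    have h3 : ((s r).head?).isSome = true := by
      cases h : s r with
      | nil => exact absurd h hs
      | cons a l => rfl
    have h0 : M (emb (entry (Pg.loop r p))) =
      .br r fun o => if o.isSome then some (emb (some (entry p))) else ex := hM none
    rw [iterate_succ_apply, add_comm t1 t2, iterate_add_apply]
    simp only [fstep, h0, h3, if_true]
    exact (congrArg _ h1).trans h2

/-- tape symbols of the data language -/
inductive Sym
  | b (x : Bool)
  | sep
  deriving DecidableEq, Fintype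

def tp : List Sym → ℕ → Option Sym
  | [] => fun _ => none
  | c :: l => update (tp l) (l.length + 1) (some c)

lemma tp_gt (l : List Sym) {i : ℕ} (h : l.length < i) : tp l i = none := by
  induction l with
  | nil => rfl
  | cons c l ih =>
    simp only [List.length_cons] at h
    rw [tp, update_of_ne (by omega), ih (by omega)]

lemma tp_top (l : List Sym) : tp l l.length = l.head? := by
  cases l <;> simp [tp]

lemma tp_pop (c : Sym) (l : List Sym) : update (tp (c :: l)) (l.length + 1) none = tp l := by
  rw [tp, update_idem, update_eq_self_iff, tp_gt l (by omega)]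

inductive MS (Λ : Type)
  | rd (y : Bool) | put (y : Bool) (c : Sym) | run (l : Λ) | push2 (l : Λ) | wr | fin

instance [Finite Λ] : Finite (MS Λ) := by
  refine Finite.of_surjective (fun x : (Bool ⊕ Bool × Sym) ⊕ (Λ ⊕ Λ) ⊕ Bool => match x with
    | .inl (.inl y) => MS.rd y
    | .inl (.inr (y, c)) => MS.put y c
    | .inr (.inl (.inl l)) => MS.run l
    | .inr (.inl (.inr l)) => MS.push2 l
    | .inr (.inr true) => MS.wr
    | .inr (.inr false) => MS.fin) ?_
  rintro (y | ⟨y, c⟩ | l | l | _ | _)
  exacts [⟨.inl (.inl y), rfl⟩, ⟨.inl (.inr (y, c)), rfl⟩, ⟨.inr (.inl (.inl l)), rfl⟩,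
    ⟨.inr (.inl (.inr l)), rfl⟩, ⟨.inr (.inr true), rfl⟩, ⟨.inr (.inr false), rfl⟩]

def goto : Option Λ → MS Λ
  | none => .wr
  | some l => .run l

section mach

variable (U : Set ρ) [DecidablePred (· ∈ U)]

abbrev Tps := Bool ⊕ U

def rdT (a : Tps U → Option Sym) (r : ρ) : Option Sym := if h : r ∈ U then a (.inr ⟨r, h⟩) else none

/-- action: `w` on the tape of register `r`, `i` on the input tape, `o` on the output tape -/
def act (a : Tps U → Option Sym) (r : ρ) (w : Option Sym × Move) (i : Move)
    (o : Option (Option Sym)) : Tps U → Option Sym × Move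
  | .inl false => (a (.inl false), i)
  | .inl true => match o with
    | none => (a (.inl true), .stay)
    | some c => (c, .right)
  | .inr r' => if r'.1 = r then w else (a (.inr r'), .stay)

def delta (M : Λ → Ins ρ Sym Λ) (l0 : Λ) (X : Bool → ρ) (Z : ρ) :
    MS Λ → (Tps U → Option Sym) → MS Λ × (Tps U → Option Sym × Move)
  | .rd y, a => match a (.inl false) with
    | some (.b c) => (.put y (.b c), act U a (X y) (rdT U a (X y), .right) .right none)
    | _ => (cond y (.run l0) (.rd true), act U a Z (rdT U a Z, .stay) .right none)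
  | .put y c, a => (.rd y, act U a (X y) (some c, .stay) .stay none)
  | .run l, a => match M l with
    | .nop n => (goto n, act U a Z (rdT U a Z, .stay) .stay none)
    | .push r _ _ => (.push2 l, act U a r (rdT U a r, .right) .stay none)
    | .pop r n => (goto n, act U a r (none, .left) .stay none)
    | .br r f => (goto (f (rdT U a r)), act U a r (rdT U a r, .stay) .stay none)
  | .push2 l, a => match M l with
    | .push r c n => (goto n, act U a r (some c, .stay) .stay none)
    | _ => (.fin, act U a Z (rdT U a Z, .stay) .stay none)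
  | .wr, a => match rdT U a Z with
    | some c => (.wr, act U a Z (none, .left) .stay (some (some c)))
    | none => (.fin, act U a Z (none, .stay) .stay none)
  | .fin, a => (.fin, act U a Z (rdT U a Z, .stay) .stay none)

@[reducible] def mach [Finite Λ] (hU : U.Finite) (M : Λ → Ins ρ Sym Λ) (l0 : Λ) (X : Bool → ρ) (Z : ρ) : TM where
  Q := MS Λ
  Γ := Option Sym
  Tp := Tps U
  finQ := inferInstance
  finΓ := inferInstance
  finTp := by have := hU.to_subtype; infer_instance
  start := .rd false
  halt := fun q => match q with
    | .fin => true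
    | _ => false
  blank := none
  hash := some .sep
  bit := fun b => some (.b b)
  bit_inj := fun a b h => by simpa using h
  bit_ne_blank := by simp
  bit_ne_hash := by simp
  hash_ne_blank := by simp
  inp := .inl false
  out := .inl true
  inp_ne_out := by simp
  δ := delta U M l0 X Z

variable {U} [Finite Λ] {hU : U.Finite} {M : Λ → Ins ρ Sym Λ} {l0 : Λ} {X : Bool → ρ} {Z : ρ}

/-- the configuration with given state, input tape and head, output word, stacks -/
def cfg (hU : U.Finite) (M : Λ → Ins ρ Sym Λ) (l0 : Λ) (X : Bool → ρ) (Z : ρ) (q : MS Λ)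
    (I : ℕ → Option Sym) (i : ℕ) (o : List Sym) (s : ρ → List Sym) (e : ρ → ℕ) :
    Cfg (mach U hU M l0 X Z) where
  state := q
  head := fun j => match j with
    | .inl false => i
    | .inl true => o.length
    | .inr r => (s r.1).length + e r.1
  tape := fun j => match j with
    | .inl false => I
    | .inl true => fun k => (o.map some).getD k none
    | .inr r => tp (s r.1)

lemma step_of (M : TM) (c : Cfg M) (h : M.halt c.state = false) (d)
    (hd : M.δ c.state (fun j => c.tape j (c.head j)) = d) : step M c =
    { state := d.1, head := fun j => (d.2 j).2.act (c.head j),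
      tape := fun j => update (c.tape j) (c.head j) (d.2 j).1 } := by
  subst hd; rw [step, h, if_neg (by simp)]

lemma step_eq {q q' : MS Λ} {I i o s e i' o' s' e'} (hq : q ≠ .fin) (r : ρ) (w : Option Sym × Move)
    (mi : Move) (oo : Option Sym)
    (hd : ∀ a : Tps U → Option Sym, a (.inl false) = I i →
      (∀ r, r ∈ U → rdT U a r = tp (s r) ((s r).length + e r)) →
      delta U M l0 X Z q a = (q', act U a r w mi (oo.map some)))
    (hi : i' = mi.act i) (ho : o' = o ++ oo.toList)
    (hs : ∀ r', r' ≠ r → s' r' = s r' ∧ e' r' = e r')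
    (h1 : r ∈ U → (s' r).length + e' r = w.2.act ((s r).length + e r))
    (h2 : r ∈ U → tp (s' r) = update (tp (s r)) ((s r).length + e r) w.1) :
    step _ (cfg hU M l0 X Z q I i o s e) = cfg hU M l0 X Z q' I i' o' s' e' := by
  have hh : (mach U hU M l0 X Z).halt q = false := by cases q <;> simp_all [mach]
  have key := hd (fun j => (cfg hU M l0 X Z q I i o s e).tape j
    ((cfg hU M l0 X Z q I i o s e).head j)) rfl (fun r hr => by simp [rdT, hr, cfg])
  rw [step_of _ _ hh _ key]
  simp only [cfg]
  congr 1
  · funext j
    rcases j with (_ | _) | r'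
    · simp [act, hi]
    · cases oo <;> simp [act, ho, Move.act]
    · by_cases h : r'.1 = r
      · simp only [act, h, if_true]; exact (h1 (h ▸ r'.2)).symm
      · simp [act, h, hs _ h, Move.act]
  · funext j
    rcases j with (_ | _) | r'
    · simp [act]
    · cases oo with
      | none => simp [act, ho]
      | some c =>
        funext k
        simp only [act, ho, Option.map_some, Option.toList_some, List.map_append]
        by_cases hk : k = o.length
        · subst hk; simp
        · rw [update_of_ne hk]
          rcases lt_or_gt_of_ne hk with h | h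
          · simp [List.getD_eq_getElem?_getD, List.getElem?_append_left, h]
          · rw [List.getD_eq_default _ _ (by simp; omega), List.getD_eq_default _ _ (by simp; omega)]
    · by_cases h : r'.1 = r
      · simp only [act, h, if_true]; exact (h2 (h ▸ r'.2)).symm
      · simp [act, h, hs _ h]

lemma push_steps {q q1 q' : MS Λ} {I i o s i'} (r : ρ) (hr : r ∈ U) (c : Sym) (mi : Move)
    (hq : q ≠ .fin) (hq1 : q1 ≠ .fin) (hi : i' = mi.act i)
    (hd : ∀ a : Tps U → Option Sym, a (.inl false) = I i →
      delta U M l0 X Z q a = (q1, act U a r (rdT U a r, .right) mi none))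
    (hd' : ∀ a : Tps U → Option Sym,
      delta U M l0 X Z q1 a = (q', act U a r (some c, .stay) .stay none)) :
    (step _)^[2] (cfg hU M l0 X Z q I i o s 0) =
      cfg hU M l0 X Z q' I i' o (update s r (c :: s r)) 0 := by
  have a1 := step_eq (hU := hU) (M := M) (l0 := l0) (X := X) (Z := Z) (q := q) (q' := q1) (I := I)
    (i := i) (o := o) (s := s) (e := 0) (i' := i') (o' := o) (s' := s) (e' := update 0 r 1) hq r
    (tp (s r) (s r).length, .right) mi none (fun a h1 h2 => by
      rw [hd a h1, h2 r hr]; rfl) hi (by simp) (fun r' h => ⟨rfl, by simp [update_of_ne h]⟩)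
    (fun _ => by simp [Move.act]) (fun _ => by simp)
  have a2 := step_eq (hU := hU) (M := M) (l0 := l0) (X := X) (Z := Z) (q := q1) (q' := q') (I := I)
    (i := i') (o := o) (s := s) (e := update 0 r 1) (i' := i') (o' := o)
    (s' := update s r (c :: s r)) (e' := 0) hq1 r (some c, .stay) .stay none
    (fun a _ _ => hd' a) rfl (by simp) (fun r' h => by simp [update_of_ne h])
    (fun _ => by simp [Move.act]) (fun _ => by simp [tp])
  change step _ (step _ _) = _
  rw [a1, a2]

lemma stay_step {q q' : MS Λ} {I i o s i'} (r : ρ) (hr : r ∈ U) (mi : Move) (hq : q ≠ .fin)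
    (hi : i' = mi.act i)
    (hd : ∀ a : Tps U → Option Sym, a (.inl false) = I i → rdT U a r = (s r).head? →
      delta U M l0 X Z q a = (q', act U a r (rdT U a r, .stay) mi none)) :
    step _ (cfg hU M l0 X Z q I i o s 0) = cfg hU M l0 X Z q' I i' o s 0 :=
  step_eq hq r (tp (s r) (s r).length, .stay) mi none (fun a h1 h2 => by
      have := h2 r hr
      simp only [Pi.zero_apply, add_zero] at this
      rw [hd a h1 (by rw [this, tp_top]), this]; rfl) hi (by simp) (fun _ _ => ⟨rfl, rfl⟩)
    (fun _ => by simp [Move.act]) (fun _ => by simp)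

lemma pop_step {q q' : MS Λ} {I i o s} (r : ρ) (hq : q ≠ .fin) (oo : Option Sym)
    (hd : ∀ a : Tps U → Option Sym, (r ∈ U → rdT U a r = (s r).head?) →
      delta U M l0 X Z q a = (q', act U a r (none, .left) .stay (oo.map some))) :
    step _ (cfg hU M l0 X Z q I i o s 0) =
      cfg hU M l0 X Z q' I i (o ++ oo.toList) (update s r (s r).tail) 0 :=
  step_eq hq r (none, .left) .stay oo (fun a _ h2 => hd a fun hr => by
      simpa [tp_top] using h2 r hr) rfl rfl
    (fun r' h => by simp [update_of_ne h]) (fun _ => by simp [Move.act]) (fun _ => by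
      cases h : s r with
      | nil => simp [tp]
      | cons c l => simp [tp_pop])

lemma run_step (hM : ∀ l, (M l).In U) (hZ : Z ∈ U) (I i o) (l : Λ) (s : ρ → List Sym) :
    ∃ t ≤ 2, (step _)^[t] (cfg hU M l0 X Z (.run l) I i o s 0) =
      cfg hU M l0 X Z (goto (fstep M (some l, s)).1) I i o (fstep M (some l, s)).2 0 := by
  have hl := hM l
  cases h : M l with
  | nop n =>
    refine ⟨1, by omega, ?_⟩
    simp only [fstep, h, iterate_one]
    exact stay_step Z hZ .stay (by simp) rfl fun a _ _ => by simp [delta, h]
  | push r c n =>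
    rw [h] at hl
    refine ⟨2, le_rfl, ?_⟩
    simp only [fstep, h]
    exact push_steps (q1 := .push2 l) r hl c .stay (by simp) (by simp) rfl
      (fun a _ => by simp [delta, h]) (fun a => by simp [delta, h])
  | pop r n =>
    refine ⟨1, by omega, ?_⟩
    simp only [fstep, h]
    simpa using pop_step (hU := hU) (q := .run l) (q' := goto n) (I := I) (i := i) (o := o) (s := s)
      r (by simp) none fun a _ => by simp [delta, h]
  | br r f =>
    rw [h] at hl
    refine ⟨1, by omega, ?_⟩
    simp only [fstep, h, iterate_one]
    exact stay_step r hl .stay (by simp) rfl fun a _ h2 => by simp [delta, h, h2]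

lemma run_steps (hM : ∀ l, (M l).In U) (hZ : Z ∈ U) (I i o) (t : ℕ) :
    ∀ (l : Option Λ) (s : ρ → List Sym), ∃ t' ≤ 2 * t,
      (step _)^[t'] (cfg hU M l0 X Z (goto l) I i o s 0) =
      cfg hU M l0 X Z (goto ((fstep M)^[t] (l, s)).1) I i o ((fstep M)^[t] (l, s)).2 0 := by
  induction t with
  | zero => exact fun l s => ⟨0, le_rfl, rfl⟩
  | succ t ih =>
    intro l s
    rw [iterate_succ_apply]
    cases l with
    | none =>
      obtain ⟨t', h1, h2⟩ := ih none s
      exact ⟨t', by omega, h2⟩
    | some l =>
      obtain ⟨t1, h1, h2⟩ := run_step (hU := hU) (l0 := l0) (X := X) hM hZ I i o l s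
      obtain ⟨t', h3, h4⟩ := ih (fstep M (some l, s)).1 (fstep M (some l, s)).2
      refine ⟨t' + t1, by omega, ?_⟩
      rw [iterate_add_apply]
      exact (congrArg _ h2).trans h4

lemma read_steps (y : Bool) (hX : X y ∈ U) (I : ℕ → Option Sym) (x : List Bool) :
    ∀ (i : ℕ) (s : ρ → List Sym), (∀ k (hk : k < x.length), I (i + k) = some (.b x[k])) →
      (step _)^[2 * x.length] (cfg hU M l0 X Z (.rd y) I i [] s 0) =
      cfg hU M l0 X Z (.rd y) I (i + x.length) []
        (update s (X y) ((x.map Sym.b).reverse ++ s (X y))) 0 := by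
  induction x with
  | nil => intro i s _; simp
  | cons c x ih =>
    intro i s hI
    have h0 : I i = some (.b c) := hI 0 (by simp)
    have a1 := push_steps (hU := hU) (M := M) (l0 := l0) (X := X) (Z := Z) (q := .rd y)
      (q1 := .put y (.b c)) (q' := .rd y) (I := I) (i := i) (o := []) (s := s) (i' := i + 1)
      (X y) hX (.b c) .right (by simp) (by simp) rfl
      (fun a h => by simp [delta, h, h0]) (fun a => by simp [delta])
    have a2 := ih (i + 1) (update s (X y) (.b c :: s (X y))) (fun k hk => by
      have := hI (k + 1) (by simpa using hk)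
      rwa [← add_assoc, add_right_comm] at this)
    rw [List.length_cons, mul_add, mul_one, iterate_add_apply, a1, a2]
    simp [add_assoc, add_comm 1]

lemma write_steps (hZ : Z ∈ U) (I i) (z : List Sym) : ∀ (o : List Sym) (s : ρ → List Sym),
    s Z = z → ∃ s', (step _)^[z.length + 1] (cfg hU M l0 X Z .wr I i o s 0) =
      cfg hU M l0 X Z .fin I i (o ++ z) s' 0 := by
  induction z with
  | nil =>
    intro o s hs
    refine ⟨s, ?_⟩
    rw [List.append_nil, List.length_nil, zero_add, iterate_one]
    exact stay_step Z hZ .stay (by simp) rfl fun a _ h => by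
      rw [hs] at h; simp only [List.head?_nil] at h; simp [delta, h]
  | cons c z ih =>
    intro o s hs
    have a1 := pop_step (hU := hU) (M := M) (l0 := l0) (X := X) (Z := Z) (q := .wr) (q' := .wr)
      (I := I) (i := i) (o := o) (s := s) Z (by simp) (some c) fun a h => by
        have := h hZ
        rw [hs] at this; simp only [List.head?_cons] at this; simp [delta, this]
    obtain ⟨s', h'⟩ := ih (o ++ [c]) (update s Z (s Z).tail) (by simp [hs])
    refine ⟨s', ?_⟩
    rw [List.length_cons, iterate_succ_apply, a1]
    simpa using h'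

end mach

/-- start state of a multiplication program: operands with the least significant bit on top -/
def st2 (X : Bool → ρ) (x y : List Bool) : ρ → List Sym :=
  update (update (fun _ => []) (X false) (x.map .b)) (X true) (y.map .b)

theorem exists_tm (p : Pg ρ Sym) (X : Bool → ρ) (hX : X false ≠ X true) (Z : ρ) :
    ∃ M : TM, ∀ (x y z : List Bool) (s' : ρ → List Sym) (T : ℕ),
      Run p (st2 X x.reverse y.reverse) s' T → s' Z = z.map .b →
      ∃ t ≤ 2 * T + 2 * (x.length + y.length) + z.length + 3, Halted M x y t ∧
        ((step M)^[t] (init M x y)).tape M.out = tapeOf M (z.map M.bit) := by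
  classical
  have := finite_lab p
  set U : Set ρ := regs p ∪ {X false, X true, Z}
  have hU : U.Finite := (regs_finite p).union (Set.toFinite _)
  have hM : ∀ l, (code p id none l).In U := fun l => code_in U p _ _ l Set.subset_union_left
  have hX' : ∀ y, X y ∈ U := fun y => by cases y <;> simp [U]
  have hZ : Z ∈ U := by simp [U]
  refine ⟨mach U hU (code p id none) (entry p) X Z, fun x y z s' T ⟨t, ht, hx⟩ hz => ?_⟩
  set I : ℕ → Option Sym := fun k => (x.map (fun b => some (Sym.b b)) ++ some Sym.sep ::
    y.map (fun b => some (Sym.b b))).getD k none with hI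
  have e0 : init (mach U hU (code p id none) (entry p) X Z) x y =
      cfg hU (code p id none) (entry p) X Z (.rd false) I 0 [] (fun _ => []) 0 := by
    simp only [init, cfg]
    congr 1
    · funext j; rcases j with (_ | _) | r <;> rfl
    · funext j
      rcases j with (_ | _) | r
      · rw [if_pos rfl]; rfl
      · rw [if_neg (by simp [mach])]; rfl
      · rw [if_neg (by simp [mach])]; rfl
  have a1 := read_steps (hU := hU) (M := code p id none) (l0 := entry p) (Z := Z) false (hX' _) I x
    0 (fun _ => []) (fun k hk => by
      simp [hI, List.getD_eq_getElem?_getD, List.getElem?_append_left, hk])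
  have a2 : step _ (cfg hU (code p id none) (entry p) X Z (.rd false) I (0 + x.length) []
      (update (fun _ => []) (X false) ((x.map Sym.b).reverse ++ [])) 0) = _ :=
    stay_step (q' := .rd true) (i' := x.length + 1) Z hZ .right (by simp) (by simp [Move.act])
      fun a h _ => by
        have : a (.inl false) = some .sep := by rw [h]; simp [hI]
        simp [delta, this]
  have a3 := read_steps (hU := hU) (M := code p id none) (l0 := entry p) (Z := Z) true (hX' _) I y
    (x.length + 1) (update (fun _ => []) (X false) ((x.map Sym.b).reverse ++ [])) (fun k hk => by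
      simp [hI, List.getD_eq_getElem?_getD, List.getElem?_append_right, add_assoc,
        add_comm 1 k, hk])
  have e3 : update (update (fun _ => []) (X false) ((x.map Sym.b).reverse ++ [])) (X true)
      ((y.map Sym.b).reverse ++ update (fun _ => ([] : List Sym)) (X false)
        ((x.map Sym.b).reverse ++ []) (X true)) = st2 X x.reverse y.reverse := by
    simp [st2, update_of_ne hX.symm]
  rw [e3] at a3
  have a4 : step _ (cfg hU (code p id none) (entry p) X Z (.rd true) I (x.length + 1 + y.length) []
      (st2 X x.reverse y.reverse) 0) = _ :=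
    stay_step (q' := .run (entry p)) (i' := x.length + 1 + y.length + 1) Z hZ .right (by simp) rfl
      fun a h _ => by
        have : a (.inl false) = none := by
          rw [h, hI]; exact List.getD_eq_default _ _ (by simp; omega)
        simp [delta, this]
  obtain ⟨t', ht', a5⟩ := run_steps (hU := hU) (l0 := entry p) (X := X) hM hZ I
    (x.length + 1 + y.length + 1) [] t (some (entry p)) (st2 X x.reverse y.reverse)
  have sim := simulate (code p id none) hx id none (fun _ => rfl)
  simp only [id] at sim
  rw [sim] at a5
  obtain ⟨s'', a6⟩ := write_steps (hU := hU) (M := code p id none) (l0 := entry p) (X := X) hZ I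
    (x.length + 1 + y.length + 1) (z.map .b) [] s' hz
  have fin : (step _)^[((z.map Sym.b).length + 1) + (t' + (1 + (2 * y.length + (1 + 2 * x.length))))]
      (init (mach U hU (code p id none) (entry p) X Z) x y) =
      cfg hU (code p id none) (entry p) X Z .fin I (x.length + 1 + y.length + 1)
        ([] ++ z.map .b) s'' 0 := by
    rw [iterate_add_apply _ (_ + 1), iterate_add_apply _ t', iterate_add_apply _ 1,
      iterate_add_apply _ (2 * y.length), iterate_add_apply _ 1, e0, a1, iterate_one, a2, a3, a4]
    exact (congrArg _ a5).trans a6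
  refine ⟨_, ?_, by rw [Halted, fin]; rfl, ?_⟩
  · simp only [List.length_map]; omega
  · rw [fin]
    funext k
    simp [cfg, mach, tapeOf, Function.comp_def]

end Vale.Agent.P338
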