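import Vale.Agent.P338.FieldShear

/-! In-place discrete Fourier transforms of length `s` on the blocks of one coordinate, as a fixed
sequence of sparse, diagonal and butterfly steps; and the tensor product of such sequences.
Definitions are in `FieldDefs`, index bounds and computability in `FieldEasy`. -/

namespace Vale.Agent.P338

open Function Finset Complex

namespace Fd

lemma ez_per (p k : ℤ) {s : ℕ} (hs : 0 < s) : ez (p + k * s) s = ez p s := by
  have h0 : (s : ℂ) ≠ 0 := by exact_mod_cast hs.ne'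
  rw [ez_add]
  have : ez (k * s) s = 1 := by
    rw [ez, ← Complex.exp_int_mul_two_pi_mul_I k]
    congr 1
    push_cast
    field_simp
  rw [this, mul_one]

lemma ez_eq_one {k : ℤ} {s : ℕ} (hs : 0 < s) (h : ez k s = 1) : (s : ℤ) ∣ k := by
  have h0 : (s : ℂ) ≠ 0 := by exact_mod_cast hs.ne'
  obtain ⟨n, hn⟩ := Complex.exp_eq_one_iff.1 h
  refine ⟨n, ?_⟩
  have h1 : (k : ℂ) = s * n := by
    have h2 := Complex.two_pi_I_ne_zero
    field_simp at hn
    exact hn
  exact_mod_cast h1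

lemma ez_orth {k : ℤ} {s : ℕ} (hs : 0 < s) (hk : ¬ (s : ℤ) ∣ k) :
    ∑ c ∈ range s, ez (c * k) s = 0 := by
  simp only [ez_pow]
  have h1 : ez k s ≠ 1 := fun h => hk (ez_eq_one hs h)
  have h2 : ez k s ^ s = 1 := by
    have := ez_per 0 k hs
    rw [zero_add, ez_zero, mul_comm] at this
    rw [← ez_pow, this]
  rw [geom_sum_eq h1, h2, sub_self, zero_div]

noncomputable def Fz (ε : ℤ) (s : ℕ) : En where
  toFun x y := ∑ c ∈ range s, ez (ε * (c * (y % s) : ℕ)) s * x (y - y % s + c)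
  map_add' x x' := by funext y; simp [mul_add, sum_add_distrib]
  map_smul' c x := by
    funext y
    simp only [Pi.smul_apply, smul_eq_mul, RingHom.id_apply, mul_sum]
    exact sum_congr rfl fun _ _ => by ring

lemma Fz_apply (ε : ℤ) {s a : ℕ} (ha : a < s) (g : ℕ) (x : ℕ → ℂ) :
    Fz ε s x (g * s + a) = ∑ c ∈ range s, ez (ε * (c * a : ℕ)) s * x (g * s + c) := by
  change ∑ c ∈ range s, _ = _
  rw [(dm ha).2, Nat.add_sub_cancel]

lemma Fz_Fz {ε : ℤ} (hε : ε * ε = 1) {s : ℕ} (hs : 0 < s) (x : ℕ → ℂ) :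
    Fz ε s (Fz (-ε) s x) = (s : ℂ) • x := by
  funext y
  have ha := Nat.mod_lt y hs
  rw [← Nat.div_add_mod' y s]
  generalize y % s = a at ha
  generalize y / s = g
  rw [Fz_apply _ ha, sum_congr rfl fun c hc => by rw [Fz_apply _ (mem_range.1 hc), mul_sum],
    sum_comm, sum_eq_single_of_mem a (mem_range.2 ha)]
  · simp only [← mul_assoc, ← ez_add]
    rw [sum_congr rfl (g := fun _ => x (g * s + a))]
    · simp
    · intro c _
      have : ε * ((c * a : ℕ) : ℤ) + -ε * ((a * c : ℕ) : ℤ) = 0 := by push_cast; ring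
      rw [this, ez_zero, one_mul]
  · intro b hb hne
    have hb' := mem_range.1 hb
    have h1 : ¬ (s : ℤ) ∣ ε * (a - b) := fun h => by
      have h2 : (s : ℤ) ∣ a - b := by
        have := h.mul_left ε
        rwa [← mul_assoc, hε, one_mul] at this
      have := Int.eq_zero_of_abs_lt_dvd h2 (by rw [abs_lt]; omega)
      omega
    have h3 := ez_orth hs h1
    simp only [← mul_assoc, ← ez_add]
    rw [← sum_mul, sum_congr rfl (g := fun c : ℕ => ez (c * (ε * (a - b))) s), h3, zero_mul]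
    intro c _
    congr 1
    push_cast
    ring

variable {P : FP} {lm Λ0 β : ℕ}

/-- `x` has parts `a 0, …, a 7` -/
def Rep (P : FP) (x : ℕ → ℂ) (a : ℕ → ℕ → ℂ) : Prop :=
  ∀ p < 8, ∀ g < P.G, ∀ c < P.s, x (p * P.n + (g * P.s + c)) = a p (g * P.s + c)

lemma Rep.congr {x : ℕ → ℂ} {a a' : ℕ → ℕ → ℂ} (h : Rep P x a) (e : ∀ p < 8, a p = a' p) :
    Rep P x a' := fun p hp g hg c hc => by rw [h p hp g hg c hc, e p hp]

lemma Rep.shear0 (h : P.ok lm Λ0) (hβ : 2 ^ lm ≤ β) {x : ℕ → ℂ} {a : ℕ → ℕ → ℂ}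
    (hx : Rep P x a) :
    Rep P (runI β P lm (shear false) x) (update a 7 (a 7 + Fz 1 P.s (a 6))) := by
  intro p hp g hg c hc
  have h0 : g * P.s + c < P.n := blk_lt hg hc
  by_cases h7 : p = 7
  · subst h7
    rw [update_self, Pi.add_apply, Fz_apply _ hc, ← hx 7 hp g hg c hc]
    refine (shear_in h hβ false x hg hc).trans ?_
    congr 1
    simp only [cond_false, one_mul]
    refine sum_congr rfl fun b hb => ?_
    rw [← hx 6 (by norm_num) g hg b (mem_range.1 hb), add_assoc]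
    rfl
  · rw [update_of_ne h7, shear_out h hβ, hx p hp g hg c hc]
    have : p * P.n ≤ 6 * P.n := Nat.mul_le_mul_right _ (by omega)
    simp only [FP.dst, cond_false]
    omega

lemma Rep.shear1 (h : P.ok lm Λ0) (hβ : 2 ^ lm ≤ β) {x : ℕ → ℂ} {a : ℕ → ℕ → ℂ}
    (hx : Rep P x a) :
    Rep P (runI β P lm (shear true) x)
      (update a 6 (a 6 + (-1 / (P.s : ℂ)) • Fz (-1) P.s (a 7))) := by
  intro p hp g hg c hc
  have h0 : g * P.s + c < P.n := blk_lt hg hc
  by_cases h6 : p = 6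
  · subst h6
    rw [update_self, Pi.add_apply, Pi.smul_apply, Fz_apply _ hc, ← hx 6 hp g hg c hc]
    refine (shear_in h hβ true x hg hc).trans ?_
    congr 1
    simp only [cond_true, smul_eq_mul, neg_mul, one_mul]
    congr 1
    refine sum_congr rfl fun b hb => ?_
    rw [← hx 7 (by norm_num) g hg b (mem_range.1 hb), add_assoc]
    rfl
  · rw [update_of_ne h6, shear_out h hβ, hx p hp g hg c hc]
    simp only [FP.dst, cond_true]
    rcases (show p ≤ 5 ∨ p = 7 by omega) with h5 | rfl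
    · have : p * P.n ≤ 5 * P.n := Nat.mul_le_mul_right _ h5
      omega
    · omega

lemma Rep.rot {x : ℕ → ℂ} {a : ℕ → ℕ → ℂ} (hx : Rep P x a) :
    Rep P (pmL (Pm.rot.θ P) x) fun p => a ((p + 2) % 8) := by
  intro p hp g hg c hc
  have h0 : g * P.s + c < P.n := blk_lt hg hc
  have h1 := blk_lt hp h0
  refine Eq.trans ?_ (hx _ (Nat.mod_lt _ (by norm_num)) g hg c hc)
  rw [pmL_apply]
  simp only [Pm.θ, if_pos h1, rot_eq h1]
  congr 1
  interval_cases p <;> split_ifs <;> omega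

lemma Rep.sw {x : ℕ → ℂ} {a : ℕ → ℕ → ℂ} (hx : Rep P x a) :
    Rep P (pmL (Pm.sw.θ P) x) fun p => a (if p % 2 = 0 then p + 1 else p - 1) := by
  intro p hp g hg c hc
  have h0 : g * P.s + c < P.n := blk_lt hg hc
  have h1 := blk_lt hp h0
  refine Eq.trans ?_ (hx (if p % 2 = 0 then p + 1 else p - 1) (by split_ifs <;> omega) g hg c hc)
  rw [pmL_apply]
  simp only [Pm.θ, if_pos h1, (dm h0).1]
  congr 1
  interval_cases p <;> simp <;> omega

lemma Rep.phase (h : P.ok lm Λ0) (hβ : 2 ^ lm ≤ β) {x : ℕ → ℂ} {a : ℕ → ℕ → ℂ}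
    (hx : Rep P x a) :
    Rep P (runI β P lm phase x) fun p =>
      if p = 4 then (-1 / (P.s : ℂ)) • Fz (-1) P.s (a 7) else if p = 5 then Fz 1 P.s (a 6)
      else a ((p + 2) % 8) := by
  have hs : (P.s : ℂ) ≠ 0 := by exact_mod_cast h.1.ne'
  have h1 := (((hx.shear0 h hβ).shear1 h hβ).shear0 h hβ).rot
  have e1 := Fz_Fz (ε := 1) (by norm_num) h.1
  have e2 := Fz_Fz (ε := -1) (by norm_num) h.1
  rw [neg_neg] at e2
  have k1 : a 6 + (-1 / (P.s : ℂ)) • Fz (-1) P.s (a 7 + Fz 1 P.s (a 6)) =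
      (-1 / (P.s : ℂ)) • Fz (-1) P.s (a 7) := by
    rw [map_add, e2, smul_add, smul_smul, div_mul_cancel₀ _ hs, neg_one_smul]
    abel
  have k2 : a 7 + Fz 1 P.s (a 6) + (-1 / (P.s : ℂ)) • Fz 1 P.s (Fz (-1) P.s (a 7)) =
      Fz 1 P.s (a 6) := by
    rw [e1, smul_smul, div_mul_cancel₀ _ hs, neg_one_smul]
    abel
  have h2 : runI β P lm Vale.Agent.P338.phase x = pmL (Pm.rot.θ P) (runI β P lm (shear false)
      (runI β P lm (shear true) (runI β P lm (shear false) x))) := by
    simp only [Vale.Agent.P338.phase, runI_append, Module.End.mul_apply]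
    rfl
  rw [h2]
  refine h1.congr fun p hp => ?_
  interval_cases p <;> simp [k1, k2, -map_add, -smul_add]

theorem one_dim (h : P.ok lm Λ0) (hβ : 2 ^ lm ≤ β) (x : ℕ → ℂ) {y : ℕ} (hy : y < 8 * P.n) :
    runI β P lm prog x y = dft P.s x y := by
  have hs : (P.s : ℂ) ≠ 0 := by exact_mod_cast h.1.ne'
  have hn := h.n_pos
  have h0 : Rep P x fun p z => x (p * P.n + z) := fun _ _ _ _ _ _ => rfl
  have h1 := ((((h0.phase h hβ).phase h hβ).phase h hβ).phase h hβ).sw
  obtain ⟨p, hp, g, hg, c, hc, rfl⟩ :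
      ∃ p < 8, ∃ g < P.G, ∃ c < P.s, y = p * P.n + (g * P.s + c) :=
    ⟨y / P.n, (Nat.div_lt_iff_lt_mul hn).2 hy, y % P.n / P.s,
      (Nat.div_lt_iff_lt_mul h.1).2 (Nat.mod_lt _ hn), y % P.n % P.s, Nat.mod_lt _ h.1, by
        rw [Nat.div_add_mod', Nat.div_add_mod']⟩
  have h2 : g * P.s + c < P.n := blk_lt hg hc
  have e0 : ∀ b, p * P.n + (g * P.s + b) = (p * P.G + g) * P.s + b := fun b => by
    simp only [FP.n]; ring
  have h3 : (p * P.n + (g * P.s + c)) % P.s = c := by rw [e0, (dm hc).2]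
  have h4 : dft P.s x (p * P.n + (g * P.s + c)) =
      Fz 1 P.s (fun z => x (p * P.n + z)) (g * P.s + c) := by
    rw [Fz_apply _ hc, dft, h3]
    refine sum_congr rfl fun b _ => ?_
    rw [one_mul]
    congr 2
    omega
  have h5 : runI β P lm prog x = dgL (tb β .fin 0 P) (pmL (rvθ P) (pmL (Pm.sw.θ P)
      (runI β P lm phase (runI β P lm phase (runI β P lm phase (runI β P lm phase x)))))) := by
    simp only [prog, runI_append, Module.End.mul_apply]
    rfl
  rw [h4, h5, dgL_apply, pmL_apply]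
  simp only [tb, rvθ, hy, true_and, (dm h2).1, h3]
  split_ifs with h6
  · have h7 := Nat.mod_lt (P.s - c) h.1
    have h8 : p * P.n + (g * P.s + c) - c + (P.s - c) % P.s =
        p * P.n + (g * P.s + (P.s - c) % P.s) := by omega
    have h9 : ∀ z, Fz (-1) P.s z (g * P.s + (P.s - c) % P.s) = Fz 1 P.s z (g * P.s + c) := by
      intro z
      rw [Fz_apply _ h7, Fz_apply _ hc]
      refine sum_congr rfl fun b _ => ?_
      congr 1
      rcases Nat.eq_zero_or_pos c with rfl | hc0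
      · simp
      · rw [Nat.mod_eq_of_lt (by omega), ← ez_per _ b h.1]
        congr 1
        push_cast [hc.le]
        ring
    rw [h8, h1 p hp g hg _ h7, ← h9]
    have : ∀ w : ℂ, -(P.s : ℂ) * (-1 / (P.s : ℂ) * w) = w := fun w => by field_simp
    interval_cases p <;> simp at h6 <;> simp [this]
  · rw [one_mul, h1 p hp g hg c hc]
    interval_cases p <;> simp at h6 <;> simp

/-! ### Tensor products -/

def Two (A : (ℕ → ℂ) → ℕ → ℂ) : Prop :=
  ∃ (a b : ℕ → ℂ) (θ θ' : ℕ → ℕ), ∀ x y, A x y = a y * x (θ y) + b y * x (θ' y)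

lemma two_sem (β : ℕ) (P : FP) (s : St) : Two (s.sem β P) := by
  cases s with
  | ax k =>
    refine ⟨1, fun y => if k.p P y then (if k.ng then -1 else 1) else 0, id, k.ψ P, fun x y => ?_⟩
    simp only [St.sem]
    split_ifs <;> simp [sub_eq_add_neg]
  | pm k => exact ⟨1, 0, k.θ P, id, fun x y => by simp [St.sem]⟩
  | rv => exact ⟨1, 0, rvθ P, id, fun x y => by simp [St.sem]⟩
  | dg k j => exact ⟨tb β k j P, 0, id, id, fun x y => by simp [St.sem, mul_comm]⟩
  | bl j => exact ⟨fun _ => 1 + I, fun _ => 1 - I, id, (· ^^^ 2 ^ j), fun x y => rfl⟩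

lemma lift_comm {A : (ℕ → ℂ) → ℕ → ℂ} (hA : Two A) (B : En) {i j : ℕ} (hij : i ≠ j)
    (X : (ℕ → ℕ) → ℂ) : lift i A (lift j B X) = lift j B (lift i A X) := by
  obtain ⟨a, b, θ, θ', h⟩ := hA
  funext v
  simp only [lift, h, update_of_ne hij, update_of_ne hij.symm, update_comm hij]
  have : (fun u => a (v i) * X (update (update v j u) i (θ (v i))) +
      b (v i) * X (update (update v j u) i (θ' (v i)))) =
      a (v i) • (fun u => X (update (update v j u) i (θ (v i)))) +
        b (v i) • fun u => X (update (update v j u) i (θ' (v i))) := rfl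
  rw [this, map_add, map_smul, map_smul]
  rfl

lemma allL_comm {A : ℕ → (ℕ → ℂ) → ℕ → ℂ} (hA : ∀ i, Two (A i)) (B : En) {d j : ℕ} (hj : d ≤ j)
    (X : (ℕ → ℕ) → ℂ) : allL A d (lift j B X) = lift j B (allL A d X) := by
  induction d with
  | zero => rfl
  | succ d ih => rw [allL, ih (by omega), lift_comm (hA d) B (by omega), allL]

lemma lift_lift (i : ℕ) (A B : (ℕ → ℂ) → ℕ → ℂ) (X : (ℕ → ℕ) → ℂ) :
    lift i A (lift i B X) = lift i (fun x => A (B x)) X := by
  funext v
  simp only [lift, update_idem, update_self]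

lemma allL_allL {A : ℕ → (ℕ → ℂ) → ℕ → ℂ} (hA : ∀ i, Two (A i)) (B : ℕ → En) (d : ℕ)
    (X : (ℕ → ℕ) → ℂ) :
    allL A d (allL (fun i => B i) d X) = allL (fun i x => A i (B i x)) d X := by
  induction d with
  | zero => rfl
  | succ d ih => rw [allL, allL, allL_comm hA _ le_rfl, ih, lift_lift, allL]

lemma allL_id (d : ℕ) (X : (ℕ → ℕ) → ℂ) : allL (fun _ x => x) d X = X := by
  induction d with
  | zero => rfl
  | succ d ih =>
    funext v
    simp only [allL, lift, ih, update_eq_self]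

lemma runL_eq (β : ℕ) (P : ℕ → FP) (d : ℕ) (l : List St) (X : (ℕ → ℕ) → ℂ) :
    runL β P d l X = allL (fun i => runE β (P i) l) d X := by
  induction l using List.reverseRecOn with
  | nil => exact (allL_id d X).symm
  | append_singleton l s ih =>
    rw [runL, List.foldl_append, List.foldl_cons, List.foldl_nil, ← runL, ih,
      allL_allL (fun i => two_sem β (P i) s)]
    congr 1
    funext i x
    rw [sem_eq, runE_append]
    rfl

lemma allL_congr {A B : ℕ → (ℕ → ℂ) → ℕ → ℂ} {N : ℕ → ℕ} {d : ℕ}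
    (h : ∀ i < d, ∀ x, ∀ y < N i, A i x y = B i x y) (X : (ℕ → ℕ) → ℂ) (v : ℕ → ℕ)
    (hv : ∀ i < d, v i < N i) : allL A d X v = allL B d X v := by
  induction d generalizing v with
  | zero => rfl
  | succ d ih =>
    simp only [allL, lift]
    rw [h d d.lt_succ_self _ _ (hv d d.lt_succ_self)]
    congr 1
    funext u
    refine ih (fun i hi => h i (by omega)) _ fun i hi => ?_
    rw [update_of_ne (by omega)]
    exact hv i (by omega)

end Fd

variable {lm Λ0 β : ℕ}

/-- the fixed program is the tensor product of the Fourier transforms -/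
theorem field_main (P : ℕ → FP) (d : ℕ) (h : ∀ i < d, (P i).ok lm Λ0) (hβ : 2 ^ lm ≤ β)
    (X : (ℕ → ℕ) → ℂ) (v : ℕ → ℕ) (hv : ∀ i < d, v i < 8 * (P i).n) :
    runL β P d (prog.flatMap (It.flat lm)) X v = allL (fun i => dft (P i).s) d X v := by
  rw [Fd.runL_eq]
  exact Fd.allL_congr (N := fun i => 8 * (P i).n)
    (fun i hi x y hy => Fd.one_dim (h i hi) hβ x hy) X v hv

end Vale.Agent.P338
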