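import Mathlib

/-! Operators acting on one coordinate of a multi-index. -/

namespace Vale.Agent.P338

open Function Finset

/-- number with digits `y 0, …, y (d - 1)` in base `R` (digit `0` lowest) -/
def dg (R d : ℕ) (y : ℕ → ℕ) : ℕ := ∑ i ∈ range d, y i * R ^ i

variable {K : Type}

/-- apply `A` along coordinate `i` -/
def lift (i : ℕ) (A : (ℕ → K) → ℕ → K) (X : (ℕ → ℕ) → K) : (ℕ → ℕ) → K :=
  fun y => A (fun v => X (update y i v)) (y i)

/-- apply `A i` along coordinate `i` for all `i < d` -/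
def allL (A : ℕ → (ℕ → K) → ℕ → K) : ℕ → ((ℕ → ℕ) → K) → (ℕ → ℕ) → K
  | 0, X => X
  | d + 1, X => lift d (A d) (allL A d X)

/-- the butterfly on bit `j` -/
def bOp [CommRing K] (ι : K) (j : ℕ) (x : ℕ → K) (v : ℕ) : K :=
  (1 + ι) * x v + (1 - ι) * x (v ^^^ 2 ^ j)

/-- index in an array of shape `H × Λ ^ d × Mz ^ d × L` -/
def lx (d Λ Mz L h : ℕ) (v w : ℕ → ℕ) (l : ℕ) : ℕ :=
  ((h * Λ ^ d + dg Λ d v) * Mz ^ d + dg Mz d w) * L + l

end Vale.Agent.P338
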