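import Vale.Agent.P338.Arr
import Vale.Agent.P338.Lift

/-! Small helpers: environment-independent loops and digit lemmas. -/

namespace Vale.Agent.P338

open Function Finset Vale.Agent.PT Vale.Agent.P320

variable {X : Cx} {e : Cmd} {a : Ar}

def loopF (n : Ar → ℕ) (c : Cmd) : Cmd := loop n (.fix c)

theorem loopF_ok {n c} (hn : BT n) (hc : c.ok) : (loopF n c).ok := loop_ok hn hc

theorem loopF_acts {n : Ar → ℕ} {c : Cmd} (hs : Sm 2 a) (hn : n a < 2 ^ a.z)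
    (P : ℕ → List (Rec X.b) → Prop) (T : ℕ → ℕ)
    (h : ∀ e', ∀ i < n a, ∀ xs, P i xs → ∃ ys, Acts X e' c (a.c i) xs ys (T i) ∧ P (i + 1) ys)
    (xs : List (Rec X.b)) (h0 : P 0 xs) :
    ∃ ys, Acts X e (loopF n c) a xs ys (∑ i ∈ range (n a), T i + 11 * (n a + 1)) ∧ P (n a) ys := by
  obtain ⟨ys, h1, h2⟩ := loop_acts (e := e) (c := .fix c) hs hn P (fun i => T i + 1)
    (fun i hi xs hx => by
      obtain ⟨ys, h1, h2⟩ := h c i hi xs hx
      exact ⟨ys, fun e' => h1.fix, h2⟩) xs h0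
  refine ⟨ys, h1.mono ?_, h2⟩
  rw [sum_add_distrib]; simp; omega

theorem loopF_do {n : Ar → ℕ} {c : Cmd} (hs : Sm 2 a) (hn : n a < 2 ^ a.z)
    (P : ℕ → AS X.b → Prop) (T : ℕ → ℕ)
    (h : ∀ e', ∀ i < n a, ∀ s, P i s → ∃ s', Do X e' c (a.c i) s s' (T i) ∧ P (i + 1) s')
    (s : AS X.b) (h0 : P 0 s) :
    ∃ s', Do X e (loopF n c) a s s' (∑ i ∈ range (n a), T i + 11 * (n a + 1)) ∧ P (n a) s' := by
  obtain ⟨ys, h1, h2⟩ := loop_do (e := e) (c := .fix c) hs hn P (fun i => T i + 1)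
    (fun i hi xs hx => by
      obtain ⟨ys, h1, h2⟩ := h c i hi xs hx
      exact ⟨ys, fun e' => h1.fix, h2⟩) s h0
  refine ⟨ys, h1.mono ?_, h2⟩
  rw [sum_add_distrib]; simp; omega

lemma dg_succ (R d : ℕ) (y : ℕ → ℕ) : dg R (d + 1) y = dg R d y + y d * R ^ d := by
  simp [dg, sum_range_succ]

lemma dg_succ' (R d : ℕ) (y : ℕ → ℕ) : dg R (d + 1) y = (dg R d fun t => y (t + 1)) * R + y 0 := by
  simp [dg, sum_range_succ', sum_mul, pow_succ, mul_assoc]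

lemma dg_congr {R d : ℕ} {y y' : ℕ → ℕ} (h : ∀ t < d, y t = y' t) : dg R d y = dg R d y' :=
  sum_congr rfl fun t ht => by rw [h t (mem_range.1 ht)]

lemma dg_lt {R d : ℕ} {y : ℕ → ℕ} (h : ∀ t < d, y t < R) : dg R d y < R ^ d := by
  induction d with
  | zero => simp [dg]
  | succ d ih =>
    have h1 := ih fun t ht => h t (by omega)
    have h2 : y d + 1 ≤ R := h d (by omega)
    rw [dg_succ, pow_succ]
    nlinarith [Nat.zero_le (R ^ d)]

lemma dg_add (R d d' : ℕ) (y : ℕ → ℕ) :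
    dg R (d + d') y = dg R d y + (dg R d' fun t => y (d + t)) * R ^ d := by
  simp only [dg, sum_range_add, sum_mul, pow_add]
  exact congrArg _ (sum_congr rfl fun t _ => by ring)

lemma dg_digit {R d : ℕ} {y : ℕ → ℕ} (h : ∀ t < d, y t < R) {i : ℕ} (hi : i < d) :
    dg R d y / R ^ i % R = y i := by
  obtain ⟨k, rfl⟩ : ∃ k, d = i + (k + 1) := ⟨d - i - 1, by omega⟩
  have hR : 0 < R := lt_of_le_of_lt (Nat.zero_le _) (h i hi)
  rw [dg_add, Nat.add_mul_div_right _ _ (by positivity),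
    Nat.div_eq_of_lt (dg_lt fun t ht => h t (by omega)), zero_add, dg_succ',
    Nat.mul_add_mod_of_lt (h _ (by omega)), add_zero]

lemma lx_eq (d Λ Mz L h : ℕ) (v w : ℕ → ℕ) (l : ℕ) :
    lx d Λ Mz L h v w l = ix (Λ ^ d) (Mz ^ d * L) h (dg Λ d v) (dg Mz d w * L + l) := by
  simp only [lx, ix]; ring

lemma lo_lt {A L h l : ℕ} (h1 : h < A) (h2 : l < L) : h * L + l < A * L := by nlinarith

lemma lx_split {H d Λ Mz L h l i : ℕ} {v w : ℕ → ℕ} (hi : i < d) (hh : h < H)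
    (hv : ∀ t < d, v t < Λ) (hw : ∀ t < d, w t < Mz) (hl : l < L) :
    ∃ h' < H * Λ ^ (d - 1 - i), ∃ l' < Λ ^ i * Mz ^ d * L, ∀ α,
      lx d Λ Mz L h (update v i α) w l = ix Λ (Λ ^ i * Mz ^ d * L) h' α l' := by
  obtain ⟨k, rfl⟩ : ∃ k, d = i + (k + 1) := ⟨d - i - 1, by omega⟩
  have e : i + (k + 1) - 1 - i = k := by omega
  refine ⟨h * Λ ^ k + dg Λ k fun t => v (i + (t + 1)), ?_,
    (dg Λ i v * Mz ^ (i + (k + 1)) + dg Mz (i + (k + 1)) w) * L + l, ?_, fun α => ?_⟩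
  · rw [e]; exact lo_lt hh (dg_lt fun t ht => hv _ (by omega))
  · exact lo_lt (lo_lt (dg_lt fun t ht => hv _ (by omega)) (dg_lt hw)) hl
  · have e1 : dg Λ i (update v i α) = dg Λ i v := dg_congr fun t ht => update_of_ne ht.ne _ _
    have e2 : (dg Λ k fun t => update v i α (i + (t + 1))) = dg Λ k fun t => v (i + (t + 1)) :=
      dg_congr fun t _ => update_of_ne (by omega) _ _
    rw [lx, ix, dg_add Λ i (k + 1), dg_succ', e1, e2]
    simp only [add_zero, update_self]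
    ring

lemma shape_split {H d Λ Mz L i : ℕ} (hi : i < d) :
    H * Λ ^ d * Mz ^ d * L = H * Λ ^ (d - 1 - i) * Λ * (Λ ^ i * Mz ^ d * L) := by
  have : Λ ^ d = Λ ^ (d - 1 - i) * Λ * Λ ^ i := by
    rw [← pow_succ, ← pow_add]; congr 1; omega
  rw [this]; ring

end Vale.Agent.P338
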