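import Vale.Agent.P338.Layer
import Vale.Agent.P338.Field
import Vale.Agent.P338.Util

/-! Running the fixed program on all fields of a padded array. -/

namespace Vale.Agent.P338

open Function Finset Vale.Agent.PT Vale.Agent.P320

def fp (s Λ0 lm : ℕ) : FP :=
  ⟨s, 2 ^ (2 * s - 1).size, Λ0 / (8 * s),
    (Λ0 / (8 * s) * 2 ^ (2 * s - 1).size + 2 ^ lm - 1) / 2 ^ lm * 2 ^ lm⟩

structure CP where
  H : Ar → ℕ
  d : Ar → ℕ
  Λ : Ar → ℕ
  Mz : Ar → ℕ
  L : Ar → ℕ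
  lm : Ar → ℕ
  Λ0 : Ar → ℕ
  s : ℕ → Ar → ℕ

def CP.ok (p : CP) : Prop :=
  BT p.H ∧ BT p.d ∧ BT p.Λ ∧ BT p.Mz ∧ BT p.L ∧ BT p.lm ∧ BT p.Λ0 ∧ B1 p.s

def CP.N (p : CP) (a : Ar) : ℕ := p.H a * p.Λ a ^ p.d a * p.Mz a ^ p.d a * p.L a

structure CP.good (p : CP) (b : ℕ) (a : Ar) : Prop where
  sm : Sm 60 a
  pos : 0 < p.N a
  lt : 1000 * p.N a < 2 ^ a.z
  d1 : 1 ≤ p.d a
  db : p.d a < b
  lb : 2 ^ p.lm a ≤ b
  wd : cW ^ (p.d a).size ∣ p.H a
  mz : 2 ≤ p.Mz a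
  dv : 2 ^ p.lm a ∣ p.Λ0 a
  big : 8 * 2 ^ p.lm a ≤ p.Λ0 a
  lam : p.Λ a = p.Λ0 a + p.Mz a * 2 ^ p.lm a
  s0 : ∀ i < p.d a, 0 < p.s i a
  s4 : ∀ i < p.d a, 4 * p.s i a ≤ 2 ^ p.lm a

/-- growth of the error exponent -/
def coreD (d lm : ℕ) : ℕ := prog.length * (3 * lm + 1) * (d * (lm + 4) + 3)

lemma fp_ok {s Λ0 lm : ℕ} (hs : 0 < s) (h4 : 4 * s ≤ 2 ^ lm) (hd : 2 ^ lm ∣ Λ0)
    (hb : 8 * 2 ^ lm ≤ Λ0) : (fp s Λ0 lm).ok lm Λ0 := by
  have h1 : 2 * s - 1 < 2 ^ (2 * s - 1).size := Nat.lt_size_self _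
  have h2 : 2 ^ (2 * s - 1).size ≤ 4 * s := by
    have h3 : 0 < (2 * s - 1).size := Nat.size_pos.2 (by omega)
    have h4 : 2 ^ ((2 * s - 1).size - 1) ≤ 2 * s - 1 := Nat.lt_size.1 (by omega)
    obtain ⟨k, hk⟩ : ∃ k, (2 * s - 1).size = k + 1 := ⟨_, (Nat.succ_pred_eq_of_pos h3).symm⟩
    rw [hk] at h4 ⊢
    simp only [Nat.add_sub_cancel] at h4
    rw [pow_succ]; omega
  have h5 := Nat.div_add_mod Λ0 (8 * s)
  have h6 := Nat.mod_lt Λ0 (show 0 < 8 * s by omega)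
  have h7 : 0 < 2 ^ lm := by positivity
  generalize hG : Λ0 / (8 * s) = G at *
  have h8 := Nat.div_add_mod (G * 2 ^ (2 * s - 1).size + 2 ^ lm - 1) (2 ^ lm)
  have h9 := Nat.mod_lt (G * 2 ^ (2 * s - 1).size + 2 ^ lm - 1) h7
  have h10 : G * 2 ^ (2 * s - 1).size ≤ G * (4 * s) := Nat.mul_le_mul_left _ h2
  refine ⟨hs, ?_, ⟨_, (Nat.pow_le_pow_iff_right (by norm_num)).1 (h2.trans h4), rfl⟩, ?_, h2,
    Dvd.intro_left _ rfl, ?_, ?_, ?_, hd⟩ <;> simp only [fp, FP.n, hG]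
  · refine Nat.pos_of_ne_zero ?_
    rintro rfl
    omega
  · omega
  · rw [mul_comm _ (2 ^ lm)]; omega
  · rw [mul_comm _ (2 ^ lm)]
    have : 8 * s * G = 8 * (G * s) := by ring
    have : G * (4 * s) = 4 * (G * s) := by ring
    omega
  · have : 8 * s * G = 8 * (G * s) := by ring
    omega

open Classical in
/-- the Gaussian integer approximations of an approximable function -/
noncomputable def apx {α : Type} [Ctx Bool α] (F : α → ℂ) : α × ℕ → GaussianInt :=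
  if h : AC F then h.1.choose else fun _ => 0

lemma apx_spec {α : Type} [Ctx Bool α] {F : α → ℂ} (h : AC F) :
    ZT (fun x => (apx F x).re) ∧ ZT (fun x => (apx F x).im) ∧
      ∀ x n, ‖(apx F (x, n) : ℂ) - 2 ^ n * F x‖ ≤ 2 := by
  rw [apx, dif_pos h]; exact h.1.choose_spec

lemma zw_bt {α : Type} [Ctx Bool α] {b : α → ℕ} {z : α → ℤ} (hb : PT Bool b) (hz : ZT z) :
    BT fun x => zw (b x) (z x) := by
  unfold zw; fun_prop

lemma apx_allL {b d0 Λ0 j : ℕ} (hj : 2 ^ (j + 1) ∣ Λ0) {ρ : (ℕ → ℕ) → Rg b} {z : (ℕ → ℕ) → ℂ}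
    {n : ℕ} (h : ∀ v : ℕ → ℕ, (∀ i < d0, v i < Λ0) → Apx b n (ρ v) (z v)) (d : ℕ) (hd : d ≤ d0) :
    ∀ v : ℕ → ℕ, (∀ i < d0, v i < Λ0) → Apx b (n + 2 * d) (allL (fun _ => bOp (II b) j) d ρ v)
      (allL (fun _ => bOp Complex.I j) d z v) := by
  induction d with
  | zero => exact h
  | succ d ih =>
    intro v hv
    have key : ∀ α < Λ0, ∀ i < d0, update v d α i < Λ0 := fun α hα i hi => by
      rw [update_apply]; split_ifs; exacts [hα, hv i hi]
    have hx : v d ^^^ 2 ^ j < Λ0 := by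
      obtain ⟨c, rfl⟩ := hj
      have h1 : (v d ^^^ 2 ^ j) / 2 ^ (j + 1) = v d / 2 ^ (j + 1) := by
        rw [Nat.xor_div_two_pow, Nat.div_eq_of_lt (a := 2 ^ j) (by gcongr <;> omega)]; simp
      have h2 := hv d (by omega)
      rw [mul_comm, ← Nat.div_lt_iff_lt_mul (by positivity)] at h2 ⊢
      omega
    exact (ih (by omega) _ (key _ (hv d (by omega)))).bfly (ih (by omega) _ (key _ hx))

namespace CP
variable (p : CP)

def hi (x : Ar) : ℕ := p.H x.t.t * p.Λ x.t.t ^ x.u (p.d x.t.t - 1 - x.g 0)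
def lo (x : Ar) : ℕ := p.Λ x.t.t ^ x.u (x.g 0) * p.Mz x.t.t ^ x.u (p.d x.t.t) * p.L x.t.t
def la (x : Ar) : ℕ := p.Λ x.t.t
def ts (x : Ar) : ℕ := p.Λ x.t.t ^ x.u (p.d x.t.t - 1 - x.g 0)
def f (x : Ar) : FP := fp (ap1 p.s (x.g 0) x.t.t) (p.Λ0 x.t.t) (x.u (p.lm x.t.t))
def P (a : Ar) (i : ℕ) : FP := fp (p.s i a) (p.Λ0 a) (p.lm a)

def fld (c : Cmd) : Cmd := loopF (fun x => p.d x.t) c

def axC (k : Ax) : Cmd :=
  fg p.hi p.la p.la p.lo (cond k.ng .sub .add) .fst (fun _ α x => k.p (p.f x) α) (fun _ α _ => α)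
    fun _ α x => k.ψ (p.f x) α

def pmC (k : Pm) : Cmd :=
  pm p.hi p.la p.la p.lo (fun _ α x => k.p (p.f x) α) fun _ α x => k.θ (p.f x) α

def n8 (x : Ar) : ℕ := p.hi x * (8 * (p.f x).n) * p.lo x

def rvC : Cmd :=
  focus p.hi p.la p.lo (fun _ => 0) (fun x => 8 * (p.f x).n)
    (.seq (dup p.n8) (.seq (ng (fun x => p.hi x * (8 * (p.f x).G)) (fun x => (p.f x).s) p.lo)
      (gather p.n8 p.n8 p.n8 .snd .fst
        (fun i x => decide (i / p.lo x % (8 * (p.f x).n) / (p.f x).n % 2 = 1))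
        (fun i _ => i) fun i _ => i)))

noncomputable def tF (k : Tb) (x : Bin × Ar × ℕ) : ℂ :=
  tb x.2.2 k (x.2.1.u (x.2.1.g 1)) (p.f x.2.1) x.1.v

noncomputable def tblC (k : Tb) : Cmd :=
  .seq (dup p.ts) (.seq (gather p.ts p.ts (fun x => p.ts x * p.la x * 1) .fst .fst
      (fun _ _ => true) (fun i x => i / p.la x) fun _ _ => 0)
    (.seq (ldN p.la (fun i y => zw y.2 (apx (p.tF k) ((⟨i⟩, y), 3 * y.2)).re)
        fun i y => zw y.2 (apx (p.tF k) ((⟨i⟩, y), 3 * y.2)).im)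
      (tab p.ts p.la (fun _ => 1) .muls)))

noncomputable def dgC (k : Tb) : Cmd :=
  .seq (ldN (fun _ => 1) (fun _ y => 2 ^ (3 * y.2)) fun _ _ => 0)
    (.seq (p.fld (.arg (fun x => (p.d x.t.t - 1 - x.g 0) :: x.t.l) (p.tblC k)))
      (tab (fun x => p.H x.t) (fun x => p.Λ x.t ^ x.u (p.d x.t))
        (fun x => p.Mz x.t ^ x.u (p.d x.t) * p.L x.t) .muls))

noncomputable def blC : Cmd :=
  layer (fun x => p.H x.t) (fun x => p.d x.t) (fun x => p.Λ x.t) (fun x => p.Mz x.t)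
    (fun x => p.L x.t) fun x => x.g 0

noncomputable def itC : It → Cmd
  | .ax k => .arg (fun x => 0 :: x.l) (p.fld (p.axC k))
  | .pm k => .arg (fun x => 0 :: x.l) (p.fld (p.pmC k))
  | .rv => .arg (fun x => 0 :: x.l) (p.fld p.rvC)
  | .dg k => .arg (fun x => 0 :: x.l) (p.dgC k)
  | .fwd => loopF p.lm (.arg (fun x => (p.lm x.t - 1 - x.g 0) :: x.t.l)
      (.seq (p.dgC .f1) (.seq p.blC (p.dgC .f2))))
  | .bwd => loopF p.lm (.seq (p.dgC .b1) (.seq p.blC (p.dgC .b2)))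

noncomputable def prC (l : List It) : Cmd := l.foldr (fun i c => .seq (p.itC i) c) skip

variable {p}

section ok
variable (h : p.ok)
include h

lemma hi_bt : BT p.hi := by obtain ⟨h1, h2, h3, h4, h5, h6, h7, h8⟩ := h; unfold hi; fun_prop
lemma lo_bt : BT p.lo := by obtain ⟨h1, h2, h3, h4, h5, h6, h7, h8⟩ := h; unfold lo; fun_prop
lemma la_bt : BT p.la := by obtain ⟨h1, h2, h3, h4, h5, h6, h7, h8⟩ := h; unfold la; fun_prop
lemma ts_bt : BT p.ts := by obtain ⟨h1, h2, h3, h4, h5, h6, h7, h8⟩ := h; unfold ts; fun_prop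
lemma fs_bt : BT fun x => (p.f x).s := by
  obtain ⟨h1, h2, h3, h4, h5, h6, h7, h8⟩ := h; unfold f fp; fun_prop (disch := assumption)
lemma fM_bt : BT fun x => (p.f x).M := by
  obtain ⟨h1, h2, h3, h4, h5, h6, h7, h8⟩ := h; unfold f fp; fun_prop (disch := assumption)
lemma fG_bt : BT fun x => (p.f x).G := by
  obtain ⟨h1, h2, h3, h4, h5, h6, h7, h8⟩ := h; unfold f fp; fun_prop (disch := assumption)
lemma fR_bt : BT fun x => (p.f x).R := by
  obtain ⟨h1, h2, h3, h4, h5, h6, h7, h8⟩ := h; unfold f fp; fun_prop (disch := assumption)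
lemma fn_bt : BT fun x => (p.f x).n := (fG_bt h).mul (fs_bt h)
lemma n8_bt : BT p.n8 := ((hi_bt h).mul ((BT.const 8).mul (fn_bt h))).mul (lo_bt h)

lemma fld_ok {c : Cmd} (hc : c.ok) : (p.fld c).ok := loopF_ok (h.2.1.comp (by fun_prop)) hc

lemma axC_ok (k : Ax) : (p.axC k).ok := by
  have e : PT Bool fun x : Bin × Bin × Ar => x.2.2 := by fun_prop
  exact fg_ok (hi_bt h) (la_bt h) (la_bt h) (lo_bt h)
    (k.p_pt ((fs_bt h).comp e) ((fM_bt h).comp e) ((fG_bt h).comp e) ((fR_bt h).comp e)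
      (by fun_prop)) (by unfold B2; fun_prop)
    (k.ψ_bt ((fs_bt h).comp e) ((fM_bt h).comp e) ((fG_bt h).comp e) ((fR_bt h).comp e)
      (by fun_prop))

lemma pmC_ok (k : Pm) : (p.pmC k).ok := by
  have e : PT Bool fun x : Bin × Bin × Ar => x.2.2 := by fun_prop
  exact pm_ok (hi_bt h) (la_bt h) (la_bt h) (lo_bt h)
    (k.p_pt ((fs_bt h).comp e) ((fM_bt h).comp e) ((fG_bt h).comp e) ((fR_bt h).comp e)
      (by fun_prop))
    (k.θ_bt ((fs_bt h).comp e) ((fM_bt h).comp e) ((fG_bt h).comp e) ((fR_bt h).comp e)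
      (by fun_prop))

lemma rvC_ok : p.rvC.ok := by
  have e : PT Bool fun x : Bin × Ar => x.2 := by fun_prop
  refine focus_ok (hi_bt h) (la_bt h) (lo_bt h) (BT.const _) ((BT.const 8).mul (fn_bt h))
    ⟨dup_ok (n8_bt h), ng_ok ((hi_bt h).mul ((BT.const 8).mul (fG_bt h))) (fs_bt h) (lo_bt h),
      gather_ok (n8_bt h) (n8_bt h) (n8_bt h) ?_ (by unfold B1; fun_prop) (by unfold B1; fun_prop)⟩
  exact pt_dec_eq ((((BT.div (by fun_prop) ((lo_bt h).comp e)).mod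
    ((BT.const 8).mul ((fn_bt h).comp e))).div ((fn_bt h).comp e)).mod (BT.const 2)) (BT.const 1)

lemma tF_ac (k : Tb) : AC (p.tF k) := by
  have e : PT Bool fun x : Bin × Ar × ℕ => x.2.1 := by fun_prop
  exact tb_ac k (by fun_prop) (by fun_prop) ((fs_bt h).comp e) ((fM_bt h).comp e)
    ((fG_bt h).comp e) ((fR_bt h).comp e) (by fun_prop)

lemma tblC_ok (k : Tb) : (p.tblC k).ok := by
  have e : PT Bool fun x : Bin × Ar => x.2 := by fun_prop
  have e' : PT Bool fun x : Bin × Ar × ℕ => (x, 3 * x.2.2) := by fun_prop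
  exact ⟨dup_ok (ts_bt h), gather_ok (ts_bt h) (ts_bt h)
    (((ts_bt h).mul (la_bt h)).mul (BT.const 1)) (PT.const _)
    (BT.div (by fun_prop) ((la_bt h).comp e)) (BT.const _),
    ldN_ok (la_bt h) (zw_bt (by fun_prop) ((apx_spec (tF_ac h k)).1.comp e'))
      (zw_bt (by fun_prop) ((apx_spec (tF_ac h k)).2.1.comp e')),
    tab_ok (ts_bt h) (la_bt h) (BT.const _)⟩

lemma dgC_ok (k : Tb) : (p.dgC k).ok := by
  have h' := h
  obtain ⟨h1, h2, h3, h4, h5, h6, h7, h8⟩ := h'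
  exact ⟨ldN_ok (BT.const _) (by fun_prop) (BT.const _), fld_ok h ⟨by fun_prop, tblC_ok h k⟩,
    tab_ok (by fun_prop) (by fun_prop) (by fun_prop)⟩

lemma blC_ok : p.blC.ok := by
  obtain ⟨h1, h2, h3, h4, h5, h6, h7, h8⟩ := h
  exact layer_ok (by fun_prop) (by fun_prop) (by fun_prop) (by fun_prop) (by fun_prop)
    (by fun_prop)

lemma itC_ok (i : It) : (p.itC i).ok := by
  have h6 := h.2.2.2.2.2.1
  cases i with
  | ax k => exact ⟨by fun_prop, fld_ok h (axC_ok h k)⟩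
  | pm k => exact ⟨by fun_prop, fld_ok h (pmC_ok h k)⟩
  | rv => exact ⟨by fun_prop, fld_ok h (rvC_ok h)⟩
  | dg k => exact ⟨by fun_prop, dgC_ok h k⟩
  | fwd => exact loopF_ok h6 ⟨by fun_prop, dgC_ok h _, blC_ok h, dgC_ok h _⟩
  | bwd => exact loopF_ok h6 ⟨dgC_ok h _, blC_ok h, dgC_ok h _⟩

lemma prC_ok (l : List It) : (p.prC l).ok := by
  induction l with
  | nil => trivial
  | cons i l ih => exact ⟨itC_ok h i, ih⟩

end ok

section acts
variable {X : Cx} {a : Ar}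

def AA (p : CP) (a : Ar) (b n : ℕ) (x : ℕ → Rec b) (Y : ℕ → (ℕ → ℕ) → ℕ → (ℕ → ℕ) → ℂ) : Prop :=
  ∀ h < p.H a, ∀ w : ℕ → ℕ, (∀ i < p.d a, w i + 1 < p.Mz a) → ∀ l < p.L a,
    ∀ v : ℕ → ℕ, (∀ i < p.d a, v i < p.Λ0 a) →
      Apx b n (rv (x (lx (p.d a) (p.Λ a) (p.Mz a) (p.L a) h v w l))) (Y h w l v)

lemma AA.mono {b n n' x Y} (h : AA p a b n x Y) (hn : n ≤ n') : AA p a b n' x Y :=
  fun _ h1 _ h2 _ h3 _ h4 => (h _ h1 _ h2 _ h3 _ h4).mono hn

namespace good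
variable {b : ℕ} (g : p.good b a)
include g

lemma le0 : p.Λ0 a ≤ p.Λ a := by rw [g.lam]; omega
lemma lm0 : 2 ^ p.lm a ≤ p.Λ0 a := by have := g.big; omega
lemma la2 : 2 ≤ p.Λ a := by
  have := g.le0; have := g.big; have := Nat.one_le_two_pow (n := p.lm a); omega
lemma H0 : 0 < p.H a := Nat.pos_of_ne_zero fun e => by have := g.pos; simp [N, e] at this
lemma L0 : 0 < p.L a := Nat.pos_of_ne_zero fun e => by have := g.pos; simp [N, e] at this
lemma pN : p.Λ a ^ p.d a ≤ p.N a := by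
  have := g.H0; have := g.L0; have := g.mz
  exact ((Nat.le_mul_of_pos_left _ g.H0).trans (Nat.le_mul_of_pos_right _ (by positivity))).trans
    (Nat.le_mul_of_pos_right _ g.L0)
lemma laN : p.Λ a ≤ p.N a := (Nat.le_self_pow (by have := g.d1; omega) _).trans g.pN
lemma Nz : p.N a < 2 ^ a.z := by have := g.lt; omega
lemma dN : p.d a ≤ p.N a :=
  (Nat.lt_two_pow_self.le.trans (Nat.pow_le_pow_left g.la2 _)).trans g.pN
lemma lmN : p.lm a ≤ p.N a := ((Nat.lt_two_pow_self.le.trans g.lm0).trans g.le0).trans g.laN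
lemma dz : p.d a ≤ a.z := (Nat.pow_le_pow_iff_right (by norm_num)).1
  (((Nat.pow_le_pow_left g.la2 _).trans g.pN).trans g.Nz.le)
lemma lz : p.lm a ≤ a.z := (Nat.pow_le_pow_iff_right (by norm_num)).1
  (((g.lm0.trans g.le0).trans g.laN).trans g.Nz.le)
lemma Pok {i : ℕ} (hi : i < p.d a) : (p.P a i).ok (p.lm a) (p.Λ0 a) :=
  fp_ok (g.s0 i hi) (g.s4 i hi) g.dv g.big

lemma hi_eq (j i : ℕ) : p.hi ((a.c j).c i) = p.H a * p.Λ a ^ (p.d a - 1 - i) := by
  have := g.dz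
  simp only [hi, Ar.c_t, Ar.c_g0]; rw [Ar.u_eq]; simp; omega
lemma ts_eq (j i : ℕ) : p.ts ((a.c j).c i) = p.Λ a ^ (p.d a - 1 - i) := by
  have := g.dz
  simp only [ts, Ar.c_t, Ar.c_g0]; rw [Ar.u_eq]; simp; omega
lemma lo_eq (j : ℕ) {i : ℕ} (hi : i < p.d a) :
    p.lo ((a.c j).c i) = p.Λ a ^ i * p.Mz a ^ p.d a * p.L a := by
  have := g.dz
  simp only [lo, Ar.c_t, Ar.c_g0]; rw [Ar.u_eq, Ar.u_eq] <;> simp <;> omega
lemma f_eq (j i : ℕ) : p.f ((a.c j).c i) = p.P a i := by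
  have := g.lz
  simp only [f, P, Ar.c_t, Ar.c_g0, ap1_eq]; rw [Ar.u_eq]; simpa
lemma N_eq (j : ℕ) {i : ℕ} (hi : i < p.d a) :
    p.hi ((a.c j).c i) * p.la ((a.c j).c i) * p.lo ((a.c j).c i) = p.N a := by
  rw [g.hi_eq, g.lo_eq j hi, N, shape_split hi]; rfl
lemma sm1 {j : ℕ} (hj : j ≤ p.N a) : Sm 59 (a.c j) := sm_c.2 ⟨hj.trans_lt g.Nz, g.sm⟩
lemma sm2 {j i : ℕ} (hj : j ≤ p.N a) (hi : i ≤ p.d a) : Sm 58 ((a.c j).c i) :=
  sm_c.2 ⟨(hi.trans g.dN).trans_lt g.Nz, g.sm1 hj⟩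

end good

lemma la_eq (j i : ℕ) : p.la ((a.c j).c i) = p.Λ a := rfl

/-- realisation of a list of steps -/
def Rl (p : CP) (X : Cx) (a a' : Ar) (c : Cmd) (l : List St) (Δ T : ℕ) : Prop :=
  ∀ e n x Y, n + Δ + 1 ≤ 4 * X.b → AA p a X.b n x Y →
    ∃ y, Acts X e c a' (arr (p.N a) x) (arr (p.N a) y) T ∧
      AA p a X.b (n + Δ) y fun h w l' => runL X.b (p.P a) (p.d a) l (Y h w l')

lemma Rl.mono {a' c l Δ T Δ' T'} (h : Rl p X a a' c l Δ T) (h1 : Δ ≤ Δ') (h2 : T ≤ T') :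
    Rl p X a a' c l Δ' T' := fun e n x Y hn hA => by
  obtain ⟨y, h3, h4⟩ := h e n x Y (by omega) hA
  exact ⟨y, h3.mono h2, h4.mono (by omega)⟩

lemma Rl.seq {a' c c' l l' Δ T Δ' T'} (h : Rl p X a a' c l Δ T) (h' : Rl p X a a' c' l' Δ' T') :
    Rl p X a a' (.seq c c') (l ++ l') (Δ + Δ') (T + T' + 1) := fun e n x Y hn hA => by
  obtain ⟨y, h3, h4⟩ := h e n x Y (by omega) hA
  obtain ⟨z, h5, h6⟩ := h' e _ y _ (by omega) h4
  exact ⟨z, h3.seq h5, by simpa [runL, add_assoc] using h6⟩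

lemma Rl.arg {a' a'' c l Δ T} {f : Ar → List ℕ} (h : Rl p X a a'' c l Δ T)
    (h1 : a'.w (f a') = a'') (h2 : Sm 0 a'') : Rl p X a a' (.arg f c) l Δ (T + 1) :=
  fun e n x Y hn hA => by
    obtain ⟨y, h3, h4⟩ := h e n x Y hn hA
    exact ⟨y, h3.arg h1 h2, h4⟩

lemma Rl.loop {c Δ T} {m : Ar → ℕ} {l : ℕ → List St} (hs : Sm 2 a) (hm : m a < 2 ^ a.z)
    (h : ∀ i < m a, Rl p X a (a.c i) c (l i) Δ T) :
    Rl p X a a (loopF m c) ((List.range (m a)).flatMap l) (m a * Δ) (m a * T + 11 * (m a + 1)) :=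
  fun e n x Y hn hA => by
    obtain ⟨ys, h1, y, rfl, h2⟩ := loopF_acts (e := e) (c := c) hs hm
      (fun i xs => ∃ y, xs = arr (p.N a) y ∧ AA p a X.b (n + i * Δ) y fun h w l' =>
        runL X.b (p.P a) (p.d a) ((List.range i).flatMap l) (Y h w l')) (fun _ => T)
      (fun e' i hi xs ⟨y, hx, hy⟩ => by
        have : (i + 1) * Δ ≤ m a * Δ := Nat.mul_le_mul_right _ hi
        obtain ⟨z, h3, h4⟩ := h i hi e' _ y _ (by nlinarith) hy
        refine ⟨_, hx ▸ h3, z, rfl, ?_⟩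
        simpa [runL, List.range_succ, add_mul, add_assoc] using h4)
      (arr (p.N a) x) ⟨x, rfl, by simpa [runL] using hA⟩
    exact ⟨y, h1.mono (by simp), h2⟩

lemma fld_rl (g : p.good X.b a) {j : ℕ} (hj : j ≤ p.N a) {c : Cmd} {s : St} {T : ℕ}
    (h : ∀ e, ∀ i < p.d a, ∀ x : ℕ → Rec X.b, ∃ y,
      Acts X e c ((a.c j).c i) (arr (p.N a) x) (arr (p.N a) y) T ∧
      ∀ h < p.hi ((a.c j).c i), ∀ l < p.lo ((a.c j).c i), ∀ n, ∀ z : ℕ → ℂ,
        (∀ α < p.Λ0 a, Apx X.b n (rv (x (ix (p.Λ a) (p.lo ((a.c j).c i)) h α l))) (z α)) →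
        ∀ α < p.Λ0 a, Apx X.b (n + 1) (rv (y (ix (p.Λ a) (p.lo ((a.c j).c i)) h α l)))
          (s.sem X.b (p.P a i) z α)) :
    Rl p X a (a.c j) (p.fld c) [s] (p.d a) (p.d a * T + 11 * (p.d a + 1)) := fun e n x Y _ hA => by
  obtain ⟨ys, h1, y, rfl, h2⟩ := loopF_acts (e := e) (c := c) (n := fun x => p.d x.t)
    (a := a.c j) ((g.sm1 hj).mono (by norm_num)) (g.dN.trans_lt g.Nz)
    (fun i xs => ∃ y, xs = arr (p.N a) y ∧ AA p a X.b (n + i) y fun h w l' =>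
      allL (fun i => s.sem X.b (p.P a i)) i (Y h w l')) (fun _ => T)
    (fun e' i hi xs ⟨y, hx, hy⟩ => by
      obtain ⟨z, h3, h4⟩ := h e' i hi y
      refine ⟨_, hx ▸ h3, z, rfl, fun h hh w hw l hl v hv => ?_⟩
      obtain ⟨h', hh', l', hl', e⟩ := lx_split (d := p.d a) (i := i) (v := v) (w := w) (Λ := p.Λ a)
        (Mz := p.Mz a) hi hh (fun t ht => (hv t ht).trans_le g.le0)
        (fun t ht => by have := hw t ht; omega) hl
      rw [g.hi_eq, g.lo_eq j hi] at h4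
      have := h4 h' hh' l' hl' (n + i) (fun α => allL (fun i => s.sem X.b (p.P a i)) i (Y h w l)
        (update v i α)) (fun α hα => by
          rw [← e]
          refine hy h hh w hw l hl _ fun t ht => ?_
          rw [update_apply]; split_ifs; exacts [hα, hv t ht]) (v i) (hv i hi)
      rwa [← e, update_eq_self] at this)
    (arr (p.N a) x) ⟨x, rfl, hA⟩
  exact ⟨y, h1.mono (by simp), h2⟩

lemma ax_rl (g : p.good X.b a) {j : ℕ} (hj : j ≤ p.N a) (k : Ax) :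
    Rl p X a (a.c j) (p.fld (p.axC k)) [.ax k] (p.d a)
      (p.d a * (2000 * p.N a) + 11 * (p.d a + 1)) := by
  refine fld_rl g hj fun e i hi x => ?_
  have hP := g.Pok hi
  have h8 : 8 * (p.P a i).n ≤ p.Λ0 a := hP.2.2.2.2.2.2.2.2.1
  have hN := g.N_eq j hi
  have hu : ∀ q : Bool, (cond q (cond k.ng BOp.sub .add) .fst).u2 = true → q = true := by
    intro q; cases q <;> simp [BOp.u2]
  obtain ⟨y, h1, h2⟩ := fg_acts (X := X) (e := e) (a := (a.c j).c i) (H := p.hi) (A := p.la)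
    (A' := p.la) (L := p.lo) (o1 := cond k.ng .sub .add) (o2 := .fst)
    (p := fun _ α x => k.p (p.f x) α) (φ := fun _ α _ => α) (ψ := fun _ α x => k.ψ (p.f x) α)
    ((g.sm2 hj hi.le).mono (by norm_num)) (hN ▸ g.pos) (by have := g.lt; rw [hN]; simp; omega)
    (fun _ _ _ h _ => h)
    (fun _ _ α _ h => by
      rw [g.f_eq] at h ⊢
      exact ((k.lt hP (hu _ h)).trans_le h8).trans_le g.le0)
    (fun _ _ _ _ h _ _ _ => h)
    (fun _ _ α β h _ h1 h2 => by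
      rw [g.f_eq] at h1 h2 ⊢
      exact k.mono hP (hu _ h1) (hu _ h2) h) x
  rw [hN] at h1
  refine ⟨y, h1.mono (by cases k.ng <;> simp [BOp.mc] <;> omega), fun h hh l hl n z hz α hα => ?_⟩
  have := h2 h hh α (hα.trans_le g.le0) l hl
  simp only [la_eq, g.f_eq] at this
  rw [this, St.sem]
  cases hp : k.p (p.P a i) α
  · exact (hz α hα).mono (by omega)
  · have hz' := hz _ ((k.lt hP hp).trans_le h8)
    cases k.ng
    · simpa [rv_add] using (hz α hα).add hz'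
    · simpa [rv_sub] using (hz α hα).sub hz'

lemma pm_rl (g : p.good X.b a) {j : ℕ} (hj : j ≤ p.N a) (k : Pm) :
    Rl p X a (a.c j) (p.fld (p.pmC k)) [.pm k] (p.d a)
      (p.d a * (2000 * p.N a) + 11 * (p.d a + 1)) := by
  refine fld_rl g hj fun e i hi x => ?_
  have hP := g.Pok hi
  have h8 : 8 * (p.P a i).n ≤ p.Λ0 a := hP.2.2.2.2.2.2.2.2.1
  have hN := g.N_eq j hi
  obtain ⟨y, h1, h2⟩ := pm_acts (X := X) (e := e) (a := (a.c j).c i) (H := p.hi) (A := p.la)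
    (A' := p.la) (L := p.lo) (p := fun _ α x => k.p (p.f x) α) (θ := fun _ α x => k.θ (p.f x) α)
    ((g.sm2 hj hi.le).mono (by norm_num)) (hN ▸ g.pos) (by have := g.lt; rw [hN]; simp; omega)
    (fun _ _ α h => by rw [g.f_eq]; exact k.lt hP (h8.trans g.le0) h)
    (fun _ _ α β h _ h1 => by rw [g.f_eq] at h1 ⊢; exact k.mono hP h1 h) x
  rw [hN] at h1
  refine ⟨y, h1.mono (by omega), fun h hh l hl n z hz α hα => ?_⟩
  have := h2 h hh α (hα.trans_le g.le0) l hl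
  simp only [la_eq, g.f_eq] at this
  rw [this, St.sem]
  exact (hz _ (k.lt hP h8 hα)).mono (by omega)

lemma ix_regroup (G s L h α l : ℕ) :
    ix (8 * (G * s)) L h α l = ix s L (h * (8 * G) + α / s) (α % s) l := by
  have := Nat.div_add_mod' α s
  simp only [ix]
  congr 2
  linarith

lemma rv_rl (g : p.good X.b a) {j : ℕ} (hj : j ≤ p.N a) :
    Rl p X a (a.c j) (p.fld p.rvC) [.rv] (p.d a)
      (p.d a * (10000 * p.N a) + 11 * (p.d a + 1)) := by
  refine fld_rl g hj fun e i hi x => ?_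
  have hP := g.Pok hi
  have h8 : 8 * (p.P a i).n ≤ p.Λ0 a := hP.2.2.2.2.2.2.2.2.1
  have hN := g.N_eq j hi
  have hs := (g.sm2 hj hi.le).mono (show 10 ≤ 58 by norm_num)
  have hlt := g.lt
  have hpos := g.pos
  have hf := g.f_eq j i
  generalize hx : (a.c j).c i = a' at *
  have hz : a'.z = a.z := by rw [← hx]; rfl
  have hla : p.la a' = p.Λ a := by rw [← hx]; rfl
  have hn0 : 0 < (p.P a i).n := Nat.mul_pos hP.2.1 hP.1
  have hhi : 0 < p.hi a' := Nat.pos_of_ne_zero fun e => by rw [e] at hN; simp at hN; omega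
  have hlo : 0 < p.lo a' := Nat.pos_of_ne_zero fun e => by rw [e] at hN; simp at hN; omega
  have h8' : p.n8 a' ≤ p.N a := by
    rw [← hN, n8, hf, hla]; gcongr; exact h8.trans g.le0
  have h80 : 0 < p.n8 a' := by rw [n8, hf]; positivity
  have e8 : p.hi a' * (8 * (p.f a').G) * (p.f a').s * p.lo a' = p.n8 a' := by
    rw [n8, FP.n]; ring
  obtain ⟨x', h1, h2⟩ := focus_acts (X := X) (e := e) (a := a') (H := p.hi) (A := p.la)
    (L := p.lo) (B := fun _ => 0) (n := fun x => 8 * (p.f x).n) hs h80 (by rw [hN, hz]; omega)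
    (by simp only [hf, hla]; have := g.le0; omega) x
  obtain ⟨z', h3, h4⟩ := ng_acts (X := X) (e := e) (a := a')
    (H := fun x => p.hi x * (8 * (p.f x).G)) (A := fun x => (p.f x).s) (L := p.lo) hs
    (by simpa only [e8] using h80) (by simp only [e8, hz]; omega) x'
  simp only [e8] at h3
  have h5 := gather_acts (X := X) (e := e) (a := a') (n1 := p.n8) (n2 := p.n8) (n' := p.n8)
    (o1 := .snd) (o2 := .fst)
    (p := fun i x => decide (i / p.lo x % (8 * (p.f x).n) / (p.f x).n % 2 = 1))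
    (φ := fun i _ => i) (ψ := fun i _ => i) hs (by rw [hz]; omega) h80 h80 (fun _ h _ => h)
    (fun _ h _ => h) (fun _ _ h _ _ _ => h.le) (fun _ _ h _ _ _ => h.le) x' z'
  obtain ⟨y, h6, h7⟩ := h2 _ _
    ((dup_acts (n := p.n8) hs (by rw [hz]; omega) _ (by simp [n8])).seq ((h3.frame _).seq h5))
  rw [hN] at h6
  refine ⟨y, h6.mono (by simp [BOp.mc]; omega), fun h hh l hl n z hz α hα => ?_⟩
  have := h7 h hh α (by rw [hla]; exact hα.trans_le g.le0) l hl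
  simp only [hf, hla, zero_le, true_and, zero_add, Nat.sub_zero] at this h1 h4
  rw [this, St.sem]
  refine Apx.mono ?_ (Nat.le_succ n)
  have hr := hz _ (rvθ_lt hP h8 hα)
  by_cases c1 : α < 8 * (p.P a i).n
  · rw [if_pos c1, ix_mid c1 hl]
    by_cases c2 : α / (p.P a i).n % 2 = 1
    · have hd : α / (p.P a i).s < 8 * (p.P a i).G := by
        rw [Nat.div_lt_iff_lt_mul hP.1, mul_assoc]; exact c1
      have e1 : rvθ (p.P a i) α = α / (p.P a i).s * (p.P a i).s +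
          ((p.P a i).s - α % (p.P a i).s) % (p.P a i).s := by
        have := Nat.div_add_mod' α (p.P a i).s
        rw [rvθ, if_pos ⟨c1, c2⟩]; omega
      have e2 := h1 h hh _ (rvθ_lt hP le_rfl c1) l hl
      rw [decide_eq_true c2]
      simp only [cond_true, BOp.sem]
      rw [FP.n, ix_regroup, h4 _ (lo_lt hh hd) _ (Nat.mod_lt _ hP.1) l hl]
      have e3 : rvθ (p.P a i) α / (p.P a i).s = α / (p.P a i).s := by
        rw [e1, add_comm, Nat.add_mul_div_right _ _ hP.1, Nat.div_eq_of_lt (Nat.mod_lt _ hP.1),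
          zero_add]
      have e4 : rvθ (p.P a i) α % (p.P a i).s =
          ((p.P a i).s - α % (p.P a i).s) % (p.P a i).s := by
        rw [e1, Nat.mul_add_mod', Nat.mod_mod]
      rw [FP.n, ix_regroup, e3, e4] at e2
      rw [e2]; exact hr
    · rw [decide_eq_false c2]
      simp only [cond_false, BOp.sem]
      rw [h1 h hh α c1 l hl]
      rw [rvθ, if_neg fun h => c2 h.2]
      exact hz α hα
  · rw [if_neg c1, rvθ, if_neg fun h => c1 h.1]
    exact hz α hα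

lemma geom_le {Λ : ℕ} (h : 2 ≤ Λ) (d : ℕ) : ∑ i ∈ range d, Λ ^ (i + 1) ≤ 2 * Λ ^ d := by
  induction d with
  | zero => simp
  | succ d ih =>
    rw [sum_range_succ, pow_succ]
    nlinarith [Nat.zero_le (Λ ^ d)]

lemma tbl_acts (h : p.ok) (g : p.good X.b a) {j : ℕ} (hj : j ≤ p.lm a) (k : Tb) (e : Cmd) {i : ℕ}
    (hi : i < p.d a) {n : ℕ} (hn : n + (p.lm a + 1) + 4 ≤ 4 * X.b) (T : ℕ → Rec X.b) :
    ∃ T', Acts X e (p.tblC k) ((a.c j).c i) (arr (p.Λ a ^ (p.d a - 1 - i)) T)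
        (arr (p.Λ a ^ (p.d a - 1 - i) * p.Λ a) T')
        ((4000 + 2 * X.μ) * (p.Λ a ^ (p.d a - 1 - i) * p.Λ a) + 2 * (p.Λ a * X.σ)) ∧
      ∀ q < p.Λ a ^ (p.d a - 1 - i), ∀ α < p.Λ a, ∀ z, Apx X.b n (rv (T q)) z →
        Apx X.b (n + (p.lm a + 4)) (rv (T' (q * p.Λ a + α))) (z * tb X.b k j (p.P a i) α) := by
  have hP := g.Pok hi
  have hjN := hj.trans g.lmN
  have hs := (g.sm2 hjN hi.le).mono (show 10 ≤ 58 by norm_num)
  have hlt := g.lt
  have hf := g.f_eq j i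
  have hts := g.ts_eq j i
  have hj' : ((a.c j).c i).u (((a.c j).c i).g 1) = j := Ar.u_eq _ (hj.trans g.lz)
  have hb : 1 ≤ X.b := by have := g.db; omega
  have h2 := g.la2
  have hle : p.Λ a ^ (p.d a - 1 - i) * p.Λ a ≤ p.N a := by
    rw [← pow_succ]; exact (Nat.pow_le_pow_right (by omega) (by omega)).trans g.pN
  generalize hx : (a.c j).c i = a' at *
  have hz : a'.z = a.z := by rw [← hx]; rfl
  have hla : p.la a' = p.Λ a := by rw [← hx]; rfl
  generalize hS : p.Λ a ^ (p.d a - 1 - i) = S at *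
  have hS0 : 0 < S := by rw [← hS]; positivity
  have hS1 : 2 * S ≤ S * p.Λ a := by nlinarith
  have hS2 : p.Λ a ≤ S * p.Λ a := by nlinarith
  have h1 := dup_acts (X := X) (e := e) (n := p.ts) hs (by rw [hts, hz]; omega) (arr S T)
    (by simp [hts])
  have h3 := gather_acts (X := X) (e := e) (a := a') (n1 := p.ts) (n2 := p.ts)
    (n' := fun x => p.ts x * p.la x * 1) (o1 := .fst) (o2 := .fst) (p := fun _ _ => true)
    (φ := fun i x => i / p.la x) (ψ := fun _ _ => 0) hs (by simp only [hts, hla, hz]; omega)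
    (hts ▸ hS0) (hts ▸ hS0)
    (fun i hi _ => by
      simp only [hts, hla, mul_one] at hi ⊢
      exact (Nat.div_lt_iff_lt_mul (by omega)).2 hi)
    (fun _ _ _ => hts ▸ hS0) (fun _ _ h _ _ _ => Nat.div_le_div_right h.le)
    (fun _ _ _ _ _ _ => le_rfl) T T
  have h4 := ldN_acts (X := X) (e := e) (a := a') (n := p.la)
    (f := fun i y => zw y.2 (apx (p.tF k) ((⟨i⟩, y), 3 * y.2)).re)
    (g := fun i y => zw y.2 (apx (p.tF k) ((⟨i⟩, y), 3 * y.2)).im) hs (by rw [hla, hz]; omega)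
  obtain ⟨T', h5, h6⟩ := tab_acts (X := X) (e := e) (a := a') (H := p.ts) (A := p.la)
    (L := fun _ => 1) (o := .muls) hs (by simp only [hts, hla]; omega)
    (by simp only [hts, hla, hz]; omega)
    (fun i => (cond true BOp.fst BOp.fst).sem (T (i / p.la a')) (T 0))
    fun i => (Wd.ofNat X.b (zw X.b (apx (p.tF k) ((⟨i⟩, a', X.b), 3 * X.b)).re),
      Wd.ofNat X.b (zw X.b (apx (p.tF k) ((⟨i⟩, a', X.b), 3 * X.b)).im))
  rw [← hts] at h1
  have h7 : Acts X e (p.tblC k) a' _ _ _ := h1.seq (h3.seq ((h4.frame _).seq h5))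
  simp only [hts, hla, mul_one] at h7 h6
  refine ⟨T', h7.mono ?_, fun q hq α hα z hz => ?_⟩
  · simp only [BOp.mc]; nlinarith [Nat.zero_le (X.σ * (p.Λ a - 1)), Nat.sub_add_cancel (show 1 ≤ p.Λ a by omega)]
  · have h8 := h6 q hq α hα 0 one_pos
    simp only [ix, mul_one, add_zero, cond_true, BOp.sem] at h8
    rw [add_comm (q * _), Nat.add_mul_div_right _ _ (by omega), Nat.div_eq_of_lt hα, zero_add,
      add_comm α] at h8
    have h9 : Apx X.b (p.lm a + 1) (rv ((Wd.ofNat X.b (zw X.b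
        (apx (p.tF k) ((⟨α⟩, a', X.b), 3 * X.b)).re), Wd.ofNat X.b (zw X.b
        (apx (p.tF k) ((⟨α⟩, a', X.b), 3 * X.b)).im)) : Rec X.b)) (tb X.b k j (p.P a i) α) := by
      refine ⟨_, rv_zw hb _, ?_, tb_norm hP _ _ _⟩
      have := (apx_spec (tF_ac h k)).2.2 (⟨α⟩, a', X.b) (3 * X.b)
      simp only [tF, hf, hj'] at this
      refine this.trans ?_
      rw [pow_succ]
      nlinarith [one_le_pow₀ (M₀ := ℝ) (a := 2) (n := p.lm a) (by norm_num)]
    rw [h8]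
    exact (hz.muls h9 hn).mono (by omega)

lemma dg_rl (h : p.ok) (g : p.good X.b a) {j : ℕ} (hj : j ≤ p.lm a) (k : Tb) :
    Rl p X a (a.c j) (p.dgC k) [.dg k j] (p.d a * (p.lm a + 4) + 3)
      (20000 * ((X.μ + 1) * p.N a + p.d a * p.Λ a * X.σ)) := fun e n x Y hn hA => by
  have hjN := hj.trans g.lmN
  have hs := (g.sm1 hjN).mono (show 10 ≤ 59 by norm_num)
  have hlt := g.lt
  have hpos := g.pos
  have hd1 := g.d1
  have hdN := g.dN
  have hpN := g.pN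
  have h2 := g.la2
  have hb : 1 ≤ X.b := by have := g.db; omega
  have hu : (a.c j).u (p.d a) = p.d a := Ar.u_eq _ g.dz
  have h1 := ldN_acts (X := X) (e := e) (a := a.c j) (n := fun _ => 1)
    (f := fun _ y => 2 ^ (3 * y.2)) (g := fun _ _ => 0) hs (by simp only [Ar.c_z]; omega)
  obtain ⟨ys, h3, T, rfl, h4⟩ := loopF_acts (e := e) (n := fun x => p.d x.t) (a := a.c j)
    (c := .arg (fun x => (p.d x.t.t - 1 - x.g 0) :: x.t.l) (p.tblC k))
    (hs.mono (by norm_num)) (g.dN.trans_lt g.Nz)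
    (fun i xs => ∃ T, xs = arr (p.Λ a ^ i) T ∧ ∀ q < p.Λ a ^ i, Apx X.b (i * (p.lm a + 4))
      (rv (T q)) (∏ t ∈ range i, tb X.b k j (p.P a (p.d a - i + t)) (q / p.Λ a ^ t % p.Λ a)))
    (fun i => (4000 + 2 * X.μ) * p.Λ a ^ (i + 1) + 2 * (p.Λ a * X.σ) + 1)
    (fun e' i hi xs ⟨T, hx, hT⟩ => by
      replace hi : i < p.d a := hi
      have e1 : p.d a - 1 - (p.d a - 1 - i) = i := by omega
      have e2 : (i + 1) * (p.lm a + 4) ≤ p.d a * (p.lm a + 4) := Nat.mul_le_mul_right _ hi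
      obtain ⟨T', h5, h6⟩ := tbl_acts h g hj k e' (i := p.d a - 1 - i) (by omega)
        (n := i * (p.lm a + 4)) (by nlinarith) T
      rw [e1, ← pow_succ] at h5
      rw [e1] at h6
      refine ⟨_, hx ▸ h5.arg rfl ((g.sm2 hjN (i := p.d a - 1 - i) (by omega)).mono (Nat.zero_le _)), T', rfl,
        fun q hq => ?_⟩
      have h7 := h6 (q / p.Λ a) ((Nat.div_lt_iff_lt_mul (by omega)).2 (by rwa [← pow_succ]))
        (q % p.Λ a) (Nat.mod_lt _ (by omega)) _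
        (hT _ ((Nat.div_lt_iff_lt_mul (by omega)).2 (by rwa [← pow_succ])))
      rw [Nat.div_add_mod'] at h7
      rw [prod_range_succ', add_mul, one_mul]
      have e3 : p.d a - (i + 1) + 0 = p.d a - 1 - i := by omega
      have e4 : ∀ t, p.d a - (i + 1) + (t + 1) = p.d a - i + t := fun t => by omega
      simp only [e3, e4, pow_zero, Nat.div_one, pow_succ', ← Nat.div_div_eq_div_mul]
      exact h7)
    (arr 1 fun _ => (Wd.ofNat X.b (2 ^ (3 * X.b)), Wd.ofNat X.b 0))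
    ⟨_, by rw [pow_zero], fun q _ => ⟨(2 ^ (3 * X.b) : ℕ), by
      rw [rv_nat _ (Nat.pow_lt_pow_right (by norm_num) (by omega)), map_natCast], by
        rw [map_natCast]; simp, by simp⟩⟩
  have eN : p.H a * p.Λ a ^ p.d a * (p.Mz a ^ p.d a * p.L a) = p.N a := by rw [N]; ring
  obtain ⟨y, h5, h6⟩ := tab_acts (X := X) (e := e) (a := a.c j) (H := fun x => p.H x.t)
    (A := fun x => p.Λ x.t ^ x.u (p.d x.t)) (L := fun x => p.Mz x.t ^ x.u (p.d x.t) * p.L x.t)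
    (o := .muls) hs (by simp only [Ar.c_t, hu, eN]; omega)
    (by simp only [Ar.c_t, hu, eN, Ar.c_z]; omega) x T
  simp only [Ar.c_t, hu, eN] at h5 h6 h3 h4
  refine ⟨y, ((h1.frame _).seq ((h3.frame _).seq h5)).mono ?_, fun h' hh w hw l hl v hv => ?_⟩
  · have := geom_le h2 (p.d a)
    simp only [sum_add_distrib, ← mul_sum, sum_const, card_range, smul_eq_mul, mul_one]
    have e5 : X.σ ≤ p.d a * p.Λ a * X.σ := Nat.le_mul_of_pos_left _ (by positivity)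
    have e6 : (4000 + 2 * X.μ) * ∑ i ∈ range (p.d a), p.Λ a ^ (i + 1) ≤
      (4000 + 2 * X.μ) * (2 * p.N a) := Nat.mul_le_mul_left _ (by omega)
    nlinarith [Nat.zero_le (X.μ * p.N a)]
  · have hv' : ∀ t < p.d a, v t < p.Λ a := fun t ht => (hv t ht).trans_le g.le0
    have h7 := hA h' hh w hw l hl v hv
    have h8 := h4 _ (dg_lt hv')
    rw [lx_eq] at h7 ⊢
    rw [h6 h' hh _ (dg_lt hv') _ (lo_lt (dg_lt fun t ht => by have := hw t ht; omega) hl)]
    have h9 := h7.muls h8 (by omega)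
    have e7 : runL X.b (p.P a) (p.d a) [St.dg k j] (Y h' w l) v = Y h' w l v *
        ∏ t ∈ range (p.d a), tb X.b k j (p.P a (p.d a - p.d a + t))
          (dg (p.Λ a) (p.d a) v / p.Λ a ^ t % p.Λ a) := by
      rw [prod_congr rfl fun t ht => by
        rw [dg_digit hv' (mem_range.1 ht), Nat.sub_self, zero_add]]
      exact allL_dg (fun i y => tb X.b k j (p.P a i) y) _ _ _
    beta_reduce
    rw [e7]
    exact h9.mono (by omega)

lemma bl_rl (g : p.good X.b a) {j : ℕ} (hj : j < p.lm a) :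
    Rl p X a (a.c j) p.blC [.bl j] (p.d a * (p.lm a + 4) + 3)
      ((cc (p.d a) * ((p.Λ a).size + 1) + 2 * X.μ) * p.N a + 2 * X.σ) := fun e n x Y hn hA => by
  have h1 : 2 ^ (j + 1) ∣ 2 ^ p.lm a := pow_dvd_pow _ hj
  obtain ⟨y, h2, h3⟩ := layer_acts (X := X) (e := e) (a := a.c j) (H := fun x => p.H x.t)
    (d := fun x => p.d x.t) (Λ := fun x => p.Λ x.t) (Mz := fun x => p.Mz x.t)
    (L := fun x => p.L x.t) (j := fun x => x.g 0) (p.Λ0 a)
    ((g.sm1 (hj.le.trans g.lmN)).mono (by norm_num)) g.db g.pos g.lt g.d1 g.wd g.mz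
    (h1.trans g.dv) (by
      simp only [Ar.c_t, Ar.c_g0, g.lam]
      exact dvd_add (h1.trans g.dv) (h1.mul_left _))
    (by
      simp only [Ar.c_t, Ar.c_g0, g.lam]
      have := Nat.le_of_dvd (by positivity) h1
      gcongr) x
  refine ⟨y, h2, fun h hh w hw l hl v hv => ?_⟩
  have := h3 h hh w hw l hl v hv
  simp only [Ar.c_t, Ar.c_g0] at this
  rw [this]
  exact (apx_allL (h1.trans g.dv) (hA h hh w hw l hl) _ le_rfl v hv).mono (by nlinarith)

/-- cost unit of an item -/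
noncomputable def cu (p : CP) (X : Cx) (a : Ar) : ℕ :=
  (p.d a + (p.lm a + 1) * (cc (p.d a) * ((p.Λ a).size + 1) + X.μ + 1)) * p.N a +
    (p.lm a + 1) * p.d a * p.Λ a * X.σ

lemma it_rl (h : p.ok) (g : p.good X.b a) (i : It) :
    Rl p X a a (p.itC i) (i.flat (p.lm a)) ((3 * p.lm a + 1) * (p.d a * (p.lm a + 4) + 3))
      (100000 * cu p X a) := by
  have hs : Sm 0 (a.c 0) := (g.sm1 (Nat.zero_le _)).mono (Nat.zero_le _)
  have hd1 := g.d1
  have hN := g.pos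
  have h2 := g.la2
  have e1 : p.d a ≤ (3 * p.lm a + 1) * (p.d a * (p.lm a + 4) + 3) := by nlinarith [Nat.zero_le (p.lm a * (p.d a * (p.lm a + 4) + 3)), Nat.zero_le (p.d a * p.lm a)]
  have e2 : p.d a * p.N a ≤ cu p X a := by
    rw [cu, add_mul]; omega
  have e3 : p.d a ≤ p.d a * p.N a := Nat.le_mul_of_pos_right _ hN
  obtain ⟨u, hu⟩ : ∃ u, u = (cc (p.d a) * ((p.Λ a).size + 1) + X.μ + 1) * p.N a +
    p.d a * p.Λ a * X.σ := ⟨_, rfl⟩
  have e4 : (p.lm a + 1) * u ≤ cu p X a := by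
    rw [cu, hu, add_mul (p.d a), mul_add (p.lm a + 1), ← mul_assoc, ← mul_assoc, ← mul_assoc]
    omega
  have e5 : (X.μ + 1) * p.N a + p.d a * p.Λ a * X.σ ≤ u := by
    rw [hu, add_assoc, add_mul (_ * _)]; omega
  have e6 : X.σ ≤ p.d a * p.Λ a * X.σ := Nat.le_mul_of_pos_left _ (by positivity)
  have e7 : (cc (p.d a) * ((p.Λ a).size + 1) + 2 * X.μ) * p.N a + 2 * X.σ ≤ 2 * u := by
    rw [hu]; nlinarith [Nat.zero_le (cc (p.d a) * ((p.Λ a).size + 1) * p.N a)]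
  have e8 : 1 ≤ u := by nlinarith [Nat.zero_le (X.μ * p.N a)]
  have st : ∀ j < p.lm a, ∀ k k', Rl p X a (a.c j) (.seq (p.dgC k) (.seq p.blC (p.dgC k')))
      [.dg k j, .bl j, .dg k' j] (3 * (p.d a * (p.lm a + 4) + 3)) (50000 * u) := fun j hj k k' =>
    ((dg_rl h g hj.le k).seq ((bl_rl g hj).seq (dg_rl h g hj.le k'))).mono (by omega) (by omega)
  have hl : p.lm a < 2 ^ a.z := g.lmN.trans_lt g.Nz
  cases i with
  | ax k => exact ((ax_rl g (Nat.zero_le _) k).arg rfl hs).mono e1 (by nlinarith)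
  | pm k => exact ((pm_rl g (Nat.zero_le _) k).arg rfl hs).mono e1 (by nlinarith)
  | rv => exact ((rv_rl g (Nat.zero_le _)).arg rfl hs).mono e1 (by nlinarith)
  | dg k =>
    exact ((dg_rl h g (Nat.zero_le _) k).arg rfl hs).mono (Nat.le_mul_of_pos_left _ (by omega))
      (by nlinarith [Nat.zero_le (p.lm a * u)])
  | fwd =>
    refine (Rl.loop (g.sm.mono (by norm_num)) hl fun i hi =>
      (st (p.lm a - 1 - i) (by omega) _ _).arg rfl
        ((g.sm1 ((show _ ≤ p.lm a by omega).trans g.lmN)).mono (Nat.zero_le _))).mono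
      (by nlinarith) (by nlinarith [Nat.zero_le (p.lm a * (u - 1)), Nat.sub_add_cancel e8])
  | bwd =>
    refine (Rl.loop (g.sm.mono (by norm_num)) hl fun i hi => st i hi _ _).mono
      (by nlinarith) (by nlinarith [Nat.zero_le (p.lm a * (u - 1)), Nat.sub_add_cancel e8])

lemma pr_rl (h : p.ok) (g : p.good X.b a) (l : List It) :
    Rl p X a a (p.prC l) (l.flatMap (It.flat (p.lm a)))
      (l.length * ((3 * p.lm a + 1) * (p.d a * (p.lm a + 4) + 3)))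
      (l.length * (100000 * cu p X a + 1) + 1) := by
  induction l with
  | nil => exact fun e n x Y _ hA => ⟨x, (Acts.skip _).mono (by simp), by simpa [runL] using hA⟩
  | cons i l ih =>
    exact ((it_rl h g i).seq ih).mono (by simp [add_mul]; omega) (by simp [add_mul]; omega)

end acts

end CP

noncomputable def core (p : CP) : Cmd := p.prC prog

theorem core_ok {p : CP} (h : p.ok) : (core p).ok := CP.prC_ok h _

theorem core_acts : ∃ K : ℕ, ∀ (X : Cx) (e : Cmd) (a : Ar) (p : CP), p.ok → p.good X.b a →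
    ∀ (n : ℕ), n + coreD (p.d a) (p.lm a) + 1 ≤ 4 * X.b → ∀ (x : ℕ → Rec X.b)
      (Y : ℕ → (ℕ → ℕ) → ℕ → (ℕ → ℕ) → ℂ),
      (∀ h < p.H a, ∀ w : ℕ → ℕ, (∀ i < p.d a, w i + 1 < p.Mz a) → ∀ l < p.L a,
        ∀ v : ℕ → ℕ, (∀ i < p.d a, v i < p.Λ0 a) →
          Apx X.b n (rv (x (lx (p.d a) (p.Λ a) (p.Mz a) (p.L a) h v w l))) (Y h w l v)) →
      ∃ y, Acts X e (core p) a (arr (p.N a) x) (arr (p.N a) y)
          (K * ((p.d a + (p.lm a + 1) * (cc (p.d a) * ((p.Λ a).size + 1) + X.μ + 1)) * p.N a +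
            (p.lm a + 1) * p.d a * p.Λ a * X.σ)) ∧
        ∀ h < p.H a, ∀ w : ℕ → ℕ, (∀ i < p.d a, w i + 1 < p.Mz a) → ∀ l < p.L a,
          ∀ v : ℕ → ℕ, (∀ i < p.d a, v i < 8 * (p.Λ0 a / (8 * p.s i a) * p.s i a)) →
            Apx X.b (n + coreD (p.d a) (p.lm a))
              (rv (y (lx (p.d a) (p.Λ a) (p.Mz a) (p.L a) h v w l)))
              (allL (fun i => dft (p.s i a)) (p.d a) (Y h w l) v) := by
  refine ⟨prog.length * 100001 + 1, fun X e a p h g n hn x Y hA => ?_⟩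
  obtain ⟨y, h1, h2⟩ := CP.pr_rl h g prog e n x Y (by rwa [coreD, mul_assoc] at hn) hA
  refine ⟨y, h1.mono ?_, fun h' hh w hw l hl v hv => ?_⟩
  · have h3 : 1 ≤ CP.cu p X a := by
      have := g.pos; have := g.d1
      rw [CP.cu, add_mul]; nlinarith [Nat.zero_le ((p.lm a + 1) * p.d a * p.Λ a * X.σ), Nat.zero_le ((p.lm a + 1) * (cc (p.d a) * ((p.Λ a).size + 1) + X.μ + 1) * p.N a)]
    change _ ≤ _ * CP.cu p X a
    nlinarith [Nat.zero_le (prog.length * (CP.cu p X a - 1)), Nat.sub_add_cancel h3]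
  · have h3 := h2 h' hh w hw l hl v fun i hi => (hv i hi).trans_le (g.Pok hi).2.2.2.2.2.2.2.2.1
    rw [coreD, mul_assoc]
    beta_reduce at h3
    rwa [field_main (p.P a) (p.d a) (fun i hi => g.Pok hi) g.lb _ _ hv] at h3


end Vale.Agent.P338
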