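import Mathlib

namespace Vale.Agent.P338

/-- Head moves. -/
inductive Move
  | left
  | stay
  | right

/-- Effect of a move on a one-way infinite tape (cells `0, 1, 2, ...`). -/
def Move.act : Move → ℕ → ℕ
  | Move.left, h => h - 1
  | Move.stay, h => h
  | Move.right, h => h + 1

/-- Deterministic multitape Turing machine: finitely many states, tape symbols and tapes. -/
structure TM where
  Q : Type
  Γ : Type
  Tp : Type
  finQ : Finite Q
  finΓ : Finite Γ
  finTp : Finite Tp
  start : Q
  halt : Q → Bool
  blank : Γ
  hash : Γ
  bit : Bool → Γ
  bit_inj : Function.Injective bit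
  bit_ne_blank : ∀ b, bit b ≠ blank
  bit_ne_hash : ∀ b, bit b ≠ hash
  hash_ne_blank : hash ≠ blank
  inp : Tp
  out : Tp
  inp_ne_out : inp ≠ out
  δ : Q → (Tp → Γ) → Q × (Tp → Γ × Move)

/-- Configurations. -/
structure Cfg (M : TM) where
  state : M.Q
  head : M.Tp → ℕ
  tape : M.Tp → ℕ → M.Γ

/-- One step: read all scanned cells, write, move all heads; halting states do not move. -/
def step (M : TM) (c : Cfg M) : Cfg M :=
  if M.halt c.state = true then c else
    { state := (M.δ c.state fun j => c.tape j (c.head j)).1
      head := fun j => ((M.δ c.state fun j => c.tape j (c.head j)).2 j).2.act (c.head j)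
      tape := fun j => Function.update (c.tape j) (c.head j)
        ((M.δ c.state fun j => c.tape j (c.head j)).2 j).1 }

/-- A tape holding the word `w` on its first cells and blanks elsewhere. -/
def tapeOf (M : TM) (w : List M.Γ) : ℕ → M.Γ := fun i => w.getD i M.blank

open Classical in
/-- Initial configuration on input `x # y`. -/
noncomputable def init (M : TM) (x y : List Bool) : Cfg M :=
  { state := M.start
    head := fun _ => 0
    tape := fun j => if j = M.inp then tapeOf M (x.map M.bit ++ M.hash :: y.map M.bit)
      else tapeOf M [] }

/-- Value of a binary string, leftmost bit most significant. -/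
def val (x : List Bool) : ℕ := x.foldl (fun a b => 2 * a + b.toNat) 0

/-- Binary representation of `z` padded on the left to length `k`. -/
def bin (k z : ℕ) : List Bool := (List.range k).map fun i => z.testBit (k - 1 - i)

/-- After `t` steps on input `x # y` the machine is in a halting state. -/
def Halted (M : TM) (x y : List Bool) (t : ℕ) : Prop :=
  M.halt ((step M)^[t] (init M x y)).state = true

/-- `M` multiplies. -/
def Multiplies (M : TM) : Prop :=
  ∀ n : ℕ, 1 ≤ n → ∀ x y : List Bool, x.length = n → y.length = n → ∃ t, Halted M x y t ∧
    ((step M)^[t] (init M x y)).tape M.out = tapeOf M ((bin (2 * n) (val x * val y)).map M.bit)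

/-- Number of steps until the machine halts on input `x # y`. -/
noncomputable def steps (M : TM) (x y : List Bool) : ℕ := sInf {t | Halted M x y t}

/-- Worst-case running time on pairs of `n`-bit inputs. -/
noncomputable def T (M : TM) (n : ℕ) : ℕ :=
  (Finset.univ : Finset ((Fin n → Bool) × (Fin n → Bool))).sup fun p =>
    steps M (List.ofFn p.1) (List.ofFn p.2)

end Vale.Agent.P338
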