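import Vale.Agent.P338.Field

/-! Rounds of transforms along coprime factors give a cyclic Fourier transform. -/

namespace Vale.Agent.P338

open Function Finset

/-- position in the cyclic index of pool value `β < Q'` and digits `a i < s i` -/
def pos (s m a : ℕ → ℕ) : ℕ → ℕ → ℕ → ℕ
  | 0, _, β => β
  | d + 1, Q', β => pos s m a d (Q' * s d) ((β + m d * a d) % Q' * s d + a d)

lemma pos_lt (s m a : ℕ → ℕ) (d Q' β : ℕ) (hβ : β < Q') (ha : ∀ i < d, a i < s i) :
    pos s m a d Q' β < Q' * ∏ i ∈ range d, s i := by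
  induction d generalizing Q' β with
  | zero => simpa [pos] using hβ
  | succ d ih =>
    rw [pos, prod_range_succ, ← mul_assoc, mul_right_comm]
    exact ih _ _ (blk_lt (Nat.mod_lt _ (Nat.zero_lt_of_lt hβ)) (ha d d.lt_succ_self))
      fun i hi => ha i (by omega)

lemma pos_congr (s m : ℕ → ℕ) {a a' : ℕ → ℕ} {d : ℕ} (h : ∀ i < d, a i = a' i) (Q' β : ℕ) :
    pos s m a d Q' β = pos s m a' d Q' β := by
  induction d generalizing Q' β with
  | zero => rfl
  | succ d ih => rw [pos, pos, h d d.lt_succ_self, ih fun i hi => h i (by omega)]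

lemma pos_surj (s m : ℕ → ℕ) (d Q' ν : ℕ) (hν : ν < Q' * ∏ i ∈ range d, s i) :
    ∃ β < Q', ∃ a : ℕ → ℕ, (∀ i < d, a i < s i) ∧ pos s m a d Q' β = ν := by
  induction d generalizing Q' with
  | zero => exact ⟨ν, by simpa using hν, fun _ => 0, fun i hi => by omega, rfl⟩
  | succ d ih =>
    rw [prod_range_succ, mul_comm _ (s d), ← mul_assoc] at hν
    obtain ⟨β, hβ, a, ha, h⟩ := ih _ hν
    have hs : 0 < s d := Nat.pos_of_mul_pos_left (lt_of_le_of_lt (Nat.zero_le _) hβ)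
    have hQ : 0 < Q' := Nat.pos_of_mul_pos_right (lt_of_le_of_lt (Nat.zero_le _) hβ)
    have h1 : β / s d < Q' := (Nat.div_lt_iff_lt_mul hs).2 hβ
    refine ⟨(β / s d + (Q' - 1) * (m d * (β % s d))) % Q', Nat.mod_lt _ hQ,
      update a d (β % s d), fun i hi => ?_, ?_⟩
    · rcases Nat.lt_succ_iff_lt_or_eq.1 hi with h2 | rfl
      · rw [update_of_ne h2.ne]; exact ha i h2
      · rw [update_self]; exact Nat.mod_lt _ hs
    · have e : β / s d + (Q' - 1) * (m d * (β % s d)) + m d * (β % s d) =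
          β / s d + Q' * (m d * (β % s d)) := by
        obtain ⟨q, rfl⟩ : ∃ q, Q' = q + 1 := ⟨Q' - 1, by omega⟩
        rw [Nat.add_sub_cancel]; ring
      rw [pos, update_self, Nat.mod_add_mod, e, Nat.add_mul_mod_self_left, Nat.mod_eq_of_lt h1,
        Nat.div_add_mod', pos_congr s m (a' := a) fun i hi => update_of_ne hi.ne _ _, h]

namespace Fd

lemma pos_mod (s m a : ℕ → ℕ) {d Q' N : ℕ} (β : ℕ) (hN : Q' * ∏ i ∈ range d, s i = N)
    (h0 : ∀ i < d, 0 < s i) (hm : ∀ i < d, N / s i ∣ s i * m i + 1) :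
    pos s m a d Q' β ≡ (∏ i ∈ range d, s i) * β [MOD Q'] ∧
      ∀ j < d, pos s m a d Q' β ≡ (∏ i ∈ range j, s i) * a j [MOD s j] := by
  induction d generalizing Q' β with
  | zero => exact ⟨by simp [pos, Nat.ModEq], fun j hj => by omega⟩
  | succ d ih =>
    have hN' : Q' * s d * ∏ i ∈ range d, s i = N := by rw [← hN, prod_range_succ]; ring
    obtain ⟨h1, h2⟩ := ih ((β + m d * a d) % Q' * s d + a d) hN' (fun i hi => h0 i (by omega))
      fun i hi => hm i (by omega)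
    have h3 : Q' ∣ s d * m d + 1 := by
      refine Dvd.dvd.trans ⟨∏ i ∈ range d, s i, ?_⟩ (hm d d.lt_succ_self)
      rw [← hN', mul_right_comm, Nat.mul_div_cancel _ (h0 d d.lt_succ_self)]
    refine ⟨?_, fun j hj => ?_⟩
    · refine (h1.of_mul_right _).trans ?_
      rw [prod_range_succ, mul_assoc]
      refine Nat.ModEq.mul_left _ ?_
      refine (((Nat.mod_modEq _ _).mul_right _).add_right _).trans ?_
      obtain ⟨c, hc⟩ := h3
      have : (β + m d * a d) * s d + a d = s d * β + Q' * (c * a d) := by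
        rw [← mul_assoc, ← hc]; ring
      rw [this]
      exact Nat.add_mul_mod_self_left _ _ _
    · rcases Nat.lt_succ_iff_lt_or_eq.1 hj with h4 | rfl
      · exact h2 j h4
      · refine (h1.of_mul_left _).trans (Nat.ModEq.mul_left _ ?_)
        rw [Nat.ModEq, Nat.mul_add_mod_self_right]

lemma modEq_prod {s : ℕ → ℕ} {d A x y : ℕ} (hA : ∀ i < d, Nat.Coprime A (s i))
    (hc : ∀ i < d, ∀ j < d, i ≠ j → Nat.Coprime (s i) (s j)) (h1 : x ≡ y [MOD A])
    (h2 : ∀ i < d, x ≡ y [MOD s i]) : x ≡ y [MOD A * ∏ i ∈ range d, s i] := by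
  induction d with
  | zero => simpa using h1
  | succ d ih =>
    rw [prod_range_succ, ← mul_assoc]
    refine (Nat.modEq_and_modEq_iff_modEq_mul ?_).1 ⟨ih (fun i hi => hA i (by omega))
      (fun i hi j hj => hc i (by omega) j (by omega)) fun i hi => h2 i (by omega),
      h2 d d.lt_succ_self⟩
    refine Nat.Coprime.mul_left (hA d d.lt_succ_self) (Nat.Coprime.prod_left fun i hi => ?_)
    have := mem_range.1 hi
    exact hc i (by omega) d (by omega) (by omega)

/-- transform over a residue class -/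
noncomputable def Tc (Q A : ℕ) (ζ : ℂ) (Z : ℕ → ℂ) (ν : ℕ) : ℂ :=
  ∑ ν' ∈ range Q, if ν' ≡ ν [MOD A] then ζ ^ (ν * ν') * Z ν' else 0

lemma pow_modEq {ζ : ℂ} {p a b : ℕ} (h : ζ ^ p = 1) (hab : a ≡ b [MOD p]) : ζ ^ a = ζ ^ b := by
  rw [pow_eq_pow_mod a h, pow_eq_pow_mod b h, hab]

lemma Tc_Tc {C p q : ℕ} (hC : 0 < C) (hp : 0 < p) (hq : 0 < q) (hpq : Nat.Coprime p q)
    {ζ η : ℂ} (hζ : ζ ^ p = 1) (hη : η ^ q = 1) (Z : ℕ → ℂ) (ν : ℕ) :
    Tc (C * p * q) (C * p) η (Tc (C * p * q) (C * q) ζ Z) ν = Tc (C * p * q) C (ζ * η) Z ν := by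
  have hl : Nat.lcm (C * p) (C * q) = C * p * q := by
    rw [Nat.lcm_mul_left, hpq.lcm_eq_mul, mul_assoc]
  have hg : Nat.gcd (C * p) (C * q) = C := by rw [Nat.gcd_mul_left, hpq.gcd_eq_one, mul_one]
  unfold Tc
  have e : ∀ ν', (if ν' ≡ ν [MOD C * p] then η ^ (ν * ν') * ∑ ν'' ∈ range (C * p * q),
      (if ν'' ≡ ν' [MOD C * q] then ζ ^ (ν' * ν'') * Z ν'' else 0) else 0) =
      ∑ ν'' ∈ range (C * p * q), if ν' ≡ ν [MOD C * p] ∧ ν' ≡ ν'' [MOD C * q] then
        (ζ * η) ^ (ν * ν'') * Z ν'' else 0 := by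
    intro ν'
    split_ifs with h1
    · rw [mul_sum]
      refine sum_congr rfl fun ν'' _ => ?_
      by_cases h2 : ν'' ≡ ν' [MOD C * q]
      · rw [if_pos h2, if_pos ⟨h1, h2.symm⟩, mul_pow,
          pow_modEq hη ((h2.of_mul_left C).mul_left ν),
          pow_modEq hζ ((h1.of_mul_left C).mul_right ν'')]
        ring
      · rw [if_neg h2, if_neg fun h => h2 h.2.symm, mul_zero]
    · exact (sum_eq_zero fun ν'' _ => if_neg fun h => h1 h.1).symm
  rw [sum_congr rfl fun ν' _ => e ν', sum_comm]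
  refine sum_congr rfl fun ν'' _ => ?_
  split_ifs with h1
  · have h2 : ν ≡ ν'' [MOD Nat.gcd (C * p) (C * q)] := by rw [hg]; exact h1.symm
    have h3 := (Nat.chineseRemainder' h2).2
    have h4 := Nat.chineseRemainder'_lt_lcm h2 (by positivity) (by positivity)
    rw [hl] at h4
    rw [sum_eq_single_of_mem _ (mem_range.2 h4), if_pos h3]
    intro ν' h5 h6
    refine if_neg fun h => h6 ?_
    refine Nat.ModEq.eq_of_lt_of_lt ?_ (mem_range.1 h5) h4
    rw [← hl]
    exact Nat.mod_lcm (h.1.trans h3.1.symm) (h.2.trans h3.2.symm)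
  · exact sum_eq_zero fun ν' _ => if_neg fun h =>
      h1 ((h.2.of_mul_right q).symm.trans (h.1.of_mul_right p))

lemma Tc_zero {Q ν : ℕ} (hν : ν < Q) (Z : ℕ → ℂ) : Tc Q Q 1 Z ν = Z ν := by
  rw [Tc, sum_eq_single_of_mem _ (mem_range.2 hν), if_pos (Nat.ModEq.refl _), one_pow, one_mul]
  exact fun ν' h1 h2 => if_neg fun h => h2 (h.eq_of_lt_of_lt (mem_range.1 h1) hν)

lemma ez_pow_self {s : ℕ} (hs : 0 < s) (k : ℤ) : ez k s ^ s = 1 := by
  have := ez_per 0 k hs
  rw [zero_add, ez_zero, mul_comm] at this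
  rw [← ez_pow, this]

lemma ez_nat (k s : ℕ) : ez k s = ez 1 s ^ k := by rw [← ez_pow, mul_one]

/-- one coordinate -/
lemma Tc_one {A s c w a ν : ℕ} (hs : 0 < s) (hA : Nat.Coprime A s) (hc : c * w ≡ 1 [MOD s])
    (f : ℕ → ℕ) (hf : ∀ u < s, f u < A * s ∧ f u ≡ ν [MOD A] ∧ f u ≡ w * u [MOD s])
    (hν : ν ≡ w * a [MOD s]) (Z : ℕ → ℂ) :
    Tc (A * s) A (ez (c ^ 2 : ℕ) s) Z ν = ∑ u ∈ range s, ez (u * a : ℕ) s * Z (f u) := by
  have k1 : ∀ u x, x ≡ w * u [MOD s] → c * x ≡ u [MOD s] := fun u x h => by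
    refine (h.mul_left c).trans ?_
    rw [← mul_assoc]
    simpa using hc.mul_right u
  rw [Tc, ← sum_filter]
  symm
  refine sum_nbij' f (fun x => c * x % s) ?_ ?_ ?_ ?_ ?_
  · intro u hu
    have := hf u (mem_range.1 hu)
    exact mem_filter.2 ⟨mem_range.2 this.1, this.2.1⟩
  · exact fun x _ => mem_range.2 (Nat.mod_lt _ hs)
  · intro u hu
    have h1 := k1 u _ (hf u (mem_range.1 hu)).2.2
    rw [h1, Nat.mod_eq_of_lt (mem_range.1 hu)]
  · intro x hx
    obtain ⟨h1, h2⟩ := mem_filter.1 hx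
    obtain ⟨h3, h4, h5⟩ := hf _ (Nat.mod_lt (c * x) hs)
    refine Nat.ModEq.eq_of_lt_of_lt ?_ h3 (mem_range.1 h1)
    refine (Nat.modEq_and_modEq_iff_modEq_mul hA).1 ⟨h4.trans h2.symm, h5.trans ?_⟩
    refine ((Nat.mod_modEq _ _).mul_left w).trans ?_
    rw [← mul_assoc, mul_comm w]
    simpa using hc.mul_right x
  · intro u hu
    congr 1
    rw [ez_nat, ez_nat (c ^ 2), ← pow_mul]
    refine pow_modEq (ez_pow_self hs 1) ?_
    have h1 := (k1 u _ (hf u (mem_range.1 hu)).2.2).mul (k1 a _ hν)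
    have e : c ^ 2 * (ν * f u) = c * f u * (c * ν) := by ring
    rw [e]
    exact h1.symm

lemma allL_congr' (A : ℕ → (ℕ → ℂ) → ℕ → ℂ) {d : ℕ} {X X' : (ℕ → ℕ) → ℂ} {v : ℕ → ℕ}
    (h : ∀ v', (∀ i, d ≤ i → v' i = v i) → X v' = X' v') : allL A d X v = allL A d X' v := by
  induction d generalizing v with
  | zero => exact h v fun _ _ => rfl
  | succ d ih =>
    simp only [allL, lift]
    congr 1
    funext u
    refine ih fun v' hv' => h v' fun i hi => ?_
    rw [hv' i (by omega), update_of_ne (by omega)]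

lemma dft_lt {s a : ℕ} (ha : a < s) (x : ℕ → ℂ) :
    dft s x a = ∑ u ∈ range s, ez (u * a : ℕ) s * x u := by
  simp only [dft, Nat.mod_eq_of_lt ha, Nat.sub_self, zero_add]

/-- one round -/
lemma round_eq (s m c : ℕ → ℕ) {D Q : ℕ} (h0 : ∀ i < D, 0 < s i)
    (hc : ∀ i < D, ∀ j < D, i ≠ j → Nat.Coprime (s i) (s j))
    (hq : ∀ i < D, Nat.Coprime (Q / s i) (s i))
    (hm : ∀ i < D, Q / s i ∣ s i * m i + 1)
    (hi : ∀ j < D, c j * ∏ i ∈ range j, s i ≡ 1 [MOD s j])
    (Y : ℕ → ℕ → ℂ) (hY : ∀ i < D, Y (i + 1) = Tc Q (Q / s i) (ez (c i ^ 2 : ℕ) (s i)) (Y i))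
    {d : ℕ} (hd : d ≤ D) {Q' β : ℕ} (hN : Q' * ∏ i ∈ range d, s i = Q) (hβ : β < Q')
    (v : ℕ → ℕ) (hv : ∀ i < d, v i < s i) :
    Y d (pos s m v d Q' β) = allL (fun i => dft (s i)) d (fun v' => Y 0 (pos s m v' d Q' β)) v := by
  induction d generalizing Q' β v with
  | zero => rfl
  | succ d ih =>
    have hs := h0 d (by omega)
    have hN' : Q' * s d * ∏ i ∈ range d, s i = Q := by rw [← hN, prod_range_succ]; ring
    have hA : Q / s d = Q' * ∏ i ∈ range d, s i := by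
      rw [← hN', mul_right_comm, Nat.mul_div_cancel _ hs]
    have hQ : Q / s d * s d = Q := by rw [hA, ← hN']; ring
    have hp := fun a => pos_mod s m a β hN (fun i hi => h0 i (by omega)) fun i hi => hm i (by omega)
    have hu : ∀ u < s d, ∀ i < d + 1, update v d u i < s i := fun u hu i hi => by
      rcases Nat.lt_succ_iff_lt_or_eq.1 hi with h2 | rfl
      · rw [update_of_ne h2.ne]; exact hv i hi
      · rw [update_self]; exact hu
    have key := Tc_one hs (hq d (by omega)) (hi d (by omega))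
      (fun u => pos s m (update v d u) (d + 1) Q' β) (ν := pos s m v (d + 1) Q' β) (a := v d)
      (fun u hu' => ?_) ((hp v).2 d d.lt_succ_self) (Y d)
    · rw [hQ] at key
      rw [hY d (by omega), key]
      simp only [allL, lift]
      rw [dft_lt (hv d d.lt_succ_self)]
      refine sum_congr rfl fun u hu' => ?_
      congr 1
      have hu2 := mem_range.1 hu'
      rw [pos, update_self, ih (by omega) hN' (blk_lt (Nat.mod_lt _ (by omega)) hu2) _
        fun i hi => hu u hu2 i (by omega)]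
      refine allL_congr' _ fun v' hv' => ?_
      rw [pos, hv' d le_rfl, update_self]
    · refine ⟨?_, ?_, ?_⟩
      · rw [hQ, ← hN]
        exact pos_lt _ _ _ _ _ _ hβ (hu u hu')
      · rw [hA]
        refine modEq_prod (fun i hi => ?_) (fun i hi j hj => hc i (by omega) j (by omega))
          ((hp _).1.trans (hp _).1.symm) fun i hi => ?_
        · refine Nat.Coprime.coprime_dvd_left ?_ (hq i (by omega))
          obtain ⟨k, hk⟩ : s i ∣ ∏ i ∈ range (d + 1), s i :=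
            dvd_prod_of_mem _ (mem_range.2 (by omega))
          refine ⟨k, ?_⟩
          rw [← hN, hk, mul_left_comm, Nat.mul_div_cancel_left _ (h0 i (by omega))]
        · refine ((hp _).2 i (by omega)).trans ?_
          rw [update_of_ne hi.ne]
          exact ((hp _).2 i (by omega)).symm
      · have := (hp (update v d u)).2 d d.lt_succ_self
        rwa [update_self] at this

lemma prim_prod {s : ℕ → ℕ} {η : ℕ → ℂ} {k : ℕ}
    (hc : ∀ i < k, ∀ j < k, i ≠ j → Nat.Coprime (s i) (s j))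
    (h : ∀ i < k, IsPrimitiveRoot (η i) (s i)) :
    IsPrimitiveRoot (∏ i ∈ range k, η i) (∏ i ∈ range k, s i) := by
  induction k with
  | zero => simp
  | succ k ih =>
    have h1 := ih (fun i hi j hj => hc i (by omega) j (by omega)) fun i hi => h i (by omega)
    have h2 := h k k.lt_succ_self
    have h3 : Nat.Coprime (∏ i ∈ range k, s i) (s k) := Nat.Coprime.prod_left fun i hi => by
      have := mem_range.1 hi
      exact hc i (by omega) k (by omega) (by omega)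
    rw [prod_range_succ, prod_range_succ, h1.eq_orderOf, h2.eq_orderOf,
      ← (Commute.all _ _).orderOf_mul_eq_mul_orderOf_of_coprime]
    · exact IsPrimitiveRoot.orderOf _
    · rwa [← h1.eq_orderOf, ← h2.eq_orderOf]

end Fd

open Fd in
theorem dft_rounds (s m : ℕ → ℕ) (ρ d Q : ℕ) (hQ : Q = ∏ t ∈ range (ρ * d), s t)
    (h0 : ∀ t < ρ * d, 0 < s t)
    (hc : ∀ t < ρ * d, ∀ t' < ρ * d, t ≠ t' → Nat.Coprime (s t) (s t'))
    (hm : ∀ t < ρ * d, Q / s t ∣ s t * m t + 1) :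
    ∃ ξ : ℂ, IsPrimitiveRoot ξ Q ∧ ∀ Z0 : ℕ → ℂ, ∃ Z : ℕ → ℕ → ℂ, (∀ ν < Q, Z 0 ν = Z0 ν) ∧
      (∀ r < ρ, ∀ β < Q / ∏ i ∈ range d, s (r * d + i), ∀ v : ℕ → ℕ,
        (∀ i < d, v i < s (r * d + i)) →
        Z (r + 1) (pos (fun i => s (r * d + i)) (fun i => m (r * d + i)) v d
            (Q / ∏ i ∈ range d, s (r * d + i)) β) =
          allL (fun i => dft (s (r * d + i))) d
            (fun v' => Z r (pos (fun i => s (r * d + i)) (fun i => m (r * d + i)) v' d
              (Q / ∏ i ∈ range d, s (r * d + i)) β)) v) ∧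
      ∀ ν < Q, Z ρ ν = ∑ ν' ∈ range Q, ξ ^ (ν * ν') * Z0 ν' := by
  have hex : ∀ t, ∃ c, t < ρ * d → c * ∏ i ∈ range (t % d), s (t / d * d + i) ≡ 1 [MOD s t] := by
    intro t
    by_cases ht : t < ρ * d
    · have h1 : Nat.Coprime (∏ i ∈ range (t % d), s (t / d * d + i)) (s t) :=
        Nat.Coprime.prod_left fun i hi => by
          have h2 := mem_range.1 hi
          have h3 := Nat.div_add_mod' t d
          exact hc _ (by omega) t ht (by omega)
      refine ⟨(∏ i ∈ range (t % d), s (t / d * d + i)) ^ (Nat.totient (s t) - 1), fun _ => ?_⟩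
      rw [← pow_succ, Nat.sub_add_cancel (Nat.totient_pos.2 (h0 t ht))]
      exact Nat.ModEq.pow_totient h1
    · exact ⟨0, fun h => absurd h ht⟩
  choose c hci using hex
  have hprim : ∀ t < ρ * d, IsPrimitiveRoot (ez (c t ^ 2 : ℕ) (s t)) (s t) := fun t ht => by
    rw [ez_nat]
    refine IsPrimitiveRoot.pow_of_coprime ?_ _ (Nat.Coprime.pow_left _ ?_)
    · have := Complex.isPrimitiveRoot_exp (s t) (h0 t ht).ne'
      simpa [ez] using this
    · exact Nat.coprime_of_mul_modEq_one _ (hci t ht)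
  have hP : ∀ k ≤ ρ * d, IsPrimitiveRoot (∏ t ∈ range k, ez (c t ^ 2 : ℕ) (s t))
      (∏ t ∈ range k, s t) := fun k hk =>
    prim_prod (fun i hi j hj => hc i (by omega) j (by omega)) fun i hi => hprim i (by omega)
  have hQ0 : 0 < Q := hQ ▸ prod_pos fun t ht => h0 t (mem_range.1 ht)
  have hq : ∀ t < ρ * d, Nat.Coprime (Q / s t) (s t) := fun t ht => by
    refine Nat.Coprime.coprime_dvd_left (hm t ht) ?_
    simp
  refine ⟨_, hQ ▸ hP _ le_rfl, fun Z0 => ?_⟩
  set Y : ℕ → ℕ → ℂ := fun k => Tc Q (Q / ∏ t ∈ range k, s t)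
    (∏ t ∈ range k, ez (c t ^ 2 : ℕ) (s t)) Z0 with hYd
  have hY : ∀ t < ρ * d, Y (t + 1) = Tc Q (Q / s t) (ez (c t ^ 2 : ℕ) (s t)) (Y t) := by
    intro t ht
    obtain ⟨C, hC⟩ : ∏ i ∈ range (t + 1), s i ∣ Q :=
      hQ ▸ prod_dvd_prod_of_subset _ _ _ (range_mono ht)
    have hp : 0 < ∏ i ∈ range t, s i := prod_pos fun i hi => h0 i ((mem_range.1 hi).trans ht)
    have hs := h0 t ht
    have hC0 : 0 < C := Nat.pos_of_mul_pos_left (hC ▸ hQ0)
    have e0 : Q = C * (∏ i ∈ range t, s i) * s t := by rw [hC, prod_range_succ]; ring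
    have e1 : Q / ∏ i ∈ range (t + 1), s i = C := by
      rw [hC, Nat.mul_div_cancel_left _ (by rw [prod_range_succ]; positivity)]
    have e2 : Q / s t = C * ∏ i ∈ range t, s i := by rw [e0, Nat.mul_div_cancel _ hs]
    have e3 : Q / ∏ i ∈ range t, s i = C * s t := by
      rw [e0, mul_right_comm, Nat.mul_div_cancel _ hp]
    funext ν
    have := Tc_Tc hC0 hp hs (Nat.Coprime.prod_left fun i hi => by
      have := mem_range.1 hi
      exact hc i (by omega) t ht (by omega)) (hP t ht.le).pow_eq_one (hprim t ht).pow_eq_one Z0 ν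
    rw [← e0] at this
    simp only [hYd]
    rw [e1, e2, e3, this, prod_range_succ]
  refine ⟨fun r => Y (r * d), fun ν hν => ?_, fun r hr β hβ v hv => ?_, fun ν hν => ?_⟩
  · simp only [hYd, zero_mul, range_zero, prod_empty, Nat.div_one]
    exact Tc_zero hν _
  · have hlt : ∀ i < d, r * d + i < ρ * d := fun i hi => blk_lt hr hi
    have hdv : ∏ i ∈ range d, s (r * d + i) ∣ Q := by
      refine Dvd.dvd.trans (Dvd.intro_left _ (prod_range_add s (r * d) d).symm) ?_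
      rw [hQ]
      refine prod_dvd_prod_of_subset _ _ _ (range_mono ?_)
      rw [← Nat.succ_mul]
      exact Nat.mul_le_mul_right _ hr
    have := round_eq (fun i => s (r * d + i)) (fun i => m (r * d + i)) (fun i => c (r * d + i))
      (D := d) (Q := Q) (fun i hi => h0 _ (hlt i hi))
      (fun i hi j hj hij => hc _ (hlt i hi) _ (hlt j hj) (by omega)) (fun i hi => hq _ (hlt i hi))
      (fun i hi => hm _ (hlt i hi)) (fun j hj => by
        have := hci _ (hlt j hj)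
        rwa [(dm hj).1, (dm hj).2] at this)
      (fun i => Y (r * d + i)) (fun i hi => hY _ (hlt i hi)) le_rfl (Nat.div_mul_cancel hdv) hβ v hv
    simpa only [Nat.succ_mul, add_zero] using this
  · simp only [hYd, Tc]
    rw [← hQ, Nat.div_self hQ0]
    exact sum_congr rfl fun ν' _ => if_pos Nat.modEq_one

/-- coefficients of the product -/
def cv (x y : ℕ → ℕ) (m : ℕ) : ℕ := ∑ p ∈ antidiagonal m, x p.1 * y p.2

lemma Fd.root_sum {ξ : ℂ} {Q : ℕ} (hξ : IsPrimitiveRoot ξ Q) (k : ℕ) :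
    ∑ ν ∈ range Q, ξ ^ (k * ν) = if Q ∣ k then (Q : ℂ) else 0 := by
  simp only [pow_mul]
  split_ifs with h
  · simp [(hξ.pow_eq_one_iff_dvd k).2 h]
  · rw [geom_sum_eq (fun h' => h ((hξ.pow_eq_one_iff_dvd k).1 h')), ← pow_mul, mul_comm, pow_mul,
      hξ.pow_eq_one, one_pow, sub_self, zero_div]

lemma Fd.sum_anti {R : Type} [AddCommMonoid R] (f : ℕ × ℕ → R) {Q m : ℕ} (hm : m < Q) :
    ∑ p ∈ range Q ×ˢ range Q with p.1 + p.2 = m, f p = ∑ p ∈ antidiagonal m, f p := by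
  refine sum_congr ?_ fun _ _ => rfl
  ext p
  simp only [mem_filter, mem_product, mem_range, HasAntidiagonal.mem_antidiagonal]
  omega

theorem conv_dft {ξ : ℂ} {Q : ℕ} (hξ : IsPrimitiveRoot ξ Q) (x y : ℕ → ℕ)
    (h : ∀ i j, x i ≠ 0 → y j ≠ 0 → i + j < Q) {m : ℕ} (hm : m < Q) :
    (∑ ν ∈ range Q, ξ ^ ((Q - m) % Q * ν) *
      ((∑ i ∈ range Q, ξ ^ (ν * i) * x i) * ∑ j ∈ range Q, ξ ^ (ν * j) * y j)) * (1 / Q) =
      cv x y m := by
  have hQ : (Q : ℂ) ≠ 0 := by exact_mod_cast (by omega : Q ≠ 0)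
  have e : ∀ ν, ξ ^ ((Q - m) % Q * ν) *
      ((∑ i ∈ range Q, ξ ^ (ν * i) * x i) * ∑ j ∈ range Q, ξ ^ (ν * j) * y j) =
      ∑ p ∈ range Q ×ˢ range Q, ξ ^ (((Q - m) % Q + (p.1 + p.2)) * ν) * (x p.1 * y p.2 : ℕ) := by
    intro ν
    rw [sum_mul_sum, ← sum_product', mul_sum]
    refine sum_congr rfl fun p _ => ?_
    push_cast
    ring
  rw [sum_congr rfl fun ν _ => e ν, sum_comm, cv, ← Fd.sum_anti _ hm, sum_filter, Nat.cast_sum,
    sum_mul]
  refine sum_congr rfl fun p _ => ?_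
  rw [← sum_mul, Fd.root_sum hξ]
  by_cases h1 : x p.1 * y p.2 = 0
  · simp [h1]
  have h2 := h _ _ (left_ne_zero_of_mul h1) (right_ne_zero_of_mul h1)
  have h3 : Q ∣ (Q - m) % Q + (p.1 + p.2) ↔ p.1 + p.2 = m := by
    rw [Nat.dvd_iff_mod_eq_zero, Nat.mod_add_mod]
    have e1 : Q - m + (p.1 + p.2) = p.1 + p.2 + Q - m := by omega
    rw [e1, Fd.refl_eq h2 hm]
    split_ifs <;> omega
  simp only [h3]
  split_ifs
  · field_simp
  · simp

/-- `i`-th chunk of `b` bits -/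
def chunk (b X i : ℕ) : ℕ := X / 2 ^ (i * b) % 2 ^ b

lemma Fd.chunk_ne {b X n i : ℕ} (hX : X < 2 ^ n) (hi : chunk b X i ≠ 0) : i * b < n := by
  by_contra h
  have : X < 2 ^ (i * b) := hX.trans_le (Nat.pow_le_pow_right (by norm_num) (by omega))
  exact hi (by rw [chunk, Nat.div_eq_of_lt this, Nat.zero_mod])

lemma chunk_lt {b X Y n Q i j : ℕ} (hX : X < 2 ^ n) (hY : Y < 2 ^ n) (h : 2 * n ≤ Q * b)
    (hi : chunk b X i ≠ 0) (hj : chunk b Y j ≠ 0) : i + j < Q := by
  have h1 := Fd.chunk_ne hX hi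
  have h2 := Fd.chunk_ne hY hj
  refine Nat.lt_of_mul_lt_mul_right (a := b) ?_
  rw [add_mul]
  omega

lemma cv_le (b X Y m : ℕ) : cv (chunk b X) (chunk b Y) m ≤ (m + 1) * 2 ^ (2 * b) := by
  refine (sum_le_card_nsmul _ _ (2 ^ (2 * b)) fun p _ => ?_).trans ?_
  · rw [two_mul, pow_add]
    exact Nat.mul_le_mul (Nat.mod_lt _ (by positivity)).le (Nat.mod_lt _ (by positivity)).le
  · simp

lemma Fd.sum_chunk (b X k : ℕ) : ∑ i ∈ range k, chunk b X i * 2 ^ (i * b) = X % 2 ^ (k * b) := by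
  induction k with
  | zero => simp [Nat.mod_one]
  | succ k ih => rw [sum_range_succ, ih, Nat.succ_mul, pow_add, Nat.mod_mul, chunk, mul_comm (2 ^ (k * b))]

theorem sum_cv {b X Y n Q : ℕ} (hX : X < 2 ^ n) (hY : Y < 2 ^ n) (h : 2 * n ≤ Q * b) :
    ∑ m ∈ range Q, cv (chunk b X) (chunk b Y) m * 2 ^ (m * b) = X * Y := by
  have h1 : 2 ^ n ≤ 2 ^ (Q * b) := Nat.pow_le_pow_right (by norm_num) (by omega)
  have h2 := Fd.sum_chunk b X Q
  have h3 := Fd.sum_chunk b Y Q
  rw [Nat.mod_eq_of_lt (by omega)] at h2 h3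
  conv_rhs => rw [← h2, ← h3, sum_mul_sum, ← sum_product']
  rw [← sum_filter_of_ne (p := fun p : ℕ × ℕ => p.1 + p.2 < Q),
    ← sum_fiberwise_of_maps_to (g := fun p : ℕ × ℕ => p.1 + p.2) (t := range Q)]
  · refine sum_congr rfl fun m hm => ?_
    have hm' := mem_range.1 hm
    rw [cv, sum_mul]
    refine sum_congr ?_ fun p hp => ?_
    · ext p
      simp only [mem_filter, mem_product, mem_range, HasAntidiagonal.mem_antidiagonal]
      omega
    · rw [← (mem_filter.1 hp).2]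
      ring
  · exact fun p hp => mem_range.2 (mem_filter.1 hp).2
  · exact fun p _ hp => chunk_lt hX hY h (left_ne_zero_of_mul (left_ne_zero_of_mul hp))
      (left_ne_zero_of_mul (right_ne_zero_of_mul hp))

end Vale.Agent.P338
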