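import Vale.Agent.P338.Lift
import Vale.Agent.P338.Num

/-! In-place discrete Fourier transforms of length `s` on the blocks of one coordinate, as a fixed
sequence of sparse, diagonal and butterfly steps; and the tensor product of such sequences.

Plan (M5).  All steps are linear maps of `ℕ → ℂ`.  `n = G s`; parts are `[p n, (p + 1) n)`, `p < 8`;
the workspace `[0, R)` is a union of blocks of length `2 ^ lm` inside parts `0..5`.
* stage `j` (`f1`, butterfly, `f2`) is `u(r) = x(r) + x(r + 2^j)`, `v(r) = tw (x(r) - x(r + 2^j))`;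
  (`b1`, butterfly, `b2`) is its inverse.  With `τ_N` = cyclic shift `a ↦ a - 1` in blocks of length
  `N`: for `2^j < M`, `stage_j ∘ τ_{2^(j+1)} = diag (e(1/2^(j+1))^(bit j)) ∘ τ_{2^j} ∘ stage_j`; for
  `2^j ≥ M` stage `j` commutes with `τ_M`; stage `j` commutes with diagonals depending only on
  `y / 2^(j+1)`.  Hence `Φ τ_M = diag (ez (revb M y) M) Φ` for `Φ = fwd`, and
  `conv σ false = G = 1 + π_R (Σ_r κ r τ_M^r) / (2 M)`, `conv σ true = G⁻¹`.
* with `O` = `outW`-matrix, `E` = `inW`-matrix: `G O = O`, `O O = 0`, `E E = 0`, `E O = 0`, so the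
  toggle is `(1 - E)(1 + O G)(1 + E)(1 - O G) = 1 + O G E`; with the chirps (Bluestein,
  `2 a a' = a² + a'² - (a - a')²`) `shear false` is `z += F x`, `shear true` is `x -= F⁻¹ z` on parts
  `6`, `7`; a phase maps `(x, z)` to `(-F⁻¹ z, F x)` and rotates by two parts.
* tensor lemma: lifts of two-term operators along different coordinates commute. -/

namespace Vale.Agent.P338

open Function Finset Complex Vale.Agent.PT Vale.Agent.P320

structure FP where
  s : ℕ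
  M : ℕ
  G : ℕ
  R : ℕ

def FP.n (P : FP) : ℕ := P.G * P.s

def FP.ok (P : FP) (lm Λ0 : ℕ) : Prop :=
  0 < P.s ∧ 0 < P.G ∧ (∃ l ≤ lm, P.M = 2 ^ l) ∧ 2 * P.s ≤ P.M ∧ P.M ≤ 4 * P.s ∧ 2 ^ lm ∣ P.R ∧
    P.G * P.M ≤ P.R ∧ P.R ≤ 6 * P.n ∧ 8 * P.n ≤ Λ0 ∧ 2 ^ lm ∣ Λ0

def FP.src (P : FP) (σ : Bool) : ℕ := cond σ 7 6 * P.n
def FP.dst (P : FP) (σ : Bool) : ℕ := cond σ 6 7 * P.n

noncomputable def ez (p : ℤ) (q : ℕ) : ℂ := Complex.exp (2 * Real.pi * I * p / q)

inductive Ax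
  | inW (σ ng : Bool) | outW (σ ng : Bool) | dir (σ : Bool)

def Ax.ng : Ax → Bool
  | .inW _ b => b
  | .outW _ b => b
  | .dir _ => true

def Ax.p : Ax → FP → ℕ → Bool
  | .inW _ _, P, y => decide (y < P.G * P.M ∧ y % P.M < P.s)
  | .outW σ _, P, y => decide (P.dst σ ≤ y ∧ y < P.dst σ + P.n)
  | .dir σ, P, y => decide (P.dst σ ≤ y ∧ y < P.dst σ + P.n)

def Ax.ψ : Ax → FP → ℕ → ℕ
  | .inW σ _, P, y => P.src σ + y / P.M * P.s + y % P.M
  | .outW σ _, P, y => (y - P.dst σ) / P.s * P.M + (y - P.dst σ) % P.s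
  | .dir σ, P, y => y - P.dst σ + P.src σ

inductive Pm
  | rot | sw

def Pm.p : Pm → FP → ℕ → Bool
  | .rot, P, y => decide (y + 2 * P.n < 8 * P.n ∨ 8 * P.n ≤ y)
  | .sw, P, y => decide (y / P.n % 2 = 0 ∨ 8 * P.n ≤ y)

def Pm.θ : Pm → FP → ℕ → ℕ
  | .rot, P, y => if y < 8 * P.n then (y + 2 * P.n) % (8 * P.n) else y
  | .sw, P, y => if y < 8 * P.n then (if y / P.n % 2 = 0 then y + P.n else y - P.n) else y

def rvθ (P : FP) (y : ℕ) : ℕ :=
  if y < 8 * P.n ∧ y / P.n % 2 = 1 then y - y % P.s + (P.s - y % P.s) % P.s else y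

inductive Tb
  | pre (σ : Bool) | post (σ : Bool) | eig (σ inv : Bool) | f1 | f2 | b1 | b2 | fin

def revb (M y : ℕ) : ℕ := ∑ j ∈ range M.size, y / 2 ^ j % 2 * (M / 2 ^ (j + 1))

/-- chirp -/
noncomputable def chi (σ : Bool) (s a : ℕ) : ℂ := ez (cond σ (-(a ^ 2 : ℕ)) (a ^ 2 : ℕ)) (2 * s)

noncomputable def ev (β : ℕ) (σ : Bool) (P : FP) (y : ℕ) : ℂ :=
  1 + (∑ r ∈ range (min P.M β), chi (!σ) P.s (min r (P.M - r)) * ez (r * revb P.M y : ℕ) P.M) /
    (2 * P.M : ℕ)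

noncomputable def sj (j y : ℕ) : ℂ := if y / 2 ^ j % 2 = 1 then I else 1

noncomputable def tw (inv : Bool) (M j y : ℕ) : ℂ :=
  if 2 ^ j < M ∧ y / 2 ^ j % 2 = 1 then
    ez (cond inv (-(y % 2 ^ j : ℕ)) (y % 2 ^ j : ℕ)) (2 ^ (j + 1)) else 1

noncomputable def tb (β : ℕ) : Tb → ℕ → FP → ℕ → ℂ
  | .pre σ, _, P, y =>
    if P.src σ ≤ y ∧ y < P.src σ + P.n then chi σ P.s (y % P.s)
    else if P.dst σ ≤ y ∧ y < P.dst σ + P.n then
      cond σ (-(P.s : ℂ)) 1 * chi (!σ) P.s (y % P.s) / (2 * P.M : ℕ) else 1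
  | .post σ, _, P, y =>
    if P.src σ ≤ y ∧ y < P.src σ + P.n then chi (!σ) P.s (y % P.s)
    else if P.dst σ ≤ y ∧ y < P.dst σ + P.n then
      cond σ (-1) 1 * (2 * P.M : ℕ) * chi σ P.s (y % P.s) / (cond σ P.s 1 : ℕ) else 1
  | .eig σ inv, _, P, y => if y < P.R then cond inv (ev β σ P y)⁻¹ (ev β σ P y) else 1
  | .f1, j, _, y => sj j y
  | .f2, j, P, y => (1 - I) / 2 * sj j y * tw false P.M j y
  | .b1, j, P, y => sj j y * tw true P.M j y
  | .b2, j, _, y => (1 - I) / 4 * sj j y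
  | .fin, _, P, y => if y < 8 * P.n ∧ y / P.n % 2 = 1 then -(P.s : ℂ) else 1

/-- elementary steps -/
inductive St
  | ax (k : Ax) | pm (k : Pm) | rv | dg (k : Tb) (j : ℕ) | bl (j : ℕ)

noncomputable def St.sem (β : ℕ) : St → FP → (ℕ → ℂ) → ℕ → ℂ
  | .ax k, P, x, y =>
    if k.p P y then (if k.ng then x y - x (k.ψ P y) else x y + x (k.ψ P y)) else x y
  | .pm k, P, x, y => x (k.θ P y)
  | .rv, P, x, y => x (rvθ P y)
  | .dg k j, P, x, y => x y * tb β k j P y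
  | .bl j, _, x, y => bOp I j x y

/-- items of the fixed program -/
inductive It
  | ax (k : Ax) | pm (k : Pm) | rv | dg (k : Tb) | fwd | bwd

def It.flat (lm : ℕ) : It → List St
  | .ax k => [.ax k]
  | .pm k => [.pm k]
  | .rv => [.rv]
  | .dg k => [.dg k 0]
  | .fwd => (List.range lm).flatMap fun i =>
      [.dg .f1 (lm - 1 - i), .bl (lm - 1 - i), .dg .f2 (lm - 1 - i)]
  | .bwd => (List.range lm).flatMap fun j => [.dg .b1 j, .bl j, .dg .b2 j]

def conv (σ inv : Bool) : List It := [.fwd, .dg (.eig σ inv), .bwd]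

def shear (σ : Bool) : List It :=
  [.dg (.pre σ)] ++ conv σ false ++ [.ax (.outW σ true)] ++ conv σ true ++ [.ax (.inW σ false)] ++
    conv σ false ++ [.ax (.outW σ false)] ++ conv σ true ++
    [.ax (.inW σ true), .ax (.dir σ), .dg (.post σ)]

def phase : List It := shear false ++ shear true ++ shear false ++ [.pm .rot]

def prog : List It := phase ++ phase ++ phase ++ phase ++ [.pm .sw, .rv, .dg .fin]

/-- apply a list of steps, each along all coordinates `i < d` -/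
noncomputable def runL (β : ℕ) (P : ℕ → FP) (d : ℕ) (l : List St) (X : (ℕ → ℕ) → ℂ) :
    (ℕ → ℕ) → ℂ :=
  l.foldl (fun X s => allL (fun i => s.sem β (P i)) d X) X

/-- Fourier transform of length `s` on consecutive blocks -/
noncomputable def dft (s : ℕ) (x : ℕ → ℂ) (y : ℕ) : ℂ :=
  ∑ a ∈ range s, ez (a * (y % s) : ℕ) s * x (y - y % s + a)

end Vale.Agent.P338
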