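import Vale.Agent.P338.FieldDefs

/-! Index bounds, norms and computability of the tables of `FieldDefs`. -/

namespace Vale.Agent.P338

open Function Finset Complex Vale.Agent.PT Vale.Agent.P320

variable {P : FP} {lm Λ0 β : ℕ}

lemma FP.ok.M_pos (h : P.ok lm Λ0) : 0 < P.M := by
  obtain ⟨h1, -, -, h2, -⟩ := h
  omega

lemma FP.ok.n_pos (h : P.ok lm Λ0) : 0 < P.n := Nat.mul_pos h.2.1 h.1

lemma FP.src_le (P : FP) (σ : Bool) : 6 * P.n ≤ P.src σ ∧ P.src σ + P.n ≤ 8 * P.n := by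
  cases σ <;> simp [FP.src] <;> omega

lemma FP.dst_le (P : FP) (σ : Bool) : 6 * P.n ≤ P.dst σ ∧ P.dst σ + P.n ≤ 8 * P.n := by
  cases σ <;> simp [FP.dst] <;> omega

lemma FP.src_dst (P : FP) (σ : Bool) :
    P.src σ + P.n ≤ P.dst σ ∨ P.dst σ + P.n ≤ P.src σ := by
  cases σ <;> simp [FP.dst, FP.src] <;> omega

lemma blk_lt {a G s r : ℕ} (ha : a < G) (hr : r < s) : a * s + r < G * s := by
  have : (a + 1) * s ≤ G * s := Nat.mul_le_mul_right _ ha
  rw [Nat.succ_mul] at this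
  omega

lemma blk_mono {y y' M s : ℕ} (hl : y < y') (hr : y % M < s) :
    y / M * s + y % M < y' / M * s + y' % M := by
  have h1 : y / M ≤ y' / M := Nat.div_le_div_right hl.le
  rcases h1.lt_or_eq with h2 | h2
  · have := blk_lt h2 hr
    omega
  · have e1 := Nat.div_add_mod y M
    have e2 := Nat.div_add_mod y' M
    rw [h2] at e1 ⊢
    omega

lemma Ax.out_lt (h : P.ok lm Λ0) {z : ℕ} (hz : z < P.n) :
    z / P.s * P.M + z % P.s < P.G * P.M := by
  obtain ⟨h1, h2, -, h3, -⟩ := h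
  refine blk_lt ?_ ?_
  · exact (Nat.div_lt_iff_lt_mul h1).2 hz
  · have := Nat.mod_lt z h1
    omega

lemma Ax.in_lt (h : P.ok lm Λ0) {y : ℕ} (h1 : y < P.G * P.M) (h2 : y % P.M < P.s) :
    y / P.M * P.s + y % P.M < P.n :=
  blk_lt ((Nat.div_lt_iff_lt_mul h.M_pos).2 h1) h2

lemma Ax.lt (h : P.ok lm Λ0) (k : Ax) {y : ℕ} (hy : k.p P y) : k.ψ P y < 8 * P.n := by
  cases k with
  | inW σ ng =>
    simp only [Ax.p, decide_eq_true_eq] at hy
    have := Ax.in_lt h hy.1 hy.2
    have := P.src_le σ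
    simp only [Ax.ψ]
    omega
  | outW σ ng =>
    simp only [Ax.p, decide_eq_true_eq] at hy
    have := Ax.out_lt h (z := y - P.dst σ) (by omega)
    obtain ⟨-, -, -, -, -, -, h1, h2, -⟩ := h
    simp only [Ax.ψ]
    omega
  | dir σ =>
    simp only [Ax.p, decide_eq_true_eq] at hy
    have := P.src_le σ
    simp only [Ax.ψ]
    omega

lemma Ax.mono (h : P.ok lm Λ0) (k : Ax) {y y' : ℕ} (hy : k.p P y) (hy' : k.p P y') (hl : y < y') :
    k.ψ P y < k.ψ P y' := by
  cases k with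
  | inW σ ng =>
    simp only [Ax.p, decide_eq_true_eq] at hy hy'
    have := blk_mono hl hy.2
    simp only [Ax.ψ]
    omega
  | outW σ ng =>
    simp only [Ax.p, decide_eq_true_eq] at hy hy'
    obtain ⟨h1, h2, -, h3, -⟩ := h
    have h4 := Nat.mod_lt (y - P.dst σ) h1
    exact blk_mono (y := y - P.dst σ) (y' := y' - P.dst σ) (by omega) (by omega)
  | dir σ =>
    simp only [Ax.p, decide_eq_true_eq] at hy hy'
    simp only [Ax.ψ]
    omega

lemma rot_eq {n y : ℕ} (hy : y < 8 * n) :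
    (y + 2 * n) % (8 * n) = if y + 2 * n < 8 * n then y + 2 * n else y - 6 * n := by
  split_ifs with h1
  · exact Nat.mod_eq_of_lt h1
  · have : y + 2 * n = y - 6 * n + 8 * n := by omega
    rw [this, Nat.add_mod_right, Nat.mod_eq_of_lt (by omega)]

lemma sw_lt {n y : ℕ} (hn : 0 < n) (hy : y < 8 * n) (h2 : y / n % 2 = 0) : y + n < 8 * n := by
  have h3 : y / n < 8 := (Nat.div_lt_iff_lt_mul hn).2 hy
  have h4 : y / n < 7 := by omega
  have := (Nat.div_lt_iff_lt_mul hn).1 h4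
  omega

lemma sw_ge {n y : ℕ} (h2 : ¬ y / n % 2 = 0) : n ≤ y := by
  by_contra h
  rw [Nat.div_eq_of_lt (by omega)] at h2
  exact h2 rfl

lemma Pm.lt (h : P.ok lm Λ0) (k : Pm) {y Λ : ℕ} (hΛ : 8 * P.n ≤ Λ) (hy : y < Λ) :
    k.θ P y < Λ := by
  have hn := h.n_pos
  cases k with
  | rot =>
    simp only [Pm.θ]
    split_ifs with h1
    · have := Nat.mod_lt (y + 2 * P.n) (show 0 < 8 * P.n by omega)
      omega
    · exact hy
  | sw =>
    simp only [Pm.θ]
    split_ifs with h1 h2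
    · have := sw_lt hn h1 h2
      omega
    · omega
    · exact hy

lemma Pm.mono (h : P.ok lm Λ0) (k : Pm) {y y' : ℕ} (hp : k.p P y = k.p P y') (hl : y < y') :
    k.θ P y < k.θ P y' := by
  have hn := h.n_pos
  cases k with
  | rot =>
    simp only [Pm.p, decide_eq_decide] at hp
    simp only [Pm.θ]
    by_cases h1 : y < 8 * P.n <;> by_cases h2 : y' < 8 * P.n
    · rw [if_pos h1, if_pos h2, rot_eq h1, rot_eq h2]
      split_ifs <;> omega
    · rw [if_pos h1, if_neg h2, rot_eq h1]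
      split_ifs <;> omega
    · omega
    · rw [if_neg h1, if_neg h2]; exact hl
  | sw =>
    simp only [Pm.p, decide_eq_decide] at hp
    simp only [Pm.θ]
    by_cases h1 : y < 8 * P.n <;> by_cases h2 : y' < 8 * P.n
    · rw [if_pos h1, if_pos h2]
      by_cases h3 : y / P.n % 2 = 0
      · have h4 : y' / P.n % 2 = 0 := by omega
        rw [if_pos h3, if_pos h4]; omega
      · have h4 : ¬ y' / P.n % 2 = 0 := by omega
        have := sw_ge h3
        rw [if_neg h3, if_neg h4]; omega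
    · have h3 : y / P.n % 2 = 0 := by omega
      have := sw_lt hn h1 h3
      rw [if_pos h1, if_neg h2, if_pos h3]; omega
    · omega
    · rw [if_neg h1, if_neg h2]; exact hl

lemma blk_top {y s G : ℕ} (hs : 0 < s) (hy : y < G * s) : y - y % s + s ≤ G * s := by
  have h1 : y / s < G := (Nat.div_lt_iff_lt_mul hs).2 hy
  have h2 : (y / s + 1) * s ≤ G * s := Nat.mul_le_mul_right _ h1
  have h3 := Nat.div_add_mod' y s
  rw [Nat.succ_mul] at h2
  omega

lemma rvθ_lt (h : P.ok lm Λ0) {y Λ : ℕ} (hΛ : 8 * P.n ≤ Λ) (hy : y < Λ) : rvθ P y < Λ := by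
  unfold rvθ
  split_ifs with h1
  · have h2 := blk_top (G := 8 * P.G) h.1 (y := y) (by rw [mul_assoc]; exact h1.1)
    have h3 := Nat.mod_lt (P.s - y % P.s) h.1
    rw [mul_assoc] at h2
    change _ ≤ 8 * P.n at h2
    omega
  · exact hy

/-! ### Roots of unity -/

lemma ez_add (p p' : ℤ) (q : ℕ) : ez (p + p') q = ez p q * ez p' q := by
  unfold ez
  rw [← Complex.exp_add]
  congr 1
  push_cast
  ring

@[simp] lemma ez_zero (q : ℕ) : ez 0 q = 1 := by simp [ez]

lemma norm_ez (p : ℤ) (q : ℕ) : ‖ez p q‖ = 1 := by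
  have : 2 * (Real.pi : ℂ) * I * p / q = ((2 * Real.pi * p / q : ℝ) : ℂ) * I := by
    push_cast
    ring
  rw [ez, this, Complex.norm_exp_ofReal_mul_I]

lemma norm_chi (σ : Bool) (s a : ℕ) : ‖chi σ s a‖ = 1 := norm_ez _ _

lemma ev_sub (β : ℕ) (σ : Bool) (P : FP) (y : ℕ) : ‖ev β σ P y - 1‖ ≤ 1 / 2 := by
  unfold ev
  rw [add_sub_cancel_left, norm_div]
  rcases Nat.eq_zero_or_pos P.M with h | h
  · simp [h]
  have h1 : ‖∑ r ∈ range (min P.M β), chi (!σ) P.s (min r (P.M - r)) *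
      ez (r * revb P.M y : ℕ) P.M‖ ≤ P.M := by
    refine (norm_sum_le _ _).trans ?_
    simp only [norm_mul, norm_chi, norm_ez, mul_one, sum_const, card_range, nsmul_eq_mul]
    exact_mod_cast min_le_left _ _
  have h2 : (0 : ℝ) < P.M := by exact_mod_cast h
  have h3 : ((2 * P.M : ℕ) : ℝ) = 2 * P.M := by push_cast; rfl
  rw [Complex.norm_natCast, h3, div_le_iff₀ (by positivity)]
  linarith

lemma ev_ge (β : ℕ) (σ : Bool) (P : FP) (y : ℕ) : 1 / 2 ≤ ‖ev β σ P y‖ := by
  have h1 := ev_sub β σ P y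
  have h2 := norm_sub_norm_le (1 : ℂ) (ev β σ P y)
  rw [norm_sub_rev, norm_one] at h2
  linarith

lemma ev_le (β : ℕ) (σ : Bool) (P : FP) (y : ℕ) : ‖ev β σ P y‖ ≤ 2 := by
  have h1 := ev_sub β σ P y
  have h2 := norm_sub_norm_le (ev β σ P y) (1 : ℂ)
  rw [norm_one] at h2
  linarith

lemma ev_ne (β : ℕ) (σ : Bool) (P : FP) (y : ℕ) : ev β σ P y ≠ 0 := by
  intro h
  have := ev_ge β σ P y
  rw [h, norm_zero] at this
  linarith

lemma norm_sj (j y : ℕ) : ‖sj j y‖ = 1 := by
  unfold sj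
  split_ifs <;> simp

lemma norm_tw (inv : Bool) (M j y : ℕ) : ‖tw inv M j y‖ = 1 := by
  unfold tw
  split_ifs
  · exact norm_ez _ _
  · simp

lemma norm_one_sub_I : ‖(1 : ℂ) - I‖ ≤ 2 := by
  refine (norm_sub_le _ _).trans ?_
  simp only [norm_one, Complex.norm_I]
  norm_num

lemma tb_norm (h : P.ok lm Λ0) (k : Tb) (j y : ℕ) : ‖tb β k j P y‖ ≤ 2 ^ (lm + 1) := by
  have hM := h.M_pos
  obtain ⟨h1, -, ⟨l, hl, hlM⟩, h2, -⟩ := h
  have hM2 : (P.M : ℝ) ≤ 2 ^ lm := by
    rw [hlM]; push_cast; exact pow_le_pow_right₀ (by norm_num) hl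
  have hs : (1 : ℝ) ≤ P.s := by exact_mod_cast h1
  have hsM : 2 * (P.s : ℝ) ≤ P.M := by exact_mod_cast h2
  have h0 : (1 : ℝ) ≤ 2 ^ lm := one_le_pow₀ (by norm_num)
  have hI := norm_one_sub_I
  rw [pow_succ]
  cases k with
  | pre σ =>
    simp only [tb]
    split_ifs
    · rw [norm_chi]; linarith
    · rw [norm_div, norm_mul, norm_chi, Complex.norm_natCast, div_le_iff₀ (by push_cast; linarith)]
      push_cast
      cases σ <;> simp <;> nlinarith
    · rw [norm_one]; linarith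
  | post σ =>
    simp only [tb]
    split_ifs
    · rw [norm_chi]; linarith
    · rw [norm_div, norm_mul, norm_mul, norm_chi, Complex.norm_natCast, Complex.norm_natCast]
      cases σ
      · simp; linarith
      · simp only [cond_true, norm_neg, norm_one]
        rw [div_le_iff₀ (by linarith)]
        push_cast
        nlinarith
    · rw [norm_one]; linarith
  | eig σ inv =>
    simp only [tb]
    split_ifs
    · cases inv
      · have := ev_le β σ P y
        simp only [cond_false]; linarith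
      · have := ev_ge β σ P y
        simp only [cond_true]
        rw [norm_inv]
        have h3 : ‖ev β σ P y‖⁻¹ ≤ 2 := by
          rw [inv_le_comm₀ (by linarith) (by norm_num)]; linarith
        linarith
    · rw [norm_one]; linarith
  | f1 => simp only [tb, norm_sj]; linarith
  | f2 =>
    simp only [tb, norm_mul, norm_sj, norm_tw, norm_div, Complex.norm_ofNat]; linarith
  | b1 => simp only [tb, norm_mul, norm_sj, norm_tw]; linarith
  | b2 =>
    simp only [tb, norm_mul, norm_sj, norm_div, Complex.norm_ofNat]; linarith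
  | fin =>
    simp only [tb]
    split_ifs
    · rw [norm_neg, Complex.norm_natCast]; linarith
    · rw [norm_one]; linarith

section
variable {α : Type} [Ctx Bool α] {s M G R y j u : α → ℕ}

theorem Ax.p_pt (k : Ax) (hs : BT s) (hM : BT M) (hG : BT G) (hR : BT R) (hy : BT y) :
    PT Bool fun x => k.p ⟨s x, M x, G x, R x⟩ (y x) := by
  cases k <;> simp only [Ax.p, FP.dst, FP.n] <;> fun_prop

theorem Ax.ψ_bt (k : Ax) (hs : BT s) (hM : BT M) (hG : BT G) (hR : BT R) (hy : BT y) :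
    BT fun x => k.ψ ⟨s x, M x, G x, R x⟩ (y x) := by
  cases k <;> simp only [Ax.ψ, FP.dst, FP.src, FP.n] <;> fun_prop

theorem Pm.p_pt (k : Pm) (hs : BT s) (hM : BT M) (hG : BT G) (hR : BT R) (hy : BT y) :
    PT Bool fun x => k.p ⟨s x, M x, G x, R x⟩ (y x) := by
  cases k <;> simp only [Pm.p, FP.n] <;> fun_prop

theorem Pm.θ_bt (k : Pm) (hs : BT s) (hM : BT M) (hG : BT G) (hR : BT R) (hy : BT y) :
    BT fun x => k.θ ⟨s x, M x, G x, R x⟩ (y x) := by
  cases k <;> simp only [Pm.θ, FP.n] <;> fun_prop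

theorem ez_ac {p : α → ℤ} {q : α → ℕ} (hp : ZT p) (hq : BT q) : AC fun x => ez (p x) (q x) :=
  AC.e_int hp hq

theorem chi_ac (σ : Bool) (hs : BT s) (hy : BT y) : AC fun x => chi σ (s x) (y x) := by
  have h2 : BT fun x => y x ^ 2 := hy.pow (PT.const 2)
  cases σ
  · exact ez_ac (ZT.natCast h2) (by fun_prop)
  · exact ez_ac (ZT.natCast h2).neg (by fun_prop)

theorem revb_bt (hM : BT M) (hy : BT y) : BT fun x => revb (M x) (y x) := by
  unfold revb
  refine BT.sum hM.size (t := fun x j => y x / 2 ^ j % 2 * (M x / 2 ^ (j + 1))) ?_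
  have h1 : BT fun z : α × ℕ => y z.1 := hy.comp (by fun_prop)
  have h2 : BT fun z : α × ℕ => M z.1 := hM.comp (by fun_prop)
  have h3 : BT fun z : α × ℕ => 2 ^ z.2 := (BT.const 2).pow (by fun_prop)
  have h4 : BT fun z : α × ℕ => 2 ^ (z.2 + 1) := (BT.const 2).pow (by fun_prop)
  exact ((h1.div h3).mod (BT.const 2)).mul (h2.div h4)

theorem ev_ac (σ : Bool) (hu : PT Bool u) (hs : BT s) (hM : BT M) (hy : BT y) :
    AC fun x => ev (u x) σ ⟨s x, M x, G x, R x⟩ (y x) := by
  unfold ev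
  refine AC.one.add (AC.div_nat ?_ ((BT.const 2).mul hM))
  refine AC.sum (hM.cap hu) (t := fun x r => chi (!σ) (s x) (min r (M x - r)) *
    ez (r * revb (M x) (y x) : ℕ) (M x)) ?_
  have h1 : BT fun z : α × ℕ => y z.1 := hy.comp (by fun_prop)
  have h2 : BT fun z : α × ℕ => M z.1 := hM.comp (by fun_prop)
  have h3 : BT fun z : α × ℕ => s z.1 := hs.comp (by fun_prop)
  have h4 : BT fun z : α × ℕ => z.2 := BT.of (by fun_prop)
  exact (chi_ac _ h3 (h4.min (h2.sub h4))).mul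
    (ez_ac (ZT.natCast (h4.mul (revb_bt h2 h1))) h2)

theorem sj_ac (hj : PT Bool j) (hy : BT y) : AC fun x => sj (j x) (y x) := by
  have h3 : BT fun x => 2 ^ j x := (BT.const 2).pow hj
  exact AC.ite (pt_dec_eq ((hy.div h3).mod (BT.const 2)) (BT.const 1)) AC.const_I AC.one

theorem tw_ac (inv : Bool) (hM : BT M) (hj : PT Bool j) (hy : BT y) :
    AC fun x => tw inv (M x) (j x) (y x) := by
  have h3 : BT fun x => 2 ^ j x := (BT.const 2).pow hj
  have h4 : BT fun x => 2 ^ (j x + 1) := (BT.const 2).pow (by fun_prop)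
  refine AC.ite (pt_dec_and (pt_dec_lt h3 hM)
    (pt_dec_eq ((hy.div h3).mod (BT.const 2)) (BT.const 1))) ?_ AC.one
  cases inv
  · exact ez_ac (ZT.natCast (hy.mod h3)) h4
  · exact ez_ac (ZT.natCast (hy.mod h3)).neg h4

theorem tb_ac (k : Tb) (hu : PT Bool u) (hj : PT Bool j) (hs : BT s) (hM : BT M) (hG : BT G)
    (hR : BT R) (hy : BT y) : AC fun x => tb (u x) k (j x) ⟨s x, M x, G x, R x⟩ (y x) := by
  have hc (σ : Bool) : AC fun x => chi σ (s x) (y x % s x) := chi_ac σ hs (hy.mod hs)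
  have h2M : BT fun x => 2 * M x := (BT.const 2).mul hM
  cases k with
  | pre σ =>
    simp only [tb, FP.src, FP.dst, FP.n]
    refine AC.ite (by fun_prop) (hc _) (AC.ite (by fun_prop) ?_ AC.one)
    refine AC.div_nat (AC.mul ?_ (hc _)) h2M
    cases σ
    · exact AC.one
    · exact (AC.natCast hs).neg
  | post σ =>
    simp only [tb, FP.src, FP.dst, FP.n]
    refine AC.ite (by fun_prop) (hc _) (AC.ite (by fun_prop) ?_ AC.one)
    cases σ
    · exact AC.div_nat ((AC.one.mul (AC.natCast h2M)).mul (hc _)) (BT.const 1)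
    · exact AC.div_nat ((AC.one.neg.mul (AC.natCast h2M)).mul (hc _)) hs
  | eig σ inv =>
    simp only [tb]
    refine AC.ite (pt_dec_lt hy hR) ?_ AC.one
    cases inv
    · exact ev_ac σ hu hs hM hy
    · refine (ev_ac σ hu hs hM hy).inv (PT.const 1) fun x => ?_
      have := ev_ge (u x) σ ⟨s x, M x, G x, R x⟩ (y x)
      linarith
  | f1 => exact sj_ac hj hy
  | f2 => exact ((AC.const _).mul (sj_ac hj hy)).mul (tw_ac _ hM hj hy)
  | b1 => exact (sj_ac hj hy).mul (tw_ac _ hM hj hy)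
  | b2 => exact (AC.const _).mul (sj_ac hj hy)
  | fin =>
    have h1 : BT fun x => G x * s x := hG.mul hs
    exact AC.ite (pt_dec_and (pt_dec_lt hy ((BT.const 8).mul h1))
      (pt_dec_eq ((hy.div h1).mod (BT.const 2)) (BT.const 1))) (AC.natCast hs).neg AC.one
end

lemma allL_dg (t : ℕ → ℕ → ℂ) (d : ℕ) (X : (ℕ → ℕ) → ℂ) (v : ℕ → ℕ) :
    allL (fun i x y => x y * t i y) d X v = X v * ∏ i ∈ range d, t i (v i) := by
  induction d with
  | zero => simp [allL]
  | succ d ih =>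
    simp only [allL, lift, update_eq_self]
    rw [ih, prod_range_succ, mul_assoc]

end Vale.Agent.P338
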