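import Vale.Agent.P338.FieldEasy

/-! The steps as linear maps; the radix-2 transform diagonalises the cyclic shift. -/

namespace Vale.Agent.P338

open Function Finset Complex

namespace Fd

abbrev En := Module.End ℂ (ℕ → ℂ)

noncomputable def dgL (t : ℕ → ℂ) : En where
  toFun x y := t y * x y
  map_add' x x' := by funext y; simp [mul_add]
  map_smul' c x := by funext y; simp only [Pi.smul_apply, smul_eq_mul, RingHom.id_apply]; ring

noncomputable def pmL (θ : ℕ → ℕ) : En where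
  toFun x y := x (θ y)
  map_add' _ _ := rfl
  map_smul' _ _ := rfl

@[simp] lemma dgL_apply (t x : ℕ → ℂ) (y : ℕ) : dgL t x y = t y * x y := rfl
@[simp] lemma pmL_apply (θ : ℕ → ℕ) (x : ℕ → ℂ) (y : ℕ) : pmL θ x y = x (θ y) := rfl

lemma En.ext {A B : En} (h : ∀ x y, A x y = B x y) : A = B :=
  LinearMap.ext fun x => funext (h x)

noncomputable def sel (p : ℕ → Bool) (ψ : ℕ → ℕ) : En :=
  dgL (fun y => if p y then 1 else 0) * pmL ψ

lemma sel_apply (p : ℕ → Bool) (ψ : ℕ → ℕ) (x : ℕ → ℂ) (y : ℕ) :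
    sel p ψ x y = if p y then x (ψ y) else 0 := by
  simp only [sel, Module.End.mul_apply, dgL_apply, pmL_apply]
  split_ifs <;> simp

noncomputable def blL (j : ℕ) : En := (1 + I) • (1 : En) + (1 - I) • pmL (· ^^^ 2 ^ j)

lemma blL_apply (j : ℕ) (x : ℕ → ℂ) (y : ℕ) :
    blL j x y = (1 + I) * x y + (1 - I) * x (y ^^^ 2 ^ j) := by
  simp [blL]

noncomputable def lin (β : ℕ) (P : FP) : St → En
  | .ax k => if k.ng then 1 - sel (k.p P) (k.ψ P) else 1 + sel (k.p P) (k.ψ P)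
  | .pm k => pmL (k.θ P)
  | .rv => pmL (rvθ P)
  | .dg k j => dgL (tb β k j P)
  | .bl j => blL j

lemma sem_eq (β : ℕ) (P : FP) (s : St) (x : ℕ → ℂ) : s.sem β P x = lin β P s x := by
  funext y
  cases s with
  | ax k =>
    simp only [St.sem, lin]
    cases k.ng <;> cases h : k.p P y <;> simp [sel_apply, h]
  | pm k => rfl
  | rv => rfl
  | dg k j => simp [St.sem, lin, mul_comm]
  | bl j => simp [St.sem, lin, blL_apply, bOp]

noncomputable def runE (β : ℕ) (P : FP) : List St → En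
  | [] => 1
  | s :: l => runE β P l * lin β P s

lemma runE_append (β : ℕ) (P : FP) (l l' : List St) :
    runE β P (l ++ l') = runE β P l' * runE β P l := by
  induction l with
  | nil => simp [runE]
  | cons s l ih => simp [runE, ih, mul_assoc]

lemma foldl_eq (β : ℕ) (P : FP) (l : List St) (x : ℕ → ℂ) :
    l.foldl (fun x s => s.sem β P x) x = runE β P l x := by
  induction l generalizing x with
  | nil => rfl
  | cons s l ih => rw [List.foldl_cons, ih, sem_eq]; rfl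

/-! ### Commutation -/

lemma dgL_mul (t t' : ℕ → ℂ) : dgL t * dgL t' = dgL (t * t') :=
  En.ext fun x y => by simp [mul_assoc]

lemma dgL_comm (t t' : ℕ → ℂ) : Commute (dgL t) (dgL t') := by
  rw [Commute, SemiconjBy, dgL_mul, dgL_mul, mul_comm]

lemma dgL_pmL {t : ℕ → ℂ} {θ : ℕ → ℕ} (h : ∀ y, t (θ y) = t y) : Commute (dgL t) (pmL θ) :=
  En.ext fun x y => by simp [h]

lemma pmL_comm {θ θ' : ℕ → ℕ} (h : ∀ y, θ (θ' y) = θ' (θ y)) : Commute (pmL θ) (pmL θ') :=
  En.ext fun x y => by simp [h]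

lemma blL_comm {A : En} {j : ℕ} (h : Commute A (pmL (· ^^^ 2 ^ j))) : Commute A (blL j) :=
  ((Commute.one_right A).smul_right _).add_right (h.smul_right _)

/-! ### Stages -/

noncomputable def Sg (M j : ℕ) : En :=
  dgL (fun y => (1 - I) / 2 * sj j y * tw false M j y) * (blL j * dgL (sj j))

noncomputable def Si (M j : ℕ) : En :=
  dgL (fun y => (1 - I) / 4 * sj j y) * (blL j * dgL fun y => sj j y * tw true M j y)

lemma dm {N q r : ℕ} (hr : r < N) : (q * N + r) / N = q ∧ (q * N + r) % N = r := by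
  have hN : 0 < N := by omega
  constructor
  · rw [mul_comm, Nat.mul_add_div hN, Nat.div_eq_of_lt hr, add_zero]
  · rw [mul_comm, Nat.mul_add_mod, Nat.mod_eq_of_lt hr]

lemma xor_dm (j y : ℕ) : y ^^^ 2 ^ j = (y / 2 ^ j ^^^ 1) * 2 ^ j + y % 2 ^ j := by
  have h1 : (y ^^^ 2 ^ j) / 2 ^ j = y / 2 ^ j ^^^ 1 := by
    rw [Nat.xor_div_two_pow, Nat.div_self (by positivity)]
  have h2 : (y ^^^ 2 ^ j) % 2 ^ j = y % 2 ^ j := by
    rw [Nat.xor_mod_two_pow, Nat.mod_self, Nat.xor_zero]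
  rw [← h1, ← h2, Nat.div_add_mod']

lemma xor_ev {j q r : ℕ} (hr : r < 2 ^ j) :
    (2 * q * 2 ^ j + r) ^^^ 2 ^ j = (2 * q + 1) * 2 ^ j + r := by
  rw [xor_dm, (dm hr).1, (dm hr).2, Nat.xor_one_of_even (even_two_mul q)]

lemma xor_od {j q r : ℕ} (hr : r < 2 ^ j) :
    ((2 * q + 1) * 2 ^ j + r) ^^^ 2 ^ j = 2 * q * 2 ^ j + r := by
  rw [xor_dm, (dm hr).1, (dm hr).2, Nat.xor_one_of_odd (odd_two_mul_add_one q),
    Nat.add_sub_cancel]

lemma idx_cases (j y : ℕ) : ∃ q r, r < 2 ^ j ∧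
    (y = 2 * q * 2 ^ j + r ∨ y = (2 * q + 1) * 2 ^ j + r) := by
  refine ⟨y / 2 ^ j / 2, y % 2 ^ j, Nat.mod_lt _ (by positivity), ?_⟩
  have h := Nat.div_add_mod' y (2 ^ j)
  rcases Nat.mod_two_eq_zero_or_one (y / 2 ^ j) with h1 | h1
  · left
    have : 2 * (y / 2 ^ j / 2) = y / 2 ^ j := by omega
    rw [this, h]
  · right
    have : 2 * (y / 2 ^ j / 2) + 1 = y / 2 ^ j := by omega
    rw [this, h]

lemma sj_ev {j q r : ℕ} (hr : r < 2 ^ j) : sj j (2 * q * 2 ^ j + r) = 1 := by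
  rw [sj, (dm hr).1, if_neg (by omega)]

lemma sj_od {j q r : ℕ} (hr : r < 2 ^ j) : sj j ((2 * q + 1) * 2 ^ j + r) = I := by
  rw [sj, (dm hr).1, if_pos (by omega)]

lemma tw_ev {b : Bool} {M j q r : ℕ} (hr : r < 2 ^ j) : tw b M j (2 * q * 2 ^ j + r) = 1 := by
  rw [tw, (dm hr).1, if_neg (by omega)]

/-- the twiddle factor -/
noncomputable def tz (b : Bool) (M j r : ℕ) : ℂ :=
  if 2 ^ j < M then ez (cond b (-(r : ℕ)) (r : ℕ)) (2 ^ (j + 1)) else 1

lemma tw_od {b : Bool} {M j q r : ℕ} (hr : r < 2 ^ j) :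
    tw b M j ((2 * q + 1) * 2 ^ j + r) = tz b M j r := by
  rw [tw, tz, (dm hr).1, (dm hr).2]
  have : (2 * q + 1) % 2 = 1 := by omega
  simp only [this, and_true]

lemma tz_mul (M j r : ℕ) : tz true M j r * tz false M j r = 1 := by
  unfold tz
  split_ifs
  · rw [← ez_add]; simp
  · simp

lemma Sg_ev {M j q r : ℕ} (hr : r < 2 ^ j) (x : ℕ → ℂ) :
    Sg M j x (2 * q * 2 ^ j + r) = x (2 * q * 2 ^ j + r) + x ((2 * q + 1) * 2 ^ j + r) := by
  simp only [Sg, Module.End.mul_apply, dgL_apply, blL_apply, xor_ev hr, sj_ev hr, sj_od hr,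
    tw_ev hr]
  linear_combination (-(x (2 * q * 2 ^ j + r)) / 2 + x ((2 * q + 1) * 2 ^ j + r) * (I - 2) / 2) *
    I_mul_I

lemma Sg_od {M j q r : ℕ} (hr : r < 2 ^ j) (x : ℕ → ℂ) :
    Sg M j x ((2 * q + 1) * 2 ^ j + r) =
      tz false M j r * (x (2 * q * 2 ^ j + r) - x ((2 * q + 1) * 2 ^ j + r)) := by
  simp only [Sg, Module.End.mul_apply, dgL_apply, blL_apply, xor_od hr, sj_ev hr, sj_od hr,
    tw_od hr]
  linear_combination (tz false M j r * (x ((2 * q + 1) * 2 ^ j + r) * (2 - I ^ 2) / 2 +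
    x (2 * q * 2 ^ j + r) * (I - 2) / 2)) * I_mul_I

lemma Si_ev {M j q r : ℕ} (hr : r < 2 ^ j) (x : ℕ → ℂ) :
    Si M j x (2 * q * 2 ^ j + r) =
      (x (2 * q * 2 ^ j + r) + tz true M j r * x ((2 * q + 1) * 2 ^ j + r)) / 2 := by
  simp only [Si, Module.End.mul_apply, dgL_apply, blL_apply, xor_ev hr, sj_ev hr, sj_od hr,
    tw_ev hr, tw_od hr]
  linear_combination (-(x (2 * q * 2 ^ j + r)) / 4 +
    tz true M j r * x ((2 * q + 1) * 2 ^ j + r) * (I - 2) / 4) * I_mul_I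

lemma Si_od {M j q r : ℕ} (hr : r < 2 ^ j) (x : ℕ → ℂ) :
    Si M j x ((2 * q + 1) * 2 ^ j + r) =
      (x (2 * q * 2 ^ j + r) - tz true M j r * x ((2 * q + 1) * 2 ^ j + r)) / 2 := by
  simp only [Si, Module.End.mul_apply, dgL_apply, blL_apply, xor_od hr, sj_ev hr, sj_od hr,
    tw_ev hr, tw_od hr]
  linear_combination (tz true M j r * x ((2 * q + 1) * 2 ^ j + r) * (2 - I ^ 2) / 4 +
    x (2 * q * 2 ^ j + r) * (I - 2) / 4) * I_mul_I

lemma Si_Sg (M j : ℕ) : Si M j * Sg M j = 1 := by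
  refine En.ext fun x y => ?_
  have h := tz_mul M j
  obtain ⟨q, r, hr, rfl | rfl⟩ := idx_cases j y
  · rw [Module.End.mul_apply, Si_ev hr, Sg_ev hr, Sg_od hr, ← mul_assoc, h]
    simp only [Module.End.one_apply]; ring
  · rw [Module.End.mul_apply, Si_od hr, Sg_ev hr, Sg_od hr, ← mul_assoc, h]
    simp only [Module.End.one_apply]; ring

lemma Sg_Si (M j : ℕ) : Sg M j * Si M j = 1 := by
  refine En.ext fun x y => ?_
  have h := tz_mul M j
  obtain ⟨q, r, hr, rfl | rfl⟩ := idx_cases j y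
  · rw [Module.End.mul_apply, Sg_ev hr, Si_ev hr, Si_od hr]
    simp only [Module.End.one_apply]; ring
  · rw [Module.End.mul_apply, Sg_od hr, Si_ev hr, Si_od hr]
    simp only [Module.End.one_apply]
    linear_combination x ((2 * q + 1) * 2 ^ j + r) * h r

noncomputable def Ph (M : ℕ) : ℕ → En
  | 0 => 1
  | j + 1 => Ph M j * Sg M j

noncomputable def Ps (M : ℕ) : ℕ → En
  | 0 => 1
  | j + 1 => Si M j * Ps M j

lemma Ps_Ph (M l : ℕ) : Ps M l * Ph M l = 1 := by
  induction l with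
  | zero => simp [Ps, Ph]
  | succ l ih => rw [Ps, Ph, mul_assoc, ← mul_assoc (Ps M l), ih, one_mul, Si_Sg]

lemma Ph_Ps (M l : ℕ) : Ph M l * Ps M l = 1 := by
  induction l with
  | zero => simp [Ps, Ph]
  | succ l ih => rw [Ps, Ph, mul_assoc, ← mul_assoc (Sg M l), Sg_Si, one_mul, ih]

lemma run_fwd (β : ℕ) (P : FP) (lm : ℕ) : runE β P (It.fwd.flat lm) = Ph P.M lm := by
  induction lm with
  | zero => rfl
  | succ l ih =>
    have : It.fwd.flat (l + 1) = [.dg .f1 l, .bl l, .dg .f2 l] ++ It.fwd.flat l := by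
      simp only [It.flat, List.range_succ_eq_map, List.flatMap_cons, List.flatMap_map]
      congr 2
      funext i
      have : l + 1 - 1 - i.succ = l - 1 - i := by omega
      rw [this]
    rw [this, runE_append, ih, Ph]
    congr 1

lemma run_bwd (β : ℕ) (P : FP) (lm : ℕ) : runE β P (It.bwd.flat lm) = Ps P.M lm := by
  induction lm with
  | zero => rfl
  | succ l ih =>
    have : It.bwd.flat (l + 1) = It.bwd.flat l ++ [.dg .b1 l, .bl l, .dg .b2 l] := by
      simp only [It.flat, List.range_succ, List.flatMap_append, List.flatMap_singleton]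
    rw [this, runE_append, ih, Ps]
    congr 1

lemma Ph_dg (M l : ℕ) (t : ℕ → ℂ) : Commute (dgL fun y => t (y / 2 ^ l)) (Ph M l) := by
  induction l generalizing t with
  | zero => exact Commute.one_right _
  | succ l ih =>
    refine Commute.mul_right ?_ ?_
    · have := ih fun z => t (z / 2)
      simp only [Nat.div_div_eq_div_mul, ← pow_succ] at this
      exact this
    · refine (dgL_comm _ _).mul_right (Commute.mul_right (blL_comm (dgL_pmL fun y => ?_))
        (dgL_comm _ _))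
      rw [Nat.xor_div_two_pow, Nat.div_eq_of_lt (Nat.pow_lt_pow_right (by norm_num) l.lt_succ_self),
        Nat.xor_zero]

/-! ### The cyclic shift -/

def sh (N y : ℕ) : ℕ := y / N * N + (y % N + N - 1) % N

lemma sh_zero {N : ℕ} (hN : 0 < N) (q : ℕ) : sh N (q * N + 0) = q * N + (N - 1) := by
  rw [sh, (dm hN).1, (dm hN).2, zero_add, Nat.mod_eq_of_lt (by omega)]

lemma sh_succ {N r : ℕ} (hr : r + 1 < N) (q : ℕ) : sh N (q * N + (r + 1)) = q * N + r := by
  have : r + 1 + N - 1 = r + N := by omega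
  rw [sh, (dm hr).1, (dm hr).2, this, Nat.add_mod_right, Nat.mod_eq_of_lt (by omega)]

lemma sh_one (y : ℕ) : sh 1 y = y := by simp [sh, Nat.mod_one]

lemma ez_scale (p : ℤ) (q : ℕ) {c : ℕ} (hc : 0 < c) : ez (p * c) (q * c) = ez p q := by
  unfold ez
  congr 1
  have : (c : ℂ) ≠ 0 := by exact_mod_cast hc.ne'
  push_cast
  rw [← mul_assoc, mul_div_mul_right _ _ this]

lemma ez_half {N : ℕ} (hN : 0 < N) : ez N (2 * N) = -1 := by
  have := ez_scale 1 2 hN
  rw [one_mul] at this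
  rw [this, ez, ← Complex.exp_pi_mul_I]
  congr 1
  push_cast
  ring

lemma Sg_sh {M j : ℕ} (h : 2 ^ j < M) :
    Sg M j * pmL (sh (2 ^ (j + 1))) =
      dgL (fun y => ez (y / 2 ^ j % 2 : ℕ) (2 ^ (j + 1))) * (pmL (sh (2 ^ j)) * Sg M j) := by
  refine En.ext fun x y => ?_
  have hN : 0 < 2 ^ j := by positivity
  have e0 : ∀ q r, 2 * q * 2 ^ j + r = q * 2 ^ (j + 1) + r := fun q r => by ring
  have e1 : ∀ q r, (2 * q + 1) * 2 ^ j + r = q * 2 ^ (j + 1) + (2 ^ j + r) := fun q r => by ring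
  have hp : 2 ^ (j + 1) = 2 * 2 ^ j := by ring
  have a0 : ∀ q, sh (2 ^ (j + 1)) (2 * q * 2 ^ j + 0) = (2 * q + 1) * 2 ^ j + (2 ^ j - 1) :=
    fun q => by rw [e0, e1, sh_zero (by positivity)]; omega
  have a1 : ∀ q r, r + 1 < 2 ^ j →
      sh (2 ^ (j + 1)) (2 * q * 2 ^ j + (r + 1)) = 2 * q * 2 ^ j + r :=
    fun q r hr => by rw [e0, e0, sh_succ (by omega)]
  have a2 : ∀ q, sh (2 ^ (j + 1)) ((2 * q + 1) * 2 ^ j + 0) = 2 * q * 2 ^ j + (2 ^ j - 1) :=
    fun q => by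
      have : 2 ^ j + 0 = 2 ^ j - 1 + 1 := by omega
      rw [e0, e1, this, sh_succ (by omega)]
  have a3 : ∀ q r, r + 1 < 2 ^ j →
      sh (2 ^ (j + 1)) ((2 * q + 1) * 2 ^ j + (r + 1)) = (2 * q + 1) * 2 ^ j + r :=
    fun q r hr => by rw [e1, e1, ← add_assoc (2 ^ j), sh_succ (by omega)]
  obtain ⟨q, r, hr, rfl | rfl⟩ := idx_cases j y
  · have b0 : 2 * q % 2 = 0 := by omega
    simp only [Module.End.mul_apply, dgL_apply, pmL_apply, Sg_ev hr, (dm hr).1, b0]
    rcases r with _ | r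
    · rw [a0, a2, sh_zero hN, Sg_ev (by omega)]; simp [add_comm]
    · rw [a1 _ _ hr, a3 _ _ hr, sh_succ hr, Sg_ev (by omega)]; simp
  · have b0 : (2 * q + 1) % 2 = 1 := by omega
    simp only [Module.End.mul_apply, dgL_apply, pmL_apply, Sg_od hr, (dm hr).1, b0]
    rcases r with _ | r
    · rw [a0, a2, sh_zero hN, Sg_od (by omega), ← mul_assoc]
      simp only [tz, if_pos h, cond_false]
      rw [← ez_add]
      have : ((1 : ℕ) : ℤ) + ((2 ^ j - 1 : ℕ) : ℤ) = (2 ^ j : ℕ) := by omega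
      rw [this, hp, ez_half hN]
      simp
    · rw [a1 _ _ hr, a3 _ _ hr, sh_succ hr, Sg_od (by omega), ← mul_assoc]
      simp only [tz, if_pos h, cond_false]
      rw [← ez_add]
      congr 2
      push_cast
      ring

lemma sh_dm {N : ℕ} (hN : 0 < N) (y : ℕ) :
    sh N y / N = y / N ∧ sh N y % N = (y % N + N - 1) % N := dm (Nat.mod_lt _ hN)

lemma Sg_sh_comm {l j : ℕ} (h : l ≤ j) : Commute (pmL (sh (2 ^ l))) (Sg (2 ^ l) j) := by
  have hN : 0 < 2 ^ l := by positivity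
  have h1 : ∀ y, sh (2 ^ l) y / 2 ^ j = y / 2 ^ j := fun y => by
    obtain ⟨c, rfl⟩ := Nat.exists_eq_add_of_le h
    rw [pow_add, ← Nat.div_div_eq_div_mul, ← Nat.div_div_eq_div_mul, (sh_dm hN y).1]
  have h2 : ¬ 2 ^ j < 2 ^ l := not_lt.2 (Nat.pow_le_pow_right (by norm_num) h)
  have h3 : 2 ^ j % 2 ^ l = 0 := Nat.mod_eq_zero_of_dvd (pow_dvd_pow _ h)
  refine Commute.mul_right (dgL_pmL fun y => ?_).symm
    (Commute.mul_right (blL_comm (pmL_comm fun y => ?_)) (dgL_pmL fun y => ?_).symm)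
  · simp only [sj, tw, h1, h2, false_and, if_false]
  · rw [← Nat.div_add_mod' (sh (2 ^ l) y ^^^ 2 ^ j) (2 ^ l), Nat.xor_div_two_pow,
      Nat.xor_mod_two_pow, h3, Nat.xor_zero, (sh_dm hN y).1, (sh_dm hN y).2, sh,
      Nat.xor_div_two_pow, Nat.xor_mod_two_pow, h3, Nat.xor_zero]
  · simp only [sj, h1]

noncomputable def lam (l y : ℕ) : ℂ := ∏ j ∈ range l, ez (y / 2 ^ j % 2 : ℕ) (2 ^ (j + 1))

lemma Ph_sh {M l : ℕ} (h : 2 ^ l ≤ M) :
    Ph M l * pmL (sh (2 ^ l)) = dgL (lam l) * Ph M l := by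
  induction l with
  | zero => exact En.ext fun x y => by simp [Ph, lam, sh_one]
  | succ l ih =>
    have h1 : 2 ^ l < M := lt_of_lt_of_le (Nat.pow_lt_pow_right (by norm_num) l.lt_succ_self) h
    rw [Ph, mul_assoc, Sg_sh h1, ← mul_assoc,
      ← (Ph_dg M l fun z => ez (z % 2 : ℕ) (2 ^ (l + 1))).eq, mul_assoc, ← mul_assoc (Ph M l),
      ih h1.le, ← mul_assoc, ← mul_assoc, dgL_mul, mul_assoc]
    congr 2
    funext y
    simp only [lam, prod_range_succ, Pi.mul_apply, mul_comm]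

lemma Ph_sh' {l k : ℕ} (h : l ≤ k) :
    Ph (2 ^ l) k * pmL (sh (2 ^ l)) = dgL (lam l) * Ph (2 ^ l) k := by
  induction k, h using Nat.le_induction with
  | base => exact Ph_sh le_rfl
  | succ k hk ih => rw [Ph, mul_assoc, ← (Sg_sh_comm hk).eq, ← mul_assoc, ih, mul_assoc]

lemma ez_sum {ι : Type} (S : Finset ι) (f : ι → ℤ) (q : ℕ) :
    ez (∑ i ∈ S, f i) q = ∏ i ∈ S, ez (f i) q := by
  classical
  induction S using Finset.induction_on with
  | empty => simp
  | insert a S ha ih => rw [sum_insert ha, prod_insert ha, ez_add, ih]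

lemma ez_pow (p : ℤ) (q r : ℕ) : ez (r * p) q = ez p q ^ r := by
  induction r with
  | zero => simp
  | succ r ih => push_cast; rw [add_mul, ez_add, ih, one_mul, pow_succ]

lemma lam_eq (l y : ℕ) : lam l y = ez (revb (2 ^ l) y) (2 ^ l) := by
  rw [revb, Nat.size_pow, sum_range_succ,
    Nat.div_eq_of_lt (Nat.pow_lt_pow_right (by norm_num) l.lt_succ_self), mul_zero, add_zero,
    Nat.cast_sum, ez_sum]
  refine prod_congr rfl fun j hj => ?_
  obtain ⟨c, rfl⟩ := Nat.exists_eq_add_of_le (Nat.succ_le_of_lt (mem_range.1 hj))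
  rw [pow_add 2 j.succ c, Nat.mul_div_cancel_left _ (by positivity), Nat.cast_mul,
    ez_scale _ _ (by positivity)]

lemma Ph_pow {l k : ℕ} (h : l ≤ k) (r : ℕ) :
    Ph (2 ^ l) k * pmL (sh (2 ^ l)) ^ r =
      dgL (fun y => ez (r * revb (2 ^ l) y : ℕ) (2 ^ l)) * Ph (2 ^ l) k := by
  induction r with
  | zero => exact En.ext fun x y => by simp
  | succ r ih =>
    rw [pow_succ, ← mul_assoc, ih, mul_assoc, Ph_sh' h, ← mul_assoc, dgL_mul]
    congr 2
    funext y
    rw [Pi.mul_apply, lam_eq, ← ez_add]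
    congr 1
    push_cast
    ring

/-- projection on the workspace -/
noncomputable def piR (R : ℕ) : En := dgL fun y => if y < R then 1 else 0

/-- the circulant kernel -/
noncomputable def Kr (σ : Bool) (P : FP) : En :=
  ∑ r ∈ range P.M, (chi (!σ) P.s (min r (P.M - r)) / (2 * P.M : ℕ)) • pmL (sh P.M) ^ r

variable {P : FP} {lm Λ0 β : ℕ}

lemma conv_eq (h : P.ok lm Λ0) (hβ : 2 ^ lm ≤ β) (σ : Bool) :
    Ps P.M lm * (dgL (tb β (.eig σ false) 0 P) * Ph P.M lm) = 1 + piR P.R * Kr σ P := by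
  obtain ⟨-, -, ⟨l, hl, hM⟩, -, -, ⟨c, hc⟩, -⟩ := h
  have hm : min P.M β = P.M := min_eq_left (hM ▸ (Nat.pow_le_pow_right (by norm_num) hl).trans hβ)
  have h1 : dgL (tb β (.eig σ false) 0 P) = 1 + piR P.R *
      ∑ r ∈ range P.M, (chi (!σ) P.s (min r (P.M - r)) / (2 * P.M : ℕ)) •
        dgL (fun y => ez (r * revb P.M y : ℕ) P.M) := by
    refine En.ext fun x y => ?_
    simp only [tb, ev, hm, piR, cond_false, dgL_apply, LinearMap.add_apply, Pi.add_apply,
      Module.End.one_apply, Module.End.mul_apply, LinearMap.sum_apply, Finset.sum_apply,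
      LinearMap.smul_apply, Pi.smul_apply, smul_eq_mul]
    split_ifs
    · rw [add_mul, one_mul, one_mul, sum_div, sum_mul]
      congr 1
      exact sum_congr rfl fun r _ => by ring
    · simp
  have h2 : Commute (piR P.R) (Ph P.M lm) := by
    have := Ph_dg P.M lm fun z => if z < c then 1 else 0
    simp only [Nat.div_lt_iff_lt_mul (show 0 < 2 ^ lm by positivity), mul_comm c, ← hc] at this
    exact this
  have h3 : (∑ r ∈ range P.M, (chi (!σ) P.s (min r (P.M - r)) / (2 * P.M : ℕ)) •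
      dgL (fun y => ez (r * revb P.M y : ℕ) P.M)) * Ph P.M lm = Ph P.M lm * Kr σ P := by
    rw [Kr, sum_mul, mul_sum]
    refine sum_congr rfl fun r _ => ?_
    rw [smul_mul_assoc, mul_smul_comm]
    congr 1
    rw [hM, Ph_pow hl]
  rw [h1, add_mul, one_mul, mul_add, Ps_Ph, mul_assoc, h3, ← mul_assoc (piR _), h2.eq,
    ← mul_assoc, ← mul_assoc, Ps_Ph, one_mul]

lemma conv_inv (β : ℕ) (P : FP) (lm : ℕ) (σ : Bool) :
    Ps P.M lm * (dgL (tb β (.eig σ true) 0 P) * Ph P.M lm) *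
      (Ps P.M lm * (dgL (tb β (.eig σ false) 0 P) * Ph P.M lm)) = 1 := by
  have : dgL (tb β (.eig σ true) 0 P) * dgL (tb β (.eig σ false) 0 P) = 1 := by
    refine En.ext fun x y => ?_
    simp only [tb, cond_true, cond_false, Module.End.mul_apply, dgL_apply, Module.End.one_apply]
    split_ifs
    · rw [← mul_assoc, inv_mul_cancel₀ (ev_ne _ _ _ _), one_mul]
    · simp
  rw [mul_assoc, mul_assoc, ← mul_assoc (Ph _ _), Ph_Ps, one_mul, ← mul_assoc (dgL _), this,
    one_mul, Ps_Ph]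

end Fd

end Vale.Agent.P338
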