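import Vale.Agent.P338.FieldFFT

/-! The shears: Bluestein's reduction with a dirty workspace. -/

namespace Vale.Agent.P338

open Function Finset Complex

namespace Fd

lemma toggle {A : Type} [Ring A] {G H O E D C : A} (h1 : H * G = 1) (h2 : G = 1 + C)
    (h3 : C * O = 0) (h4 : O * O = 0) (h5 : E * E = 0) (h6 : E * O = 0) (h7 : O * E = D)
    (h8 : D * O = 0) (Z : A) :
    (1 - D) * ((1 - E) * (H * ((1 + O) * (G * ((1 + E) * (H * ((1 - O) * (G * Z)))))))) =
      (1 + O * (C * E)) * Z := by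
  have g1 : G * O = O := by rw [h2, add_mul, h3, one_mul, add_zero]
  have g2 : H * O = O := by rw [← g1, ← mul_assoc, h1, one_mul, g1]
  have g3 : ∀ W, H * ((1 + O) * (G * W)) = (1 + O * G) * W := fun W => by
    rw [add_mul, mul_add, one_mul, ← mul_assoc, h1, ← mul_assoc H, g2, add_mul, mul_assoc]
  have g4 : ∀ W, H * ((1 - O) * (G * W)) = (1 - O * G) * W := fun W => by
    rw [sub_mul, mul_sub, one_mul, ← mul_assoc, h1, ← mul_assoc H, g2, sub_mul, mul_assoc]
  have g5 : O * G * (O * G) = 0 := by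
    rw [mul_assoc, ← mul_assoc G, g1, ← mul_assoc, h4, zero_mul]
  have g6 : E * (O * G) = 0 := by rw [← mul_assoc, h6, zero_mul]
  have g7 : O * G * E = D + O * (C * E) := by rw [h2, mul_add, mul_one, add_mul, h7, mul_assoc]
  have g8 : D * D = 0 := by
    conv_lhs => rhs; rw [← h7]
    rw [← mul_assoc, h8, zero_mul]
  have g9 : D * (O * (C * E)) = 0 := by rw [← mul_assoc, h8, zero_mul]
  rw [g3, g4]
  generalize O * G = B at g5 g6 g7
  have k1 : (1 - E) * (1 + B) = 1 + B - E := by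
    rw [sub_mul, one_mul, mul_add, mul_one, g6, add_zero]
  have k2 : (1 + E) * (1 - B) = 1 - B + E := by
    rw [add_mul, one_mul, mul_sub, mul_one, g6, sub_zero]
  have k3 : (1 + B - E) * (1 - B + E) = 1 + B * E := by
    simp only [sub_mul, add_mul, mul_add, mul_sub, one_mul, mul_one, g5, g6, h5]
    abel
  have k4 : (1 - D) * (1 + B * E) = 1 + O * (C * E) := by
    rw [g7]
    simp only [sub_mul, mul_add, one_mul, mul_one, g8, g9]
    abel
  rw [← mul_assoc (1 + E), k2, ← mul_assoc (1 - E), k1, ← mul_assoc (1 + B - E), k3, ← mul_assoc,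
    k4]

lemma sel_sel {p p' : ℕ → Bool} {ψ ψ' : ℕ → ℕ} (h : ∀ y, p y → ¬ p' (ψ y)) :
    sel p ψ * sel p' ψ' = 0 := by
  refine En.ext fun x y => ?_
  simp only [Module.End.mul_apply, sel_apply, LinearMap.zero_apply, Pi.zero_apply]
  split_ifs with h1 h2
  · exact absurd h2 (h y h1)
  · rfl
  · rfl

lemma sh_pow {M r g a : ℕ} (ha : a < M) (hr : r ≤ M) (x : ℕ → ℂ) :
    (pmL (sh M) ^ r) x (g * M + a) = x (g * M + (a + M - r) % M) := by
  induction r generalizing x with
  | zero => simp [Nat.mod_eq_of_lt ha]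
  | succ r ih =>
    have hM : 0 < M := by omega
    have h1 := Nat.mod_lt (a + M - r) hM
    rw [pow_succ, Module.End.mul_apply, ih (by omega), pmL_apply, sh, (dm h1).1, (dm h1).2]
    congr 2
    have e1 : (a + M - r) % M + M - 1 = (a + M - r) % M + (M - 1) := by omega
    have e2 : a + M - r + (M - 1) = a + M - (r + 1) + M := by omega
    rw [e1, Nat.mod_add_mod, e2, Nat.add_mod_right]

lemma refl_eq {M a c : ℕ} (ha : a < M) (hc : c < M) :
    (a + M - c) % M = if c ≤ a then a - c else a + M - c := by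
  split_ifs with h
  · have : a + M - c = a - c + M := by omega
    rw [this, Nat.add_mod_right, Nat.mod_eq_of_lt (by omega)]
  · exact Nat.mod_eq_of_lt (by omega)

lemma sum_refl {M a : ℕ} (ha : a < M) (f : ℕ → ℕ → ℂ) :
    ∑ r ∈ range M, f r ((a + M - r) % M) = ∑ c ∈ range M, f ((a + M - c) % M) c := by
  have hM : 0 < M := by omega
  have key : ∀ c < M, (a + M - (a + M - c) % M) % M = c := fun c hc => by
    rw [refl_eq ha (Nat.mod_lt _ hM), refl_eq ha hc]
    split_ifs <;> omega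
  refine sum_nbij' (fun r => (a + M - r) % M) (fun r => (a + M - r) % M) ?_ ?_ ?_ ?_ ?_
  · exact fun r _ => mem_range.2 (Nat.mod_lt _ hM)
  · exact fun r _ => mem_range.2 (Nat.mod_lt _ hM)
  · exact fun r hr => key r (mem_range.1 hr)
  · exact fun r hr => key r (mem_range.1 hr)
  · exact fun r hr => by rw [key r (mem_range.1 hr)]

variable {P : FP} {lm Λ0 β : ℕ}

noncomputable def Ei (σ : Bool) (P : FP) : En := sel ((Ax.inW σ true).p P) ((Ax.inW σ true).ψ P)
noncomputable def Ou (σ : Bool) (P : FP) : En := sel ((Ax.outW σ true).p P) ((Ax.outW σ true).ψ P)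
noncomputable def Di (σ : Bool) (P : FP) : En := sel ((Ax.dir σ).p P) ((Ax.dir σ).ψ P)

lemma Kr_apply (σ : Bool) {g a : ℕ} (ha : a < P.M) (x : ℕ → ℂ) :
    Kr σ P x (g * P.M + a) = ∑ r ∈ range P.M,
      chi (!σ) P.s (min r (P.M - r)) / (2 * P.M : ℕ) * x (g * P.M + (a + P.M - r) % P.M) := by
  simp only [Kr, LinearMap.sum_apply, Finset.sum_apply, LinearMap.smul_apply, Pi.smul_apply,
    smul_eq_mul]
  exact sum_congr rfl fun r hr => by rw [sh_pow ha (mem_range.1 hr).le]

lemma Kr_Ou (h : P.ok lm Λ0) (σ : Bool) : piR P.R * Kr σ P * Ou σ P = 0 := by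
  refine En.ext fun x y => ?_
  have hM := h.M_pos
  obtain ⟨-, -, ⟨l, hl, hlM⟩, -, -, hd, -, hR, -⟩ := h
  obtain ⟨c, hc⟩ : P.M ∣ P.R := hlM ▸ (pow_dvd_pow 2 hl).trans hd
  simp only [Module.End.mul_apply, piR, dgL_apply, LinearMap.zero_apply, Pi.zero_apply]
  split_ifs with hy
  · rw [← Nat.div_add_mod' y P.M, Kr_apply σ (Nat.mod_lt _ hM), one_mul]
    refine sum_eq_zero fun r _ => ?_
    have h1 : y / P.M < c := (Nat.div_lt_iff_lt_mul hM).2 (by rw [mul_comm, ← hc]; exact hy)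
    have h2 := blk_lt h1 (Nat.mod_lt (y % P.M + P.M - r) hM)
    have h3 := P.dst_le σ
    rw [mul_comm c, ← hc] at h2
    rw [Ou, sel_apply, if_neg, mul_zero]
    simp only [Ax.p, decide_eq_true_eq]
    omega
  · simp

lemma Ou_Ou (h : P.ok lm Λ0) (σ : Bool) : Ou σ P * Ou σ P = 0 := by
  refine sel_sel fun y hy hy' => ?_
  replace hy' := of_decide_eq_true hy'
  simp only [Ax.p, Ax.ψ, decide_eq_true_eq] at hy hy'
  have h1 := Ax.out_lt h (z := y - P.dst σ) (by omega)
  have h3 := P.dst_le σ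
  obtain ⟨-, -, -, -, -, -, h4, h5, -⟩ := h
  omega

lemma Ei_Ei (h : P.ok lm Λ0) (σ : Bool) : Ei σ P * Ei σ P = 0 := by
  refine sel_sel fun y hy hy' => ?_
  replace hy' := of_decide_eq_true hy'
  simp only [Ax.p, Ax.ψ, decide_eq_true_eq] at hy hy'
  have h3 := P.src_le σ
  obtain ⟨-, -, -, -, -, -, h4, h5, -⟩ := h
  omega

lemma Ei_Ou (h : P.ok lm Λ0) (σ : Bool) : Ei σ P * Ou σ P = 0 := by
  refine sel_sel fun y hy hy' => ?_
  replace hy' := of_decide_eq_true hy'
  simp only [Ax.p, Ax.ψ, decide_eq_true_eq] at hy hy'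
  have h1 := Ax.in_lt h hy.1 hy.2
  have h3 := P.src_dst σ
  omega

lemma Di_Ou (σ : Bool) : Di σ P * Ou σ P = 0 := by
  refine sel_sel fun y hy hy' => ?_
  replace hy' := of_decide_eq_true hy'
  simp only [Ax.p, Ax.ψ, decide_eq_true_eq] at hy hy'
  have h3 := P.src_dst σ
  omega

lemma Ei_apply (h : P.ok lm Λ0) (σ : Bool) {g c : ℕ} (hg : g < P.G) (hc : c < P.M)
    (x : ℕ → ℂ) :
    Ei σ P x (g * P.M + c) = if c < P.s then x (P.src σ + g * P.s + c) else 0 := by
  have := blk_lt hg hc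
  simp only [Ei, sel_apply, Ax.p, Ax.ψ, decide_eq_true_eq, (dm hc).1, (dm hc).2, this, true_and]

lemma Ou_apply (σ : Bool) {g a : ℕ} (hg : g < P.G) (ha : a < P.s) (x : ℕ → ℂ) :
    Ou σ P x (P.dst σ + (g * P.s + a)) = x (g * P.M + a) := by
  have : g * P.s + a < P.n := blk_lt hg ha
  simp only [Ou, sel_apply, Ax.p, Ax.ψ, decide_eq_true_eq, Nat.add_sub_cancel_left, (dm ha).1,
    (dm ha).2]
  rw [if_pos (by omega)]

lemma dst_cases (h : P.ok lm Λ0) (σ : Bool) {y : ℕ} (h1 : P.dst σ ≤ y) (h2 : y < P.dst σ + P.n) :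
    ∃ g < P.G, ∃ a < P.s, y = P.dst σ + (g * P.s + a) := by
  refine ⟨(y - P.dst σ) / P.s, (Nat.div_lt_iff_lt_mul h.1).2 ?_, (y - P.dst σ) % P.s,
    Nat.mod_lt _ h.1, ?_⟩
  · change _ < P.n
    omega
  · rw [Nat.div_add_mod']
    omega

lemma Ou_out (σ : Bool) {y : ℕ} (hy : ¬ (P.dst σ ≤ y ∧ y < P.dst σ + P.n)) (x : ℕ → ℂ) :
    Ou σ P x y = 0 := by
  simp only [Ou, sel_apply, Ax.p, decide_eq_true_eq, if_neg hy]

lemma Ou_Ei (h : P.ok lm Λ0) (σ : Bool) : Ou σ P * Ei σ P = Di σ P := by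
  refine En.ext fun x y => ?_
  rw [Module.End.mul_apply]
  by_cases hy : P.dst σ ≤ y ∧ y < P.dst σ + P.n
  · obtain ⟨g, hg, a, ha, rfl⟩ := dst_cases h σ hy.1 hy.2
    have h2 := h.2.2.2.1
    rw [Ou_apply σ hg ha, Ei_apply h σ hg (by omega), if_pos ha]
    simp only [Di, sel_apply, Ax.p, Ax.ψ, decide_eq_true_eq, if_pos hy]
    congr 1
    omega
  · rw [Ou_out σ hy]
    simp only [Di, sel_apply, Ax.p, decide_eq_true_eq, if_neg hy]

lemma cross_apply (h : P.ok lm Λ0) (σ : Bool) {g a : ℕ} (hg : g < P.G) (ha : a < P.s)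
    (x : ℕ → ℂ) :
    (Ou σ P * (piR P.R * Kr σ P * Ei σ P)) x (P.dst σ + (g * P.s + a)) = ∑ c ∈ range P.s,
      ez (cond σ (((a : ℤ) - c) ^ 2) (-((a : ℤ) - c) ^ 2)) (2 * P.s) / (2 * P.M : ℕ) *
        x (P.src σ + g * P.s + c) := by
  have hM := h.M_pos
  have h2 := h.2.2.2.1
  have h3 := h.2.2.2.2.2.2.1
  have haM : a < P.M := by omega
  have h4 := blk_lt hg haM
  simp only [Module.End.mul_apply]
  rw [Ou_apply σ hg ha, piR, dgL_apply, if_pos (by omega), one_mul, Kr_apply σ haM,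
    sum_refl haM fun r c => chi (!σ) P.s (min r (P.M - r)) / (2 * P.M : ℕ) *
      Ei σ P x (g * P.M + c)]
  rw [← sum_subset (range_mono (show P.s ≤ P.M by omega))]
  · refine sum_congr rfl fun c hc => ?_
    have hc' := mem_range.1 hc
    rw [Ei_apply h σ hg (by omega), if_pos hc']
    congr 2
    have e : ((min ((a + P.M - c) % P.M) (P.M - (a + P.M - c) % P.M) ^ 2 : ℕ) : ℤ) =
        ((a : ℤ) - c) ^ 2 := by
      rw [refl_eq haM (by omega)]
      split_ifs with h5
      · rw [min_eq_left (by omega)]; push_cast [h5]; rfl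
      · have : P.M - (a + P.M - c) = c - a := by omega
        rw [min_eq_right (by omega), this]
        push_cast [(not_le.1 h5).le]
        ring
    rw [chi, e]
    cases σ <;> rfl
  · intro c hc hc'
    rw [Ei_apply h σ hg (mem_range.1 hc), if_neg (fun h => hc' (mem_range.2 h)), mul_zero]

noncomputable def runI (β : ℕ) (P : FP) (lm : ℕ) (l : List It) : En :=
  runE β P (l.flatMap (It.flat lm))

lemma runI_append (l l' : List It) : runI β P lm (l ++ l') = runI β P lm l' * runI β P lm l := by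
  rw [runI, List.flatMap_append, runE_append]; rfl

lemma runI_cons (a : It) (l : List It) :
    runI β P lm (a :: l) = runI β P lm l * runE β P (a.flat lm) := by
  rw [runI, List.flatMap_cons, runE_append]; rfl

lemma runI_nil : runI β P lm [] = 1 := rfl

lemma runI_conv (σ inv : Bool) : runI β P lm (conv σ inv) =
    Ps P.M lm * (dgL (tb β (.eig σ inv) 0 P) * Ph P.M lm) := by
  simp only [conv, runI_cons, runI_nil, run_fwd, run_bwd, one_mul, mul_assoc]
  simp only [It.flat, runE, lin, one_mul]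

lemma shear_eq (h : P.ok lm Λ0) (hβ : 2 ^ lm ≤ β) (σ : Bool) :
    runI β P lm (shear σ) = dgL (tb β (.post σ) 0 P) *
      ((1 + Ou σ P * (piR P.R * Kr σ P * Ei σ P)) * dgL (tb β (.pre σ) 0 P)) := by
  rw [← toggle (conv_inv β P lm σ) (conv_eq h hβ σ) (Kr_Ou h σ) (Ou_Ou h σ) (Ei_Ei h σ)
    (Ei_Ou h σ) (Ou_Ei h σ) (Di_Ou σ)]
  simp only [shear, runI_append, runI_conv, runI_cons, runI_nil]
  simp only [It.flat, runE, lin, one_mul, Ax.ng, mul_assoc]
  rfl

lemma chi_mul (σ : Bool) (s a : ℕ) : chi (!σ) s a * chi σ s a = 1 := by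
  unfold chi
  rw [← ez_add]
  cases σ <;> simp

lemma src_mod (σ : Bool) {g c : ℕ} (hc : c < P.s) : (P.src σ + g * P.s + c) % P.s = c := by
  have : P.src σ + g * P.s = (cond σ 7 6 * P.G + g) * P.s := by
    simp only [FP.src, FP.n]; ring
  rw [this, (dm hc).2]

lemma dst_mod (σ : Bool) {g c : ℕ} (hc : c < P.s) : (P.dst σ + (g * P.s + c)) % P.s = c := by
  have : P.dst σ + g * P.s = (cond σ 6 7 * P.G + g) * P.s := by
    simp only [FP.dst, FP.n]; ring
  rw [← add_assoc, this, (dm hc).2]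

lemma shear_out (h : P.ok lm Λ0) (hβ : 2 ^ lm ≤ β) (σ : Bool) (x : ℕ → ℂ) {y : ℕ}
    (hy : ¬ (P.dst σ ≤ y ∧ y < P.dst σ + P.n)) : runI β P lm (shear σ) x y = x y := by
  rw [shear_eq h hβ]
  simp only [Module.End.mul_apply, dgL_apply, LinearMap.add_apply, Pi.add_apply,
    Module.End.one_apply, Ou_out σ hy, add_zero, tb, if_neg hy]
  split_ifs
  · rw [← mul_assoc, chi_mul, one_mul]
  · simp

lemma shear_in (h : P.ok lm Λ0) (hβ : 2 ^ lm ≤ β) (σ : Bool) (x : ℕ → ℂ) {g a : ℕ}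
    (hg : g < P.G) (ha : a < P.s) :
    runI β P lm (shear σ) x (P.dst σ + (g * P.s + a)) = x (P.dst σ + (g * P.s + a)) +
      cond σ (-1 / (P.s : ℂ)) 1 * ∑ c ∈ range P.s,
        ez (cond σ (-(c * a : ℕ)) (c * a : ℕ)) P.s * x (P.src σ + g * P.s + c) := by
  have h0 : g * P.s + a < P.n := blk_lt hg ha
  have h1 := P.src_dst σ
  have hM : ((2 * P.M : ℕ) : ℂ) ≠ 0 := by have := h.M_pos; exact_mod_cast (by omega)
  have hs : (P.s : ℂ) ≠ 0 := by exact_mod_cast h.1.ne'
  rw [shear_eq h hβ, Module.End.mul_apply, Module.End.mul_apply, dgL_apply, LinearMap.add_apply,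
    Pi.add_apply, cross_apply h σ hg ha, Module.End.one_apply, dgL_apply, mul_add, mul_sum,
    mul_sum]
  have e1 : ¬ (P.src σ ≤ P.dst σ + (g * P.s + a) ∧ P.dst σ + (g * P.s + a) < P.src σ + P.n) := by
    omega
  have e2 : P.dst σ ≤ P.dst σ + (g * P.s + a) ∧ P.dst σ + (g * P.s + a) < P.dst σ + P.n := by
    omega
  have hc := chi_mul σ P.s a
  congr 1
  · simp only [tb, if_neg e1, if_pos e2, dst_mod σ ha]
    rw [← mul_assoc]
    refine (congrArg (· * _) ?_).trans (one_mul _)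
    cases σ
    · simp only [cond_false, Nat.cast_one] at hc ⊢
      field_simp
      linear_combination hc
    · simp only [cond_true] at hc ⊢
      field_simp
      linear_combination hc
  · refine sum_congr rfl fun c hc => ?_
    have hc' := mem_range.1 hc
    have h2 : g * P.s + c < P.n := blk_lt hg hc'
    have e3 : P.src σ ≤ P.src σ + g * P.s + c ∧ P.src σ + g * P.s + c < P.src σ + P.n := by omega
    have key : chi σ P.s a * ez (cond σ (((a : ℤ) - c) ^ 2) (-((a : ℤ) - c) ^ 2)) (2 * P.s) *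
        chi σ P.s c = ez (cond σ (-(c * a : ℕ)) (c * a : ℕ)) P.s := by
      rw [chi, chi, ← ez_add, ← ez_add, ← ez_scale _ P.s (show 0 < 2 by norm_num), mul_comm P.s]
      congr 1
      cases σ <;> simp only [cond_true, cond_false] <;> push_cast <;> ring
    simp only [dgL_apply, tb, if_neg e1, if_pos e2, if_pos e3, dst_mod σ ha, src_mod σ hc']
    rw [← key]
    cases σ
    · simp only [cond_false, Nat.cast_one]
      field_simp
    · simp only [cond_true]
      field_simp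

end Fd

end Vale.Agent.P338
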