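import Vale.Agent.P338.Defs
import Vale.Agent.PT.PF

/-! A stack language over an arbitrary type of registers. -/

namespace Vale.Agent.P338

open Function

inductive Pg (ρ Γ : Type) : Type
  | skip : Pg ρ Γ
  | push (r : ρ) (c : Γ) : Pg ρ Γ
  | pop (r : ρ) : Pg ρ Γ
  | seq (p q : Pg ρ Γ) : Pg ρ Γ
  | cas (r : ρ) (f : Option Γ → Pg ρ Γ) : Pg ρ Γ
  | loop (r : ρ) (p : Pg ρ Γ) : Pg ρ Γ

variable {ρ Γ : Type} [DecidableEq ρ]

inductive Exec : Pg ρ Γ → (ρ → List Γ) → (ρ → List Γ) → ℕ → Prop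
  | skip (s) : Exec Pg.skip s s 1
  | push (r : ρ) (c : Γ) (s) : Exec (Pg.push r c) s (update s r (c :: s r)) 1
  | pop (r : ρ) (s) : Exec (Pg.pop r) s (update s r (s r).tail) 1
  | seq {p q s s1 s2} {t1 t2 : ℕ} :
      Exec p s s1 t1 → Exec q s1 s2 t2 → Exec (Pg.seq p q) s s2 (t1 + t2)
  | cas {r : ρ} {f : Option Γ → Pg ρ Γ} {s s'} {t : ℕ} :
      Exec (f (s r).head?) s s' t → Exec (Pg.cas r f) s s' (t + 1)
  | loop0 {r : ρ} {p s} : s r = [] → Exec (Pg.loop r p) s s 1
  | loop1 {r : ρ} {p s s1 s2} {t1 t2 : ℕ} : s r ≠ [] →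
      Exec p s s1 t1 → Exec (Pg.loop r p) s1 s2 t2 → Exec (Pg.loop r p) s s2 (t1 + t2 + 1)

def Run (p : Pg ρ Γ) (s s' : ρ → List Γ) (T : ℕ) : Prop := ∃ t ≤ T, Exec p s s' t

namespace Run

variable {p q : Pg ρ Γ} {s s' s1 s2 : ρ → List Γ} {T T' T1 T2 : ℕ}

theorem mono (h : Run p s s' T) (hT : T ≤ T') : Run p s s' T' := by
  obtain ⟨t, ht, h⟩ := h
  exact ⟨t, ht.trans hT, h⟩

theorem seq (h1 : Run p s s1 T1) (h2 : Run q s1 s2 T2) : Run (p.seq q) s s2 (T1 + T2) := by
  obtain ⟨t1, ht1, h1⟩ := h1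
  obtain ⟨t2, ht2, h2⟩ := h2
  exact ⟨t1 + t2, add_le_add ht1 ht2, h1.seq h2⟩

theorem skip (s : ρ → List Γ) : Run Pg.skip s s 1 := ⟨1, le_rfl, Exec.skip s⟩

theorem push (r : ρ) (c : Γ) (s : ρ → List Γ) :
    Run (Pg.push r c) s (update s r (c :: s r)) 1 := ⟨1, le_rfl, Exec.push r c s⟩

theorem pop (r : ρ) (s : ρ → List Γ) : Run (Pg.pop r) s (update s r (s r).tail) 1 :=
  ⟨1, le_rfl, Exec.pop r s⟩

theorem cas {r : ρ} {f : Option Γ → Pg ρ Γ} {o : Option Γ} (ho : (s r).head? = o)
    (h : Run (f o) s s' T) : Run (Pg.cas r f) s s' (T + 1) := by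
  obtain ⟨t, ht, h⟩ := h
  subst ho
  exact ⟨t + 1, by omega, h.cas⟩

theorem loop0 {r : ρ} (h : s r = []) : Run (Pg.loop r p) s s 1 := ⟨1, le_rfl, Exec.loop0 h⟩

theorem loop1 {r : ρ} (h : s r ≠ []) (h1 : Run p s s1 T1) (h2 : Run (Pg.loop r p) s1 s2 T2) :
    Run (Pg.loop r p) s s2 (T1 + T2 + 1) := by
  obtain ⟨t1, ht1, h1⟩ := h1
  obtain ⟨t2, ht2, h2⟩ := h2
  exact ⟨t1 + t2 + 1, by omega, Exec.loop1 h h1 h2⟩

theorem congr {s'' : ρ → List Γ} (h : Run p s s' T) (e : s' = s'') : Run p s s'' T := e ▸ h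

theorem of (h : Run p s s' T) {s'' : ρ → List Γ} (e : s' = s'') (hT : T ≤ T') : Run p s s'' T' :=
  (h.congr e).mono hT

end Run

/-- translation of registers and symbols -/
def Pg.map {ρ' Γ' : Type} (f : ρ → ρ') (g : Γ → Γ') (g' : Γ' → Option Γ) : Pg ρ Γ → Pg ρ' Γ'
  | .skip => .skip
  | .push r c => .push (f r) (g c)
  | .pop r => .pop (f r)
  | .seq p q => .seq (p.map f g g') (q.map f g g')
  | .cas r h => .cas (f r) fun o => (h (o.bind g')).map f g g'
  | .loop r p => .loop (f r) (p.map f g g')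

theorem Exec.map {ρ' Γ' : Type} [DecidableEq ρ'] {f : ρ → ρ'} (hf : Injective f) {g : Γ → Γ'}
    {g' : Γ' → Option Γ} (hg : ∀ c, g' (g c) = some c) {p : Pg ρ Γ} {s s' : ρ → List Γ} {t : ℕ}
    (h : Exec p s s' t) : ∀ S : ρ' → List Γ', (∀ r, S (f r) = (s r).map g) →
      ∃ S', Exec (p.map f g g') S S' t ∧ (∀ r, S' (f r) = (s' r).map g) ∧
        ∀ r', (∀ r, f r ≠ r') → S' r' = S r' := by
  induction h with
  | skip s => exact fun S hS => ⟨S, Exec.skip S, hS, fun _ _ => rfl⟩
  | push r c s =>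
    refine fun S hS => ⟨_, Exec.push _ _ S, fun r' => ?_, fun r' h => update_of_ne (h r).symm _ _⟩
    by_cases e : r' = r
    · subst e; simp [hS]
    · rw [update_of_ne e, update_of_ne (hf.ne e), hS]
  | pop r s =>
    refine fun S hS => ⟨_, Exec.pop _ S, fun r' => ?_, fun r' h => update_of_ne (h r).symm _ _⟩
    by_cases e : r' = r
    · subst e; simp [hS]
    · rw [update_of_ne e, update_of_ne (hf.ne e), hS]
  | seq _ _ ih1 ih2 =>
    intro S hS
    obtain ⟨S1, a1, b1, c1⟩ := ih1 S hS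
    obtain ⟨S2, a2, b2, c2⟩ := ih2 S1 b1
    exact ⟨S2, a1.seq a2, b2, fun r' h => (c2 r' h).trans (c1 r' h)⟩
  | @cas r h s s' t _ ih =>
    intro S hS
    obtain ⟨S1, a1, b1, c1⟩ := ih S hS
    refine ⟨S1, Exec.cas ?_, b1, c1⟩
    have : (S (f r)).head?.bind g' = (s r).head? := by
      rw [hS]; cases s r <;> simp [hg]
    rwa [this]
  | loop0 h => exact fun S hS => ⟨S, Exec.loop0 (by rw [hS, h]; rfl), hS, fun _ _ => rfl⟩
  | loop1 h _ _ ih1 ih2 =>
    intro S hS
    obtain ⟨S1, a1, b1, c1⟩ := ih1 S hS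
    obtain ⟨S2, a2, b2, c2⟩ := ih2 S1 b1
    exact ⟨S2, Exec.loop1 (by rw [hS]; simpa using h) a1 a2, b2,
      fun r' h => (c2 r' h).trans (c1 r' h)⟩

def ofPT : PT.Prog Γ → Pg ℕ Γ
  | .skip => .skip
  | .push r c => .push r c
  | .pop r => .pop r
  | .seq p q => .seq (ofPT p) (ofPT q)
  | .cas r h => .cas r fun o => ofPT (h o)
  | .loop r p => .loop r (ofPT p)

theorem exec_ofPT {p : PT.Prog Γ} {s s' : ℕ → List Γ} {t : ℕ} (h : PT.Exec p s s' t) :
    Exec (ofPT p) s s' t := by
  induction h with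
  | skip s => exact Exec.skip s
  | push r c s => exact Exec.push r c s
  | pop r s => exact Exec.pop r s
  | seq _ _ ih1 ih2 => exact ih1.seq ih2
  | cas _ ih => exact Exec.cas ih
  | loop0 h => exact Exec.loop0 h
  | loop1 h _ _ ih1 ih2 => exact Exec.loop1 h ih1 ih2

/-- Pop the symbols of `r` one at a time, running `b c` after popping `c`. -/
def each (r : ρ) (b : Γ → Pg ρ Γ) : Pg ρ Γ :=
  Pg.loop r (Pg.cas r fun o => match o with
    | none => Pg.skip
    | some c => (Pg.pop r).seq (b c))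

theorem each_run (r : ρ) (b : Γ → Pg ρ Γ) (T : ℕ) (σ : List Γ → ρ → List Γ) (y : List Γ)
    (hσ : ∀ l, σ l r = l)
    (hb : ∀ c l, (c :: l) <:+ y → Run (b c) (update (σ (c :: l)) r l) (σ l) T) :
    Run (each r b) (σ y) (σ []) (y.length * (T + 3) + 1) := by
  induction y with
  | nil => exact (Run.loop0 (hσ [])).mono (by simp)
  | cons c l ih =>
    have h2 := ih fun c' l' h => hb c' l' (h.trans (List.suffix_cons c l))
    have h0 := Run.pop r (σ (c :: l))
    rw [hσ] at h0
    refine (Run.loop1 (by rw [hσ]; simp) (Run.cas (o := some c) (by rw [hσ]; rfl)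
      (h0.seq (hb c l List.suffix_rfl))) h2).mono ?_
    simp only [List.length_cons]
    nlinarith

/-- version with an accumulator indexed by the consumed prefix -/
theorem each_run' (r : ρ) (b : Γ → Pg ρ Γ) (T : ℕ) (σ : List Γ → List Γ → ρ → List Γ)
    (hσ : ∀ u l, σ u l r = l) (y : List Γ)
    (hb : ∀ u c l, u ++ c :: l = y → Run (b c) (update (σ u (c :: l)) r l) (σ (u ++ [c]) l) T) :
    Run (each r b) (σ [] y) (σ y []) (y.length * (T + 3) + 1) := by
  have := each_run r b T (fun l => σ (y.take (y.length - l.length)) l) y (fun l => hσ _ _)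
    (fun c l hl => by
      obtain ⟨u, hu⟩ := hl
      have e1 : y.take (y.length - (c :: l).length) = u := by rw [← hu]; simp
      have e2 : y.take (y.length - l.length) = u ++ [c] := by
        have : y = (u ++ [c]) ++ l := by rw [← hu]; simp
        rw [this]; exact List.take_left' (by simp; omega)
      simp only [e1, e2]
      exact hb u c l hu)
  simpa using this

def clear (r : ρ) : Pg ρ Γ := each r fun _ => Pg.skip

theorem clear_run (r : ρ) (s : ρ → List Γ) :
    Run (clear r) s (update s r []) ((s r).length * 4 + 1) := by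
  have := each_run r (fun _ => Pg.skip) 1 (fun l => update s r l) (s r) (fun l => by simp)
    (fun c l _ => by simpa using Run.skip _)
  simpa [clear] using this

/-- Move `r` onto `r'` through a symbol map, reversing it. -/
def moveF (g : Γ → Γ) (r r' : ρ) : Pg ρ Γ := each r fun c => Pg.push r' (g c)

theorem moveF_run (g : Γ → Γ) {r r' : ρ} (h : r ≠ r') (s : ρ → List Γ) :
    Run (moveF g r r') s (update (update s r []) r' (((s r).map g).reverse ++ s r'))
      ((s r).length * 4 + 1) := by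
  have := each_run' r (fun c => Pg.push r' (g c)) 1
    (fun u l => update (update s r l) r' ((u.map g).reverse ++ s r'))
    (fun u l => by simp [update_of_ne h]) (s r) (fun u c l _ => by
      refine (Run.push _ _ _).congr ?_
      funext k
      by_cases h1 : k = r'
      · subst h1; simp [update_of_ne h.symm]
      · by_cases h2 : k = r
        · subst h2; simp [update_of_ne h1]
        · simp [update_of_ne h1, update_of_ne h2])
  simpa [moveF] using this

def move (r r' : ρ) : Pg ρ Γ := moveF id r r'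

theorem move_run {r r' : ρ} (h : r ≠ r') (s : ρ → List Γ) :
    Run (move r r') s (update (update s r []) r' ((s r).reverse ++ s r'))
      ((s r).length * 4 + 1) := by
  simpa [move] using moveF_run id h s

def move2 (r r1 r2 : ρ) : Pg ρ Γ := each r fun c => (Pg.push r1 c).seq (Pg.push r2 c)

theorem move2_run {r r1 r2 : ρ} (h1 : r ≠ r1) (h2 : r ≠ r2) (h12 : r1 ≠ r2) (s : ρ → List Γ) :
    Run (move2 r r1 r2) s
      (update (update (update s r []) r1 ((s r).reverse ++ s r1)) r2 ((s r).reverse ++ s r2))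
      ((s r).length * 5 + 1) := by
  have := each_run' r (fun c => (Pg.push r1 c).seq (Pg.push r2 c)) 2
    (fun u l => update (update (update s r l) r1 (u.reverse ++ s r1)) r2 (u.reverse ++ s r2))
    (fun u l => by simp [update_of_ne h1, update_of_ne h2]) (s r) (fun u c l _ => by
      refine ((Run.push _ _ _).seq (Run.push _ _ _)).congr ?_
      funext k
      by_cases h3 : k = r2
      · subst h3; simp [update_of_ne h2.symm, update_of_ne h12.symm]
      · by_cases h4 : k = r1
        · subst h4; simp [update_of_ne h1.symm, update_of_ne h12]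
        · by_cases h5 : k = r
          · subst h5; simp [update_of_ne h1, update_of_ne h2]
          · simp [update_of_ne h3, update_of_ne h4, update_of_ne h5])
  simpa [move2] using this

end Vale.Agent.P338
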