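import Vale.Agent.P338.LayerOp

/-! One layer of butterflies on `d` fields in a sublinear number of passes.

Plan (M4).  Shape `H × Λ ^ d × Mz ^ d × L`; an index is valid when all field digits are `< Λ0` and
all `Z`-digits `w i` satisfy `w i + 1 < Mz`.  Nothing is claimed about invalid positions.
* `xr i0 D ctl`: for `t < D` xor bit `j` of field `i0 + t` with a control bit `u t` (constant `1`, or
  bit `j` of field `i1 + t` of a disjoint block).  With `Y` = the block of `D` fields read as one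
  number `< Λ ^ D` and `Z` = the lowest `D` digits of the `Z`-part, the index map is the composite
  `Y += Σ u_t 2^j Λ^t` (`lt` if the control is constant or above, `ut` if below);
  `Y += Σ w_t 2^(j+1) Λ^t` (`ut`); `Z += Σ c_t Mz^t` (`lt`, `c_t = u_t ∧ bit j of y_t = 0`);
  `Y -= Σ w_t 2^(j+1) Λ^t` (`ut`); `Z -= Σ c_t Mz^t` (`lt`).  No digit overflows on valid indices
  because `Λ0 + Mz 2^(j+1) ≤ Λ`.  (Array commands pull back, so run the inverse order.)
* recursive command `cC` with arguments `[H, i0, D, d, Λ, Mz, L, j]` computes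
  `Π_{i0 ≤ i < i0 + D} (c0 + c1 X_i)`, `c0 = hh (1 + II)`, `c1 = hh (1 - II)`, `X_i` = flip of bit
  `j` of field `i`.  Naively `O(1)` passes (`v ↦ v ^^^ 2^j` is increasing on each value
  of bit `j`: `dup`, `pm` makes the flipped copy, `gather` with `.bfly` combines) per field, used when `D < m` and for the `D % m` leftover fields.  Otherwise
  `m, W0, l` from `netC` (`W = max W0 1`), `D' = D / m`, wires = lowest digit of `H`
  (`focus (H / W) W rest i 1`, gates `.addh` / `.subh`), `K = Rg b`, `h = hh b`,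
  `V = (ℕ × (ℕ → ℕ) × (ℕ → ℕ) × ℕ) → K` related to arrays on valid indices only,
  `fr A = Π_{t < D'} Φ_t (ξ ↦ II ^ (ξᵀ A ξ))` where `Φ_t f = Σ_ξ f ξ • Π_g hh (1 ± X_{g,t})` is a ring
  homomorphism from functions on `Fin m → Bool` (work in the commutative ring
  `AddMonoidAlgebra K (ℕ → ZMod 2)` or similar, acting on `V`).  Paid move `w wᵀ`: xor block `g0`
  (any `w g0 = 1`) into the other blocks of `w`, recursive call on block `g0`, xor again.
  Free move `2 B`: constant xor on the blocks with odd `B g g`.  `fr 1` is the goal.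
* `wc d = W ^ size d`; passes `t(D) ≤ (W m - 1) / W t(D / m) + c tc(size (Λ ^ D))`, and
  `tc (D s) ≤ C (D + 1)^(1 - δ) (s + 1)`; use `sub_rec`.
* finally multiply by the exact ring element `2 ^ d` (`ldN 1`, `tab … .mul`, `rv_nat`). -/

namespace Vale.Agent.P338

open Function Finset Vale.Agent.PT Vale.Agent.P320

variable {X : Cx} {e : Cmd} {a : Ar}

noncomputable def nm : ℕ := netC.choose

/-- number of wires -/
noncomputable def cW : ℕ := max netC.choose_spec.choose 1
theorem cW_pos : 1 ≤ cW := le_max_right _ _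

lemma nm2 : 2 ≤ nm := netC.choose_spec.choose_spec.1

noncomputable def nl : List (Step cW nm) :=
  (netC.choose_spec.choose_spec.2 cW (le_max_left _ _)).choose

lemma nl_spec : (∀ s ∈ nl, s.ok GenC) ∧ paid nl + 1 ≤ cW * nm ∧
    ∀ (K : Type) [CommRing K] (h : K), 2 * h = 1 →
    ∀ (V : Type) [AddCommGroup V] [Module K V] (fr : Mx nm → Module.End K V),
      fr 0 = 1 → (∀ A B, fr (A + B) = fr A * fr B) →
      ∀ X, runAll h fr nl X = fun i => fr 1 (X i) :=
  (netC.choose_spec.choose_spec.2 cW (le_max_left _ _)).choose_spec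

lemma Sub.scale {f : ℕ → ℕ} (h : Sub f) : ∃ g, Sub g ∧ ∀ D s, f (D * s) ≤ g D * (s + 1) := by
  obtain ⟨-, C, δ, h0, h1, hC⟩ := h
  have hC0 : 0 ≤ C := by simpa using (Nat.cast_nonneg _).trans (hC 0)
  have hp : ∀ e : ℕ, (1 : ℝ) ≤ ((e : ℝ) + 1) ^ (1 - δ) := fun e =>
    Real.one_le_rpow (by simp) (by linarith)
  refine ⟨fun D => ⌈C * ((D : ℝ) + 1) ^ (1 - δ)⌉₊, ⟨fun x y hxy => Nat.ceil_mono ?_, C + 1, δ, h0, h1,
    fun e => ?_⟩, fun D s => ?_⟩
  · gcongr
  · have := Nat.ceil_lt_add_one (mul_nonneg hC0 (zero_le_one.trans (hp e)))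
    have := hp e
    linarith
  · have h2 : (((D * s : ℕ) : ℝ) + 1) ^ (1 - δ) ≤ ((D : ℝ) + 1) ^ (1 - δ) * ((s : ℝ) + 1) := by
      calc (((D * s : ℕ) : ℝ) + 1) ^ (1 - δ) ≤ (((D : ℝ) + 1) * ((s : ℝ) + 1)) ^ (1 - δ) := by
            gcongr
            push_cast; nlinarith [Nat.cast_nonneg (α := ℝ) D, Nat.cast_nonneg (α := ℝ) s]
        _ = ((D : ℝ) + 1) ^ (1 - δ) * ((s : ℝ) + 1) ^ (1 - δ) :=
            Real.mul_rpow (by positivity) (by positivity)
        _ ≤ _ := by
            gcongr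
            exact Real.rpow_le_self_of_one_le (by simp) (by linarith)
    have h3 := Nat.le_ceil (C * ((D : ℝ) + 1) ^ (1 - δ))
    have h4 : (f (D * s) : ℝ) ≤ (⌈C * ((D : ℝ) + 1) ^ (1 - δ)⌉₊ : ℝ) * ((s : ℝ) + 1) :=
      (hC _).trans ((mul_le_mul_of_nonneg_left h2 hC0).trans (by rw [← mul_assoc]; gcongr))
    exact_mod_cast h4

noncomputable def tg : ℕ → ℕ := tc_sub.scale.choose
noncomputable def kC : ℕ := (nl.length + 1) * (20000 * (nm + 1))
noncomputable def cc0 : ℕ → ℕ :=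
  (sub_rec cW_pos nm2 (tc_sub.scale.choose_spec.1.affine kC kC)).choose

lemma cc0_spec : Sub cc0 ∧ (∀ e, kC * tg e + kC ≤ cc0 e) ∧
    ∀ e, 1 ≤ e → (cW * nm - 1) * cc0 (e / nm) + cW * (kC * tg e + kC) ≤ cW * cc0 e :=
  (sub_rec cW_pos nm2 (tc_sub.scale.choose_spec.1.affine kC kC)).choose_spec

noncomputable def cc (d : ℕ) : ℕ := 1 * cc0 d + 3000
theorem cc_sub : Sub cc := cc0_spec.1.affine 1 3000

def ar (z : ℕ) (P : Ly) (H i0 D i1 : ℕ) : Ar := ⟨z, [H, i0, D, P.d, P.Λ, P.Mz, P.L, P.j, i1]⟩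

noncomputable def subA (g g0 : ℕ) (x : Ar) : List ℕ :=
  [x.g 0 / cW, x.g 1 + g * (x.g 2 / nm), x.g 2 / nm, x.g 3, x.g 4, x.g 5, x.g 6, x.g 7,
    x.g 1 + g0 * (x.g 2 / nm)]

noncomputable def nest (g0 : Fin nm) : List (Fin nm) → Cmd
  | [] => .arg (subA g0 g0) .self
  | g :: gs => .seq (.arg (subA g g0) (xr (some (decide (g < g0)))))
      (.seq (nest g0 gs) (.arg (subA g g0) (xr (some (decide (g < g0))))))

noncomputable def freeC (gs : List (Fin nm)) : Cmd :=
  gs.foldr (fun g c => .seq (.arg (subA g g) (xr none)) c) skip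

noncomputable def mvC (A : Mx nm) (p : Bool) : Cmd :=
  cond p (match (List.finRange nm).find? fun g => A g g = 1 with
      | none => skip
      | some g0 => nest g0 ((List.finRange nm).filter fun g => A g g = 1 ∧ g ≠ g0))
    (freeC ((List.finRange nm).filter fun g => Odd (A g g / 2)))

def rst (x : Ar) : ℕ := x.g 4 ^ x.u (x.g 3) * x.g 5 ^ x.u (x.g 3) * x.g 6

noncomputable def stepC : Step cW nm → Cmd
  | .gate i j ng => gate (fun x => x.g 0 / cW) (fun _ => cW) rst (fun _ => i) (fun _ => j)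
      (cond ng .subh .addh)
  | .move i A p => focus (fun x => x.g 0 / cW) (fun _ => cW) rst (fun _ => i) (fun _ => 1) (mvC A p)

noncomputable def netCmd (l : List (Step cW nm)) : Cmd :=
  l.foldr (fun s c => .seq (stepC s) c) skip

noncomputable def bodyC : Cmd :=
  .seq (loopF (fun x => x.g 2 % nm) (.arg (fun x => [x.g 1, x.g 2 + nm * (x.g 3 / nm) + x.g 0, 1,
      x.g 4, x.g 5, x.g 6, x.g 7, x.g 8, 0]) bfC))
    (.ite (fun x => decide (x.g 2 < nm)) skip (netCmd nl))

lemma subA_lb (g g0 : ℕ) : LB (subA g g0) := by unfold subA; fun_prop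

lemma nest_ok (g0 : Fin nm) (gs : List (Fin nm)) : (nest g0 gs).ok := by
  induction gs with
  | nil => exact ⟨subA_lb _ _, trivial⟩
  | cons g gs ih => exact ⟨⟨subA_lb _ _, xr_ok _⟩, ih, subA_lb _ _, xr_ok _⟩

lemma freeC_ok (gs : List (Fin nm)) : (freeC gs).ok := by
  induction gs with
  | nil => trivial
  | cons g gs ih => exact ⟨⟨subA_lb _ _, xr_ok _⟩, ih⟩

lemma mvC_ok (A : Mx nm) (p : Bool) : (mvC A p).ok := by
  cases p
  · exact freeC_ok _
  · simp only [mvC, cond_true]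
    split
    · trivial
    · exact nest_ok _ _

lemma netCmd_ok (l : List (Step cW nm)) : (netCmd l).ok := by
  have h : BT rst := by unfold rst; fun_prop
  induction l with
  | nil => trivial
  | cons s l ih =>
    refine ⟨?_, ih⟩
    cases s with
    | gate i j ng => exact gate_ok (by fun_prop) (BT.const _) h (BT.const _) (BT.const _)
    | move i A p =>
      exact focus_ok (by fun_prop) (BT.const _) h (BT.const _) (BT.const _) (mvC_ok _ _)

lemma bodyC_ok : bodyC.ok :=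
  ⟨loopF_ok (by fun_prop) ⟨by fun_prop, bfC_ok⟩, by fun_prop, trivial, netCmd_ok _⟩

lemma sum_filter_map {α M : Type} [AddCommMonoid M] (p : α → Prop) [DecidablePred p] (f : α → M)
    (l : List α) : ((l.filter fun a => p a).map f).sum = (l.map fun a => if p a then f a else 0).sum := by
  induction l with
  | nil => rfl
  | cons a l ih => by_cases h : p a <;> simp [List.filter_cons, h, ih]

lemma prod_range_mul {M : Type} [CommMonoid M] (f : ℕ → M) (m D : ℕ) :
    ∏ u ∈ range (m * D), f u = ∏ g ∈ range m, ∏ t ∈ range D, f (g * D + t) := by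
  induction m with
  | zero => simp
  | succ m ih => rw [add_mul, one_mul, prod_range_add, ih, prod_range_succ]

section rec
variable {z : ℕ} {P : Ly} {H i0 D i1 T tv : ℕ}

lemma blk_le (g : Fin nm) (D : ℕ) : g * (D / nm) + D / nm ≤ D :=
  ((Nat.succ_mul _ _).symm.le.trans (Nat.mul_le_mul_right _ g.2)).trans (Nat.mul_div_le _ _)

lemma xa_sub (g' : P.good z (H / cW)) (hD : i0 + D ≤ P.d) (g g0 : Fin nm) :
    XA (ar z P (H / cW) (i0 + g * (D / nm)) (D / nm) (i0 + g0 * (D / nm))) P (H / cW)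
      (i0 + g * (D / nm)) (D / nm) (i0 + g0 * (D / nm)) := by
  have h1 := blk_le g D
  have h2 := blk_le g0 D
  exact XA.mk' g' (by omega) ((Nat.add_le_add_left (le_self_add.trans h2) _).trans hD)

/-- the flip masks of the blocks in a list -/
def mk (i0 D' : ℕ) (gs : List (Fin nm)) (t : ℕ) : Msk := (gs.map fun g : Fin nm => ee (i0 + g * D' + t)).sum

lemma blk_ne {g g0 : Fin nm} (h : g ≠ g0) (D' : ℕ) :
    g * D' + D' ≤ g0 * D' ∨ g0 * D' + D' ≤ g * D' := by
  rcases lt_or_gt_of_ne h with h | h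
  · exact Or.inl ((Nat.succ_mul _ _).symm.le.trans (Nat.mul_le_mul_right _ h))
  · exact Or.inr ((Nat.succ_mul _ _).symm.le.trans (Nat.mul_le_mul_right _ h))

lemma mk_zero {g0 : Fin nm} {gs : List (Fin nm)} (h : ∀ g ∈ gs, g ≠ g0) {D' t τ : ℕ} (ht : t < D')
    (hτ : τ < D') : mk i0 D' gs t (i0 + g0 * D' + τ) = 0 := by
  induction gs with
  | nil => rfl
  | cons g gs ih =>
    have := blk_ne (h g (by simp)) D'
    have h1 := ih fun g hg => h g (by simp [hg])
    simp only [mk, List.map_cons, List.sum_cons, Pi.add_apply] at h1 ⊢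
    rw [h1, ee, Pi.single_eq_of_ne (by omega), add_zero]

lemma nest_rz (g' : P.good z (H / cW)) (hD : i0 + D ≤ P.d)
    (hv : tc (P.Λ ^ (D / nm)).size ≤ tv) (g0 : Fin nm)
    (ih : Rz X e .self (ar z P (H / cW) (i0 + g0 * (D / nm)) (D / nm) (i0 + g0 * (D / nm))) P
      (H / cW) (rho _ P.j (CC X.b (i0 + g0 * (D / nm)) (D / nm))) T)
    (gs : List (Fin nm)) (hg : ∀ g ∈ gs, g ≠ g0) :
    Rz X e (nest g0 gs) (ar z P H i0 D i1) P (H / cW)
      (rho _ P.j (∏ t ∈ range (D / nm), Cc X.b (mk i0 (D / nm) (g0 :: gs) t)))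
      (T + 1 + gs.length * (2 * ((3 * tv + 7000) * P.N (H / cW)) + 4)) := by
  induction gs with
  | nil =>
    have := ih.arg (a := ar z P H i0 D i1) (f := subA g0 g0) rfl
      ((xa_sub g' hD g0 g0).hs.mono (Nat.zero_le _))
    simpa [mk, CC, nest] using this
  | cons g gs ih' =>
    have hne := hg g (by simp)
    have hb := blk_ne hne (D / nm)
    have q := xa_sub g' hD g g0
    have h1 := ((q.rz (X := X) (e := e) (some (decide (g < g0)))
      (fun h => by
        have h : g < g0 := by simpa using h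
        have := blk_le g0 D
        have : (g + 1) * (D / nm) ≤ g0 * (D / nm) := Nat.mul_le_mul_right _ h
        rw [add_mul] at this; omega)
      (fun h => by
        have h : g0 < g := lt_of_le_of_ne (by simpa using h) hne.symm
        have : (g0 + 1) * (D / nm) ≤ g * (D / nm) := Nat.mul_le_mul_right _ h
        rw [add_mul] at this; omega)).mono
      (Nat.mul_le_mul_right _ (show _ ≤ 3 * tv + 7000 by omega))).arg
      (a := ar z P H i0 D i1) (f := subA g g0) rfl (q.hs.mono (Nat.zero_le _))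
    have h2 := h1.seq ((ih' fun g hg' => hg g (by simp [hg'])).seq h1)
    rw [conj_prod (xv_xv _ (by omega)) _ _ (mk i0 (D / nm) (g0 :: g :: gs)) fun t ht v => by
      rw [fl_xv _ (by omega)]
      congr 2
      funext u
      have e0 : ∀ τ < D / nm, mk i0 (D / nm) (g0 :: gs) t (i0 + g0 * (D / nm) + τ) =
          ee (i0 + g * (D / nm) + t) (i0 + g * (D / nm) + τ) := fun τ hτ => by
        have := mk_zero (i0 := i0) (fun g hg' => hg g (List.mem_cons_of_mem _ hg')) ht hτ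
        simp only [mk, List.map_cons, List.sum_cons, Pi.add_apply] at this ⊢
        rw [this, add_zero]
        simp [ee, Pi.single_apply]
      have e1 : bz (i0 + g * (D / nm)) (D / nm)
          (fun τ => mk i0 (D / nm) (g0 :: gs) t (i0 + g0 * (D / nm) + τ)) u =
          ee (i0 + g * (D / nm) + t) u := by
        unfold bz
        split_ifs with c
        · beta_reduce; rw [e0 _ (by omega)]; congr 1; omega
        · rw [ee, Pi.single_eq_of_ne (by omega)]
      rw [Pi.add_apply, e1]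
      simp only [mk, List.map_cons, List.sum_cons, Pi.add_apply]
      ring] at h2
    exact h2.mono (by simp only [List.length_cons, add_mul]; omega)

lemma free_rz (g' : P.good z (H / cW)) (hD : i0 + D ≤ P.d)
    (hv : tc (P.Λ ^ (D / nm)).size ≤ tv) (gs : List (Fin nm)) :
    Rz X e (freeC gs) (ar z P H i0 D i1) P (H / cW)
      (rho _ P.j (∏ t ∈ range (D / nm), ch _ (mk i0 (D / nm) gs t)))
      (1 + gs.length * (2 * ((3 * tv + 7000) * P.N (H / cW)) + 4)) := by
  induction gs with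
  | nil => simpa [mk, ch_zero, freeC] using Rz.skip
  | cons g gs ih =>
    have q := xa_sub g' hD g g
    have h1 := ((q.rz (X := X) (e := e) none (by simp) (by simp)).mono
      (Nat.mul_le_mul_right _ (show _ ≤ 3 * tv + 7000 by omega))).arg
      (a := ar z P H i0 D i1) (f := subA g g) rfl (q.hs.mono (Nat.zero_le _))
    have h2 := h1.seq ih
    rw [xv_none, ← rho_ch, ch_sum, ← map_mul, ← prod_mul_distrib] at h2
    have e : ∀ t, ch (Rg X.b) (mk i0 (D / nm) (g :: gs) t) =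
        ch _ (mk i0 (D / nm) gs t) * ch _ (ee (i0 + g * (D / nm) + t)) := fun t => by
      rw [← ch_add, add_comm]; rfl
    simp only [e]
    exact h2.mono (by simp only [List.length_cons, add_mul]; omega)

/-- frames -/
noncomputable def frm (b : ℕ) (hb : 1 ≤ b) (j i0 D' : ℕ) (A : Mx nm) :
    Module.End (Rg b) (Tup → Rg b) :=
  rho _ j (∏ t ∈ range D', frE (two_hh hb) (x := fun g : Fin nm => ch (Rg b) (ee (i0 + g * D' + t)))
    (fun _ => ch_sq _ _) (iu b) A)

lemma prod_ch {b : ℕ} (p : Fin nm → Prop) [DecidablePred p] (D' t : ℕ) :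
    (∏ g, if p g then ch (Rg b) (ee (i0 + g * D' + t)) else 1) =
      ch _ (mk i0 D' ((List.finRange nm).filter fun g => p g) t) := by
  rw [mk, sum_filter_map, ← Fin.sum_univ_def, ch_sum]
  exact prod_congr rfl fun g _ => by split_ifs <;> rfl

lemma mv_rz (hb : 1 ≤ X.b) (g' : P.good z (H / cW)) (hD : i0 + D ≤ P.d)
    (hv : tc (P.Λ ^ (D / nm)).size ≤ tv)
    (ih : ∀ g0 : Fin nm,
      Rz X e .self (ar z P (H / cW) (i0 + g0 * (D / nm)) (D / nm) (i0 + g0 * (D / nm))) P
        (H / cW) (rho _ P.j (CC X.b (i0 + g0 * (D / nm)) (D / nm))) T)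
    {A : Mx nm} {p : Bool} (h : GenC A p) :
    Rz X e (mvC A p) (ar z P H i0 D i1) P (H / cW) (frm X.b hb P.j i0 (D / nm) A)
      (cond p T 0 + 1 + nm * (2 * ((3 * tv + 7000) * P.N (H / cW)) + 4)) := by
  have len : ∀ p : Fin nm → Bool, ((List.finRange nm).filter p).length ≤ nm := fun p =>
    (List.length_filter_le _ _).trans (by simp)
  rcases h with ⟨rfl, w, hw, rfl⟩ | ⟨rfl, B, hB, rfl⟩
  · have e : ∀ g, (Matrix.vecMulVec w w g g = 1) = (w g = 1) := fun g => by
      rcases hw g with h | h <;> simp [Matrix.vecMulVec_apply, h]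
    simp only [frm, frE_paid _ _ (iu_sq _) w hw, prod_ch, mvC, cond_true, e]
    split
    · rename_i hn
      have e2 : ((List.finRange nm).filter fun g => w g = 1) = [] := by
        simpa [List.filter_eq_nil_iff] using hn
      have e3 : algebraMap (Rg X.b) (AddMonoidAlgebra (Rg X.b) Msk) (hh X.b * (1 + ↑(iu X.b))) +
          algebraMap (Rg X.b) (AddMonoidAlgebra (Rg X.b) Msk) (hh X.b * (1 - ↑(iu X.b))) = 1 := by
        rw [← map_add, show hh X.b * (1 + ↑(iu X.b)) + hh X.b * (1 - ↑(iu X.b)) = 1 by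
          linear_combination two_hh hb, map_one]
      simp only [e2, mk, List.map_nil, List.sum_nil, ch_zero, mul_one, e3, prod_const_one, map_one]
      exact Rz.skip.mono (by omega)
    · rename_i g0 hn
      have h0 : w g0 = 1 := by simpa using List.find?_some hn
      have e2 : ∀ t, mk i0 (D / nm) ((List.finRange nm).filter fun g => w g = 1) t =
          mk i0 (D / nm) (g0 :: (List.finRange nm).filter fun g => w g = 1 ∧ g ≠ g0) t := fun t => by
        simp only [mk, List.map_cons, List.sum_cons, sum_filter_map, ← Fin.sum_univ_def]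
        rw [← add_sum_erase _ _ (mem_univ g0), ← add_sum_erase _ _ (mem_univ g0), if_pos h0,
          if_neg (by simp), zero_add]
        congr 1
        exact sum_congr rfl fun g hg => by simp [ne_of_mem_erase hg]
      simp only [e2]
      refine (nest_rz g' hD hv g0 (ih g0) _ fun g hg => ?_).mono ?_
      · simpa using (by simpa using hg : _ ∧ _).2
      · gcongr; exact len _
  · have e : ∀ g, ((2 : ℤ) • B) g g / 2 = B g g := fun g => by simp
    simp only [frm, frE_free _ _ (iu_sq _) B hB, prod_ch, mvC, cond_false, e]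
    refine (free_rz g' hD hv _).mono ?_
    rw [zero_add]; gcongr; exact len _

def RelW (P : Ly) (H' : ℕ) {b : ℕ} (x : ℕ → Rec b) (Xs : Fin cW → Tup → Rg b) : Prop :=
  ∀ i : Fin cW, ∀ t, P.val H' t → rv (x (P.ix (t.1 * cW + i, t.2))) = Xs i t

lemma ix_wire (P : Ly) (W h i : ℕ) (t : (ℕ → ℕ) × (ℕ → ℕ) × ℕ) :
    P.ix (h * W + i, t) = ix W (P.Λ ^ P.d * P.Mz ^ P.d * P.L) h i (P.ix (0, t)) := by
  simp only [Ly.ix, lx, ix]; ring

lemma ix_lo (g : P.good z H) {H' : ℕ} {t : Tup} (ht : P.val H' t) :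
    P.ix (0, t.2) < P.Λ ^ P.d * P.Mz ^ P.d * P.L := by
  have := g.lam
  simpa [Ly.ix] using lx_lt (H := 1) (v := t.2.1) (w := t.2.2.1) (Λ := P.Λ) (Mz := P.Mz) one_pos
    (fun i hi => by have := ht.2.1 i hi; omega)
    (fun i hi => by have := ht.2.2.1 i hi; omega) ht.2.2.2

lemma good_div (g : P.good z H) (hW : cW ∣ H) : P.good z (H / cW) ∧ P.N (H / cW) * cW = P.N H := by
  have e : P.N (H / cW) * cW = P.N H := by
    conv_rhs => rw [← Nat.div_mul_cancel hW]
    simp only [Ly.N]; ring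
  have h1 := g.pos
  have h2 := g.lt
  have h3 : P.N (H / cW) ≤ P.N H := e ▸ Nat.le_mul_of_pos_right _ cW_pos
  exact ⟨⟨g.z50, Nat.pos_of_ne_zero fun h => by rw [h] at e; omega, by omega, g.d1, g.mz, g.dv,
    g.dv', g.lam⟩, e⟩

lemma step_rz (hb : 1 ≤ X.b) (g : P.good z H) (hW : cW ∣ H) (hD : i0 + D ≤ P.d) (h1 : i1 ≤ P.d)
    (hv : tc (P.Λ ^ (D / nm)).size ≤ tv)
    (ih : ∀ g0 : Fin nm,
      Rz X e .self (ar z P (H / cW) (i0 + g0 * (D / nm)) (D / nm) (i0 + g0 * (D / nm))) P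
        (H / cW) (rho _ P.j (CC X.b (i0 + g0 * (D / nm)) (D / nm))) T)
    {s : Step cW nm} (hs : s.ok GenC) (x : ℕ → Rec X.b) (Xs) (hx : RelW P (H / cW) x Xs) :
    ∃ y, Acts X e (stepC s) (ar z P H i0 D i1) (arr (P.N H) x) (arr (P.N H) y)
        (cond s.isPaid T 0 + (nm * (6 * tv + 14004) + 4001) * P.N H) ∧
      RelW P (H / cW) y (s.run (hh X.b) (frm X.b hb P.j i0 (D / nm)) Xs) := by
  obtain ⟨g', eN⟩ := good_div g hW
  have q : XA (ar z P H i0 D i1) P H i0 D i1 := XA.mk' g hD h1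
  have hlt := g.lt
  have hpos := g.pos
  have hs' := q.hs.mono (show 10 ≤ 30 by norm_num)
  have eR : rst (ar z P H i0 D i1) = P.Λ ^ P.d * P.Mz ^ P.d * P.L := by
    rw [rst, q.g3, q.g4, q.g5, q.g6]
  have e1 : (ar z P H i0 D i1).g 0 / cW * cW * rst (ar z P H i0 D i1) = P.N H := by
    rw [eR, q.g0, ← eN, Ly.N]; ring
  have e2 : (ar z P H i0 D i1).g 0 / cW * 1 * rst (ar z P H i0 D i1) = P.N (H / cW) := by
    rw [eR, q.g0, Ly.N]; ring
  have hz : (ar z P H i0 D i1).z = z := rfl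
  cases s with
  | gate i j ng =>
    obtain ⟨y, h2, h3⟩ := gate_acts (X := X) (e := e) (a := ar z P H i0 D i1)
      (H := fun x => x.g 0 / cW) (A := fun _ => cW) (L := rst) (i := fun _ => i)
      (j := fun _ => j) (o := cond ng .subh .addh) hs' (e1 ▸ hpos) (by simp only [e1, hz]; omega)
      j.2 (by cases ng <;> rfl) x
    simp only [e1] at h2
    refine ⟨y, h2.mono (by rw [add_mul]; omega), fun k t ht => ?_⟩
    have h4 := h3 t.1 ht.1 k k.2 _ (eR ▸ ix_lo g ht)
    simp only [eR, ← ix_wire] at h4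
    rw [h4, Step.run]
    by_cases c : k = i
    · subst c
      rw [if_pos rfl, update_self]
      cases ng
      · simp [rv_addh, hx k t ht, hx j t ht]
      · simp [rv_subh, hx k t ht, hx j t ht, sub_eq_add_neg]
    · rw [if_neg fun h => c (Fin.ext h), update_of_ne c, hx k t ht]
  | move i A p =>
    obtain ⟨x', h2, h3⟩ := focus_acts (X := X) (e := e) (a := ar z P H i0 D i1)
      (H := fun x => x.g 0 / cW) (A := fun _ => cW) (L := rst) (B := fun _ => i) (n := fun _ => 1)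
      (c := mvC A p) hs' (e2 ▸ g'.pos) (by simp only [e1, hz]; omega) i.2 x
    have e3 : ∀ t : Tup, P.ix t = ix 1 (P.Λ ^ P.d * P.Mz ^ P.d * P.L) t.1 0 (P.ix (0, t.2)) :=
      fun t => by rw [← ix_wire, mul_one, add_zero]
    obtain ⟨y', h4, h5⟩ := mv_rz (i1 := i1) hb g' hD hv ih hs x' (Xs i) fun t ht => by
      have := h2 t.1 ht.1 0 one_pos _ (eR ▸ ix_lo g ht)
      simp only [eR, add_zero] at this
      rw [e3, this, ← ix_wire, hx i t ht]
    obtain ⟨y, h6, h7⟩ := h3 y' _ (h4.congr (by rw [e2]) (by rw [e2]))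
    simp only [e1] at h6
    refine ⟨y, h6.mono ?_, fun k t ht => ?_⟩
    · have h8 : P.N (H / cW) ≤ P.N H := eN ▸ Nat.le_mul_of_pos_right _ cW_pos
      have h9 : nm * (2 * ((3 * tv + 7000) * P.N (H / cW)) + 4) ≤
          nm * ((6 * tv + 14004) * P.N H) := Nat.mul_le_mul_left _ (by nlinarith)
      simp only [Step.isPaid]
      rw [add_mul (nm * _), mul_assoc nm]; omega
    · have h8 := h7 t.1 ht.1 k k.2 _ (eR ▸ ix_lo g ht)
      simp only [eR] at h8
      rw [ix_wire, h8, Step.run]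
      by_cases c : k = i
      · subst c
        rw [if_pos (by omega), update_self, Nat.sub_self, ← e3, h5 t ht]
      · rw [if_neg fun h => c (Fin.ext (by omega)), update_of_ne c, ← ix_wire, hx k t ht]

lemma net_rz (hb : 1 ≤ X.b) (g : P.good z H) (hW : cW ∣ H) (hD : i0 + D ≤ P.d) (h1 : i1 ≤ P.d)
    (hv : tc (P.Λ ^ (D / nm)).size ≤ tv)
    (ih : ∀ g0 : Fin nm,
      Rz X e .self (ar z P (H / cW) (i0 + g0 * (D / nm)) (D / nm) (i0 + g0 * (D / nm))) P
        (H / cW) (rho _ P.j (CC X.b (i0 + g0 * (D / nm)) (D / nm))) T)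
    (l : List (Step cW nm)) (hl : ∀ s ∈ l, s.ok GenC) : ∀ (x : ℕ → Rec X.b) (Xs),
    RelW P (H / cW) x Xs → ∃ y, Acts X e (netCmd l) (ar z P H i0 D i1) (arr (P.N H) x)
        (arr (P.N H) y)
        (paid l * T + l.length * ((nm * (6 * tv + 14004) + 4001) * P.N H + 1) + 1) ∧
      RelW P (H / cW) y (runAll (hh X.b) (frm X.b hb P.j i0 (D / nm)) l Xs) := by
  induction l with
  | nil => exact fun x Xs hx => ⟨x, (Acts.skip _).mono (by simp), hx⟩
  | cons s l ih' =>
    intro x Xs hx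
    obtain ⟨y, h2, h3⟩ := step_rz hb g hW hD h1 hv ih (hl s (by simp)) x Xs hx
    obtain ⟨y', h4, h5⟩ := ih' (fun s hs => hl s (by simp [hs])) y _ h3
    refine ⟨y', (h2.seq h4).mono ?_, h5⟩
    simp only [paid, List.countP_cons, List.length_cons, add_mul]
    cases s.isPaid <;> simp <;> omega

lemma net_goal (hb : 1 ≤ X.b) (g : P.good z H) (hW : cW ∣ H) (hD : i0 + D ≤ P.d) (h1 : i1 ≤ P.d)
    (hv : tc (P.Λ ^ (D / nm)).size ≤ tv)
    (ih : ∀ g0 : Fin nm,
      Rz X e .self (ar z P (H / cW) (i0 + g0 * (D / nm)) (D / nm) (i0 + g0 * (D / nm))) P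
        (H / cW) (rho _ P.j (CC X.b (i0 + g0 * (D / nm)) (D / nm))) T) :
    Rz X e (netCmd nl) (ar z P H i0 D i1) P H (rho _ P.j (CC X.b i0 (nm * (D / nm))))
      (paid nl * T + nl.length * ((nm * (6 * tv + 14004) + 4001) * P.N H + 1) + 1) :=
  fun x F hx => by
    have hW0 := cW_pos
    obtain ⟨y, h2, h3⟩ := net_rz hb g hW hD h1 hv ih nl nl_spec.1 x
      (fun i t => F (t.1 * cW + i, t.2)) fun i t ht => hx _ ⟨by
        have := lo_lt ht.1 i.2
        rwa [Nat.div_mul_cancel hW] at this, ht.2⟩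
    refine ⟨y, h2, fun t ht => ?_⟩
    rw [nl_spec.2.2 _ _ (two_hh hb) _ _ (by simp [frm, frE_zero])
      (fun A B => by simp only [frm, frE_add, prod_mul_distrib, map_mul])] at h3
    have h4 := h3 ⟨t.1 % cW, Nat.mod_lt _ hW0⟩ (t.1 / cW, t.2)
      ⟨Nat.div_lt_div_of_lt_of_dvd hW ht.1, ht.2⟩
    simp only [Nat.div_add_mod'] at h4
    rw [h4]
    have e : frm X.b hb P.j i0 (D / nm) 1 = rho _ P.j (CC X.b i0 (nm * (D / nm))) := by
      simp only [frm, frE_one _ _ (iu_sq _)]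
      rw [CC, prod_range_mul, prod_comm, ← Fin.prod_univ_eq_prod_range
        (fun g => ∏ t ∈ range (D / nm), Cc X.b (ee (i0 + (g * (D / nm) + t))))]
      simp only [← add_assoc]; rfl
    rw [e]
    have key : ∀ (A : AddMonoidAlgebra (Rg X.b) Msk) (c : ℕ) (t : Tup),
        rho _ P.j A (fun t => F (t.1 * cW + c, t.2)) t = rho _ P.j A F (t.1 * cW + c, t.2) := by
      intro A c t
      induction A using AddMonoidAlgebra.induction_linear with
      | zero => simp
      | add A B hA hB => simp only [map_add, LinearMap.add_apply, Pi.add_apply, hA, hB]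
      | single S r => simp only [rho, AddMonoidAlgebra.lift_single]; rfl
    rw [key, Nat.div_add_mod']

lemma left_rz (g : P.good z H) (hD : i0 + D ≤ P.d) (h1 : i1 ≤ P.d) :
    Rz X e (loopF (fun x => x.g 2 % nm) (.arg (fun x => [x.g 1, x.g 2 + nm * (x.g 3 / nm) + x.g 0,
      1, x.g 4, x.g 5, x.g 6, x.g 7, x.g 8, 0]) bfC)) (ar z P H i0 D i1) P H
      (rho _ P.j (CC X.b (i0 + nm * (D / nm)) (D % nm))) (nm * (3020 * P.N H)) := fun x F hx => by
  have q : XA (ar z P H i0 D i1) P H i0 D i1 := XA.mk' g hD h1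
  have h2 := Nat.div_add_mod D nm
  have h3 : D % nm < nm := Nat.mod_lt _ (by have := nm2; omega)
  have hpos := g.pos
  obtain ⟨ys, h4, y, rfl, h5⟩ := loopF_acts (X := X) (e := e) (a := ar z P H i0 D i1)
    (n := fun x => x.g 2 % nm) (c := .arg (fun x => [x.g 1, x.g 2 + nm * (x.g 3 / nm) + x.g 0,
      1, x.g 4, x.g 5, x.g 6, x.g 7, x.g 8, 0]) bfC) (q.hs.mono (by norm_num))
    (show D % nm < 2 ^ z by have := g.dN; have := g.Nz; omega)
    (fun i xs => ∃ y, xs = arr (P.N H) y ∧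
      Rel P H y (rho _ P.j (CC X.b (i0 + nm * (D / nm)) i) F)) (fun _ => 3000 * P.N H + 1)
    (fun e' i hi xs ⟨y, hy, hr⟩ => by
      replace hi : i < D % nm := hi
      have q' : XA (ar z P H (i0 + nm * (D / nm) + i) 1 0) P H (i0 + nm * (D / nm) + i) 1 0 :=
        XA.mk' g (by omega) (Nat.zero_le _)
      obtain ⟨y', h6, h7⟩ := q'.bf (e := e') y _ hr
      refine ⟨_, hy ▸ h6.arg rfl (q'.hs.mono (Nat.zero_le _)), y', rfl, ?_⟩
      rwa [CC, prod_range_succ, mul_comm (∏ _ ∈ _, _), map_mul, ← CC])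
    (arr (P.N H) x) ⟨x, rfl, by simpa [CC] using hx⟩
  refine ⟨y, h4.mono ?_, h5⟩
  change ∑ _i ∈ range (D % nm), _ + 11 * (D % nm + 1) ≤ _
  rw [sum_const, card_range, smul_eq_mul]
  nlinarith

lemma size_pow_le {Λ D : ℕ} (hD : 1 ≤ D) : (Λ ^ D).size ≤ D * Λ.size := by
  rw [Nat.size_le, mul_comm, pow_mul]
  exact Nat.pow_lt_pow_left (Nat.lt_size_self _) (by omega)

lemma size_div {m D : ℕ} (hm : 2 ≤ m) (hD1 : 1 ≤ D / m) : (D / m).size + 1 ≤ D.size := by
  rw [Nat.succ_le_iff, Nat.lt_size]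
  have h2 : 0 < (D / m).size := Nat.size_pos.2 hD1
  have h3 : 2 ^ ((D / m).size - 1) ≤ D / m := Nat.lt_size.1 (by omega)
  have h4 := Nat.mul_div_le D m
  rw [show (D / m).size = (D / m).size - 1 + 1 by omega, pow_succ]
  nlinarith

lemma cost_base {m n c t S N : ℕ} (hS : 1 ≤ S) (hN : 0 < N)
    (h : (n + 1) * (20000 * (m + 1)) * t + (n + 1) * (20000 * (m + 1)) ≤ c) :
    m * (3020 * N) + (1 + 1) + 1 ≤ c * S * N := by
  have h1 : 20000 * (m + 1) ≤ c * S :=
    ((Nat.le_mul_of_pos_left _ (Nat.succ_pos n)).trans (le_add_self.trans h)).trans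
      (Nat.le_mul_of_pos_right _ hS)
  nlinarith [Nat.mul_le_mul_right N h1]

lemma cost_step {m n p W c c' t S N N' : ℕ} (hS : 1 ≤ S) (hN : 0 < N) (eN : N' * W = N)
    (h : (W * m - 1) * c' + W * ((n + 1) * (20000 * (m + 1)) * t + (n + 1) * (20000 * (m + 1))) ≤
      W * c) (hp : p + 1 ≤ W * m) (hp' : p ≤ n) :
    m * (3020 * N) + (p * (c' * S * N' + 1) + n * ((m * (6 * (t * S) + 14004) + 4001) * N + 1) +
      1 + 1) + 1 ≤ c * S * N := by
  have r4 : p * (c' * S * N') + ((n + 1) * (20000 * (m + 1)) * t + (n + 1) * (20000 * (m + 1))) *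
      S * N ≤ c * S * N := by
    have := Nat.mul_le_mul_right (S * N')
      ((Nat.add_le_add_right (Nat.mul_le_mul_right c' (show p ≤ W * m - 1 by omega)) _).trans h)
    rw [← eN]; nlinarith
  have r5 : (m * (6 * (t * S) + 14004) + 4001) * N + 2 ≤ 20000 * (m + 1) * ((t + 1) * S * N) := by
    have : m * (6 * (t * S) + 14004) + 4003 ≤ 20000 * (m + 1) * ((t + 1) * S) := by
      nlinarith [Nat.zero_le (m * (t * S)), Nat.zero_le (t * S), Nat.mul_le_mul_left m hS]
    nlinarith [Nat.mul_le_mul_right N this]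
  have r6 : m * (3020 * N) + 3 ≤ 20000 * (m + 1) * ((t + 1) * S * N) := by
    have : N ≤ (t + 1) * S * N := Nat.le_mul_of_pos_left _ (by positivity)
    nlinarith [Nat.mul_le_mul_left m this]
  have r7 := Nat.mul_le_mul_left n r5
  nlinarith

theorem body_rz (hb : 1 ≤ X.b) (D : ℕ) : ∀ {H i0 i1 : ℕ}, P.good z H → i0 + D ≤ P.d → i1 ≤ P.d →
    cW ^ D.size ∣ H → Rz X bodyC bodyC (ar z P H i0 D i1) P H (rho _ P.j (CC X.b i0 D))
      (cc0 D * (P.Λ.size + 1) * P.N H) := by
  induction D using Nat.strong_induction_on with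
  | _ D ih =>
  intro H i0 i1 g hD h1 hW
  have hm := nm2
  have hpos := g.pos
  have hL := left_rz (X := X) (e := bodyC) g hD h1
  have eC : CC X.b i0 D = CC X.b i0 (nm * (D / nm)) * CC X.b (i0 + nm * (D / nm)) (D % nm) := by
    conv_lhs => rw [← Nat.div_add_mod D nm]
    simp only [CC, prod_range_add, add_assoc]
  obtain ⟨S, hS⟩ : ∃ S, S = P.Λ.size + 1 := ⟨_, rfl⟩
  have hS1 : 1 ≤ S := by omega
  rw [← hS]
  by_cases c : D < nm
  · intro x F hx
    obtain ⟨y, h2, h3⟩ := hL x F hx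
    refine ⟨y, (h2.seq ((Acts.skip _).ite_pos (by simpa [ar] using c))).mono ?_, ?_⟩
    · exact cost_base hS1 hpos (cc0_spec.2.1 D)
    · rwa [Nat.div_eq_of_lt c, Nat.mod_eq_of_lt c, mul_zero, add_zero] at h3
  · have hD1 : 1 ≤ D / nm := Nat.div_pos (by omega) (by omega)
    have hlt : D / nm < D := Nat.div_lt_self (by omega) (by omega)
    have hsz := size_div hm hD1
    have hW1 : cW ^ (D / nm).size * cW ∣ H := (pow_succ cW _ ▸ pow_dvd_pow _ hsz).trans hW
    have hW2 : cW ∣ H := (Dvd.intro_left _ rfl).trans hW1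
    obtain ⟨g', eN⟩ := good_div g hW2
    have hv : tc (P.Λ ^ (D / nm)).size ≤ tg D * S := hS ▸
      (tc_sub.1 ((size_pow_le hD1).trans (Nat.mul_le_mul_right _ hlt.le))).trans
        (tc_sub.scale.choose_spec.2 D _)
    have hN := net_goal (X := X) (e := bodyC) (i1 := i1)
      (T := cc0 (D / nm) * S * P.N (H / cW) + 1) hb g hW2 hD h1 hv fun g0 x F hx => by
        have := blk_le g0 D
        obtain ⟨y, h2, h3⟩ := ih _ hlt (i0 := i0 + g0 * (D / nm)) (i1 := i0 + g0 * (D / nm)) g'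
          (by omega) ((Nat.add_le_add_left (le_self_add.trans this) _).trans hD)
          ((Nat.dvd_div_iff_mul_dvd hW2).2 (mul_comm _ cW ▸ hW1)) x F hx
        exact ⟨y, hS ▸ h2.self, h3⟩
    intro x F hx
    obtain ⟨y, h2, h3⟩ := hL x F hx
    obtain ⟨y', h4, h5⟩ := hN y _ h3
    refine ⟨y', (h2.seq (h4.ite_neg (by simpa [ar] using c))).mono ?_, by rwa [eC, map_mul]⟩
    exact cost_step hS1 hpos eN (cc0_spec.2.2 D (by omega)) nl_spec.2.1 List.countP_le_length

end rec

lemma cc_allL {b : ℕ} (hb : 1 ≤ b) (j d : ℕ) (F : Tup → Rg b) (h : ℕ) (w : ℕ → ℕ) (l : ℕ) :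
    ∀ v, rho _ j (CC b 0 d) F (h, v, w, l) * 2 ^ d =
      allL (fun _ => bOp (II b) j) d (fun v' => F (h, v', w, l)) v := by
  induction d with
  | zero => intro v; simp [CC, allL]
  | succ d ih =>
    intro v
    have e2 : fl j (ee d) v = update v d (v d ^^^ 2 ^ j) := by
      funext t
      by_cases c : t = d
      · subst c; simp [fl, ee, ZMod.val_one]
      · simp [fl, ee, c]
    rw [CC, prod_range_succ, mul_comm (∏ _ ∈ _, _), map_mul, ← CC, rho_Cc, zero_add, allL, lift, bOp,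
      update_eq_self, ← ih, ← ih, ← e2]
    simp only [Module.End.mul_apply, LinearMap.add_apply, LinearMap.smul_apply,
      Module.End.one_apply, Pi.add_apply, Pi.smul_apply, smul_eq_mul, pull,
      LinearMap.funLeft_apply]
    linear_combination ((1 + II b) * rho _ j (CC b 0 d) F (h, v, w, l) * 2 ^ d +
      (1 - II b) * rho _ j (CC b 0 d) F (h, fl j (ee d) v, w, l) * 2 ^ d) * two_hh hb

noncomputable def layer (H d Λ Mz L j : Ar → ℕ) : Cmd :=
  .seq (.arg (fun x => [H x, 0, d x, d x, Λ x, Mz x, L x, j x, 0]) (.fix bodyC))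
    (.seq (ldN (fun _ => 1) (fun _ y => 2 ^ y.1.u (d y.1)) fun _ _ => 0)
      (tab (fun _ => 1) (fun _ => 1) (fun x => H x * Λ x ^ x.u (d x) * Mz x ^ x.u (d x) * L x) .mul))

theorem layer_ok {H d Λ Mz L j} (h1 : BT H) (h2 : BT d) (h3 : BT Λ) (h4 : BT Mz) (h5 : BT L)
    (h6 : BT j) : (layer H d Λ Mz L j).ok :=
  ⟨⟨by fun_prop, bodyC_ok⟩, ldN_ok (BT.const _) (by fun_prop) (BT.const _),
    tab_ok (BT.const _) (BT.const _) (by fun_prop)⟩

theorem layer_acts {H d Λ Mz L j : Ar → ℕ} (Λ0 : ℕ) (hs : Sm 50 a) (hb : d a < X.b)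
    (h0 : 0 < H a * Λ a ^ d a * Mz a ^ d a * L a)
    (hn : 1000 * (H a * Λ a ^ d a * Mz a ^ d a * L a) < 2 ^ a.z) (hd : 1 ≤ d a)
    (hW : cW ^ (d a).size ∣ H a) (hM : 2 ≤ Mz a) (hj : 2 ^ (j a + 1) ∣ Λ0)
    (hj' : 2 ^ (j a + 1) ∣ Λ a)
    (hΛ : Λ0 + Mz a * 2 ^ (j a + 1) ≤ Λ a) (x : ℕ → Rec X.b) :
    ∃ y, Acts X e (layer H d Λ Mz L j) a (arr (H a * Λ a ^ d a * Mz a ^ d a * L a) x)
        (arr (H a * Λ a ^ d a * Mz a ^ d a * L a) y)
        ((cc (d a) * ((Λ a).size + 1) + 2 * X.μ) * (H a * Λ a ^ d a * Mz a ^ d a * L a) +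
          2 * X.σ) ∧
      ∀ h < H a, ∀ w : ℕ → ℕ, (∀ i < d a, w i + 1 < Mz a) → ∀ l < L a,
        ∀ v : ℕ → ℕ, (∀ i < d a, v i < Λ0) →
          rv (y (lx (d a) (Λ a) (Mz a) (L a) h v w l)) =
            allL (fun _ => bOp (II X.b) (j a)) (d a)
              (fun v' => rv (x (lx (d a) (Λ a) (Mz a) (L a) h v' w l))) v := by
  obtain ⟨P, hP⟩ : ∃ P : Ly, P = ⟨d a, Λ a, Mz a, L a, j a, Λ0⟩ := ⟨_, rfl⟩
  have g : P.good a.z (H a) := by
    subst hP
    exact ⟨le_add_self.trans hs.1, h0, hn, hd, hM, hj, hj', hΛ⟩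
  have eN : H a * Λ a ^ d a * Mz a ^ d a * L a = P.N (H a) := by rw [hP]; rfl
  have ed : P.d = d a := by rw [hP]
  have hu : a.u (d a) = d a := a.u_eq (ed ▸ g.dz)
  have hs' := hs.mono (show 10 ≤ 50 by norm_num)
  have hb1 : 1 ≤ X.b := by omega
  obtain ⟨y, h1, h2⟩ := body_rz (X := X) hb1 (d a) (i0 := 0) (i1 := 0) g (by omega)
    (Nat.zero_le _) hW x (fun t => rv (x (P.ix t))) fun _ _ => rfl
  have h3 := ldN_acts (X := X) (e := e) (a := a) (n := fun _ => 1)
    (f := fun _ y => 2 ^ y.1.u (d y.1)) (g := fun _ _ => 0) hs' (by omega)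
  obtain ⟨y', h4, h5⟩ := tab_acts (X := X) (e := e) (a := a) (H := fun _ => 1) (A := fun _ => 1)
    (L := fun x => H x * Λ x ^ x.u (d x) * Mz x ^ x.u (d x) * L x) (o := .mul) hs'
    (by simpa only [hu, one_mul] using h0) (by simp only [hu, one_mul]; omega) y
    fun _ => (Wd.ofNat X.b (2 ^ a.u (d a)), Wd.ofNat X.b 0)
  simp only [hu, one_mul, eN] at h3 h4 h5
  have q : XA (ar a.z P (H a) 0 (d a) 0) P (H a) 0 (d a) 0 := XA.mk' g (by omega) (Nat.zero_le _)
  have h6 := (h1.fix (e := e)).arg (a := a)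
    (f := fun x => [H x, 0, d x, d x, Λ x, Mz x, L x, j x, 0]) (by rw [hP]; rfl)
    (q.hs.mono (Nat.zero_le _))
  rw [eN] at h0 ⊢
  refine ⟨y', (h6.seq ((h3.frame _).seq h4)).mono ?_, fun h hh w hw l hl v hv => ?_⟩
  · have e1 : P.Λ = Λ a := by rw [hP]
    rw [e1, cc]
    nlinarith [Nat.zero_le ((Λ a).size * P.N (H a))]
  · have ht : P.val (H a) (h, v, w, l) := by rw [hP]; exact ⟨hh, hv, hw, hl⟩
    have e1 : ∀ v, lx (d a) (Λ a) (Mz a) (L a) h v w l = P.ix (h, v, w, l) := fun v => by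
      rw [hP]; rfl
    have e2 : P.j = j a := by rw [hP]
    have h7 := h5 0 one_pos 0 one_pos (P.ix (h, v, w, l)) (by
      rw [← e1, ← eN]
      exact lx_lt hh (fun t ht => by have := hv t ht; omega)
        (fun t ht => by have := hw t ht; omega) hl)
    simp only [ix, zero_mul, zero_add] at h7
    simp only [e1]
    rw [h7, rv_mul, h2 _ ht, rv_nat _ (Nat.pow_lt_pow_right (by norm_num) (by omega)), e2,
      Nat.cast_pow, Nat.cast_ofNat, cc_allL hb1]


end Vale.Agent.P338
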