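import Vale.Agent.P338.NetDefs

/-! Frames for the butterfly network. -/

namespace Vale.Agent.P338

open Function Finset Matrix

section idem
variable {K 𝔄 : Type} [CommRing K] [CommRing 𝔄] [Algebra K 𝔄] {m : ℕ}

def sg (K : Type) [CommRing K] (b : Bool) : K := cond b (-1) 1

def ide (h : K) (x : Fin m → 𝔄) (ξ : Fin m → Bool) : 𝔄 :=
  ∏ g, algebraMap K 𝔄 h * (1 + sg 𝔄 (ξ g) * x g)

variable {h : K} {x : Fin m → 𝔄}

lemma ide_mul_x (hx : ∀ g, x g * x g = 1) (ξ : Fin m → Bool) (g : Fin m) :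
    ide h x ξ * x g = sg 𝔄 (ξ g) * ide h x ξ := by
  rw [ide, ← mul_prod_erase _ _ (mem_univ g)]
  have : (1 + sg 𝔄 (ξ g) * x g) * x g = sg 𝔄 (ξ g) * (1 + sg 𝔄 (ξ g) * x g) := by
    cases ξ g <;> simp only [sg, cond_true, cond_false]
    · linear_combination hx g
    · linear_combination -hx g
  linear_combination (algebraMap K 𝔄 h * ∏ i ∈ univ.erase g,
    algebraMap K 𝔄 h * (1 + sg 𝔄 (ξ i) * x i)) * this

lemma two_h (hh : 2 * h = 1) : 2 * algebraMap K 𝔄 h = 1 := by
  rw [← map_one (algebraMap K 𝔄), ← hh, map_mul, map_ofNat]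

lemma sum_ide (hh : 2 * h = 1) : ∑ ξ, ide h x ξ = 1 := by
  have := Finset.prod_univ_sum (fun _ : Fin m => (univ : Finset Bool))
    fun g b => algebraMap K 𝔄 h * (1 + sg 𝔄 b * x g)
  rw [Fintype.piFinset_univ] at this
  simp only [ide]
  rw [← this]
  refine prod_eq_one fun g _ => ?_
  simp only [Fintype.univ_bool, mem_singleton, Bool.true_eq_false, not_false_eq_true, sum_insert,
    sum_singleton, sg, cond_true, cond_false]
  linear_combination two_h (𝔄 := 𝔄) hh

lemma ide_mul (hh : 2 * h = 1) (hx : ∀ g, x g * x g = 1) (ξ η : Fin m → Bool) :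
    ide h x ξ * ide h x η = if ξ = η then ide h x ξ else 0 := by
  have h2 := two_h (𝔄 := 𝔄) hh
  rw [ide, ide, ← prod_mul_distrib]
  split_ifs with e
  · subst e
    refine prod_congr rfl fun g _ => ?_
    cases ξ g <;> simp only [sg, cond_true, cond_false]
    · linear_combination (algebraMap K 𝔄 h) ^ 2 * hx g + algebraMap K 𝔄 h * (1 + x g) * h2
    · linear_combination (algebraMap K 𝔄 h) ^ 2 * hx g + algebraMap K 𝔄 h * (1 - x g) * h2
  · obtain ⟨g, hg⟩ := Function.ne_iff.1 e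
    refine prod_eq_zero (mem_univ g) ?_
    revert hg
    cases ξ g <;> cases η g <;> simp only [sg, cond_true, cond_false, ne_eq, not_true_eq_false,
      false_imp_iff] <;> intro _ <;> linear_combination (-(algebraMap K 𝔄 h) ^ 2) * hx g

/-- functional calculus for commuting involutions -/
def Phi (hh : 2 * h = 1) (hx : ∀ g, x g * x g = 1) : ((Fin m → Bool) → K) →+* 𝔄 where
  toFun f := ∑ ξ, algebraMap K 𝔄 (f ξ) * ide h x ξ
  map_one' := by simpa using sum_ide hh
  map_zero' := by simp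
  map_add' f g := by simp [add_mul, sum_add_distrib]
  map_mul' f g := by
    rw [sum_mul_sum]
    refine sum_congr rfl fun ξ _ => ?_
    rw [sum_eq_single ξ (fun η _ e => by
      rw [mul_mul_mul_comm, ide_mul hh hx, if_neg (Ne.symm e), mul_zero]) (by simp),
      mul_mul_mul_comm, ide_mul hh hx, if_pos rfl, Pi.mul_apply, map_mul]

lemma Phi_const (hh : 2 * h = 1) (hx : ∀ g, x g * x g = 1) (c : K) :
    Phi hh hx (fun _ => c) = algebraMap K 𝔄 c := by
  change ∑ ξ, algebraMap K 𝔄 c * ide h x ξ = _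
  rw [← mul_sum, sum_ide hh, mul_one]

lemma Phi_sg (hh : 2 * h = 1) (hx : ∀ g, x g * x g = 1) (g : Fin m) :
    Phi hh hx (fun ξ => sg K (ξ g)) = x g := by
  change ∑ ξ, algebraMap K 𝔄 (sg K (ξ g)) * ide h x ξ = _
  rw [← one_mul (x g), ← sum_ide (x := x) hh, sum_mul]
  refine sum_congr rfl fun ξ _ => ?_
  rw [ide_mul_x hx]
  cases ξ g <;> simp [sg]

/-- the quadratic form of an integer matrix on `0/1` vectors -/
def qf (A : Mx m) (ξ : Fin m → Bool) : ℤ := ∑ g, ∑ g', A g g' * ((ξ g).toNat * (ξ g').toNat)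

lemma qf_add (A B : Mx m) (ξ) : qf (A + B) ξ = qf A ξ + qf B ξ := by
  simp [qf, add_mul, sum_add_distrib]

variable {ι : Kˣ}

lemma zpow_sq (hh : 2 * h = 1) (hι : ι * ι = -1) (n : ℕ) :
    ((ι ^ ((n : ℤ) * n) : Kˣ) : K) = h * (1 + ι) + h * (1 - ι) * (-1) ^ n := by
  have h4 : ι ^ 4 = 1 := by
    rw [show ι ^ 4 = (ι * ι) * (ι * ι) by simp only [pow_succ, pow_zero, one_mul, mul_assoc], hι]
    simp
  rw [← Nat.cast_mul, _root_.zpow_natCast]
  obtain ⟨k, rfl | rfl⟩ := Nat.even_or_odd' n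
  · rw [show 2 * k * (2 * k) = 4 * (k * k) by ring, pow_mul, h4, (even_two_mul k).neg_one_pow]
    simp only [one_pow, Units.val_one]
    linear_combination -hh
  · rw [show (2 * k + 1) * (2 * k + 1) = 4 * (k * k + k) + 1 by ring, pow_succ, pow_mul, h4,
      pow_succ (-1 : K), (even_two_mul k).neg_one_pow]
    simp only [one_pow, one_mul]
    linear_combination (-(ι : K)) * hh

lemma even_sym {α : Type} [DecidableEq α] (f : α → α → ℤ) (hf : ∀ a b, f a b = f b a)
    (s : Finset α) : Even (∑ a ∈ s, ∑ b ∈ s, f a b - ∑ a ∈ s, f a a) := by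
  induction s using Finset.induction_on with
  | empty => simp
  | insert a s ha ih =>
    obtain ⟨k, hk⟩ := ih
    refine ⟨k + ∑ b ∈ s, f a b, ?_⟩
    simp only [sum_insert ha, sum_add_distrib]
    rw [sum_congr rfl fun b _ => hf b a]
    linarith

/-- frame attached to an integer matrix -/
def frE (hh : 2 * h = 1) (hx : ∀ g, x g * x g = 1) (ι : Kˣ) (A : Mx m) : 𝔄 :=
  Phi hh hx fun ξ => ((ι ^ qf A ξ : Kˣ) : K)

variable (hh : 2 * h = 1) (hx : ∀ g, x g * x g = 1)

lemma frE_zero : frE hh hx ι 0 = 1 := by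
  rw [frE, ← map_one (Phi hh hx)]; congr 1; funext ξ; simp [qf]

lemma frE_add (A B : Mx m) : frE hh hx ι (A + B) = frE hh hx ι A * frE hh hx ι B := by
  rw [frE, frE, frE, ← map_mul]; congr 1; funext ξ; simp [qf_add, _root_.zpow_add]

lemma Phi_prod (p : Fin m → Prop) [DecidablePred p] :
    Phi hh hx (fun ξ => (-1) ^ ∑ g, if p g then (ξ g).toNat else 0) =
      ∏ g, if p g then x g else 1 := by
  have : ∀ g, (if p g then x g else 1) =
      Phi hh hx fun ξ => (-1) ^ if p g then (ξ g).toNat else 0 := fun g => by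
    split_ifs
    · rw [← Phi_sg hh hx]; congr 1; funext ξ; cases ξ g <;> simp [sg]
    · simp only [pow_zero]; exact (map_one _).symm
  simp only [this]
  rw [← map_prod]; congr 1; funext ξ
  rw [Finset.prod_apply, prod_pow_eq_pow_sum]

lemma frE_paid (hι : ι * ι = -1) (w : Fin m → ℤ) (hw : ∀ i, w i = 0 ∨ w i = 1) :
    frE hh hx ι (vecMulVec w w) = algebraMap K 𝔄 (h * (1 + ι)) +
      algebraMap K 𝔄 (h * (1 - ι)) * ∏ g, if w g = 1 then x g else 1 := by
  rw [← Phi_prod hh hx, ← Phi_const hh hx, ← Phi_const hh hx, ← map_mul, ← map_add, frE]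
  congr 1; funext ξ
  have e : ∀ g, w g * (ξ g).toNat = ((if w g = 1 then (ξ g).toNat else 0 : ℕ) : ℤ) := fun g => by
    rcases hw g with e | e <;> simp [e]
  have : qf (vecMulVec w w) ξ = ((∑ g, if w g = 1 then (ξ g).toNat else 0 : ℕ) : ℤ) *
      (∑ g, if w g = 1 then (ξ g).toNat else 0 : ℕ) := by
    rw [Nat.cast_sum, sum_mul_sum, qf]
    refine sum_congr rfl fun g _ => sum_congr rfl fun g' _ => ?_
    rw [← e, ← e, vecMulVec_apply]; ring
  rw [this, zpow_sq hh hι]; rfl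

lemma frE_free (hι : ι * ι = -1) (B : Mx m) (hB : B.IsSymm) :
    frE hh hx ι ((2 : ℤ) • B) = ∏ g, if Odd (B g g) then x g else 1 := by
  rw [← Phi_prod hh hx, frE]
  congr 1; funext ξ
  have e1 : qf ((2 : ℤ) • B) ξ = 2 * qf B ξ := by simp [qf, mul_sum, mul_assoc]
  have e2 := even_sym (fun g g' => B g g' * ((ξ g).toNat * (ξ g').toNat))
    (fun a b => by rw [← hB.apply a b]; ring) univ
  have e3 : Even (∑ g, B g g * ((ξ g).toNat * (ξ g).toNat) -
      ((∑ g, if Odd (B g g) then (ξ g).toNat else 0 : ℕ) : ℤ)) := by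
    rw [Nat.cast_sum, ← sum_sub_distrib]
    refine even_sum _ fun g _ => ?_
    cases ξ g
    · simp
    · split_ifs with o
      · simpa using o.sub_odd odd_one
      · simpa using o
  obtain ⟨k, hk⟩ := e2.add e3
  have e4 : qf B ξ = 2 * k + (∑ g, if Odd (B g g) then (ξ g).toNat else 0 : ℕ) := by
    rw [qf]; linarith
  rw [e1, _root_.zpow_mul, _root_.zpow_two, hι, e4, _root_.zpow_add, _root_.zpow_mul, _root_.zpow_natCast]
  simp [_root_.zpow_two]

lemma frE_one (hι : ι * ι = -1) : frE hh hx ι 1 =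
    ∏ g, (algebraMap K 𝔄 (h * (1 + ι)) + algebraMap K 𝔄 (h * (1 - ι)) * x g) := by
  simp only [← Phi_sg hh hx, ← Phi_const hh hx, ← map_mul, ← map_add]
  rw [← map_prod, frE]
  congr 1; funext ξ
  have e : qf (1 : Mx m) ξ = ∑ g, ((ξ g).toNat : ℤ) * (ξ g).toNat := by simp [qf, one_apply]
  have e2 : ∀ s : Finset (Fin m), ι ^ (∑ g ∈ s, ((ξ g).toNat : ℤ) * (ξ g).toNat) =
      ∏ g ∈ s, ι ^ (((ξ g).toNat : ℤ) * (ξ g).toNat) := fun s => by
    induction s using Finset.induction_on with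
    | empty => simp
    | insert a s ha ih => rw [sum_insert ha, prod_insert ha, _root_.zpow_add, ih]
  rw [e, e2, Units.coe_prod, Finset.prod_apply]
  refine prod_congr rfl fun g _ => ?_
  rw [zpow_sq hh hι]
  cases e : ξ g <;> simp [sg, e]

end idem

end Vale.Agent.P338
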