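import Vale.Agent.P338.Bits

/-! Numerical meaning of records. -/

namespace Vale.Agent.P338

open Function Vale.Agent.P320

variable {b : ℕ}

/-- the ring `(ℤ / (2 ^ (10 b) - 1)) [i]` -/
abbrev Rg (b : ℕ) := QuadraticAlgebra (ZMod (2 ^ (10 * b) - 1)) (-1) 0

def rv (x : Rec b) : Rg b := ⟨(ofBits x.1.1 : ℕ), (ofBits x.2.1 : ℕ)⟩

def gi (b : ℕ) : GaussianInt →+* Rg b where
  toFun g := ⟨g.re, g.im⟩
  map_one' := by ext <;> simp [QuadraticAlgebra.re_one, QuadraticAlgebra.im_one]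
  map_zero' := by ext <;> simp
  map_add' x y := by ext <;> simp
  map_mul' x y := by ext <;> simp

def II (b : ℕ) : Rg b := gi b ⟨0, 1⟩
def hh (b : ℕ) : Rg b := 2 ^ (10 * b - 1)

lemma II_sq : II b * II b = -1 := by
  rw [II, ← map_mul, ← map_one (gi b), ← map_neg]; rfl

namespace Bt

/-- the residue of a word -/
def wv (x : Wd b) : ZMod (2 ^ (10 * b) - 1) := (ofBits x.1 : ℕ)

lemma pow_eq_one (N : ℕ) : (2 : ZMod (2 ^ N - 1)) ^ N = 1 := by
  have h := ZMod.natCast_self (2 ^ N - 1)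
  rw [Nat.cast_sub Nat.one_le_two_pow] at h
  push_cast at h
  exact sub_eq_zero.1 h

lemma wv_lt (x : Wd b) : ofBits x.1 < 2 ^ (10 * b) := (ofBits_lt x.1).trans_eq (by rw [x.2])

lemma cast_addW {N : ℕ} (x y : List Bool) (hx : x.length = N) (hy : y.length = N) :
    ((ofBits (addW x y) : ℕ) : ZMod (2 ^ N - 1)) = (ofBits x : ℕ) + (ofBits y : ℕ) := by
  rcases val_addW x y (hy.trans hx.symm) with ⟨-, h⟩ | ⟨-, h⟩
  · rw [h, Nat.cast_add]
  · have := congrArg (Nat.cast : ℕ → ZMod (2 ^ N - 1)) h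
    push_cast at this
    rw [hx, pow_eq_one] at this
    exact add_right_cancel this

lemma wv_zero : wv (Wd.zero b) = 0 := by simp [wv, Wd.zero, val_false]

lemma wv_ofNat (n : ℕ) (h : n < 2 ^ (10 * b)) : wv (Wd.ofNat b n) = n := by
  simp only [wv, Wd.ofNat, val_bitsL, Nat.mod_eq_of_lt h]

lemma wv_add (x y : Wd b) : wv (x.add y) = wv x + wv y := cast_addW _ _ x.2 y.2

lemma wv_neg (x : Wd b) : wv x.neg = -wv x := by
  have := congrArg (Nat.cast : ℕ → ZMod (2 ^ (10 * b) - 1)) (val_not x.1)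
  push_cast at this
  rw [x.2, pow_eq_one] at this
  exact eq_neg_of_add_eq_zero_left (add_eq_right.1 this)

lemma wv_sub (x y : Wd b) : wv (x.sub y) = wv x - wv y := by
  rw [Wd.sub, wv_add, wv_neg, sub_eq_add_neg]

lemma wv_half (x : Wd b) : wv x.half = 2 ^ (10 * b - 1) * wv x := by
  obtain ⟨l, hl⟩ := x
  cases l with
  | nil => simp [wv, Wd.half, halfW, val_nil]
  | cons a l =>
    have h1 : 10 * b - 1 = l.length := by simp at hl; omega
    have h2 : (2 : ZMod (2 ^ (10 * b) - 1)) ^ l.length * 2 = 1 := by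
      rw [← pow_succ, ← List.length_cons (a := a), hl, pow_eq_one]
    simp only [wv, Wd.half, val_halfW, val_cons, h1]
    push_cast
    linear_combination (-(ofBits l : ZMod (2 ^ (10 * b) - 1))) * h2

lemma wv_mul (x y : Wd b) : wv (x.mul y) = wv x * wv y := by
  have hx := wv_lt x
  have hy := wv_lt y
  have h : ofBits x.1 * ofBits y.1 / 2 ^ (10 * b) < 2 ^ (10 * b) :=
    Nat.div_lt_of_lt_mul (Nat.mul_lt_mul'' hx hy)
  have e := congrArg (Nat.cast : ℕ → ZMod (2 ^ (10 * b) - 1))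
    (Nat.mod_add_div (ofBits x.1 * ofBits y.1) (2 ^ (10 * b)))
  rw [Nat.cast_add, Nat.cast_mul, Nat.cast_pow, Nat.cast_ofNat, pow_eq_one, one_mul,
    Nat.cast_mul] at e
  simp only [wv, Wd.mul, mulW]
  rw [cast_addW _ _ (bitsL_length _ _) (bitsL_length _ _), val_bitsL, val_bitsL,
    Nat.mod_eq_of_lt h, e]

lemma rv_eq (x : Rec b) : rv x = ⟨wv x.1, wv x.2⟩ := rfl

lemma hh_eq : hh b = ⟨2 ^ (10 * b - 1), 0⟩ := by
  rw [hh, ← QuadraticAlgebra.algebraMap_eq, map_pow, map_ofNat]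

lemma II_eq : II b = ⟨0, 1⟩ := by ext <;> simp [II, gi]

/-- a word with a small residue -/
lemma val_cases (x : Wd b) (t : ℤ) (h : wv x = t) (ht : |t| < 2 ^ (10 * b) - 1) :
    (ofBits x.1 : ℤ) = t ∨ (ofBits x.1 : ℤ) = t + (2 ^ (10 * b) - 1) := by
  have h1 : ((ofBits x.1 : ℤ) : ZMod (2 ^ (10 * b) - 1)) = t := by rw [← h, Int.cast_natCast, wv]
  rw [ZMod.intCast_eq_intCast_iff_dvd_sub, Nat.cast_sub Nat.one_le_two_pow] at h1
  push_cast at h1
  have h2 : (ofBits x.1 : ℤ) < 2 ^ (10 * b) := by exact_mod_cast wv_lt x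
  have h3 : (0 : ℤ) ≤ ofBits x.1 := by positivity
  obtain ⟨k, hk⟩ := h1
  rw [abs_lt] at ht
  generalize (2 : ℤ) ^ (10 * b) = M at *
  have h4 : k < 1 := by by_contra hc; nlinarith
  have h5 : -2 < k := by by_contra hc; nlinarith
  have : k = 0 ∨ k = -1 := by omega
  rcases this with rfl | rfl
  · left; linarith
  · right; linarith

lemma val_shr (x : Wd b) :
    (ofBits x.1 < 2 ^ (10 * b - 1) → ofBits x.shr.1 = ofBits x.1 / 2 ^ (3 * b)) ∧
    (2 ^ (10 * b - 1) ≤ ofBits x.1 →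
      ofBits x.shr.1 + 2 ^ (7 * b) = ofBits x.1 / 2 ^ (3 * b) + 2 ^ (10 * b)) := by
  have e : ofBits x.shr.1 = ofBits x.1 / 2 ^ (3 * b) +
      2 ^ (7 * b) * ofBits (List.replicate (3 * b) ((ofBits x.1).testBit (10 * b - 1))) := by
    simp only [Wd.shr, shrW]
    rw [val_append, val_drop, getLastD_eq, List.length_drop, x.2,
      show 10 * b - 3 * b = 7 * b by omega]
  refine ⟨fun h => ?_, fun h => ?_⟩
  · rw [e, Nat.testBit_lt_two_pow h, val_false]; rfl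
  · have hb : 10 * b - 1 + 1 = 10 * b := by
      rcases Nat.eq_zero_or_pos b with rfl | hb
      · have := wv_lt x; simp at h this; omega
      · omega
    rw [e, Nat.testBit_of_two_pow_le_and_two_pow_add_one_gt h (by rw [hb]; exact wv_lt x),
      show 2 ^ (10 * b) = 2 ^ (7 * b) * (ofBits (List.replicate (3 * b) true) + 1) by
        rw [val_true]; ring]
    ring

/-- the arithmetic shift divides a small residue -/
lemma wv_shr (hb : 1 ≤ b) (x : Wd b) (t : ℤ) (h : wv x = t) (ht : |t| ≤ 2 ^ (10 * b - 2)) :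
    ∃ s : ℤ, wv x.shr = s ∧ |s * 2 ^ (3 * b) - t| ≤ 2 ^ (3 * b) := by
  obtain ⟨k, hk⟩ : ∃ k, 10 * b = k + 3 := ⟨10 * b - 3, by omega⟩
  have p0 : (0 : ℤ) < 2 ^ k := by positivity
  have e2 : (2 : ℤ) ^ (10 * b - 2) = 2 * 2 ^ k := by
    rw [hk, show k + 3 - 2 = k + 1 by omega, pow_succ']
  have e1 : (2 : ℤ) ^ (10 * b - 1) = 4 * 2 ^ k := by
    rw [hk, show k + 3 - 1 = k + 2 by omega]; ring
  have e0 : (2 : ℤ) ^ (10 * b) = 8 * 2 ^ k := by rw [hk]; ring
  have hd := Nat.div_add_mod (ofBits x.1) (2 ^ (3 * b))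
  have hm := Nat.mod_lt (ofBits x.1) (show 0 < 2 ^ (3 * b) by positivity)
  zify at hd hm
  have hm0 : (0 : ℤ) ≤ (ofBits x.1 : ℤ) % 2 ^ (3 * b) := Int.emod_nonneg _ (by positivity)
  have ht' := abs_le.1 ht
  rcases val_cases x t h (by omega) with h1 | h1
  · have h2 := (val_shr x).1 (by zify; omega)
    refine ⟨(ofBits x.1 / 2 ^ (3 * b) : ℕ), by rw [wv, h2, Int.cast_natCast], ?_⟩
    push_cast
    rw [abs_le]; constructor <;> linarith
  · have h2 := (val_shr x).2 (by zify; omega)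
    refine ⟨(ofBits x.1 / 2 ^ (3 * b) : ℕ) + 1 - 2 ^ (7 * b), ?_, ?_⟩
    · have := congrArg (Nat.cast : ℕ → ZMod (2 ^ (10 * b) - 1)) h2
      rw [Nat.cast_add, Nat.cast_add, Nat.cast_pow, Nat.cast_pow, Nat.cast_ofNat, pow_eq_one]
        at this
      rw [Int.cast_sub, Int.cast_add, Int.cast_natCast, Int.cast_one, Int.cast_pow, Int.cast_ofNat,
        ← this, wv, add_sub_cancel_right]
    · have e3 : (2 : ℤ) ^ (7 * b) * 2 ^ (3 * b) = 2 ^ (10 * b) := by
        rw [← pow_add]; congr 1; ring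
      push_cast
      rw [abs_le]; constructor <;> nlinarith

lemma toC_norm_le (g : GaussianInt) : |(g.re : ℝ)| ≤ ‖(g : ℂ)‖ ∧ |(g.im : ℝ)| ≤ ‖(g : ℂ)‖ := by
  have h1 := Complex.abs_re_le_norm (g : ℂ)
  have h2 := Complex.abs_im_le_norm (g : ℂ)
  rw [← GaussianInt.intCast_re] at h1
  rw [← GaussianInt.intCast_im] at h2
  exact ⟨h1, h2⟩

end Bt

open Bt

lemma two_hh (hb : 1 ≤ b) : 2 * hh b = 1 := by
  have h := congrArg (algebraMap _ (Rg b)) (pow_eq_one (10 * b))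
  rw [map_pow, map_ofNat, map_one] at h
  rw [hh, ← pow_succ', show 10 * b - 1 + 1 = 10 * b by omega, h]

lemma rv_zero (x y : Rec b) : rv (BOp.zero.sem x y) = 0 := by
  ext <;> simp [rv_eq, BOp.sem, wv_zero]
lemma rv_add (x y : Rec b) : rv (BOp.add.sem x y) = rv x + rv y := by
  ext <;> simp [rv_eq, BOp.sem, wv_add]
lemma rv_sub (x y : Rec b) : rv (BOp.sub.sem x y) = rv x - rv y := by
  ext <;> simp [rv_eq, BOp.sem, wv_sub]
lemma rv_addh (x y : Rec b) : rv (BOp.addh.sem x y) = rv x + hh b * rv y := by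
  ext <;> simp [rv_eq, BOp.sem, wv_add, wv_half, hh_eq]
lemma rv_subh (x y : Rec b) : rv (BOp.subh.sem x y) = rv x - hh b * rv y := by
  ext <;> simp [rv_eq, BOp.sem, wv_sub, wv_half, hh_eq]
lemma rv_bfly (x y : Rec b) :
    rv (BOp.bfly.sem x y) = hh b * ((1 + II b) * rv x + (1 - II b) * rv y) := by
  ext <;> simp [rv_eq, BOp.sem, wv_add, wv_sub, wv_half, hh_eq, II_eq, QuadraticAlgebra.re_one,
    QuadraticAlgebra.im_one] <;> ring
lemma rv_mul (x y : Rec b) : rv (BOp.mul.sem x y) = rv x * rv y := by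
  ext <;> simp [rv_eq, BOp.sem, wv_add, wv_sub, wv_mul, sub_eq_add_neg]

/-- bits of a record, as a vector over `ZMod 2` -/
def bv (x : Rec b) : Bool × ℕ → ZMod 2 := fun p =>
  if (cond p.1 x.2 x.1).1.getD p.2 false then 1 else 0

lemma bv_inj : Injective (bv : Rec b → _) := by
  have key : ∀ u v : Wd b, (∀ i, (if u.1.getD i false then (1 : ZMod 2) else 0) =
      if v.1.getD i false then 1 else 0) → u = v := fun u v h =>
    Subtype.ext (val_inj (u.2.trans v.2.symm) (Nat.eq_of_testBit_eq fun i => by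
      have := h i
      rw [testBit_val, testBit_val]
      revert this
      cases u.1.getD i false <;> cases v.1.getD i false <;> simp))
  intro x y h
  exact Prod.ext (key _ _ fun i => congrFun h (false, i)) (key _ _ fun i => congrFun h (true, i))
lemma bv_xor (x y : Rec b) : bv (BOp.xor.sem x y) = bv x + bv y := by
  have key : ∀ (u v : Wd b) i, (if (u.xor v).1.getD i false then (1 : ZMod 2) else 0) =
      (if u.1.getD i false then 1 else 0) + if v.1.getD i false then 1 else 0 := fun u v i => by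
    have e : (u.xor v).1.getD i false = _ := xor_getD _ _ _ _ (v.2.trans u.2.symm).le
    rw [e]
    cases u.1.getD i false <;> cases v.1.getD i false <;> rfl
  funext ⟨c, i⟩
  cases c
  · exact key _ _ i
  · exact key _ _ i

/-- the ring element `ρ` is a fixed-point approximation (`3 b` places) of `z` -/
def Apx (b n : ℕ) (ρ : Rg b) (z : ℂ) : Prop :=
  ∃ g : GaussianInt, ρ = gi b g ∧ ‖(g : ℂ) - 2 ^ (3 * b) * z‖ ≤ 2 ^ n ∧ ‖z‖ ≤ 2 ^ n

lemma Apx.mono {n n' ρ z} (h : Apx b n ρ z) (hn : n ≤ n') : Apx b n' ρ z := by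
  obtain ⟨g, h1, h2, h3⟩ := h
  have : (2 : ℝ) ^ n ≤ 2 ^ n' := pow_le_pow_right₀ one_le_two hn
  exact ⟨g, h1, h2.trans this, h3.trans this⟩
lemma Apx.zero (n) : Apx b n 0 0 := ⟨0, by simp, by simp, by simp⟩
lemma Apx.add {n ρ ρ' z z'} (h : Apx b n ρ z) (h' : Apx b n ρ' z') :
    Apx b (n + 1) (ρ + ρ') (z + z') := by
  obtain ⟨g, rfl, h2, h3⟩ := h
  obtain ⟨g', rfl, h2', h3'⟩ := h'
  refine ⟨g + g', by rw [map_add], ?_, (norm_add_le _ _).trans (by rw [pow_succ]; linarith)⟩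
  have e : ((g + g' : GaussianInt) : ℂ) - 2 ^ (3 * b) * (z + z') =
      ((g : ℂ) - 2 ^ (3 * b) * z) + ((g' : ℂ) - 2 ^ (3 * b) * z') := by rw [map_add]; ring
  rw [e]
  exact (norm_add_le _ _).trans (by rw [pow_succ]; linarith)
lemma Apx.sub {n ρ ρ' z z'} (h : Apx b n ρ z) (h' : Apx b n ρ' z') :
    Apx b (n + 1) (ρ - ρ') (z - z') := by
  obtain ⟨g, rfl, h2, h3⟩ := h
  obtain ⟨g', rfl, h2', h3'⟩ := h'
  refine ⟨g - g', by rw [map_sub], ?_, (norm_sub_le _ _).trans (by rw [pow_succ]; linarith)⟩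
  have e : ((g - g' : GaussianInt) : ℂ) - 2 ^ (3 * b) * (z - z') =
      ((g : ℂ) - 2 ^ (3 * b) * z) - ((g' : ℂ) - 2 ^ (3 * b) * z') := by rw [map_sub]; ring
  rw [e]
  exact (norm_sub_le _ _).trans (by rw [pow_succ]; linarith)
lemma Apx.bfly {n ρ ρ' z z'} (h : Apx b n ρ z) (h' : Apx b n ρ' z') :
    Apx b (n + 2) ((1 + II b) * ρ + (1 - II b) * ρ') ((1 + Complex.I) * z + (1 - Complex.I) * z') := by
  obtain ⟨g, rfl, h2, h3⟩ := h
  obtain ⟨g', rfl, h2', h3'⟩ := h'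
  have key : ∀ u v : ℂ, ‖u‖ ≤ 2 ^ n → ‖v‖ ≤ 2 ^ n →
      ‖(1 + Complex.I) * u + (1 - Complex.I) * v‖ ≤ 2 ^ (n + 2) := fun u v hu hv => by
    have a1 : ‖1 + Complex.I‖ ≤ 2 := (norm_add_le _ _).trans (by simp; norm_num)
    have a2 : ‖1 - Complex.I‖ ≤ 2 := (norm_sub_le _ _).trans (by simp; norm_num)
    have b1 := mul_le_mul a1 hu (norm_nonneg _) zero_le_two
    have b2 := mul_le_mul a2 hv (norm_nonneg _) zero_le_two
    refine (norm_add_le _ _).trans ?_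
    rw [norm_mul, norm_mul, pow_add]
    linarith
  refine ⟨(1 + ⟨0, 1⟩) * g + (1 - ⟨0, 1⟩) * g', by simp only [map_add, map_mul, map_sub, map_one, II],
    ?_, key _ _ h3 h3'⟩
  have eI : GaussianInt.toComplex ⟨0, 1⟩ = Complex.I := by simp [GaussianInt.toComplex_def']
  have e : (((1 + ⟨0, 1⟩) * g + (1 - ⟨0, 1⟩) * g' : GaussianInt) : ℂ) -
      2 ^ (3 * b) * ((1 + Complex.I) * z + (1 - Complex.I) * z') =
      (1 + Complex.I) * ((g : ℂ) - 2 ^ (3 * b) * z) +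
        (1 - Complex.I) * ((g' : ℂ) - 2 ^ (3 * b) * z') := by
    simp only [map_add, map_mul, map_sub, map_one, eI]; ring
  rw [e]
  exact key _ _ h2 h2'
lemma Apx.muls {n n' z z'} {x y : Rec b} (h : Apx b n (rv x) z) (h' : Apx b n' (rv y) z')
    (hn : n + n' + 4 ≤ 4 * b) : Apx b (n + n' + 3) (rv (BOp.muls.sem x y)) (z * z') := by
  obtain ⟨g, h1, h2, h3⟩ := h
  obtain ⟨g', h1', h2', h3'⟩ := h'
  have hb : 1 ≤ b := by omega
  have hm : rv (BOp.mul.sem x y) = gi b (g * g') := by rw [rv_mul, h1, h1', map_mul]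
  have hS : (1 : ℝ) ≤ 2 ^ (3 * b) := one_le_pow₀ one_le_two
  have hA : (1 : ℝ) ≤ 2 ^ n := one_le_pow₀ one_le_two
  have hB : (1 : ℝ) ≤ 2 ^ n' := one_le_pow₀ one_le_two
  have nS : ‖(2 : ℂ) ^ (3 * b)‖ = 2 ^ (3 * b) := by simp
  have bd : ∀ (u w : ℂ) (A : ℝ), ‖u - 2 ^ (3 * b) * w‖ ≤ A → ‖w‖ ≤ A →
      ‖u‖ ≤ 2 * 2 ^ (3 * b) * A := fun u w A a1 a2 => by
    have a3 := norm_add_le (u - 2 ^ (3 * b) * w) (2 ^ (3 * b) * w)
    rw [sub_add_cancel, norm_mul, nS] at a3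
    have a4 := (norm_nonneg w).trans a2
    nlinarith
  have g1 := bd _ _ _ h2 h3
  have g2 := bd _ _ _ h2' h3'
  have g3 : ‖((g * g' : GaussianInt) : ℂ)‖ ≤ 2 ^ (10 * b - 2) := by
    rw [map_mul, norm_mul]
    refine (mul_le_mul g1 g2 (norm_nonneg _) (by positivity)).trans ?_
    have : (2 : ℝ) * 2 ^ (3 * b) * 2 ^ n * (2 * 2 ^ (3 * b) * 2 ^ n') = 2 ^ (6 * b + n + n' + 2) := by
      ring
    rw [this]
    exact pow_le_pow_right₀ one_le_two (by omega)
  obtain ⟨r1, r2⟩ := toC_norm_le (g * g')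
  obtain ⟨s, s1, s2⟩ := wv_shr hb _ (g * g').re (congrArg QuadraticAlgebra.re hm)
    (by exact_mod_cast r1.trans g3)
  obtain ⟨t, t1, t2⟩ := wv_shr hb _ (g * g').im (congrArg QuadraticAlgebra.im hm)
    (by exact_mod_cast r2.trans g3)
  refine ⟨⟨s, t⟩, QuadraticAlgebra.ext s1 t1, ?_, ?_⟩
  · have d1 : ‖GaussianInt.toComplex ⟨s, t⟩ * 2 ^ (3 * b) - ((g * g' : GaussianInt) : ℂ)‖ ≤
        2 ^ (3 * b) + 2 ^ (3 * b) := by
      have e : GaussianInt.toComplex ⟨s, t⟩ * 2 ^ (3 * b) - ((g * g' : GaussianInt) : ℂ) =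
          ((s * 2 ^ (3 * b) - (g * g').re : ℤ) : ℂ) +
            ((t * 2 ^ (3 * b) - (g * g').im : ℤ) : ℂ) * Complex.I := by
        rw [GaussianInt.toComplex_def', GaussianInt.toComplex_def (g * g')]; push_cast; ring
      rw [e]
      refine (norm_add_le _ _).trans ?_
      rw [norm_mul, Complex.norm_I, mul_one, Complex.norm_intCast, Complex.norm_intCast]
      exact add_le_add (by exact_mod_cast s2) (by exact_mod_cast t2)
    have d2 : ‖((g : ℂ) - 2 ^ (3 * b) * z) * g'‖ ≤ 2 ^ n * (2 * 2 ^ (3 * b) * 2 ^ n') := by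
      rw [norm_mul]; exact mul_le_mul h2 g2 (norm_nonneg _) (by positivity)
    have d3 : ‖2 ^ (3 * b) * (z * ((g' : ℂ) - 2 ^ (3 * b) * z'))‖ ≤
        2 ^ (3 * b) * (2 ^ n * 2 ^ n') := by
      rw [norm_mul, norm_mul, nS]
      exact mul_le_mul_of_nonneg_left (mul_le_mul h3 h2' (norm_nonneg _) (by positivity))
        (by positivity)
    have e : 2 ^ (3 * b) * (GaussianInt.toComplex ⟨s, t⟩ - 2 ^ (3 * b) * (z * z')) =
        (GaussianInt.toComplex ⟨s, t⟩ * 2 ^ (3 * b) - ((g * g' : GaussianInt) : ℂ)) +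
          ((g : ℂ) - 2 ^ (3 * b) * z) * g' + 2 ^ (3 * b) * (z * ((g' : ℂ) - 2 ^ (3 * b) * z')) := by
      rw [map_mul]; ring
    have d4 := congrArg norm e
    rw [norm_mul, nS] at d4
    have d5 := d4.le.trans (norm_add₃_le.trans (add_le_add (add_le_add d1 d2) d3))
    have hAB : (1 : ℝ) ≤ 2 ^ n * 2 ^ n' := one_le_mul_of_one_le_of_one_le hA hB
    refine le_of_mul_le_mul_left (d5.trans ?_) (by positivity : (0 : ℝ) < 2 ^ (3 * b))
    rw [pow_add, pow_add]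
    nlinarith
  · rw [norm_mul, pow_add, pow_add]
    have := mul_le_mul h3 h3' (norm_nonneg _) (by positivity)
    nlinarith

/-- the word that represents an integer -/
def zw (b : ℕ) (z : ℤ) : ℕ := (z % ((2 ^ (10 * b) - 1 : ℕ) : ℤ)).toNat

lemma rv_zw (hb : 1 ≤ b) (g : GaussianInt) :
    rv ((Wd.ofNat b (zw b g.re), Wd.ofNat b (zw b g.im)) : Rec b) = gi b g := by
  have hM : 1 < 2 ^ (10 * b) := Nat.one_lt_two_pow (by omega)
  have key : ∀ z : ℤ, wv (Wd.ofNat b (zw b z)) = z := fun z => by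
    have h0 : (0 : ℤ) < (2 ^ (10 * b) - 1 : ℕ) := by exact_mod_cast (by omega)
    have h1 := Int.emod_nonneg z h0.ne'
    have h2 := Int.emod_lt_of_pos z h0
    rw [wv_ofNat _ (by unfold zw; omega), zw, ← Int.cast_natCast, Int.toNat_of_nonneg h1,
      ZMod.intCast_mod]
  exact QuadraticAlgebra.ext (key _) (key _)

lemma rv_nat (m : ℕ) (hm : m < 2 ^ (10 * b)) :
    rv ((Wd.ofNat b m, Wd.ofNat b 0) : Rec b) = m :=
  QuadraticAlgebra.ext (wv_ofNat m hm) ((wv_ofNat 0 (by positivity)).trans Nat.cast_zero)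

lemma apx_read (l : List Bool) :
    Apx b b (rv ((⟨readW b l, by simp⟩, Wd.zero b) : Rec b)) (ofBits l % 2 ^ b : ℕ) := by
  have e : ofBits (readW b l) = 2 ^ (3 * b) * (ofBits l % 2 ^ b) := by
    rw [readW, val_append, val_append, val_false, val_false, padTake_eq, val_bitsL]; simp
  refine ⟨((2 ^ (3 * b) * (ofBits l % 2 ^ b) : ℕ) : GaussianInt), ?_, ?_, ?_⟩
  · rw [map_natCast]
    exact QuadraticAlgebra.ext (congrArg Nat.cast e) wv_zero
  · rw [map_natCast, Nat.cast_mul]; simp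
  · rw [Complex.norm_natCast]
    exact_mod_cast (Nat.mod_lt _ (by positivity)).le

/-- rounding: add one half and shift -/
lemma Apx.round {n c : ℕ} {x : Rec b} (h : Apx b n (rv x) c) (hn : n + 2 ≤ 3 * b) :
    (BOp.muls.sem (BOp.add.sem x (Wd.ofNat b (2 ^ (3 * b - 1)), Wd.ofNat b 0))
      (Wd.ofNat b 1, Wd.ofNat b 0)).1 = Wd.ofNat b c := by
  obtain ⟨g, h1, h2, h3⟩ := h
  obtain ⟨k, hk⟩ : ∃ k, 3 * b = k + 2 := ⟨3 * b - 2, by omega⟩
  have hn' : (2 : ℝ) ^ n ≤ 2 ^ k := pow_le_pow_right₀ one_le_two (by omega)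
  rw [Complex.norm_natCast] at h3
  have hc : (c : ℤ) ≤ 2 ^ k := by exact_mod_cast h3.trans hn'
  have e : (g : ℂ) - 2 ^ (3 * b) * c = ((g - (2 ^ (3 * b) * c : ℕ) : GaussianInt) : ℂ) := by
    rw [map_sub, map_natCast]; push_cast; ring
  rw [e] at h2
  have h4 := ((toC_norm_le _).1.trans h2).trans hn'
  rw [Zsqrtd.re_sub, Zsqrtd.re_natCast] at h4
  have h5 : |g.re - (2 ^ (3 * b) * c : ℕ)| ≤ 2 ^ k := by exact_mod_cast h4
  have e1 : 2 ^ (3 * b - 1) = 2 * 2 ^ k := by rw [hk, show k + 2 - 1 = k + 1 by omega, pow_succ']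
  have e2 : 2 ^ (3 * b) = 4 * 2 ^ k := by rw [hk]; ring
  have e3 : 16 * (2 ^ k * 2 ^ k) ≤ 2 ^ (10 * b - 1) := by
    rw [← pow_add, show 16 = 2 ^ 4 from rfl, ← pow_add]
    exact Nat.pow_le_pow_right two_pos (by omega)
  have e4 : 2 ^ (10 * b) = 2 * 2 ^ (10 * b - 1) := by
    rw [← pow_succ']; congr 1; omega
  have p0 : 0 < 2 ^ k := by positivity
  have p1 : 2 ^ k ≤ 2 ^ k * 2 ^ k := Nat.le_mul_self _
  have p2 : 2 ^ k * c ≤ 2 ^ k * 2 ^ k := Nat.mul_le_mul_left _ (by exact_mod_cast hc)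
  have hx : wv x.1 = g.re := congrArg QuadraticAlgebra.re h1
  simp only [BOp.sem]
  generalize hw : Wd.sub _ _ = w
  have h6 : wv w = (g.re + (2 * 2 ^ k : ℕ) : ℤ) := by
    rw [← hw, wv_sub, wv_mul, wv_mul, wv_add, hx, wv_ofNat 0 (by positivity), wv_ofNat 1 (by omega),
      wv_ofNat _ (by omega), e1]
    push_cast; ring
  rw [e2, abs_le, mul_assoc] at h5
  have q0 : ((2 ^ k : ℕ) : ℤ) = 2 ^ k := by push_cast; rfl
  have q1 : ((2 ^ (10 * b) : ℕ) : ℤ) = 2 ^ (10 * b) := by push_cast; rfl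
  have hl := wv_lt w
  have h7 : (ofBits w.1 : ℤ) = g.re + (2 * 2 ^ k : ℕ) := by
    rcases val_cases w _ h6 (by rw [abs_lt]; omega) with h | h <;> omega
  have h8 : ofBits w.1 / 2 ^ (3 * b) = c := by
    rw [e2]
    refine Nat.div_eq_of_lt_le ?_ ?_
    · rw [mul_comm, mul_assoc]; omega
    · rw [mul_comm (c + 1), mul_add, mul_assoc]; omega
  refine Subtype.ext (eq_bitsL w.shr.2 ?_)
  rw [(val_shr w).1 (by omega), h8, Nat.mod_eq_of_lt (by omega)]

/-- one step of carry propagation -/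
lemma emit_nat {c a : ℕ} (h : c + a + 1 < 2 ^ (10 * b)) :
    (((Wd.ofNat b c).add (Wd.ofNat b a)).1.drop b ++ List.replicate b false =
      (Wd.ofNat b ((c + a) / 2 ^ b)).1) ∧
    padTake b ((Wd.ofNat b c).add (Wd.ofNat b a)).1 = bitsL b (c + a) := by
  have e : ofBits ((Wd.ofNat b c).add (Wd.ofNat b a)).1 = c + a := by
    have := val_addW (bitsL (10 * b) c) (bitsL (10 * b) a) (by simp)
    rw [val_bitsL, val_bitsL, Nat.mod_eq_of_lt (by omega), Nat.mod_eq_of_lt (by omega),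
      bitsL_length] at this
    rcases this with ⟨-, h1⟩ | ⟨h1, -⟩
    · exact h1
    · omega
  refine ⟨eq_bitsL ?_ ?_, by rw [padTake_eq, e]⟩
  · rw [List.length_append, List.length_drop, (Wd.add _ _).2, List.length_replicate]; omega
  · rw [val_append, val_false, val_drop, e, mul_zero, add_zero,
      Nat.mod_eq_of_lt ((Nat.div_le_self _ _).trans_lt (by omega))]

lemma zero_eq_ofNat : Wd.zero b = Wd.ofNat b 0 :=
  Subtype.ext (eq_bitsL (by simp [Wd.zero]) (by simp [Wd.zero, val_false]))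

end Vale.Agent.P338
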