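import Vale.Agent.P338.LayerXr
import Vale.Agent.P338.LayerAlg
import Vale.Agent.P338.Ring

/-! Bit flips acting on functions of index tuples, and their realisation by commands. -/

namespace Vale.Agent.P338

open Function Finset Vale.Agent.PT Vale.Agent.P320

abbrev Msk := ℕ → ZMod 2

def fl (j : ℕ) (S : Msk) (v : ℕ → ℕ) (t : ℕ) : ℕ := v t ^^^ (S t).val * 2 ^ j

lemma val_le (s : ZMod 2) : s.val ≤ 1 := Nat.le_of_lt_succ (ZMod.val_lt s)

lemma xo_xo (j x : ℕ) {a b : ℕ} (ha : a ≤ 1) (hb : b ≤ 1) :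
    (x ^^^ a * 2 ^ j) ^^^ b * 2 ^ j = x ^^^ (a + b) % 2 * 2 ^ j := by
  interval_cases a <;> interval_cases b <;> simp [Nat.xor_assoc]

lemma fl_add (j : ℕ) (S S' : Msk) (v) : fl j S' (fl j S v) = fl j (S + S') v := by
  funext t
  rw [fl, fl, fl, xo_xo _ _ (val_le _) (val_le _), Pi.add_apply, ZMod.val_add]

section alg
variable (K : Type) [CommRing K]

def pull (f : (ℕ → ℕ) → ℕ → ℕ) : Module.End K (Tup → K) :=
  LinearMap.funLeft K K fun t : Tup => (t.1, f t.2.1, t.2.2)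

lemma pull_mul (f g) : pull K f * pull K g = pull K (g ∘ f) := rfl
lemma pull_id : pull K id = 1 := rfl

noncomputable def rho (j : ℕ) : AddMonoidAlgebra K Msk →ₐ[K] Module.End K (Tup → K) :=
  AddMonoidAlgebra.lift K _ _
    { toFun S := pull K (fl j S.toAdd)
      map_one' := by
        rw [← pull_id]; congr 1; funext v t; simp [fl]
      map_mul' S S' := by
        rw [pull_mul]; congr 1; funext v; exact (fl_add j _ _ v).symm }

noncomputable def ch (S : Msk) : AddMonoidAlgebra K Msk := AddMonoidAlgebra.single S 1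

lemma rho_ch (j : ℕ) (S : Msk) : rho K j (ch K S) = pull K (fl j S) := by
  rw [rho, ch, AddMonoidAlgebra.lift_single, one_smul]; rfl

lemma ch_add (S S' : Msk) : ch K (S + S') = ch K S * ch K S' := by
  simp [ch, AddMonoidAlgebra.single_mul_single]

lemma ch_zero : ch K 0 = 1 := rfl

lemma ch_sq (S : Msk) : ch K S * ch K S = 1 := by
  rw [← ch_add, ← ch_zero]; congr 1; funext t; exact CharTwo.add_self_eq_zero _

lemma ch_sum {α : Type} (s : Finset α) (f : α → Msk) :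
    ch K (∑ a ∈ s, f a) = ∏ a ∈ s, ch K (f a) := by
  classical
  induction s using Finset.induction_on with
  | empty => rfl
  | insert a s ha ih => rw [sum_insert ha, prod_insert ha, ch_add, ih]

end alg

def ee (i : ℕ) : Msk := Pi.single i 1

def bz (i0 D : ℕ) (δ : Msk) : Msk := fun t => if i0 ≤ t ∧ t < i0 + D then δ (t - i0) else 0

lemma xv_none (j i0 D i1 : ℕ) : xv none j i0 D i1 = fl j (∑ t ∈ range D, ee (i0 + t)) := by
  funext v t
  rw [xv, fl, bk, Finset.sum_apply]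
  congr 2
  split_ifs with c
  · rw [sum_eq_single (t - i0) (fun s _ hs => Pi.single_eq_of_ne (by omega) _)
      (fun h => (h (mem_range.2 (by omega))).elim), show i0 + (t - i0) = t by omega, ee,
      Pi.single_eq_same]
    rfl
  · rw [sum_eq_zero fun s hs => Pi.single_eq_of_ne (by have := mem_range.1 hs; omega) _]; rfl

lemma fl_xv (k : Bool) {j i0 D i1 : ℕ} (hd : i0 + D ≤ i1 ∨ i1 + D ≤ i0) (S : Msk) (v) :
    fl j S (xv (some k) j i0 D i1 v) =
      xv (some k) j i0 D i1 (fl j (S + bz i0 D fun t => S (i1 + t)) v) := by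
  funext t
  simp only [fl, xv, bk, bz, uf, Option.isSome, cond_true, Pi.add_apply]
  split_ifs with c c'
  · omega
  · rw [xo_xo _ _ (nb_le _ _) (val_le _), xo_nb, xo_xo _ _ (val_le _)
      (Nat.le_of_lt_succ (Nat.mod_lt _ two_pos)), add_zero, ZMod.val_add]
    congr 2
    have := val_le (S (i1 + (t - i0)))
    simp only [Nat.succ_eq_add_one, Nat.reduceAdd]
    omega
  · simp

lemma xv_xv (k : Bool) {j i0 D i1 : ℕ} (hd : i0 + D ≤ i1 ∨ i1 + D ≤ i0) (v) :
    xv (some k) j i0 D i1 (xv (some k) j i0 D i1 v) = v := by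
  funext t
  simp only [xv, bk, uf, Option.isSome, cond_true]
  split_ifs with c c'
  · omega
  · rw [zero_mul, Nat.xor_zero, xo_xo _ _ (nb_le _ _) (nb_le _ _), ← two_mul, Nat.mul_mod_right]
    simp
  · simp

def iu (b : ℕ) : (Rg b)ˣ :=
  ⟨II b, -II b, by rw [mul_neg, II_sq, neg_neg], by rw [neg_mul, II_sq, neg_neg]⟩

lemma iu_sq (b : ℕ) : iu b * iu b = -1 := Units.ext II_sq

noncomputable def Cc (b : ℕ) (S : Msk) : AddMonoidAlgebra (Rg b) Msk :=
  algebraMap (Rg b) _ (hh b * (1 + (iu b : Rg b))) +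
    algebraMap (Rg b) _ (hh b * (1 - (iu b : Rg b))) * ch (Rg b) S

noncomputable def CC (b i0 D : ℕ) : AddMonoidAlgebra (Rg b) Msk := ∏ t ∈ range D, Cc b (ee (i0 + t))

lemma rho_Cc (b j : ℕ) (S : Msk) : rho (Rg b) j (Cc b S) =
    (hh b * (1 + II b)) • (1 : Module.End (Rg b) (Tup → Rg b)) +
      (hh b * (1 - II b)) • pull (Rg b) (fl j S) := by
  rw [Cc, map_add, AlgHom.commutes, map_mul (rho (Rg b) j), AlgHom.commutes, rho_ch,
    ← Algebra.smul_def,
    Algebra.algebraMap_eq_smul_one]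
  rfl

lemma conj_prod {b j : ℕ} {f : (ℕ → ℕ) → ℕ → ℕ} (hf : ∀ v, f (f v) = v) (D : ℕ) (S S' : ℕ → Msk)
    (h : ∀ t < D, ∀ v, fl j (S t) (f v) = f (fl j (S' t) v)) :
    pull (Rg b) f * rho (Rg b) j (∏ t ∈ range D, Cc b (S t)) * pull (Rg b) f =
      rho (Rg b) j (∏ t ∈ range D, Cc b (S' t)) := by
  have key : pull (Rg b) f * rho (Rg b) j (∏ t ∈ range D, Cc b (S t)) =
      rho (Rg b) j (∏ t ∈ range D, Cc b (S' t)) * pull (Rg b) f := by
    induction D with
    | zero => simp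
    | succ D ih =>
      have e : pull (Rg b) f * rho (Rg b) j (Cc b (S D)) =
          rho (Rg b) j (Cc b (S' D)) * pull (Rg b) f := by
        simp only [rho_Cc, mul_add, add_mul, mul_smul_comm, smul_mul_assoc, mul_one, one_mul,
          pull_mul]
        congr 3
        funext v
        exact h D (by omega) v
      rw [prod_range_succ, prod_range_succ, map_mul, map_mul, ← mul_assoc,
        ih fun t ht => h t (by omega), mul_assoc, e, mul_assoc]
  rw [key, mul_assoc, pull_mul, show f ∘ f = id from funext hf, pull_id, mul_one]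

variable {X : Cx} {e : Cmd} {a : Ar} {P : Ly} {H : ℕ}

def Rel (P : Ly) (H : ℕ) {b : ℕ} (x : ℕ → Rec b) (F : Tup → Rg b) : Prop :=
  ∀ t, P.val H t → rv (x (P.ix t)) = F t

def Rz (X : Cx) (e c : Cmd) (a : Ar) (P : Ly) (H : ℕ)
    (φ : Module.End (Rg X.b) (Tup → Rg X.b)) (T : ℕ) : Prop :=
  ∀ x F, Rel P H x F → ∃ y, Acts X e c a (arr (P.N H) x) (arr (P.N H) y) T ∧ Rel P H y (φ F)

lemma Rz.mono {c φ T T'} (h : Rz X e c a P H φ T) (hT : T ≤ T') : Rz X e c a P H φ T' :=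
  fun x F hF => by
    obtain ⟨y, h1, h2⟩ := h x F hF
    exact ⟨y, h1.mono hT, h2⟩

lemma Rz.skip : Rz X e skip a P H 1 1 := fun x _ hF => ⟨x, Acts.skip _, hF⟩

lemma Rz.seq {c c' φ φ' T T'} (h : Rz X e c a P H φ T) (h' : Rz X e c' a P H φ' T') :
    Rz X e (.seq c c') a P H (φ' * φ) (T + T' + 1) := fun x F hF => by
  obtain ⟨y, h1, h2⟩ := h x F hF
  obtain ⟨z, h3, h4⟩ := h' y _ h2
  exact ⟨z, h1.seq h3, h4⟩

lemma Rz.arg {c φ T a'} {f : Ar → List ℕ} (h : Rz X e c a' P H φ T) (h1 : a.w (f a) = a')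
    (h2 : Sm 0 a') : Rz X e (.arg f c) a P H φ (T + 1) := fun x F hF => by
  obtain ⟨y, h3, h4⟩ := h x F hF
  exact ⟨y, h3.arg h1 h2, h4⟩

lemma XA.rz {i0 D i1 : ℕ} (q : XA a P H i0 D i1) (k : Option Bool)
    (hT : k = some true → i0 + D ≤ i1 ∧ i1 + D ≤ P.d) (hF : k = some false → i1 + D ≤ i0) :
    Rz X e (P338.xr k) a P H (pull _ (xv k P.j i0 D i1)) ((3 * tc (P.Λ ^ D).size + 7000) * P.N H) :=
  fun x F hx => by
    obtain ⟨y, h1, h2⟩ := q.xr (e := e) k hT hF x
    refine ⟨y, h1, fun ⟨h, v, w, l⟩ ht => ?_⟩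
    rw [h2 h v w l ht]
    refine hx (h, xv k P.j i0 D i1 v, w, l) ⟨ht.1, fun i hi => ?_, ht.2.2⟩
    exact xo_lt q.g.dv (by unfold bk; split_ifs; exacts [uf_le _ _ _ _ _, zero_le_one])
      (ht.2.1 i hi)

/-- one butterfly, naively; arguments as for `xr` with `D = 1` -/
def bfN (x : Ar) : ℕ := Xr.hi x * x.g 4 * Xr.lo 1 x

def bfC : Cmd :=
  .seq (dup bfN) (.seq (pm Xr.hi (fun x => x.g 4) (fun x => x.g 4) (Xr.lo 1)
      (fun _ α x => decide (nb (x.u (x.g 7)) α = 0))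
      fun _ α x => if nb (x.u (x.g 7)) α = 0 then α + 2 ^ x.u (x.g 7) else α - 2 ^ x.u (x.g 7))
    (gather bfN bfN bfN .bfly .bfly (fun _ _ => true) (fun i _ => i) fun i _ => i))

lemma bfC_ok : bfC.ok := by
  have h : BT bfN := (Xr.hi_bt.mul (by fun_prop)).mul (Xr.lo_bt _)
  exact ⟨dup_ok h, pm_ok Xr.hi_bt (by fun_prop) (by fun_prop) (Xr.lo_bt _)
    (by simp only [P2, nb]; fun_prop) (by simp only [B2, nb]; fun_prop),
    gather_ok h h h (PT.const _) (by unfold B1; fun_prop) (by unfold B1; fun_prop)⟩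

lemma xo_ite (j α : ℕ) : (if nb j α = 0 then α + 2 ^ j else α - 2 ^ j) = α ^^^ 1 * 2 ^ j := by
  have h1 := xo_add j α 1 le_rfl
  have h2 := nb_le j α
  rw [pow_succ] at h1
  generalize nb j α = b at *
  interval_cases b <;> simp at h1 ⊢ <;> omega

lemma XA.bf {i i1 : ℕ} (q : XA a P H i 1 i1) :
    Rz X e bfC a P H (rho _ P.j (Cc X.b (ee i))) (3000 * P.N H) := fun x F hx => by
  obtain ⟨g, hs, hD, g0, g1, g2, g3, g4, g5, g6, g7, g8⟩ := q
  have hlt := g.lt
  have hpos := g.pos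
  have hlam := g.lam
  have hi : i < P.d := hD
  have eH : Xr.hi a = H * P.Λ ^ (P.d - 1 - i) := by
    rw [Xr.hi, g0, g4, g3, g1, g2, Nat.sub_right_comm]
  have e1 : Xr.lo 1 a = P.Λ ^ i * P.Mz ^ P.d * P.L := by rw [Xr.lo, g4, g1, g5, g3, g6]
  have eN : Xr.hi a * a.g 4 * Xr.lo 1 a = P.N H := by rw [eH, e1, g4, Ly.N, shape_split hi]
  have eN' : bfN a = P.N H := eN
  have hs' := hs.mono (show 10 ≤ 30 by norm_num)
  obtain ⟨z, h1, h2⟩ := pm_acts (X := X) (e := e) (a := a) (H := Xr.hi) (A := fun x => x.g 4)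
    (A' := fun x => x.g 4) (L := Xr.lo 1) (p := fun _ α x => decide (nb (x.u (x.g 7)) α = 0))
    (θ := fun _ α x => if nb (x.u (x.g 7)) α = 0 then α + 2 ^ x.u (x.g 7)
      else α - 2 ^ x.u (x.g 7)) hs' (eN ▸ hpos) (by simp only [eN]; omega)
    (fun _ _ α hα => by
      simp only [g7, g4, xo_ite] at hα ⊢
      exact xo_lt g.dv' le_rfl hα)
    (fun _ _ α β hαβ _ hp => by
      simp only [g7, decide_eq_decide] at hp ⊢
      have h3 := bit_split P.j α
      have h4 := nb_le P.j α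
      by_cases c : nb P.j α = 0
      · rw [if_pos c, if_pos (hp.1 c)]; omega
      · rw [if_neg c, if_neg fun h => c (hp.2 h)]
        rw [show nb P.j α = 1 by omega] at h3
        omega) x
  have h3 := gather_acts (X := X) (e := e) (a := a) (n1 := bfN) (n2 := bfN) (n' := bfN)
    (o1 := .bfly) (o2 := .bfly) (p := fun _ _ => true) (φ := fun i _ => i) (ψ := fun i _ => i) hs'
    (by rw [eN']; omega) (eN' ▸ hpos) (eN' ▸ hpos) (fun _ h _ => h) (fun _ h _ => h)
    (fun _ _ h _ _ _ => h.le) (fun _ _ h _ _ _ => h.le) x z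
  have h4 := dup_acts (X := X) (e := e) (n := bfN) hs' (by rw [eN']; omega) (arr (P.N H) x)
    (by simp [eN'])
  simp only [eN] at h1
  rw [eN'] at h3 h4
  refine ⟨_, (h4.seq ((h1.frame _).seq h3)).mono (by simp [BOp.mc]; omega),
    fun ⟨h, v, w, l⟩ ht => ?_⟩
  obtain ⟨hh, hv, hw, hl⟩ := id ht
  simp only at hh hv hw hl
  obtain ⟨h', hh', l', hl', e⟩ := lx_split (i := i) (v := v) (w := w) (Λ := P.Λ) (Mz := P.Mz) hi hh
    (fun t ht => by have := hv t ht; omega) (fun t ht => by have := hw t ht; omega) hl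
  have h5 := h2 h' (eH ▸ hh') (v i) (by have := hv i hi; simp only [g4]; omega) l' (e1 ▸ hl')
  simp only [g4, g7, e1, xo_ite, ← e, update_eq_self] at h5
  have e2 : fl P.j (ee i) v = update v i (v i ^^^ 1 * 2 ^ P.j) := by
    funext t
    by_cases c : t = i
    · subst c; simp [fl, ee, ZMod.val_one]
    · simp [fl, ee, c]
  have h6 := hx (h, fl P.j (ee i) v, w, l)
    ⟨hh, fun t ht => xo_lt g.dv (val_le _) (hv t ht), hw, hl⟩
  have h7 := hx _ ht
  simp only [Ly.ix] at h6 h7 ⊢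
  rw [cond_true, rv_bfly, h5, ← e2, h6, h7, rho_Cc]
  simp only [LinearMap.add_apply, LinearMap.smul_apply, Module.End.one_apply, Pi.add_apply,
    Pi.smul_apply, smul_eq_mul, pull, LinearMap.funLeft_apply]
  ring

end Vale.Agent.P338
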