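import Vale.Agent.P338.Trans
import Vale.Agent.P338.Util

/-! Simultaneous exclusive-or on a block of fields, with dirty ancilla digits. -/

namespace Vale.Agent.P338

open Function Finset Vale.Agent.PT Vale.Agent.P320

variable {X : Cx} {e : Cmd} {a : Ar}

def sh (A L i F : ℕ) : ℕ := ix A L (i / L / A) ((i / L % A + F) % A) (i % L)

lemma ix_self (A L i : ℕ) : ix A L (i / L / A) (i / L % A) (i % L) = i := by
  rw [ix, Nat.div_add_mod', Nat.div_add_mod']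

lemma sh_add {A L i F : ℕ} (h : i / L % A + F < A) : sh A L i F = i + F * L := by
  conv_rhs => rw [← ix_self A L i]
  rw [sh, Nat.mod_eq_of_lt h, ix, ix]; ring

lemma sh_ix {A L h α l : ℕ} (F : ℕ) (h2 : α < A) (h3 : l < L) :
    sh A L (ix A L h α l) F = ix A L h ((α + F) % A) l := by
  rw [sh, ix_top h2 h3, ix_mid h2 h3, ix_mod h3]

lemma sh_sub {A L i F : ℕ} (hL : 0 < L) (h : i / L % A + F < A) :
    sh A L (i + F * L) (A - F) = i := by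
  have h1 : i + F * L = ix A L (i / L / A) (i / L % A + F) (i % L) := by
    rw [← sh_add h, sh, Nat.mod_eq_of_lt h]
  rw [h1, sh_ix _ h (Nat.mod_lt _ hL), show i / L % A + F + (A - F) = i / L % A + A by omega,
    Nat.add_mod_right, Nat.mod_mod, ix_self]

theorem lt_flat {H A L : Ar → ℕ} {f : ℕ → Ar → ℕ} {N : ℕ} (hN : H a * A a * L a = N)
    (hs : Sm 10 a) (h0 : 0 < N) (hn : 6 * N < 2 ^ a.z) (x : ℕ → Rec X.b) :
    ∃ y, Acts X e (lt H A L f) a (arr N x) (arr N y) (2000 * N) ∧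
      ∀ i < N, y i = x (sh (A a) (L a) i (f (i / L a / A a) a)) := by
  subst hN
  obtain ⟨y, h1, h2⟩ := lt_acts (X := X) (e := e) (f := f) hs h0 hn x
  refine ⟨y, h1, fun i hi => ?_⟩
  obtain ⟨h, hh, α, hα, l, hl, rfl⟩ := ix_surj hi
  rw [h2 h hh α hα l hl, sh_ix _ hα hl, ix_top hα hl]

theorem ut_flat {H A M C L : Ar → ℕ} {f : ℕ → Ar → ℕ} {N : ℕ}
    (hN : H a * A a * M a * C a * L a = N) (hs : Sm 30 a) (h0 : 0 < N) (hn : 1000 * N < 2 ^ a.z)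
    (hC : C a ≤ A a) (x : ℕ → Rec X.b) :
    ∃ y, Acts X e (ut H A M C L f) a (arr N x) (arr N y) (tc (C a).size * N) ∧
      ∀ i < N, y i = x (sh (A a) (M a * C a * L a) i (f (i / L a % C a) a)) := by
  subst hN
  obtain ⟨y, h1, h2⟩ := ut_acts (X := X) (e := e) (f := f) hs h0 hn hC x
  refine ⟨y, h1, fun i hi => ?_⟩
  obtain ⟨h, hh, α, hα, μ, hμ, γ, hγ, l, hl, rfl⟩ := ix5_surj hi
  have e1 : ∀ α, ix5 (A a) (M a) (C a) (L a) h α μ γ l =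
      ix (A a) (M a * C a * L a) h α (ix (C a) (L a) μ γ l) := fun α => by
    simp only [ix5, ix]; ring
  rw [h2 h hh α hα μ hμ γ hγ l hl, ix5.eq_1 _ _ _ _ h α, ix_mid hγ hl, ← ix5, e1 α,
    sh_ix _ hα (ix_lt hμ hγ hl), e1]

/-! ### digits -/

lemma hd_split {R n k : ℕ} (h : ℕ) (u : ℕ → ℕ) (hk : k ≤ n) : h * R ^ n + dg R n u =
    (h * R ^ (n - k) + dg R (n - k) fun t => u (k + t)) * R ^ k + dg R k u := by
  obtain ⟨c, rfl⟩ := Nat.exists_eq_add_of_le hk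
  rw [dg_add, Nat.add_sub_cancel_left]; ring

lemma hd_div {R n k h : ℕ} {u : ℕ → ℕ} (hu : ∀ t < n, u t < R) (hk : k ≤ n) :
    (h * R ^ n + dg R n u) / R ^ k = h * R ^ (n - k) + dg R (n - k) fun t => u (k + t) := by
  have := dg_lt (R := R) (d := k) (y := u) fun t ht => hu t (by omega)
  rw [hd_split h u hk, add_comm, Nat.add_mul_div_right _ _ (by omega), Nat.div_eq_of_lt this,
    zero_add]

lemma hd_mod {R n k h : ℕ} {u : ℕ → ℕ} (hu : ∀ t < n, u t < R) (hk : k ≤ n) :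
    (h * R ^ n + dg R n u) % R ^ k = dg R k u := by
  rw [hd_split h u hk, Nat.mul_add_mod_of_lt (dg_lt fun t ht => hu t (by omega))]

lemma hd_digit {R n t h : ℕ} {u : ℕ → ℕ} (hu : ∀ t < n, u t < R) (ht : t < n) :
    (h * R ^ n + dg R n u) / R ^ t % R = u t := by
  have := hd_mod (R := R) (n := n - t) (k := 1) (h := h) (u := fun s => u (t + s))
    (fun s hs => hu _ (by omega)) (by omega)
  rw [hd_div hu ht.le]
  simpa [dg] using this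

def bk (i0 D : ℕ) (δ : ℕ → ℕ) (t : ℕ) : ℕ := if i0 ≤ t ∧ t < i0 + D then δ (t - i0) else 0

lemma bk_in {i0 D t : ℕ} (δ : ℕ → ℕ) (ht : t < D) : bk i0 D δ (i0 + t) = δ t := by
  rw [bk, if_pos (by omega), Nat.add_sub_cancel_left]

lemma bk_out {i0 D t : ℕ} (δ : ℕ → ℕ) (ht : t < i0 ∨ i0 + D ≤ t) : bk i0 D δ t = 0 := by
  rw [bk, if_neg (by omega)]

lemma dg_plus (R d : ℕ) (y y' : ℕ → ℕ) : dg R d (y + y') = dg R d y + dg R d y' := by
  simp [dg, add_mul, sum_add_distrib]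

lemma dg_zero {R d : ℕ} {y : ℕ → ℕ} (h : ∀ t < d, y t = 0) : dg R d y = 0 :=
  sum_eq_zero fun t ht => by rw [h t (mem_range.1 ht), zero_mul]

lemma dg_bk {R d i0 D : ℕ} (δ : ℕ → ℕ) (h : i0 + D ≤ d) :
    dg R d (bk i0 D δ) = dg R D δ * R ^ i0 := by
  obtain ⟨c, rfl⟩ := Nat.exists_eq_add_of_le h
  rw [dg_add, dg_add, dg_zero fun t ht => bk_out δ (Or.inl ht),
    dg_zero (d := c) fun t _ => bk_out δ (Or.inr (by omega)),
    dg_congr fun t ht => bk_in δ ht]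
  simp

section box
variable {d Λ Mz L h l i0 D : ℕ} {v w δ : ℕ → ℕ}

lemma lx_divL (hl : l < L) :
    lx d Λ Mz L h v w l / L = (h * Λ ^ d + dg Λ d v) * Mz ^ d + dg Mz d w := by
  rw [lx, add_comm, Nat.add_mul_div_right _ _ (by omega), Nat.div_eq_of_lt hl, zero_add]

lemma lx_divV (hw : ∀ t < d, w t < Mz) (hl : l < L) (k : ℕ) :
    lx d Λ Mz L h v w l / (Λ ^ k * Mz ^ d * L) = (h * Λ ^ d + dg Λ d v) / Λ ^ k := by
  rw [mul_comm _ L, mul_comm (Λ ^ k), ← Nat.div_div_eq_div_mul, ← Nat.div_div_eq_div_mul,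
    lx_divL hl, hd_div hw le_rfl]
  simp [dg]

lemma lx_blk (hv : ∀ t < d, v t < Λ) (hw : ∀ t < d, w t < Mz) (hl : l < L) (hD : i0 + D ≤ d) :
    lx d Λ Mz L h v w l / (Λ ^ i0 * Mz ^ d * L) % Λ ^ D = dg Λ D fun t => v (i0 + t) := by
  rw [lx_divV hw hl, hd_div hv (by omega), hd_mod (fun t ht => hv _ (by omega)) (by omega)]

lemma lx_addV (hD : i0 + D ≤ d) : lx d Λ Mz L h (v + bk i0 D δ) w l =
    lx d Λ Mz L h v w l + dg Λ D δ * (Λ ^ i0 * Mz ^ d * L) := by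
  rw [lx, lx, dg_plus, dg_bk _ hD]; ring

lemma lx_addW (hD : D ≤ d) :
    lx d Λ Mz L h v (w + bk 0 D δ) l = lx d Λ Mz L h v w l + dg Mz D δ * L := by
  rw [lx, lx, dg_plus, dg_bk _ (by omega)]; ring

lemma ovY (hv : ∀ t < d, v t < Λ) (hw : ∀ t < d, w t < Mz) (hl : l < L) (hD : i0 + D ≤ d)
    (hb : ∀ t < D, v (i0 + t) + δ t < Λ) :
    lx d Λ Mz L h v w l / (Λ ^ i0 * Mz ^ d * L) % Λ ^ D + dg Λ D δ < Λ ^ D := by
  rw [lx_blk hv hw hl hD, ← dg_plus]; exact dg_lt hb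

lemma ovW (hw : ∀ t < d, w t < Mz) (hl : l < L) (hD : D ≤ d) (hb : ∀ t < D, w t + δ t < Mz) :
    lx d Λ Mz L h v w l / L % Mz ^ D + dg Mz D δ < Mz ^ D := by
  rw [lx_divL hl, hd_mod hw hD, ← dg_plus]; exact dg_lt hb

lemma lx_lt {H : ℕ} (hh : h < H) (hv : ∀ t < d, v t < Λ) (hw : ∀ t < d, w t < Mz) (hl : l < L) :
    lx d Λ Mz L h v w l < H * Λ ^ d * Mz ^ d * L :=
  lo_lt (lo_lt (lo_lt hh (dg_lt hv)) (dg_lt hw)) hl

end box

/-! ### bits -/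

def nb (j x : ℕ) : ℕ := x / 2 ^ j % 2

lemma bit_split (j x : ℕ) : x = x / 2 ^ (j + 1) * 2 ^ (j + 1) + nb j x * 2 ^ j + x % 2 ^ j := by
  have h1 := Nat.div_add_mod' x (2 ^ (j + 1))
  have h2 : x % 2 ^ (j + 1) = x % 2 ^ j + 2 ^ j * (x / 2 ^ j % 2) := Nat.mod_pow_succ
  rw [nb]; linarith

lemma xo_div (j x u : ℕ) (hu : u ≤ 1) : (x ^^^ u * 2 ^ j) / 2 ^ (j + 1) = x / 2 ^ (j + 1) := by
  rw [Nat.xor_div_two_pow, Nat.div_eq_of_lt (a := u * 2 ^ j) (by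
    have := Nat.one_le_two_pow (n := j); rw [pow_succ]; nlinarith)]; simp

lemma xo_nb (j x u : ℕ) : nb j (x ^^^ u * 2 ^ j) = (nb j x + u) % 2 := by
  rw [nb, nb, Nat.xor_div_two_pow, Nat.mul_div_cancel _ (by positivity), Nat.xor_mod_two_eq,
    Nat.mod_add_mod]

lemma xo_add (j x u : ℕ) (hu : u ≤ 1) :
    (x ^^^ u * 2 ^ j) + u * nb j x * 2 ^ (j + 1) = x + u * 2 ^ j := by
  have h1 := bit_split j (x ^^^ u * 2 ^ j)
  have h2 := bit_split j x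
  rw [xo_div j x u hu, xo_nb, Nat.xor_mod_two_pow, Nat.mul_mod_left, Nat.xor_zero] at h1
  have h3 : nb j x < 2 := Nat.mod_lt _ two_pos
  generalize nb j x = b at *
  rw [h1, pow_succ] at *
  interval_cases u <;> interval_cases b <;> simp at * <;> omega

lemma xo_lt {j x u Λ0 : ℕ} (hj : 2 ^ (j + 1) ∣ Λ0) (hu : u ≤ 1) (hx : x < Λ0) :
    x ^^^ u * 2 ^ j < Λ0 := by
  obtain ⟨c, rfl⟩ := hj
  rw [mul_comm _ c, ← Nat.div_lt_iff_lt_mul (by positivity)] at hx ⊢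
  rwa [xo_div j x u hu]

lemma nb_add (j x u w : ℕ) : nb j (x + u * 2 ^ j + w * 2 ^ (j + 1)) = (nb j x + u) % 2 := by
  rw [nb, nb, show x + u * 2 ^ j + w * 2 ^ (j + 1) = x + (u + 2 * w) * 2 ^ j by ring,
    Nat.add_mul_div_right _ _ (by positivity)]
  omega

lemma nb_le (j x : ℕ) : nb j x ≤ 1 := Nat.le_of_lt_succ (Nat.mod_lt _ two_pos)

/-! ### the command; arguments `[H, i0, D, d, Λ, Mz, L, j, i1]` -/

namespace Xr

def A (x : Ar) : ℕ := x.g 4 ^ x.u (x.g 2)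
def hi (x : Ar) : ℕ := x.g 0 * x.g 4 ^ (x.u (x.g 3) - x.u (x.g 1) - x.u (x.g 2))
def lo (k : ℕ) (x : Ar) : ℕ := x.g 4 ^ x.u (x.g k) * x.g 5 ^ x.u (x.g 3) * x.g 6
def sgn (s : Bool) (A F : ℕ) : ℕ := cond s (A - F) F
def fb (x : Ar) (c o : ℕ) : ℕ :=
  dg (x.g 4) (x.u (x.g 2)) fun t => nb (x.u (x.g 7)) (c / x.g 4 ^ (o + t) % x.g 4) * 2 ^ x.u (x.g 7)

noncomputable def cU : Option Bool → Cmd
  | none => lt hi A (lo 1) fun _ x => dg (x.g 4) (x.u (x.g 2)) fun _ => 1 * 2 ^ x.u (x.g 7)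
  | some true => lt hi A (lo 1) fun c x => fb x c (x.u (x.g 8) - x.u (x.g 1) - x.u (x.g 2))
  | some false => ut hi A (fun x => x.g 4 ^ (x.u (x.g 1) - x.u (x.g 8) - x.u (x.g 2))) A (lo 8)
      fun c x => fb x c 0

def fz (x : Ar) (c : ℕ) : ℕ :=
  dg (x.g 4) (x.u (x.g 2)) fun t => c / x.g 5 ^ t % x.g 5 * 2 ^ (x.u (x.g 7) + 1)

noncomputable def cZ (s : Bool) : Cmd :=
  ut hi A (fun x => x.g 4 ^ x.u (x.g 1) * x.g 5 ^ (x.u (x.g 3) - x.u (x.g 2)))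
    (fun x => x.g 5 ^ x.u (x.g 2)) (fun x => x.g 6) fun c x => sgn s (A x) (fz x c)

def ub (k : Option Bool) (x : Ar) (V t : ℕ) : ℕ :=
  cond k.isSome (nb (x.u (x.g 7)) (V / x.g 4 ^ (x.u (x.g 8) + t) % x.g 4)) 1

def fc (k : Option Bool) (x : Ar) (V : ℕ) : ℕ :=
  dg (x.g 5) (x.u (x.g 2)) fun t =>
    ub k x V t * (1 - nb (x.u (x.g 7)) (V / x.g 4 ^ (x.u (x.g 1) + t) % x.g 4))

def cC (k : Option Bool) (s : Bool) : Cmd :=
  lt (fun x => x.g 0 * x.g 4 ^ x.u (x.g 3) * x.g 5 ^ (x.u (x.g 3) - x.u (x.g 2)))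
    (fun x => x.g 5 ^ x.u (x.g 2)) (fun x => x.g 6)
    fun c x => sgn s (x.g 5 ^ x.u (x.g 2)) (fc k x (c / x.g 5 ^ (x.u (x.g 3) - x.u (x.g 2))))

lemma A_bt : BT A := by unfold A; fun_prop
lemma hi_bt : BT hi := by unfold hi; fun_prop
lemma lo_bt (k) : BT (lo k) := by unfold lo; fun_prop

end Xr

noncomputable def xr (k : Option Bool) : Cmd :=
  .seq (Xr.cC k true) (.seq (Xr.cZ true) (.seq (Xr.cC k false) (.seq (Xr.cZ false) (Xr.cU k))))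

theorem xr_ok (k : Option Bool) : (xr k).ok := by
  have hC : ∀ s, (Xr.cC k s).ok := fun s => lt_ok (by fun_prop) (by fun_prop) (by fun_prop) (by
    rcases k with _ | k <;> cases s <;>
      simp only [B1, Xr.sgn, Xr.fc, Xr.ub, dg, nb, Option.isSome, cond_true, cond_false] <;>
      fun_prop)
  have hZ : ∀ s, (Xr.cZ s).ok := fun s => ut_ok Xr.hi_bt Xr.A_bt (by fun_prop) (by fun_prop)
    (by fun_prop) (by
      cases s <;> simp only [B1, Xr.sgn, Xr.fz, Xr.A, dg, cond_true, cond_false] <;> fun_prop)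
  refine ⟨hC _, hZ _, hC _, hZ _, ?_⟩
  rcases k with _ | _ | _
  · exact lt_ok Xr.hi_bt Xr.A_bt (Xr.lo_bt _) (by simp only [B1, dg]; fun_prop)
  · exact ut_ok Xr.hi_bt Xr.A_bt (by fun_prop) Xr.A_bt (Xr.lo_bt _)
      (by simp only [B1, Xr.fb, dg, nb]; fun_prop)
  · exact lt_ok Xr.hi_bt Xr.A_bt (Xr.lo_bt _) (by simp only [B1, Xr.fb, dg, nb]; fun_prop)

structure Ly where
  d : ℕ
  Λ : ℕ
  Mz : ℕ
  L : ℕ
  j : ℕ
  Λ0 : ℕ

abbrev Tup := ℕ × (ℕ → ℕ) × (ℕ → ℕ) × ℕ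

namespace Ly

def N (P : Ly) (H : ℕ) : ℕ := H * P.Λ ^ P.d * P.Mz ^ P.d * P.L

structure good (P : Ly) (z H : ℕ) : Prop where
  z50 : 50 ≤ z
  pos : 0 < P.N H
  lt : 1000 * P.N H < 2 ^ z
  d1 : 1 ≤ P.d
  mz : 2 ≤ P.Mz
  dv : 2 ^ (P.j + 1) ∣ P.Λ0
  dv' : 2 ^ (P.j + 1) ∣ P.Λ
  lam : P.Λ0 + P.Mz * 2 ^ (P.j + 1) ≤ P.Λ

def val (P : Ly) (H : ℕ) (t : Tup) : Prop :=
  t.1 < H ∧ (∀ i < P.d, t.2.1 i < P.Λ0) ∧ (∀ i < P.d, t.2.2.1 i + 1 < P.Mz) ∧ t.2.2.2 < P.L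

def ix (P : Ly) (t : Tup) : ℕ := lx P.d P.Λ P.Mz P.L t.1 t.2.1 t.2.2.1 t.2.2.2

namespace good
variable {P : Ly} {z H : ℕ} (g : P.good z H)
include g
lemma jl : P.Mz * 2 ^ (P.j + 1) ≤ P.Λ := by have := g.lam; omega
lemma ml : P.Mz ≤ P.Λ := (Nat.le_mul_of_pos_right _ (by positivity)).trans g.jl
lemma l2 : 2 ≤ P.Λ := g.mz.trans g.ml
lemma H0 : 0 < H := Nat.pos_of_ne_zero fun e => by have := g.pos; simp [N, e] at this
lemma L0 : 0 < P.L := Nat.pos_of_ne_zero fun e => by have := g.pos; simp [N, e] at this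
lemma pN : P.Λ ^ P.d ≤ P.N H := by
  have := g.mz
  exact ((Nat.le_mul_of_pos_left _ g.H0).trans (Nat.le_mul_of_pos_right _ (by positivity))).trans
    (Nat.le_mul_of_pos_right _ g.L0)
lemma laN : P.Λ ≤ P.N H := (Nat.le_self_pow (by have := g.d1; omega) _).trans g.pN
lemma Nz : P.N H < 2 ^ z := by have := g.lt; omega
lemma dN : P.d ≤ P.N H :=
  (Nat.lt_two_pow_self.le.trans (Nat.pow_le_pow_left g.l2 _)).trans g.pN
lemma HN : H ≤ P.N H := by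
  have := g.mz; have := g.l2
  exact ((Nat.le_mul_of_pos_right _ (by positivity)).trans
    (Nat.le_mul_of_pos_right _ (by positivity))).trans (Nat.le_mul_of_pos_right _ g.L0)
lemma LN : P.L ≤ P.N H := by
  have := g.mz; have := g.l2; have := g.H0
  exact Nat.le_mul_of_pos_left _ (by positivity)
lemma j2 : 2 ^ (P.j + 1) ≤ P.Λ := (Nat.le_mul_of_pos_left _ (by have := g.mz; omega)).trans g.jl
lemma jN : P.j ≤ P.N H := by
  have := g.j2.trans g.laN; have := Nat.lt_two_pow_self (n := P.j + 1); omega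
lemma dz : P.d ≤ z := (Nat.pow_le_pow_iff_right (by norm_num)).1
  (((Nat.pow_le_pow_left g.l2 _).trans g.pN).trans g.Nz.le)
lemma jz : P.j ≤ z := Nat.le_of_succ_le ((Nat.pow_le_pow_iff_right (by norm_num)).1
  ((g.j2.trans g.laN).trans g.Nz.le))
lemma sm {i0 D i1 : ℕ} (h0 : i0 ≤ P.d) (hD : D ≤ P.d) (h1 : i1 ≤ P.d) :
    Sm 30 ⟨z, [H, i0, D, P.d, P.Λ, P.Mz, P.L, P.j, i1]⟩ := by
  have := g.Nz; have := g.dN; have := g.HN; have := g.laN; have := g.ml; have := g.LN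
  have := g.jN; have := g.z50
  refine ⟨by simp; omega, ?_⟩
  simp only [List.mem_cons, List.not_mem_nil, or_false, forall_eq_or_imp, forall_eq]
  omega
end good

end Ly

/-- control bits -/
def uf (k : Option Bool) (j i1 : ℕ) (v : ℕ → ℕ) (t : ℕ) : ℕ := cond k.isSome (nb j (v (i1 + t))) 1

lemma uf_le (k j i1 v t) : uf k j i1 v t ≤ 1 := by
  unfold uf; cases k.isSome <;> simp [nb_le]

def xv (k : Option Bool) (j i0 D i1 : ℕ) (v : ℕ → ℕ) (t : ℕ) : ℕ :=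
  v t ^^^ bk i0 D (uf k j i1 v) t * 2 ^ j

structure XA (a : Ar) (P : Ly) (H i0 D i1 : ℕ) : Prop where
  g : P.good a.z H
  hs : Sm 30 a
  hD : i0 + D ≤ P.d
  g0 : a.g 0 = H
  g1 : a.u (a.g 1) = i0
  g2 : a.u (a.g 2) = D
  g3 : a.u (a.g 3) = P.d
  g4 : a.g 4 = P.Λ
  g5 : a.g 5 = P.Mz
  g6 : a.g 6 = P.L
  g7 : a.u (a.g 7) = P.j
  g8 : a.u (a.g 8) = i1

variable {P : Ly} {H i0 D i1 : ℕ}

lemma XA.mk' {z : ℕ} (g : P.good z H) (hD : i0 + D ≤ P.d) (h1 : i1 ≤ P.d) :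
    XA ⟨z, [H, i0, D, P.d, P.Λ, P.Mz, P.L, P.j, i1]⟩ P H i0 D i1 := by
  have := g.dz
  exact ⟨g, g.sm (by omega) (by omega) h1, hD, rfl, Ar.u_eq _ (show i0 ≤ z by omega),
    Ar.u_eq _ (show D ≤ z by omega), Ar.u_eq _ g.dz, rfl, rfl, rfl, Ar.u_eq _ g.jz,
    Ar.u_eq _ (show i1 ≤ z by omega)⟩

lemma XA.cC (q : XA a P H i0 D i1) (k : Option Bool) (s : Bool) (x : ℕ → Rec X.b) :
    ∃ y, Acts X e (Xr.cC k s) a (arr (P.N H) x) (arr (P.N H) y)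
      (2000 * P.N H) ∧ ∀ i < P.N H, y i = x (sh (P.Mz ^ D) P.L i (Xr.sgn s (P.Mz ^ D)
        (Xr.fc k a (i / P.L / P.Mz ^ D / P.Mz ^ (P.d - D))))) := by
  obtain ⟨g, hs, hD, g0, g1, g2, g3, g4, g5, g6, g7, g8⟩ := q
  have hlt := g.lt
  have hpos := g.pos
  have hml := g.ml
  have hlam := g.lam
  have eA : Xr.A a = P.Λ ^ D := by rw [Xr.A, g4, g2]
  have eH : Xr.hi a = H * P.Λ ^ (P.d - i0 - D) := by rw [Xr.hi, g0, g4, g3, g1, g2]
  have e1 : Xr.lo 1 a = P.Λ ^ i0 * P.Mz ^ P.d * P.L := by rw [Xr.lo, g4, g1, g5, g3, g6]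
  have e8 : Xr.lo 8 a = P.Λ ^ i1 * P.Mz ^ P.d * P.L := by rw [Xr.lo, g4, g8, g5, g3, g6]
  have pd : P.Λ ^ P.d = P.Λ ^ (P.d - i0 - D) * P.Λ ^ D * P.Λ ^ i0 := by
    rw [← pow_add, ← pow_add]; congr 1; omega
  have pm : P.Mz ^ P.d = P.Mz ^ (P.d - D) * P.Mz ^ D := by rw [← pow_add]; congr 1; omega
  have hs' := hs.mono (show 10 ≤ 30 by norm_num)
  have := lt_flat (X := X) (e := e) (a := a) (N := P.N H)
    (H := fun x => x.g 0 * x.g 4 ^ x.u (x.g 3) * x.g 5 ^ (x.u (x.g 3) - x.u (x.g 2)))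
    (A := fun x => x.g 5 ^ x.u (x.g 2)) (L := fun x => x.g 6)
    (f := fun c x => Xr.sgn s (x.g 5 ^ x.u (x.g 2))
      (Xr.fc k x (c / x.g 5 ^ (x.u (x.g 3) - x.u (x.g 2)))))
    (by simp only [g0, g2, g3, g4, g5, g6, Ly.N]; rw [pm]; simp only [pm.symm]; rw [pm]; ring)
    hs' hpos (by omega) x
  simpa only [g2, g3, g5, g6, Xr.cC] using this

lemma XA.cZ (q : XA a P H i0 D i1) (s : Bool) (x : ℕ → Rec X.b) :
    ∃ y, Acts X e (Xr.cZ s) a (arr (P.N H) x) (arr (P.N H) y)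
      (tc (P.Λ ^ D).size * P.N H) ∧ ∀ i < P.N H, y i = x (sh (P.Λ ^ D)
        (P.Λ ^ i0 * P.Mz ^ P.d * P.L) i (Xr.sgn s (P.Λ ^ D)
          (Xr.fz a (i / P.L % P.Mz ^ D)))) := by
  obtain ⟨g, hs, hD, g0, g1, g2, g3, g4, g5, g6, g7, g8⟩ := q
  have hlt := g.lt
  have hpos := g.pos
  have hml := g.ml
  have hlam := g.lam
  have eA : Xr.A a = P.Λ ^ D := by rw [Xr.A, g4, g2]
  have eH : Xr.hi a = H * P.Λ ^ (P.d - i0 - D) := by rw [Xr.hi, g0, g4, g3, g1, g2]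
  have e1 : Xr.lo 1 a = P.Λ ^ i0 * P.Mz ^ P.d * P.L := by rw [Xr.lo, g4, g1, g5, g3, g6]
  have e8 : Xr.lo 8 a = P.Λ ^ i1 * P.Mz ^ P.d * P.L := by rw [Xr.lo, g4, g8, g5, g3, g6]
  have pd : P.Λ ^ P.d = P.Λ ^ (P.d - i0 - D) * P.Λ ^ D * P.Λ ^ i0 := by
    rw [← pow_add, ← pow_add]; congr 1; omega
  have pm : P.Mz ^ P.d = P.Mz ^ (P.d - D) * P.Mz ^ D := by rw [← pow_add]; congr 1; omega
  have hs' := hs.mono (show 10 ≤ 30 by norm_num)
  have tm : tc (P.Mz ^ D).size ≤ tc (P.Λ ^ D).size :=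
    tc_sub.1 (Nat.size_le_size (Nat.pow_le_pow_left hml _))
  obtain ⟨y, h2, h3⟩ := ut_flat (X := X) (e := e) (a := a) (N := P.N H) (H := Xr.hi) (A := Xr.A)
    (M := fun x => x.g 4 ^ x.u (x.g 1) * x.g 5 ^ (x.u (x.g 3) - x.u (x.g 2)))
    (C := fun x => x.g 5 ^ x.u (x.g 2)) (L := fun x => x.g 6)
    (f := fun c x => Xr.sgn s (Xr.A x) (Xr.fz x c))
    (by simp only [eA, eH, g1, g2, g3, g4, g5, g6]; rw [Ly.N, pd]; conv_rhs => rw [pm]
        ring) hs hpos (by omega) (by simp only [eA, g5, g2]; gcongr) x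
  simp only [eA, g1, g2, g3, g4, g5, g6] at h2 h3
  rw [mul_assoc (P.Λ ^ i0), ← pm] at h3
  exact ⟨y, h2.mono (Nat.mul_le_mul_right _ tm), h3⟩

lemma XA.cU (q : XA a P H i0 D i1) (k : Option Bool)
    (hT : k = some true → i0 + D ≤ i1 ∧ i1 + D ≤ P.d) (hF : k = some false → i1 + D ≤ i0)
    (x : ℕ → Rec X.b) : ∃ y, Acts X e (Xr.cU k) a (arr (P.N H) x) (arr (P.N H) y)
      ((tc (P.Λ ^ D).size + 2000) * P.N H) ∧ ∀ h v w l, P.val H (h, v, w, l) →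
        y (P.ix (h, v, w, l)) = x (sh (P.Λ ^ D) (P.Λ ^ i0 * P.Mz ^ P.d * P.L) (P.ix (h, v, w, l))
          (dg P.Λ D fun t => uf k P.j i1 v t * 2 ^ P.j)) := by
  obtain ⟨g, hs, hD, g0, g1, g2, g3, g4, g5, g6, g7, g8⟩ := q
  have hlt := g.lt
  have hpos := g.pos
  have hml := g.ml
  have hlam := g.lam
  have eA : Xr.A a = P.Λ ^ D := by rw [Xr.A, g4, g2]
  have eH : Xr.hi a = H * P.Λ ^ (P.d - i0 - D) := by rw [Xr.hi, g0, g4, g3, g1, g2]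
  have e1 : Xr.lo 1 a = P.Λ ^ i0 * P.Mz ^ P.d * P.L := by rw [Xr.lo, g4, g1, g5, g3, g6]
  have e8 : Xr.lo 8 a = P.Λ ^ i1 * P.Mz ^ P.d * P.L := by rw [Xr.lo, g4, g8, g5, g3, g6]
  have pd : P.Λ ^ P.d = P.Λ ^ (P.d - i0 - D) * P.Λ ^ D * P.Λ ^ i0 := by
    rw [← pow_add, ← pow_add]; congr 1; omega
  have pm : P.Mz ^ P.d = P.Mz ^ (P.d - D) * P.Mz ^ D := by rw [← pow_add]; congr 1; omega
  have hs' := hs.mono (show 10 ≤ 30 by norm_num)
  have eN : Xr.hi a * Xr.A a * Xr.lo 1 a = P.N H := by rw [eA, eH, e1, Ly.N, pd]; ring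
  have bx : ∀ h v w l, P.val H (h, v, w, l) → (∀ t < P.d, v t < P.Λ) ∧ (∀ t < P.d, w t < P.Mz) ∧
      P.ix (h, v, w, l) < P.N H := fun h v w l ⟨a1, a2, a3, a4⟩ => by
    have b1 : ∀ t < P.d, v t < P.Λ := fun t ht => by have := a2 t ht; simp only at this; omega
    have b2 : ∀ t < P.d, w t < P.Mz := fun t ht => by have := a3 t ht; simp only at this; omega
    exact ⟨b1, b2, lx_lt a1 b1 b2 a4⟩
  rcases k with _ | _ | _
  · obtain ⟨y, h2, h3⟩ := lt_flat (X := X) (e := e) (f := fun _ x =>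
      dg (x.g 4) (x.u (x.g 2)) fun _ => 1 * 2 ^ x.u (x.g 7)) eN hs' hpos (by omega) x
    refine ⟨y, h2.mono (by rw [add_mul]; omega), fun h v w l hv => ?_⟩
    rw [h3 _ (bx h v w l hv).2.2, eA, e1, g4, g2, g7]; rfl
  · have h4 := hF rfl
    have pi : P.Λ ^ i0 = P.Λ ^ (i0 - i1 - D) * P.Λ ^ D * P.Λ ^ i1 := by
      rw [← pow_add, ← pow_add]; congr 1; omega
    obtain ⟨y, h2, h3⟩ := ut_flat (X := X) (e := e) (a := a) (N := P.N H) (H := Xr.hi)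
      (A := Xr.A) (M := fun x => x.g 4 ^ (x.u (x.g 1) - x.u (x.g 8) - x.u (x.g 2))) (C := Xr.A)
      (L := Xr.lo 8) (f := fun c x => Xr.fb x c 0)
      (by simp only [eA, eH, e8, g1, g2, g4, g8]; rw [Ly.N, pd, pi]; ring) hs hpos (by omega)
      le_rfl x
    refine ⟨y, h2.mono (by rw [eA, add_mul]; omega), fun h v w l hv => ?_⟩
    obtain ⟨b1, b2, b3⟩ := bx h v w l hv
    rw [h3 _ b3]
    simp only [eA, e8, g1, g2, g4, g7, g8, Xr.fb]
    rw [show P.Λ ^ (i0 - i1 - D) * P.Λ ^ D * (P.Λ ^ i1 * P.Mz ^ P.d * P.L) =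
      P.Λ ^ i0 * P.Mz ^ P.d * P.L by rw [pi]; ring, Ly.ix,
      lx_blk b1 b2 hv.2.2.2 (by omega)]
    congr 2
    refine dg_congr fun t ht => ?_
    rw [zero_add, dg_digit (fun t ht => b1 _ (by omega)) ht]; rfl
  · have h4 := hT rfl
    obtain ⟨y, h2, h3⟩ := lt_flat (X := X) (e := e) (f := fun c x =>
      Xr.fb x c (x.u (x.g 8) - x.u (x.g 1) - x.u (x.g 2))) eN hs' hpos (by omega) x
    refine ⟨y, h2.mono (by rw [add_mul]; omega), fun h v w l hv => ?_⟩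
    obtain ⟨b1, b2, b3⟩ := bx h v w l hv
    rw [h3 _ b3]
    simp only [eA, e1, g1, g2, g4, g7, g8, Xr.fb]
    congr 2
    refine dg_congr fun t ht => ?_
    rw [Ly.ix, lx_divV b2 hv.2.2.2, Nat.div_div_eq_div_mul, Nat.div_div_eq_div_mul, ← pow_add,
      ← pow_add, hd_digit b1 (by omega),
      show i0 + (D + (i1 - i0 - D + t)) = i1 + t by omega]; rfl

theorem XA.xr (q : XA a P H i0 D i1) (k : Option Bool)
    (hT : k = some true → i0 + D ≤ i1 ∧ i1 + D ≤ P.d) (hF : k = some false → i1 + D ≤ i0)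
    (x : ℕ → Rec X.b) :
    ∃ y, Acts X e (xr k) a (arr (P.N H) x)
        (arr (P.N H) y) ((3 * tc (P.Λ ^ D).size + 7000) * P.N H) ∧
      ∀ h v w l, P.val H (h, v, w, l) →
        y (P.ix (h, v, w, l)) = x (P.ix (h, xv k P.j i0 D i1 v, w, l)) := by
  obtain ⟨x1, a1, b1⟩ := q.cC (e := e) k true x
  obtain ⟨x2, a2, b2⟩ := q.cZ (e := e) true x1
  obtain ⟨x3, a3, b3⟩ := q.cC (e := e) k false x2
  obtain ⟨x4, a4, b4⟩ := q.cZ (e := e) false x3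
  obtain ⟨x5, a5, b5⟩ := q.cU (e := e) k hT hF x4
  obtain ⟨g, hs, hD, g0, g1, g2, g3, g4, g5, g6, g7, g8⟩ := q
  have hlt := g.lt
  have hpos := g.pos
  have hml := g.ml
  have hlam := g.lam
  refine ⟨x5, (a1.seq (a2.seq (a3.seq (a4.seq a5)))).mono
    (by rw [add_mul, add_mul, mul_assoc]; omega), fun h v w l hv => ?_⟩
  rw [b5 h v w l hv]
  obtain ⟨hh, hv, hw, hl⟩ := hv
  simp only [Ly.ix] at hh hv hw hl ⊢
  have hp : 0 < 2 ^ P.j := by positivity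
  have hL := g.L0
  set u := uf k P.j i1 v with hu
  set c : ℕ → ℕ := fun t => u t * nb P.j (v (i0 + t)) with hc
  have u1 : ∀ t, u t ≤ 1 := uf_le _ _ _ _
  have c1 : ∀ t, c t ≤ 1 := fun t => mul_le_one₀ (u1 t) (Nat.zero_le _) (nb_le _ _)
  have hw' : ∀ t < P.d, w t < P.Mz := fun t ht => by have := hw t ht; omega
  have hv' : ∀ t < P.d, v t < P.Λ := fun t ht => by have := hv t ht; omega
  have bnd : ∀ t < D, ∀ y < P.Λ0, ∀ u ≤ 1, ∀ w, w + 1 < P.Mz →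
      y + u * 2 ^ P.j + w * 2 ^ (P.j + 1) < P.Λ := fun t _ y hy u hu w hw => by
    have : (w + 1) * 2 ^ (P.j + 1) ≤ P.Mz * 2 ^ (P.j + 1) := by gcongr
    rw [pow_succ] at *
    nlinarith
  have box : ∀ (y δ : ℕ → ℕ) (i R : ℕ), i + D ≤ P.d → (∀ t < P.d, y t < R) →
      (∀ t < D, y (i + t) + δ t < R) → ∀ t < P.d, (y + bk i D δ) t < R :=
    fun y δ i R _ h1 h2 t ht => by
      by_cases c : i ≤ t ∧ t < i + D
      · obtain ⟨s, rfl⟩ := Nat.exists_eq_add_of_le c.1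
        rw [Pi.add_apply, bk_in _ (by omega)]; exact h2 s (by omega)
      · rw [Pi.add_apply, bk_out _ (by omega)]; exact h1 t ht
  -- the five index maps
  set v1 := v + bk i0 D fun t => u t * 2 ^ P.j with hv1
  have o1 : ∀ t < D, v (i0 + t) + u t * 2 ^ P.j < P.Λ := fun t ht => by
    have := bnd t ht _ (hv (i0 + t) (by omega)) _ (u1 t) 0 (by have := g.mz; omega); omega
  have x1' := box v _ i0 _ hD hv' o1
  rw [sh_add (ovY hv' hw' hl hD o1), ← lx_addV hD, ← hv1, b4 _ (lx_lt hh x1' hw' hl)]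
  have fzE : ∀ (v w : ℕ → ℕ), (∀ t < P.d, w t < P.Mz) →
      Xr.fz a (lx P.d P.Λ P.Mz P.L h v w l / P.L % P.Mz ^ D) =
        dg P.Λ D fun t => w t * 2 ^ (P.j + 1) := fun v w hw => by
    rw [Xr.fz, g4, g2, g5, g7, lx_divL hl, hd_mod hw (by omega)]
    exact dg_congr fun t ht => by rw [dg_digit (fun t ht => hw _ (by omega)) ht]
  have fcE : ∀ (v' w : ℕ → ℕ), (∀ t < P.d, v' t < P.Λ) → (∀ t < P.d, w t < P.Mz) →
      (∀ t, t < i0 ∨ i0 + D ≤ t → v' t = v t) →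
      (∀ t < D, nb P.j (v' (i0 + t)) = (nb P.j (v (i0 + t)) + u t) % 2) →
      Xr.fc k a (lx P.d P.Λ P.Mz P.L h v' w l / P.L / P.Mz ^ D / P.Mz ^ (P.d - D)) =
        dg P.Mz D c := fun v' w hv' hw ho hb => by
    rw [Xr.fc, g5, g2, Nat.div_div_eq_div_mul (_ / P.L), ← pow_add, lx_divL hl,
      hd_div hw (by omega), show P.d - (D + (P.d - D)) = 0 by omega]
    refine dg_congr fun t ht => ?_
    have e2 : Xr.ub k a (h * P.Λ ^ P.d + dg P.Λ P.d v') t = u t := by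
      rw [hu, Xr.ub, uf, g7, g4, g8]
      rcases k with _ | _ | _
      · rfl
      · have := hF rfl
        rw [hd_digit hv' (by omega), ho _ (by omega)]
      · have := hT rfl
        rw [hd_digit hv' (by omega), ho _ (by omega)]
    simp only [pow_zero, mul_one, dg, range_zero, sum_empty, add_zero]
    rw [← dg, e2, g7, g4, g1, hd_digit hv' (by omega), hb t ht, hc]
    have h3 := u1 t
    have h4 := nb_le P.j (v (i0 + t))
    simp only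
    generalize nb P.j (v (i0 + t)) = b at *
    generalize u t = b' at *
    interval_cases b <;> interval_cases b' <;> rfl
  have o2 : ∀ t < D, v1 (i0 + t) + w t * 2 ^ (P.j + 1) < P.Λ := fun t ht => by
    rw [hv1, Pi.add_apply, bk_in _ ht]
    exact bnd t ht _ (hv _ (by omega)) _ (u1 t) _ (hw t (by omega))
  set v2 := v1 + bk i0 D fun t => w t * 2 ^ (P.j + 1) with hv2
  have x2' := box v1 _ i0 _ hD x1' o2
  rw [fzE _ _ hw', Xr.sgn, cond_false, sh_add (ovY x1' hw' hl hD o2), ← lx_addV hD, ← hv2,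
    b3 _ (lx_lt hh x2' hw' hl), fcE v2 w x2' hw'
      (fun t ht => by simp only [hv2, hv1, Pi.add_apply, bk_out _ ht, add_zero])
      (fun t ht => by simp only [hv2, hv1, Pi.add_apply, bk_in _ ht, nb_add])]
  have o3 : ∀ t < D, w t + c t < P.Mz := fun t ht => by
    have := hw t (by omega); have := c1 t; omega
  set w1 := w + bk 0 D c with hw1
  have x3' := box w c 0 _ (by omega) hw' (by simpa using o3)
  have w1E : ∀ t < D, w1 t = w t + c t := fun t ht => by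
    have := bk_in (i0 := 0) c ht
    rw [zero_add] at this
    rw [hw1, Pi.add_apply, this]
  have x4 : ∀ t < P.d, xv k P.j i0 D i1 v t < P.Λ0 := fun t ht =>
    xo_lt g.dv (by unfold bk; split_ifs; exacts [u1 _, zero_le_one]) (hv t ht)
  have x4' : ∀ t < P.d, xv k P.j i0 D i1 v t < P.Λ := fun t ht => by have := x4 t ht; omega
  have e3 : v2 = xv k P.j i0 D i1 v + bk i0 D fun t => w1 t * 2 ^ (P.j + 1) := by
    funext t
    by_cases ct : i0 ≤ t ∧ t < i0 + D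
    · obtain ⟨s, rfl⟩ := Nat.exists_eq_add_of_le ct.1
      have hs : s < D := by omega
      have := xo_add P.j (v (i0 + s)) (u s) (u1 s)
      simp only [hv2, hv1, Pi.add_apply, xv, bk_in _ hs, w1E s hs, ← hu, hc, add_mul] at this ⊢
      omega
    · have ct' : t < i0 ∨ i0 + D ≤ t := by omega
      simp [hv2, hv1, xv, bk_out _ ct']
  have o4 : ∀ t < D, xv k P.j i0 D i1 v (i0 + t) + w1 t * 2 ^ (P.j + 1) < P.Λ := fun t ht => by
    have := x2' (i0 + t) (by omega)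
    rwa [← hv2, e3, Pi.add_apply, bk_in _ ht] at this
  rw [Xr.sgn, cond_false, sh_add (ovW hw' hl (by omega) o3), ← lx_addW (by omega), ← hw1,
    b2 _ (lx_lt hh x2' x3' hl), fzE _ _ x3', Xr.sgn, cond_true, ← hv2, ← hw1, e3, lx_addV hD,
    sh_sub (by have := g.l2; have := g.mz; positivity) (ovY x4' x3' hl hD o4),
    b1 _ (lx_lt hh x4' x3' hl), fcE _ w1 x4' x3'
      (fun t ht => by simp [xv, bk_out _ ht])
      (fun t ht => by simp only [xv, bk_in _ ht, xo_nb, hu]),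
    Xr.sgn, cond_true, lx_addW (by omega), sh_sub hL (ovW hw' hl (by omega) o3)]

end Vale.Agent.P338
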