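import Vale.Agent.P338.MainA
import Vale.Agent.P338.Comp

/-! The fast multiplier and the failure of the `n log n` lower bound. -/

namespace Vale.Agent.P338

theorem fast_mul : ∃ M : TM, Multiplies M ∧ ∃ δ : ℝ, 0 < δ ∧ ∃ (C : ℝ) (N : ℕ), ∀ n : ℕ, N ≤ n →
    (T M n : ℝ) ≤ C * n * Real.log n ^ (1 - δ) := Mn.fast_of base_mul compile

theorem not_lower_bound : ¬ ∀ M : TM, Multiplies M →
    ∃ c : ℝ, 0 < c ∧ ∃ N : ℕ, 2 ≤ N ∧ ∀ n : ℕ, N ≤ n → c * n * Real.log n ≤ T M n :=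
  Mn.not_of fast_mul

end Vale.Agent.P338
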