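import Vale.Agent.P338.Top

/-! Bootstrapping and asymptotics. -/

namespace Vale.Agent.P338

open Function Finset Filter Vale.Agent.PT Vale.Agent.P320

namespace Mn

/-! ### Power bounds -/

def Pw (f : ℕ → ℕ) (a : ℝ) : Prop := ∃ C : ℝ, 0 ≤ C ∧ ∀ k, (f k : ℝ) ≤ C * ((k : ℝ) + 1) ^ a

lemma one_le (k : ℕ) : (1 : ℝ) ≤ (k : ℝ) + 1 := by
  have : (0 : ℝ) ≤ k := by positivity
  linarith

namespace Pw
variable {f g : ℕ → ℕ} {a b : ℝ}

lemma mono (h : Pw f a) (hab : a ≤ b) : Pw f b := by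
  obtain ⟨C, h0, h⟩ := h
  exact ⟨C, h0, fun k => (h k).trans
    (mul_le_mul_of_nonneg_left (Real.rpow_le_rpow_of_exponent_le (one_le k) hab) h0)⟩

lemma of_le (h : Pw g a) (hfg : ∀ k, f k ≤ g k) : Pw f a := by
  obtain ⟨C, h0, h⟩ := h
  exact ⟨C, h0, fun k => le_trans (by exact_mod_cast hfg k) (h k)⟩

lemma add (hf : Pw f a) (hg : Pw g a) : Pw (fun k => f k + g k) a := by
  obtain ⟨C, h0, h⟩ := hf
  obtain ⟨C', h0', h'⟩ := hg
  refine ⟨C + C', by positivity, fun k => ?_⟩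
  push_cast
  rw [add_mul]
  exact add_le_add (h k) (h' k)

lemma mul (hf : Pw f a) (hg : Pw g b) : Pw (fun k => f k * g k) (a + b) := by
  obtain ⟨C, h0, h⟩ := hf
  obtain ⟨C', h0', h'⟩ := hg
  refine ⟨C * C', by positivity, fun k => ?_⟩
  push_cast
  rw [Real.rpow_add (by positivity), mul_mul_mul_comm]
  exact mul_le_mul (h k) (h' k) (by positivity) (by positivity)

lemma const (c : ℕ) : Pw (fun _ => c) 0 := ⟨c, by positivity, fun k => by simp⟩

lemma id' : Pw (fun k => k) 1 := ⟨1, zero_le_one, fun k => by simp⟩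

lemma ev (h : Pw f a) (ha : a < 1) (K : ℕ) : ∀ᶠ k in atTop, K * f k ≤ k := by
  obtain ⟨C, h0, h⟩ := h
  have h1 : Tendsto (fun k : ℕ => ((k : ℝ) + 1) ^ (1 - a)) atTop atTop :=
    (tendsto_rpow_atTop (by linarith)).comp
      (tendsto_atTop_add_const_right _ _ tendsto_natCast_atTop_atTop)
  filter_upwards [h1.eventually_ge_atTop (2 * (K * C)), eventually_ge_atTop 1] with k hk hk1
  have h2 : ((k : ℝ) + 1) ^ (1 - a) * ((k : ℝ) + 1) ^ a = k + 1 := by
    rw [← Real.rpow_add (by positivity)]; simp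
  have h3 : (1 : ℝ) ≤ k := by exact_mod_cast hk1
  have h4 : (0 : ℝ) ≤ ((k : ℝ) + 1) ^ a := by positivity
  have h5 := mul_le_mul_of_nonneg_right hk h4
  have h6 := mul_le_mul_of_nonneg_left (h k) (show (0 : ℝ) ≤ K by positivity)
  have : (K : ℝ) * f k ≤ k := by nlinarith
  exact_mod_cast this

lemma nat (h : Pw f 1) : ∃ A : ℕ, ∀ k, f k ≤ A * (k + 1) := by
  obtain ⟨C, h0, h⟩ := h
  refine ⟨⌈C⌉₊, fun k => ?_⟩
  have h1 := h k
  rw [Real.rpow_one] at h1
  have h2 := mul_le_mul_of_nonneg_right (Nat.le_ceil C) (show (0 : ℝ) ≤ k + 1 by positivity)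
  exact_mod_cast h1.trans h2

end Pw

lemma sub_pw {f : ℕ → ℕ} (h : Sub f) : ∃ δ : ℝ, 0 < δ ∧ δ < 1 ∧ Pw f (1 - δ) := by
  obtain ⟨-, C, δ, h0, h1, h⟩ := h
  refine ⟨δ, h0, h1, max C 0, le_max_right _ _, fun k => (h k).trans ?_⟩
  exact mul_le_mul_of_nonneg_right (le_max_left _ _) (by positivity)

lemma sub_lin {f : ℕ → ℕ} (h : Sub f) : ∃ A : ℕ, ∀ k, f k ≤ A * (k + 1) := by
  obtain ⟨δ, h0, -, h⟩ := sub_pw h
  exact (h.mono (by linarith)).nat

lemma pow_size_le (k : ℕ) : 2 ^ k.size ≤ 2 * k + 1 := by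
  rcases Nat.eq_zero_or_pos k with rfl | hk
  · simp
  · have h1 : 0 < k.size := Nat.size_pos.2 hk
    have h2 : 2 ^ (k.size - 1) ≤ k := Nat.lt_size.1 (by omega)
    obtain ⟨j, hj⟩ : ∃ j, k.size = j + 1 := ⟨k.size - 1, by omega⟩
    rw [hj] at h2 ⊢
    rw [Nat.add_sub_cancel] at h2
    rw [pow_succ]
    omega

lemma size_le_log (k : ℕ) : (k.size : ℝ) ≤ 2 + 2 * Real.log (k + 1) := by
  have h1 : ((2 : ℝ)) ^ k.size ≤ 2 * (k + 1) := by
    have : 2 ^ k.size ≤ 2 * (k + 1) := (pow_size_le k).trans (by omega)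
    exact_mod_cast this
  have h2 := Real.log_le_log (by positivity) h1
  rw [Real.log_pow, Real.log_mul (by norm_num) (by positivity)] at h2
  have h3 := Real.log_two_gt_d9
  have h4 := Real.log_two_lt_d9
  have h5 : (0 : ℝ) ≤ k.size := by positivity
  nlinarith

lemma pw_size {ε : ℝ} (hε : 0 < ε) : Pw Nat.size ε := by
  refine ⟨2 + 2 / ε, by positivity, fun k => (size_le_log k).trans ?_⟩
  have h1 := Real.log_le_rpow_div (x := (k : ℝ) + 1) (by positivity) hε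
  have h2 : 1 ≤ ((k : ℝ) + 1) ^ ε := Real.one_le_rpow (one_le k) hε.le
  have h3 : (2 + 2 / ε) * ((k : ℝ) + 1) ^ ε = 2 * ((k : ℝ) + 1) ^ ε + 2 * (((k : ℝ) + 1) ^ ε / ε) := by
    ring
  linarith

lemma pw_root {r : ℕ} (hr : 0 < r) : Pw (fun k => 2 ^ (k.size / r)) (r : ℝ)⁻¹ := by
  refine ⟨2, by norm_num, fun k => ?_⟩
  have h1 : (2 ^ (k.size / r)) ^ r ≤ 2 ^ r * (k + 1) := by
    rw [← pow_mul]
    refine (Nat.pow_le_pow_right (by norm_num) (Nat.div_mul_le_self _ _)).trans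
      ((pow_size_le k).trans ?_)
    have : 2 ^ 1 ≤ 2 ^ r := Nat.pow_le_pow_right (by norm_num) hr
    nlinarith
  have h2 : (((2 ^ (k.size / r) : ℕ) : ℝ)) ^ r ≤ (2 * ((k : ℝ) + 1) ^ (r : ℝ)⁻¹) ^ r := by
    rw [mul_pow, Real.rpow_inv_natCast_pow (by positivity) hr.ne']
    exact_mod_cast h1
  exact le_of_pow_le_pow_left₀ hr.ne' (by positivity) h2

lemma root_le {r : ℕ} (hr : 0 < r) (k : ℕ) :
    ((k : ℝ) + 1) ^ (r : ℝ)⁻¹ ≤ 2 * (2 ^ (k.size / r) : ℕ) := by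
  have h1 : k + 1 ≤ (2 * 2 ^ (k.size / r)) ^ r := by
    rw [← pow_succ', ← pow_mul]
    refine (Nat.succ_le_of_lt (Nat.lt_size_self k)).trans (Nat.pow_le_pow_right (by norm_num) ?_)
    have := Nat.lt_div_mul_add (a := k.size) hr
    rw [Nat.succ_mul]
    omega
  refine le_of_pow_le_pow_left₀ hr.ne' (by positivity) ?_
  rw [Real.rpow_inv_natCast_pow (by positivity) hr.ne']
  exact_mod_cast h1

lemma size_tendsto : Tendsto Nat.size atTop atTop :=
  tendsto_atTop.2 fun K => (eventually_ge_atTop (2 ^ K)).mono fun _ hk => (Nat.lt_size.2 hk).le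

/-! ### The improvement step -/

def Fast (g : ℕ → ℕ) : Prop :=
  ∃ (p : Pg Reg Sym) (T : ℕ → ℕ) (C : ℕ), IsMul p T ∧ ∀ᶠ n in atTop, T n ≤ C * n * g n.size

lemma Fast.mono {g g' : ℕ → ℕ} (h : Fast g) (c : ℕ) (hg : ∀ᶠ k in atTop, g k ≤ c * g' k) :
    Fast g' := by
  obtain ⟨p, T, C, hp, h⟩ := h
  refine ⟨p, T, C * c, hp, ?_⟩
  filter_upwards [h, size_tendsto.eventually hg] with n h1 h2
  refine h1.trans ((Nat.mul_le_mul_left _ h2).trans (le_of_eq ?_))
  ring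

def CompS : Prop := ∀ (c : Cmd) (_ : c.ok) (zf bf : ℕ → ℕ) (_ : PT Bool zf) (_ : BT bf)
    (q : Pg Reg Sym) (Tq : ℕ → ℕ) (_ : IsMul q Tq),
    ∃ C D : ℕ, ∀ k0 : ℕ, ∃ p : Pg Reg Sym, ∀ T : ℕ → ℕ,
      (∀ n, n.size < k0 → Tq n + C * (n + 1) ≤ T n) →
      (∀ n, k0 ≤ n.size → ∃ μ σ t : ℕ,
        Sm 0 ⟨zf n.size, [n.size]⟩ ∧ C * (zf n.size + 1) ^ D ≤ bf n.size ∧
        Tq (10 * bf n.size) ≤ μ * bf n.size ∧
        C * (zf n.size + bf n.size + 1) ^ D ≤ σ * bf n.size ∧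
        MulDo ⟨bf n.size, μ, σ⟩ c ⟨zf n.size, [n.size]⟩ n t ∧
        C * ((t + 1) * bf n.size + n) ≤ T n) →
      IsMul p T

noncomputable def XF (eF g : ℕ → ℕ) (k : ℕ) : ℕ :=
  k / LL k (eF k) * (tc (4 * LL k (eF k)) + 1) +
    LL k (eF k) * (cc k * LL k (eF k) + g (35 * LL k (eF k)) + 1)

theorem improve (hC : CompS) {eF g : ℕ → ℕ} (he : PT Bool eF) (hg : Monotone g) (hF : Fast g)
    (h1 : Tendsto eF atTop atTop) (h2 : ∀ K, ∀ᶠ k in atTop, K * LL k (eF k) ≤ k) :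
    Fast (XF eF g) := by
  obtain ⟨q, Tq, Cq, hq, hT⟩ := hF
  obtain ⟨N, hT⟩ := eventually_atTop.1 hT
  obtain ⟨C, D, hc⟩ := hC (top eF) (top_ok he) zF (fun k => bF k (eF k)) zF_pt
    (bF_bt PT.id' he) q Tq hq
  obtain ⟨K, hK⟩ := top_mul
  obtain ⟨Kp, hKp⟩ := par_ok
  obtain ⟨k0, hk0⟩ := eventually_atTop.1 ((h1.eventually_ge_atTop (Kp + D + 1)).and
    ((h2 (Kp + 65 + C + 38 * D)).and (eventually_ge_atTop (C + N + 201))))
  obtain ⟨p, hp⟩ := hc k0
  refine ⟨p, fun n => if n.size < k0 then Tq n + C * (n + 1) else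
    C * (K * (10 * Cq + 2) + 1) * n * XF eF g n.size, C * (K * (10 * Cq + 2) + 1),
    hp _ (fun n hn => by rw [if_pos hn]) fun n hn => ?_, ?_⟩
  swap
  · filter_upwards [size_tendsto.eventually_ge_atTop k0] with n hn
    rw [if_neg (by omega)]
  obtain ⟨a1, a2, a3⟩ := hk0 _ hn
  have hP : Par n.size (eF n.size) := hKp _ _ (by omega) (by omega)
    ((Nat.mul_le_mul_right _ (by omega)).trans a2)
  obtain ⟨t, ht1, ht2⟩ := hK eF he n hP (10 * Cq * g (35 * LL n.size (eF n.size)))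
    (C * (zF n.size + bF n.size (eF n.size) + 1) ^ D)
  have hn1 : 2 ^ (n.size - 1) ≤ n := Nat.lt_size.1 (by omega)
  have b1 := hP.blo
  have b2 := hP.bhi
  have b3 := hP.kb
  have b4 := hP.L1
  have b5 : n.size + 1 ≤ 2 ^ n.size.size := Nat.lt_size_self _
  refine ⟨_, _, t, ⟨by simp [zF], fun x hx => ?_⟩, ?_, ?_, Nat.le_mul_of_pos_right _ (by omega),
    ht1, ?_⟩
  · rw [List.mem_singleton.1 hx]
    exact Nat.lt_two_pow_self.trans_le (Nat.pow_le_pow_right (by norm_num) (by simp [zF]))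
  · refine le_trans ?_ b1
    calc C * (zF n.size + 1) ^ D ≤ (n.size + 1) * ((n.size + 1) ^ 2) ^ D := by
          refine Nat.mul_le_mul (by omega) (Nat.pow_le_pow_left ?_ _)
          unfold zF
          nlinarith
      _ = (n.size + 1) ^ (2 * D + 1) := by rw [← pow_mul, pow_succ']
      _ ≤ (2 ^ n.size.size) ^ (4 * eF n.size) :=
          (Nat.pow_le_pow_right (by omega) (by omega)).trans (Nat.pow_le_pow_left b5 _)
      _ = 2 ^ (4 * LL n.size (eF n.size)) := by rw [← pow_mul, LL]; congr 1; ring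
  · refine (hT _ (by omega)).trans ?_
    have h3 : (10 * bF n.size (eF n.size)).size ≤ 35 * LL n.size (eF n.size) := by
      rw [Nat.size_le]
      calc 10 * bF n.size (eF n.size) < 2 ^ 4 * 2 ^ (30 * LL n.size (eF n.size)) := by omega
        _ = 2 ^ (4 + 30 * LL n.size (eF n.size)) := by rw [pow_add]
        _ ≤ _ := Nat.pow_le_pow_right (by norm_num) (by omega)
    refine (Nat.mul_le_mul_left _ (hg h3)).trans (le_of_eq ?_)
    ring
  · rw [if_neg (by omega)]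
    simp only [XF]
    generalize LL n.size (eF n.size) = L at *
    generalize bF n.size (eF n.size) = b at *
    have c1 : n.size * 2 ^ (4 * L) * (C * (zF n.size + b + 1) ^ D) * b ≤ n := by
      have d1 : zF n.size + b + 1 ≤ 2 ^ (38 * L) := by
        calc zF n.size + b + 1 ≤ 2 ^ 8 * 2 ^ (30 * L) := by unfold zF; omega
          _ = 2 ^ (8 + 30 * L) := by rw [pow_add]
          _ ≤ _ := Nat.pow_le_pow_right (by norm_num) (by omega)
      have d2 : C ≤ 2 ^ (C * L) := Nat.lt_two_pow_self.le.trans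
        (Nat.pow_le_pow_right (by norm_num) (Nat.le_mul_of_pos_right _ b4))
      calc n.size * 2 ^ (4 * L) * (C * (zF n.size + b + 1) ^ D) * b
          ≤ 2 ^ (30 * L) * 2 ^ (4 * L) * (2 ^ (C * L) * (2 ^ (38 * L)) ^ D) * 2 ^ (30 * L) := by
            gcongr
            omega
        _ = 2 ^ ((64 + C + 38 * D) * L) := by
            rw [← pow_mul, ← pow_add, ← pow_add, ← pow_add, ← pow_add]; congr 1; ring
        _ ≤ 2 ^ (n.size - 1) := by
            refine Nat.pow_le_pow_right (by norm_num) ?_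
            have : (Kp + 65 + C + 38 * D) * L = Kp * L + L + (64 + C + 38 * D) * L := by ring
            omega
        _ ≤ n := hn1
    generalize n.size / L * (tc (4 * L) + 1) = A at *
    generalize cc n.size * L = B at *
    generalize g (35 * L) = G at *
    have c2 : 1 ≤ A + L * (B + G + 1) := by nlinarith [Nat.zero_le (L * (B + G))]
    have c3 : A + L * (B + 10 * Cq * G + 1) ≤ (10 * Cq + 1) * (A + L * (B + G + 1)) := by
      nlinarith [Nat.zero_le (Cq * A), Nat.zero_le (Cq * L * B), Nat.zero_le (Cq * L),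
        Nat.zero_le (L * G)]
    generalize A + L * (B + G + 1) = X at *
    have c4 : n ≤ n * X := Nat.le_mul_of_pos_right _ c2
    have c5 := Nat.mul_le_mul_left n c3
    have c6 := ht2.trans (Nat.mul_le_mul_left K (Nat.add_le_add c5 (c1.trans c4)))
    calc C * ((t + 1) * b + n) ≤ C * (K * (n * ((10 * Cq + 1) * X) + n * X) + n * X) := by
          gcongr
      _ = _ := by ring

/-! ### Three steps -/

lemma size_ev (K : ℕ) : ∀ᶠ k in atTop, K * LL k (Nat.size k) ≤ k :=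
  ((pw_size (ε := 1 / 4) (by norm_num)).mul (pw_size (ε := 1 / 4) (by norm_num))).ev
    (by norm_num) K

lemma step1 (hC : CompS) {D : ℕ} (h : Fast fun k => 2 ^ (D * k)) :
    Fast fun k => 2 ^ ((35 * D + 3) * k.size ^ 2) := by
  obtain ⟨A, hA⟩ := sub_lin tc_sub
  obtain ⟨B, hB⟩ := sub_lin cc_sub
  refine (improve hC (eF := Nat.size) (BT.size BT.id') (fun x y hxy => ?_) h size_tendsto
    size_ev).mono (5 * A + B + 3) ?_
  · exact Nat.pow_le_pow_right (by norm_num) (Nat.mul_le_mul_left _ hxy)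
  filter_upwards [eventually_ge_atTop 1] with k hk
  have h1 : 0 < k.size := Nat.size_pos.2 hk
  have h2 : k + 1 ≤ 2 ^ (k.size * k.size) := (Nat.succ_le_of_lt (Nat.lt_size_self k)).trans
    (Nat.pow_le_pow_right (by norm_num) (Nat.le_mul_of_pos_right _ h1))
  have h3 : 0 < k.size * k.size := by positivity
  simp only [XF, LL, pow_two]
  generalize k.size * k.size = L at *
  have e1 : 2 ^ (D * (35 * L)) = (2 ^ L) ^ (35 * D) := by rw [← pow_mul]; congr 1; ring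
  have e2 : 2 ^ ((35 * D + 3) * L) = (2 ^ L) ^ (35 * D) * (2 ^ L) ^ 3 := by
    rw [← pow_add, ← pow_mul]; congr 1; ring
  have h4 : L ≤ 2 ^ L := Nat.lt_two_pow_self.le
  have h5 : 1 ≤ (2 ^ L) ^ (35 * D) := Nat.one_le_pow _ _ (by positivity)
  have h6 : k / L ≤ 2 ^ L := (Nat.div_le_self _ _).trans (by omega)
  have h7 : tc (4 * L) ≤ A * (5 * 2 ^ L) := (hA _).trans (Nat.mul_le_mul_left _ (by omega))
  have h8 : cc k ≤ B * 2 ^ L := (hB _).trans (Nat.mul_le_mul_left _ h2)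
  rw [e1, e2]
  generalize (2 ^ L) ^ (35 * D) = z at *
  have h9 : 1 ≤ 2 ^ L := by omega
  generalize 2 ^ L = y at *
  have k1 : y ≤ z * y ^ 3 := by
    calc y = 1 * y ^ 1 := by ring
      _ ≤ _ := Nat.mul_le_mul h5 (Nat.pow_le_pow_right h9 (by norm_num))
  have k2 : y ^ 2 ≤ z * y ^ 3 := by
    calc y ^ 2 = 1 * y ^ 2 := by ring
      _ ≤ _ := Nat.mul_le_mul h5 (Nat.pow_le_pow_right h9 (by norm_num))
  have k3 : y ^ 3 ≤ z * y ^ 3 := Nat.le_mul_of_pos_left _ h5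
  have k4 : z * y ≤ z * y ^ 3 := Nat.mul_le_mul_left _ (Nat.le_self_pow (by norm_num) _)
  calc k / L * (tc (4 * L) + 1) + L * (cc k * L + z + 1)
      ≤ y * (A * (5 * y) + 1) + y * (B * y * y + z + 1) := by gcongr
    _ = 5 * A * y ^ 2 + y + B * y ^ 3 + z * y + y := by ring
    _ ≤ 5 * A * (z * y ^ 3) + z * y ^ 3 + B * (z * y ^ 3) + z * y ^ 3 + z * y ^ 3 := by gcongr
    _ = _ := by ring

lemma size_35 (x : ℕ) : (35 * (x * x)).size ≤ 8 * x.size := by
  rcases Nat.eq_zero_or_pos x with rfl | hx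
  · simp
  have h1 : 0 < x.size := Nat.size_pos.2 hx
  have h2 := Nat.lt_size_self x
  rw [Nat.size_le]
  calc 35 * (x * x) < 2 ^ 6 * (2 ^ x.size * 2 ^ x.size) := by nlinarith
    _ = 2 ^ (6 + 2 * x.size) := by ring
    _ ≤ _ := Nat.pow_le_pow_right (by norm_num) (by omega)

lemma pw_mu (E : ℕ) : Pw (fun k => 2 ^ (E * (35 * LL k k.size).size ^ 2)) (1 / 2) := by
  obtain ⟨N, hN⟩ := eventually_atTop.1 (size_ev (2 * (64 * E)))
  have h1 := (Pw.const (2 ^ (64 * E * (N.size * N.size)))).mul (pw_root (r := 2) (by norm_num))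
  refine (h1.mono (by norm_num)).of_le fun k => ?_
  rw [← pow_add]
  refine Nat.pow_le_pow_right (by norm_num) ?_
  have h2 : E * (35 * LL k k.size).size ^ 2 ≤ 64 * E * (k.size.size * k.size.size) := by
    refine (Nat.mul_le_mul_left _ (Nat.pow_le_pow_left (size_35 _) 2)).trans (le_of_eq ?_)
    ring
  refine h2.trans ?_
  rcases le_total N k.size with h3 | h3
  · have h4 := hN _ h3
    simp only [LL, mul_assoc 2] at h4
    omega
  · have h4 := Nat.size_le_size h3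
    exact le_add_right (Nat.mul_le_mul_left _ (Nat.mul_le_mul h4 h4))

lemma div_lin (A k L : ℕ) : k / L * (A * (4 * L + 1) + 1) ≤ (5 * A + 1) * k := by
  rcases Nat.eq_zero_or_pos L with rfl | hL
  · simp
  calc k / L * (A * (4 * L + 1) + 1) ≤ k / L * (A * (5 * L) + L) := by gcongr <;> omega
    _ = (5 * A + 1) * (k / L * L) := by ring
    _ ≤ _ := Nat.mul_le_mul_left _ (Nat.div_mul_le_self _ _)

lemma step2 (hC : CompS) {E : ℕ} (h : Fast fun k => 2 ^ (E * k.size ^ 2)) :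
    Fast fun k => k + 1 := by
  obtain ⟨A, hA⟩ := sub_lin tc_sub
  obtain ⟨δ, h0, h1, hc⟩ := sub_pw cc_sub
  have hL : ∀ ε : ℝ, 0 < ε → Pw (fun k => LL k k.size) ε := fun ε hε =>
    ((pw_size (half_pos hε)).mul (pw_size (half_pos hε))).mono (by linarith)
  have h2 : Pw (XF Nat.size fun k => 2 ^ (E * k.size ^ 2)) 1 := by
    have a1 := ((Pw.const (5 * A + 1)).mul Pw.id').mono (show _ ≤ (1 : ℝ) by norm_num)
    have a2 := ((hL (δ / 2) (by positivity)).mul (hc.mul (hL (δ / 2) (by positivity)))).mono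
      (show _ ≤ (1 : ℝ) by linarith)
    have a3 := ((hL (1 / 2) (by positivity)).mul (pw_mu E)).mono (show _ ≤ (1 : ℝ) by norm_num)
    refine (a1.add ((a2.add a3).add (hL 1 one_pos))).of_le fun k => ?_
    simp only [XF]
    refine Nat.add_le_add (le_trans ?_ (div_lin A k (LL k k.size))) (le_of_eq (by ring))
    have := hA (4 * LL k k.size)
    gcongr
  obtain ⟨c, hc⟩ := h2.nat
  refine (improve hC (eF := Nat.size) (BT.size BT.id') (fun x y hxy => ?_) h size_tendsto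
    size_ev).mono c (Eventually.of_forall hc)
  exact Nat.pow_le_pow_right (by norm_num)
    (Nat.mul_le_mul_left _ (Nat.pow_le_pow_left (Nat.size_le_size hxy) _))

lemma pw_first {r : ℕ} (hr : 0 < r) {δ : ℝ} (h0 : 0 < δ) (h1 : δ < 1) {f : ℕ → ℕ}
    (hf : Pw f (1 - δ)) :
    Pw (fun k => k / LL k (2 ^ (k.size / r)) * (f (4 * LL k (2 ^ (k.size / r))) + 1))
      (1 - δ * (r : ℝ)⁻¹) := by
  obtain ⟨C, hC, hf⟩ := hf
  refine ⟨(5 * C + 1) * 2, by positivity, fun k => ?_⟩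
  rcases Nat.eq_zero_or_pos k with rfl | hk
  · simp only [Nat.zero_div, zero_mul, Nat.cast_zero]
    positivity
  have a1 : 2 ^ (k.size / r) ≤ LL k (2 ^ (k.size / r)) :=
    Nat.le_mul_of_pos_left _ (Nat.size_pos.2 hk)
  have a2 : ((k : ℝ) + 1) ^ (r : ℝ)⁻¹ ≤ 2 * (LL k (2 ^ (k.size / r)) : ℝ) :=
    (root_le hr k).trans (by gcongr)
  have a3 : 1 ≤ LL k (2 ^ (k.size / r)) := le_trans (Nat.one_le_pow _ _ (by norm_num)) a1
  beta_reduce
  generalize LL k (2 ^ (k.size / r)) = L at a2 a3 ⊢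
  have b1 : (1 : ℝ) ≤ L := by exact_mod_cast a3
  have b2 : (1 : ℝ) ≤ (L : ℝ) ^ (1 - δ) := Real.one_le_rpow b1 (by linarith)
  have b3 : (((4 * L : ℕ) : ℝ) + 1) ^ (1 - δ) ≤ 5 * (L : ℝ) ^ (1 - δ) := by
    calc (((4 * L : ℕ) : ℝ) + 1) ^ (1 - δ) ≤ (5 * (L : ℝ)) ^ (1 - δ) :=
          Real.rpow_le_rpow (by positivity) (by push_cast; linarith) (by linarith)
      _ = (5 : ℝ) ^ (1 - δ) * (L : ℝ) ^ (1 - δ) := Real.mul_rpow (by norm_num) (by positivity)
      _ ≤ 5 * (L : ℝ) ^ (1 - δ) := by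
          gcongr
          exact Real.rpow_le_self_of_one_le (by norm_num) (by linarith)
  have b4 : (f (4 * L) : ℝ) + 1 ≤ (5 * C + 1) * (L : ℝ) ^ (1 - δ) := by
    have := (hf (4 * L)).trans (mul_le_mul_of_nonneg_left b3 hC)
    linarith
  have b5 : ((k / L : ℕ) : ℝ) ≤ ((k : ℝ) + 1) / L :=
    Nat.cast_div_le.trans (by gcongr; linarith)
  have b6 : ((k : ℝ) + 1) ^ (δ * (r : ℝ)⁻¹) ≤ 2 * (L : ℝ) ^ δ := by
    rw [mul_comm, Real.rpow_mul (by positivity)]
    calc (((k : ℝ) + 1) ^ (r : ℝ)⁻¹) ^ δ ≤ (2 * (L : ℝ)) ^ δ :=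
          Real.rpow_le_rpow (by positivity) a2 h0.le
      _ = (2 : ℝ) ^ δ * (L : ℝ) ^ δ := Real.mul_rpow (by norm_num) (by positivity)
      _ ≤ 2 * (L : ℝ) ^ δ := by
          gcongr
          exact Real.rpow_le_self_of_one_le (by norm_num) h1.le
  have b7 : (0 : ℝ) < (L : ℝ) ^ δ := by positivity
  have b8 : (0 : ℝ) < ((k : ℝ) + 1) ^ (δ * (r : ℝ)⁻¹) := by positivity
  push_cast
  calc ((k / L : ℕ) : ℝ) * ((f (4 * L) : ℝ) + 1)
      ≤ ((k : ℝ) + 1) / L * ((5 * C + 1) * (L : ℝ) ^ (1 - δ)) := by gcongr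
    _ = (5 * C + 1) * 2 * (((k : ℝ) + 1) / (2 * (L : ℝ) ^ δ)) := by
        rw [Real.rpow_sub (by linarith), Real.rpow_one]; field_simp
    _ ≤ (5 * C + 1) * 2 * (((k : ℝ) + 1) / ((k : ℝ) + 1) ^ (δ * (r : ℝ)⁻¹)) := by gcongr
    _ = _ := by rw [Real.rpow_sub (by positivity), Real.rpow_one]

lemma step3 (hC : CompS) (h : Fast fun k => k + 1) :
    ∃ (g : ℕ → ℕ) (δ : ℝ), 0 < δ ∧ δ < 1 ∧ Pw g (1 - δ) ∧ Fast g := by
  obtain ⟨δ, h0, h1, ht⟩ := sub_pw tc_sub
  obtain ⟨ε, e0, e1, hc⟩ := sub_pw cc_sub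
  obtain ⟨r, hr⟩ := exists_nat_ge (8 / ε)
  have hr1 : (1 : ℝ) < r := lt_of_lt_of_le (by rw [lt_div_iff₀ e0]; linarith) hr
  have hr0 : 0 < r := by exact_mod_cast zero_lt_one.trans hr1
  have hr2 : (r : ℝ)⁻¹ ≤ ε / 8 := by
    rw [inv_le_comm₀ (by linarith) (by positivity), inv_div]; exact hr
  have hr3 : 0 < (r : ℝ)⁻¹ := by positivity
  have hL : Pw (fun k => LL k (2 ^ (k.size / r))) (ε / 4) :=
    ((pw_size (ε := ε / 8) (by positivity)).mul (pw_root hr0)).mono (by linarith)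
  have m1 := min_le_left (δ * (r : ℝ)⁻¹) (ε / 2)
  have m2 := min_le_right (δ * (r : ℝ)⁻¹) (ε / 2)
  refine ⟨XF (fun k => 2 ^ (k.size / r)) fun k => k + 1, min (δ * (r : ℝ)⁻¹) (ε / 2),
    lt_min (by positivity) (by positivity), by linarith, ?_, ?_⟩
  · generalize min (δ * (r : ℝ)⁻¹) (ε / 2) = η at *
    have a1 := (pw_first hr0 h0 h1 ht).mono (show _ ≤ 1 - η by linarith)
    have a2 := (hL.mul (hc.mul hL)).mono (show _ ≤ 1 - η by linarith)
    have a3 := (hL.mul ((Pw.const 35).mul hL)).mono (show _ ≤ 1 - η by linarith)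
    have a4 := (hL.mul (Pw.const 2)).mono (show _ ≤ 1 - η by linarith)
    refine (a1.add ((a2.add a3).add a4)).of_le fun k => le_of_eq ?_
    simp only [XF]
    ring
  · refine improve hC ?_ (fun x y hxy => Nat.succ_le_succ hxy) h ?_ (hL.ev (by linarith))
    · refine BT.toPT ((BT.const 2).pow ((BT.size BT.id').div (PT.const r)))
        (k := fun k => 2 * k + 1) (by fun_prop) fun k => ?_
      exact (Nat.pow_le_pow_right (by norm_num) (Nat.div_le_self _ _)).trans (pow_size_le k)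
    · exact (tendsto_pow_atTop_atTop_of_one_lt (show 1 < 2 by norm_num)).comp
        ((Nat.tendsto_div_const_atTop hr0.ne').comp size_tendsto)

lemma step0 (h : ∃ (p : Pg Reg Sym) (C D : ℕ), IsMul p fun n => C * (n + 1) ^ D) :
    ∃ D, Fast fun k => 2 ^ (D * k) := by
  obtain ⟨p, C, D, h⟩ := h
  refine ⟨D, p, _, C, h, ?_⟩
  filter_upwards [eventually_ge_atTop 1] with n hn
  rw [mul_comm D, pow_mul]
  exact Nat.mul_le_mul (Nat.le_mul_of_pos_right _ hn)
    (Nat.pow_le_pow_left (Nat.lt_size_self n) _)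

lemma val_eq (x : List Bool) : val x = ofBits x.reverse := by
  rw [val, ofBits, List.foldr_reverse]
  congr 1
  funext a b
  rw [Nat.bit_val]

theorem fast_of (hb : ∃ (p : Pg Reg Sym) (C D : ℕ), IsMul p fun n => C * (n + 1) ^ D)
    (hC : CompS) : ∃ M : TM, Multiplies M ∧ ∃ δ : ℝ, 0 < δ ∧ ∃ (C : ℝ) (N : ℕ), ∀ n : ℕ, N ≤ n →
      (T M n : ℝ) ≤ C * n * Real.log n ^ (1 - δ) := by
  obtain ⟨D, h0⟩ := step0 hb
  obtain ⟨g, δ, d0, d1, ⟨C', hC', hg⟩, p, T', C, hp, hT⟩ := step3 hC (step2 hC (step1 hC h0))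
  obtain ⟨N, hT⟩ := eventually_atTop.1 hT
  obtain ⟨M, hM⟩ := exists_tm p XR (by simp [XR]) (.loc .Z)
  have key : ∀ x y : List Bool, x.length = y.length →
      ∃ t ≤ 2 * T' x.length + 6 * x.length + 3, Halted M x y t ∧ ((step M)^[t] (init M x y)).tape
        M.out = tapeOf M ((bin (2 * x.length) (val x * val y)).map M.bit) := by
    intro x y hxy
    have h1 := hp x.reverse y.reverse (by simpa using hxy)
    rw [List.length_reverse, ← val_eq, ← val_eq] at h1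
    obtain ⟨t, ht, h2⟩ := hM x y (bin (2 * x.length) (val x * val y)) _ _ h1 (update_self ..)
    refine ⟨t, ht.trans ?_, h2⟩
    simp only [bin, List.length_map, List.length_range]
    omega
  refine ⟨M, fun n _ x y hx hy => ?_, δ, d0, 2 * (C * (C' * 7)) + 9, max N 3, fun n hn => ?_⟩
  · obtain ⟨t, -, h⟩ := key x y (hx.trans hy.symm)
    exact ⟨t, hx ▸ h⟩
  have hn3 : 3 ≤ n := (le_max_right _ _).trans hn
  have h1 : T M n ≤ 2 * T' n + 6 * n + 3 := by
    refine Finset.sup_le fun q _ => ?_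
    obtain ⟨t, ht, h, -⟩ := key (List.ofFn q.1) (List.ofFn q.2) (by simp)
    rw [List.length_ofFn] at ht
    exact (Nat.sInf_le h).trans ht
  have h2 := hT n ((le_max_left _ _).trans hn)
  have h3 : (3 : ℝ) ≤ n := by exact_mod_cast hn3
  have h4 : 1 ≤ Real.log n := by
    rw [Real.le_log_iff_exp_le (by linarith)]
    exact Real.exp_one_lt_d9.le.trans (by linarith)
  have h5 : Real.log (n + 1) ≤ 2 * Real.log n := by
    have : Real.log (n + 1) ≤ Real.log ((n : ℝ) ^ 2) :=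
      Real.log_le_log (by linarith) (by nlinarith)
    rwa [Real.log_pow] at this
  have h6 : (n.size : ℝ) + 1 ≤ 7 * Real.log n := by
    have := size_le_log n
    linarith
  have h7 : ((n.size : ℝ) + 1) ^ (1 - δ) ≤ 7 * Real.log n ^ (1 - δ) := by
    calc ((n.size : ℝ) + 1) ^ (1 - δ) ≤ (7 * Real.log n) ^ (1 - δ) :=
          Real.rpow_le_rpow (by positivity) h6 (by linarith)
      _ = (7 : ℝ) ^ (1 - δ) * Real.log n ^ (1 - δ) := Real.mul_rpow (by norm_num) (by linarith)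
      _ ≤ _ := by
          gcongr
          exact Real.rpow_le_self_of_one_le (by norm_num) (by linarith)
  have h8 : 1 ≤ Real.log n ^ (1 - δ) := Real.one_le_rpow h4 (by linarith)
  have h9 : (T' n : ℝ) ≤ C * n * (C' * (7 * Real.log n ^ (1 - δ))) := by
    refine le_trans (by exact_mod_cast h2) (?_ : (C : ℝ) * n * g n.size ≤ _)
    gcongr
    exact (hg _).trans (by gcongr)
  have h10 : (T M n : ℝ) ≤ 2 * T' n + 6 * n + 3 := by exact_mod_cast h1
  have h11 : (n : ℝ) ≤ n * Real.log n ^ (1 - δ) := le_mul_of_one_le_right (by positivity) h8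
  nlinarith

theorem not_of (h : ∃ M : TM, Multiplies M ∧ ∃ δ : ℝ, 0 < δ ∧ ∃ (C : ℝ) (N : ℕ), ∀ n : ℕ, N ≤ n →
      (T M n : ℝ) ≤ C * n * Real.log n ^ (1 - δ)) : ¬ ∀ M : TM, Multiplies M →
    ∃ c : ℝ, 0 < c ∧ ∃ N : ℕ, 2 ≤ N ∧ ∀ n : ℕ, N ≤ n → c * n * Real.log n ≤ T M n := by
  intro H
  obtain ⟨M, hM, δ, d0, C, N, h⟩ := h
  obtain ⟨c, hc, N', hN', h'⟩ := H M hM
  have h1 : Tendsto (fun n : ℕ => Real.log n ^ δ) atTop atTop :=
    (tendsto_rpow_atTop d0).comp (Real.tendsto_log_atTop.comp tendsto_natCast_atTop_atTop)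
  obtain ⟨n, h2, h3, h4⟩ := ((h1.eventually_gt_atTop (C / c)).and
    ((eventually_ge_atTop N).and (eventually_ge_atTop N'))).exists
  have h5 : (1 : ℝ) < n := by exact_mod_cast lt_of_lt_of_le one_lt_two (hN'.trans h4)
  have h6 : 0 < Real.log n := Real.log_pos h5
  have h7 := (h' n h4).trans (h n h3)
  have h8 : Real.log n ^ δ * Real.log n ^ (1 - δ) = Real.log n := by
    rw [← Real.rpow_add h6]; simp
  have h9 : 0 < (n : ℝ) * Real.log n ^ (1 - δ) := by positivity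
  rw [div_lt_iff₀ hc] at h2
  have h10 := mul_lt_mul_of_pos_right h2 h9
  have h11 : Real.log n ^ δ * c * (n * Real.log n ^ (1 - δ)) = c * n * Real.log n := by
    conv_rhs => rw [← h8]
    ring
  linarith

end Mn

end Vale.Agent.P338
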