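import Vale.Agent.P338.NetMain
import Vale.Agent.P344.Triples

/-! The two concrete networks. -/

namespace Vale.Agent.P338.NetP

open Function Matrix
open scoped Kronecker

section tri
variable {η : Type} {m : ℕ}

def triM (ε : Fin m → η × η × η) :
    Matrix η η ℤ →+ Matrix η η ℤ →+ Matrix η η ℤ →+ Mx m :=
  AddMonoidHom.mk' (fun a => AddMonoidHom.mk' (fun b => AddMonoidHom.mk'
    (fun c => (a ⊗ₖ (b ⊗ₖ c)).submatrix ε ε)
      (fun c c' => by ext i j; simp [mul_add]))
      (fun b b' => by ext c i j; simp [mul_add, add_mul]))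
      (fun a a' => by ext b c i j; simp [add_mul])

lemma triM_apply (ε : Fin m → η × η × η) (a b c : Matrix η η ℤ) :
    triM ε a b c = (a ⊗ₖ (b ⊗ₖ c)).submatrix ε ε := rfl

lemma triM_vec (ε : Fin m → η × η × η) (u v u' v' u'' v'' : η → ℤ) :
    triM ε (vecMulVec u v) (vecMulVec u' v') (vecMulVec u'' v'') =
      vecMulVec (fun i => u (ε i).1 * (u' (ε i).2.1 * u'' (ε i).2.2))
        (fun i => v (ε i).1 * (v' (ε i).2.1 * v'' (ε i).2.2)) := by
  ext i j
  simp [triM_apply, vecMulVec_apply]; ring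

lemma triM_one [DecidableEq η] {ε : Fin m → η × η × η} (hε : Injective ε) : triM ε 1 1 1 = 1 := by
  rw [triM_apply, one_kronecker_one, one_kronecker_one, submatrix_one _ hε]

end tri

abbrev Trip := {S : Finset (Fin 48) // S.card = 3}

lemma card_Trip : Fintype.card Trip = 17296 := by
  rw [Fintype.card_finset_len]; rfl

lemma inter_cases (S T : Trip) : (S = T ∧ (S.1 ∩ T.1).card = 3) ∨
    (S ≠ T ∧ (S.1 ∩ T.1).card ≤ 2) := by
  by_cases h : S = T
  · subst h; left; simp [S.2]
  · refine Or.inr ⟨h, ?_⟩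
    by_contra h3
    apply h
    have h4 := Finset.eq_of_subset_of_card_le (Finset.inter_subset_left (s₁ := S.1) (s₂ := T.1))
      (by rw [S.2]; omega)
    have h5 := Finset.eq_of_subset_of_card_le
      (Finset.inter_subset_right (s₁ := S.1) (s₂ := T.1)) (by rw [T.2]; omega)
    exact Subtype.ext (h4.symm.trans h5)

lemma sum_side {𝒮 K : Type} [Fintype 𝒮] [DecidableEq 𝒮] [AddCommMonoid K] (side : 𝒮 × 𝒮 → Prop)
    [DecidablePred side] (f : 𝒮 × 𝒮 → K) (S T : 𝒮) :
    (∑ p : {p // side p}, if p.1.1 = S ∧ p.1.2 = T then f p.1 else 0) =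
      if side (S, T) then f (S, T) else 0 := by
  split_ifs with h
  · rw [Finset.sum_eq_single ⟨(S, T), h⟩]
    · simp
    · rintro ⟨⟨a, b⟩, hp⟩ _ hne
      rw [if_neg]
      rintro ⟨rfl, rfl⟩
      exact hne rfl
    · simp
  · refine Finset.sum_eq_zero ?_
    rintro ⟨⟨a, b⟩, hp⟩ _
    rw [if_neg]
    rintro ⟨rfl, rfl⟩
    exact h hp

def sideDes {𝒮 ρ : Type} (side : 𝒮 × 𝒮 → Prop) (N : 𝒮 × 𝒮 → ℤ) (γ : 𝒮 → ρ → ℤ) (b : ρ → 𝒮 → ℤ)
    (o : ℤ) : Des 𝒮 {p // side p} ρ where
  s1 p := p.1.1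
  s2 p := p.1.2
  N p := N p.1
  γ := γ
  b := b
  o := o

lemma good_side {𝒮 ρ : Type} [Fintype 𝒮] [DecidableEq 𝒮] [Fintype ρ] (side : 𝒮 × 𝒮 → Prop)
    [DecidablePred side] (N : 𝒮 × 𝒮 → ℤ) (γ : 𝒮 → ρ → ℤ) (b : ρ → 𝒮 → ℤ) (o : ℤ) {m : ℕ}
    (M : Model m) (h1 : (o : M.K) * M.h = 1)
    (h2 : ∀ S T, (if side (S, T) then (N (S, T) : M.K) * M.h else 0) +
      ∑ i, ((γ S i : M.K) * M.h) * ((b i T : M.K) * M.h) = if S = T then 1 else 0) :
    (sideDes side N γ b o).Good M :=
  ⟨h1, fun S T => (congrArg (· + _) (sum_side side (fun p => (N p : M.K) * M.h) S T)).trans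
    (h2 S T)⟩

def ind (S : Trip) (i : Fin 48) : ℤ := if i ∈ S.1 then 1 else 0

lemma sum_ind_mul {K : Type} [CommRing K] (S T : Trip) :
    ∑ i, ((ind S i : ℤ) : K) * ((ind T i : ℤ) : K) = ((S.1 ∩ T.1).card : K) := by
  have : ∀ i, ((ind S i : ℤ) : K) * ((ind T i : ℤ) : K) = if i ∈ S.1 ∩ T.1 then 1 else 0 := by
    intro i
    by_cases h1 : i ∈ S.1 <;> by_cases h2 : i ∈ T.1 <;> simp [ind, h1, h2]
  simp only [this]
  rw [Finset.sum_boole, Finset.filter_mem_eq_inter, Finset.univ_inter]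

lemma exists_notMem (s : Finset (Fin 48)) (h : s.card < 48) : ∃ a, a ∉ s := by
  by_contra hh
  push Not at hh
  have : s = Finset.univ := Finset.eq_univ_iff_forall.2 hh
  simp [this] at h

/-! ### The butterfly network -/

section C
open P344 (Z2)

lemma rk2_submatrix {μ ν : Type} {M : Matrix μ μ Z2} {n : ℕ} (h : P344.Rk M n) (ε : ν → μ) :
    P344.Rk (M.submatrix ε ε) n := by
  induction h with
  | zero => exact P344.Rk.zero
  | step w _ ih => exact ih.step fun i => w (ε i)

lemma rkC {m n : ℕ} {M : Matrix (Fin m) (Fin m) Z2} (h : P344.Rk M n) :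
    ∀ A : Mx m, A.IsSymm → A.map (Int.cast : ℤ → Z2) = M → Rk GenC A n := by
  induction h with
  | zero =>
    intro A hA h0
    have : GenC A false := by
      refine Or.inr ⟨rfl, Matrix.of fun i j => A i j / 2, ?_, ?_⟩
      · ext i j; simp [hA.apply]
      · ext i j
        have h1 : ((A i j : ℤ) : ZMod 2) = 0 := congrFun (congrFun h0 i) j
        rw [ZMod.intCast_zmod_eq_zero_iff_dvd] at h1
        simp only [Matrix.smul_apply, Matrix.of_apply, smul_eq_mul]
        exact (Int.mul_ediv_cancel' h1).symm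
    exact Rk.gen this
  | step w _ ih =>
    intro A hA h0
    let w' : Fin m → ℤ := fun i => if w i = 0 then 0 else 1
    have hw : ∀ i, ((w' i : ℤ) : Z2) = w i := fun i => by
      rcases P344.Z2_cases (w i) with h | h <;> simp [w', h]
    have g : GenC (vecMulVec w' w') true := by
      refine Or.inl ⟨rfl, w', fun i => ?_, rfl⟩
      by_cases h : w i = 0 <;> simp [w', h]
    have := ih (A - vecMulVec w' w') (hA.sub (by ext i j; simp [vecMulVec_apply, mul_comm])) (by
      ext i j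
      have h1 := congrFun (congrFun h0 i) j
      simp only [Matrix.map_apply, Matrix.add_apply, vecMulVec_apply] at h1
      simp [vecMulVec_apply, hw, h1])
    exact (this.add (Rk.gen g)).congr (by abel) le_rfl

lemma negC {m : ℕ} (A : Mx m) (p : Bool) (h : GenC A p) : Rk GenC (-A) (if p then 1 else 0) := by
  rcases h with ⟨rfl, w, hw, rfl⟩ | ⟨rfl, B, hB, rfl⟩
  · have g1 : GenC (vecMulVec w w) true := Or.inl ⟨rfl, w, hw, rfl⟩
    have g2 : GenC ((2 : ℤ) • -vecMulVec w w) false :=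
      Or.inr ⟨rfl, _, by ext i j; simp [vecMulVec_apply, mul_comm], rfl⟩
    exact ((Rk.gen g1).add (Rk.gen g2)).congr (by rw [two_smul]; abel) le_rfl
  · have g2 : GenC ((2 : ℤ) • -B) false := Or.inr ⟨rfl, _, hB.neg, rfl⟩
    exact (Rk.gen g2).congr (by simp) le_rfl

def desC : Des Trip {p : Trip × Trip // Even (p.1.1 ∩ p.2.1).card} (Option (Fin 48)) :=
  sideDes _ (fun p => 1 - (p.1.1 ∩ p.2.1).card) (fun S i => i.elim (-1) (ind S))
    (fun i T => 2 * i.elim 1 (ind T)) 2

lemma goodC {m : ℕ} (M : Model m) (h : 2 * M.h = 1) : desC.Good M := by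
  refine good_side _ _ _ _ _ M (by simpa using h) fun S T => ?_
  have e2 : ∀ a b : M.K, a * M.h * (2 * b * M.h) = M.h * (a * b) := fun a b => by
    linear_combination (a * b * M.h) * h
  simp only [Fintype.sum_option, Option.elim, Int.cast_mul, Int.cast_ofNat, e2, ← Finset.mul_sum,
    sum_ind_mul]
  rcases inter_cases S T with ⟨rfl, h3⟩ | ⟨hne, h3⟩
  · rw [h3, if_neg (by decide), if_pos rfl]
    push_cast
    linear_combination h
  · rw [if_neg hne]
    generalize (S.1 ∩ T.1).card = k at *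
    interval_cases k
    · rw [if_pos (by decide)]; push_cast; ring
    · rw [if_neg (by decide)]; push_cast; ring
    · rw [if_pos (by decide)]; push_cast; ring

def ind2 (S : Trip) : Fin 48 → Z2 := fun i => ((ind S i : ℤ) : Z2)

lemma ind2_dot (S T : Trip) : ind2 S ⬝ᵥ ind2 T = ((S.1 ∩ T.1).card : Z2) := sum_ind_mul S T

lemma ind2_self (S : Trip) : ind2 S ⬝ᵥ ind2 S = 1 := by
  rw [ind2_dot, Finset.inter_self, S.2]; rfl

lemma symm_vec {η : Type} (w : η → ℤ) : (vecMulVec w w).IsSymm := by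
  ext i j; simp [vecMulVec_apply, mul_comm]

lemma symm_tri {η : Type} {m : ℕ} (ε : Fin m → η × η × η) {a b c : Matrix η η ℤ} (ha : a.IsSymm)
    (hb : b.IsSymm) (hc : c.IsSymm) : (triM ε a b c).IsSymm := by
  ext i j
  simp [triM_apply, ha.apply, hb.apply, hc.apply]

lemma sub_Z2 (a b : Z2) : a - b = a + b := by revert a b; decide

def frC {m : ℕ} (ε : Fin m → Fin 48 × Fin 48 × Fin 48) :
    desC.Fr (GenC (m := m)) (Matrix (Fin 48) (Fin 48) ℤ) 46 where
  tri := triM ε
  R a n := a.IsSymm ∧ P344.Rk (a.map (Int.cast : ℤ → Z2)) n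
  E := 1
  P S := vecMulVec (ind S) (ind S)
  hneg := negC
  htri := by
    rintro a b c i j k ⟨ha, ha'⟩ ⟨hb, hb'⟩ ⟨hc, hc'⟩
    refine rkC (rk2_submatrix (ha'.kron (hb'.kron hc')) ε) _ (symm_tri ε ha hb hc) ?_
    ext i j
    simp [triM_apply]
  re := ⟨isSymm_one, (P344.rk_one (η := Fin 48)).congr (by simp) (by simp)⟩
  rp S := ⟨symm_vec _, (P344.Rk.vec (ind2 S)).congr (by
    ext i j; simp [vecMulVec_apply, ind2]) rfl⟩
  r1 S := ⟨isSymm_one.sub (symm_vec _), by
    obtain ⟨a, ha⟩ := exists_notMem S.1 (by rw [S.2]; norm_num)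
    refine (P344.rk_u (ind2_self S) (a := a) (by simp [ind2, ind, ha])).congr ?_ (by simp)
    ext i j
    simp [vecMulVec_apply, ind2, sub_Z2, Matrix.one_apply]⟩
  r2 := by
    rintro ⟨⟨S, T⟩, h⟩
    refine ⟨(isSymm_one.sub (symm_vec _)).sub (symm_vec _), ?_⟩
    obtain ⟨a, ha⟩ := exists_notMem S.1 (by rw [S.2]; norm_num)
    obtain ⟨b, hb⟩ := exists_notMem (insert a (S.1 ∪ T.1)) (by
      have := Finset.card_insert_le a (S.1 ∪ T.1)
      have := Finset.card_union_le S.1 T.1
      have := S.2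
      have := T.2
      omega)
    simp only [Finset.mem_insert, Finset.mem_union, not_or] at hb
    refine (P344.rk_uv (ind2_self S) (ind2_self T)
      (by rw [ind2_dot]; exact (ZMod.natCast_eq_zero_iff_even).2 h) (a := a) (b := b)
      (by simp [ind2, ind, ha]) hb.1 (by simp [ind2, ind, hb.2.1])
      (by simp [ind2, ind, hb.2.2])).congr ?_ (by simp)
    ext i j
    simp [vecMulVec_apply, ind2, sub_Z2, Matrix.one_apply, desC, sideDes]
  h2 S T U := by
    have g : GenC ((2 : ℤ) • triM ε (vecMulVec (ind S) (ind S)) (vecMulVec (ind T) (ind T))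
        (vecMulVec (ind U) (ind U))) false :=
      Or.inr ⟨rfl, _, symm_tri ε (symm_vec _) (symm_vec _) (symm_vec _), rfl⟩
    exact (Rk.gen g).congr (two_smul _ _) (by simp)

theorem netC0 : NetC := by
  let ε : Fin ((46 + 2) ^ 3) ≃ Fin 48 × Fin 48 × Fin 48 :=
    (Fintype.equivFinOfCardEq (by simp)).symm
  obtain ⟨W0, h⟩ := (frC ε).final rfl (by rw [card_Trip]; simp)
  refine ⟨(46 + 2) ^ 3, W0, by norm_num, fun W hW => ?_⟩
  obtain ⟨l, h1, h2, h3⟩ := h W hW
  refine ⟨l, h1, h2, fun K _ h hh V _ _ fr f0 fa X => ?_⟩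
  have := h3 ⟨K, h, V, fr, f0, fa⟩ (goodC _ hh) X
  have e : (frC ε).tri (frC ε).E (frC ε).E (frC ε).E = 1 := triM_one ε.injective
  rw [e] at this
  exact this

end C

/-! ### The transposition network -/

section T

def sA (x : ℤ) : Prop := x = 0 ∨ x = 1 ∨ x = -1
def sB (k : ℕ) (x : ℤ) : Prop := x = 0 ∨ ∃ e ≤ k, x = 2 ^ e ∨ x = -2 ^ e

lemma sA.mul {x y : ℤ} (hx : sA x) (hy : sA y) : sA (x * y) := by
  rcases hx with rfl | rfl | rfl <;> rcases hy with rfl | rfl | rfl <;> simp [sA]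

lemma sB.mul {k l : ℕ} {x y : ℤ} (hx : sB k x) (hy : sB l y) : sB (k + l) (x * y) := by
  rcases hx with rfl | ⟨e, he, hx⟩
  · simp [sB]
  rcases hy with rfl | ⟨f, hf, hy⟩
  · simp [sB]
  refine Or.inr ⟨e + f, by omega, ?_⟩
  rcases hx with rfl | rfl <;> rcases hy with rfl | rfl <;> simp [pow_add]

lemma sB.neg {k : ℕ} {x : ℤ} (hx : sB k x) : sB k (-x) := by
  rcases hx with rfl | ⟨e, he, hx⟩
  · simp [sB]
  refine Or.inr ⟨e, he, ?_⟩
  rcases hx with rfl | rfl <;> simp

lemma sA.sB {x : ℤ} (hx : sA x) (k : ℕ) : sB k x := by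
  rcases hx with rfl | rfl | rfl
  · exact Or.inl rfl
  · exact Or.inr ⟨0, by omega, by simp⟩
  · exact Or.inr ⟨0, by omega, by simp⟩

lemma sB_two : sB 1 2 := Or.inr ⟨1, le_rfl, by simp⟩

lemma sB_of_bound {x : ℤ} (h1 : -2 ≤ x) (h2 : x ≤ 2) : sB 1 x := by
  interval_cases x
  · exact sB_two.neg
  · exact sA.sB (by simp [sA]) _
  · exact sA.sB (by simp [sA]) _
  · exact sA.sB (by simp [sA]) _
  · exact sB_two

lemma rkT {m : ℕ} {a b : Fin m → ℤ} (ha : ∀ i, sA (a i)) (hb : ∀ i, sB 3 (b i)) :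
    Rk GenT (vecMulVec a b) 1 :=
  Rk.gen (Gen := GenT) (p := true) ⟨rfl, a, b, rfl, ha, hb⟩

lemma negT {m : ℕ} (A : Mx m) (p : Bool) (h : GenT A p) : Rk GenT (-A) (if p then 1 else 0) := by
  obtain ⟨rfl, a, b, rfl, ha, hb⟩ := h
  exact (rkT ha (b := -b) fun i => sB.neg (hb i)).congr (by simp) le_rfl

def desT : Des Trip {p : Trip × Trip // (p.1.1 ∩ p.2.1).card = 1} (Fin 48) :=
  sideDes _ (fun _ => -1) (fun S i => ind S i) (fun i T => ind T i) 1

lemma goodT {m : ℕ} (M : Model m) (h : M.h = 1) (h2 : (2 : M.K) = 0) : desT.Good M := by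
  refine good_side _ _ _ _ _ M (by simp [h]) fun S T => ?_
  simp only [h, mul_one, sum_ind_mul]
  rcases inter_cases S T with ⟨rfl, h3⟩ | ⟨hne, h3⟩
  · rw [h3, if_neg (by decide), if_pos rfl]
    push_cast
    linear_combination h2
  · rw [if_neg hne]
    generalize (S.1 ∩ T.1).card = k at *
    interval_cases k
    · rw [if_neg (by decide)]; push_cast; ring
    · rw [if_pos (by decide)]; push_cast; ring
    · rw [if_neg (by decide)]; push_cast; linear_combination h2

abbrev Et := Option (Fin 48)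

def uT (S : Trip) : Et → ℤ := fun i => i.elim 1 (ind S)
def jT (S : Trip) : Et → ℤ := fun i => i.elim (-1) (ind S)
def dl (k i : Et) : ℤ := if k = i then 1 else 0

def RT (a : Matrix Et Et ℤ) (n : ℕ) : Prop :=
  ∃ (s : Finset Et) (u v : Et → Et → ℤ), s.card ≤ n ∧ (∀ k ∈ s, ∀ i, sA (u k i)) ∧
    (∀ k ∈ s, ∀ i, sB 1 (v k i)) ∧ a = ∑ k ∈ s, vecMulVec (u k) (v k)

lemma ind_cases (S : Trip) (i : Fin 48) : ind S i = 0 ∨ ind S i = 1 := by
  unfold ind; split_ifs <;> simp

lemma sA_uT (S : Trip) (i : Et) : sA (uT S i) := by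
  cases i with
  | none => simp [uT, sA]
  | some i => rcases ind_cases S i with h | h <;> simp [uT, sA, h]

lemma sA_jT (S : Trip) (i : Et) : sA (jT S i) := by
  cases i with
  | none => simp [jT, sA]
  | some i => rcases ind_cases S i with h | h <;> simp [jT, sA, h]

/-- a matrix whose rows outside `s` are combinations of the rows in `s` -/
lemma RT_rows (a : Matrix Et Et ℤ) (s : Finset Et) (c : Et → Et → ℤ) (ha : ∀ k ∈ s, ∀ i, sB 1 (a k i))
    (hc : ∀ k ∈ s, ∀ i, i ∉ s → sA (c k i)) (h : ∀ i, i ∉ s → ∀ j, a i j = ∑ k ∈ s, c k i * a k j) :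
    RT a s.card := by
  refine ⟨s, fun k i => if i ∈ s then dl k i else c k i, fun k => a k, le_rfl, ?_, ha, ?_⟩
  · intro k hk i
    beta_reduce
    split_ifs with hi
    · unfold dl; split_ifs <;> simp [sA]
    · exact hc k hk i hi
  · ext i j
    simp only [Matrix.sum_apply, vecMulVec_apply]
    by_cases hi : i ∈ s
    · simp [hi, dl]
    · simp only [hi, if_false]
      exact h i hi j

lemma RT.mono {a : Matrix Et Et ℤ} {n k : ℕ} (h : RT a n) (hk : n ≤ k) : RT a k := by
  obtain ⟨s, u, v, h1, h2⟩ := h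
  exact ⟨s, u, v, h1.trans hk, h2⟩

lemma sum_ind_ind (S T : Trip) : ∑ i, ind S i * ind T i = ((S.1 ∩ T.1).card : ℤ) := by
  simpa using sum_ind_mul (K := ℤ) S T

lemma sum_ind_self (S : Trip) : ∑ i, ind S i * ind S i = 3 := by
  rw [sum_ind_ind, Finset.inter_self, S.2]; rfl

lemma sum_erase_none (f : Et → ℤ) : ∑ k ∈ Finset.univ.erase none, f k = ∑ k, f (some k) := by
  have := Finset.add_sum_erase Finset.univ f (Finset.mem_univ none)
  rw [Fintype.sum_option] at this
  linarith

lemma two_apply (k i : Et) : ((2 : ℤ) • (1 : Matrix Et Et ℤ)) k i = if k = i then 2 else 0 := by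
  rw [Matrix.smul_apply, Matrix.one_apply]; split_ifs <;> rfl

lemma sum_ind_two (S : Trip) (j : Et) :
    ∑ k, ind S k * ((2 : ℤ) • (1 : Matrix Et Et ℤ)) (some k) j =
      ((2 : ℤ) • (1 : Matrix Et Et ℤ)) none j + 2 * jT S j := by
  cases j with
  | none => simp only [two_apply]; simp [jT]
  | some j => simp only [two_apply]; simp [jT, mul_comm]

lemma RT1 (S : Trip) : RT ((2 : ℤ) • 1 - vecMulVec (uT S) (jT S)) (47 + 1) := by
  refine (RT_rows _ (Finset.univ.erase none) (fun k _ => uT S k) ?_ (fun k _ _ _ => sA_uT S k)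
    ?_).mono (by simp)
  · rintro (_ | k) hk i
    · simp at hk
    · rw [Matrix.sub_apply, two_apply, vecMulVec_apply]
      rcases i with _ | i
      · apply sB_of_bound <;> rcases ind_cases S k with h | h <;> simp [uT, jT, h]
      · by_cases hki : k = i
        · subst hki
          apply sB_of_bound <;> rcases ind_cases S k with h | h <;> simp [uT, jT, h]
        · apply sB_of_bound <;> rcases ind_cases S k with h | h <;>
            rcases ind_cases S i with h' | h' <;> simp [uT, jT, h, h', hki]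
  · intro i hi j
    have : i = none := by simpa using hi
    subst this
    rw [sum_erase_none]
    simp only [Matrix.sub_apply, vecMulVec_apply, mul_sub, Finset.sum_sub_distrib, uT,
      Option.elim, sum_ind_two, ← mul_assoc, ← Finset.sum_mul, sum_ind_self]
    ring

lemma RT2 (S T : Trip) (h : (S.1 ∩ T.1).card = 1) :
    RT ((2 : ℤ) • 1 - vecMulVec (uT S) (jT S) - vecMulVec (uT T) (jT T)) 47 := by
  obtain ⟨k1, hk1, hk1'⟩ : ∃ k1 ∈ T.1, k1 ∉ S.1 := by
    by_contra hh
    push Not at hh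
    have : S.1 ∩ T.1 = T.1 := Finset.inter_eq_right.2 hh
    rw [this, T.2] at h
    omega
  have i1 : ind S k1 = 0 := by simp [ind, hk1']
  have i2 : ind T k1 = 1 := by simp [ind, hk1]
  set a : Matrix Et Et ℤ := (2 : ℤ) • 1 - vecMulVec (uT S) (jT S) - vecMulVec (uT T) (jT T) with ha
  have hS : ∀ j, ∑ k, ind S k * a (some k) j = a none j := by
    intro j
    simp only [ha, Matrix.sub_apply, vecMulVec_apply, mul_sub, Finset.sum_sub_distrib, uT,
      Option.elim, sum_ind_two, ← mul_assoc, ← Finset.sum_mul, sum_ind_self, sum_ind_ind S T, h]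
    push_cast; ring
  have hT : ∀ j, ∑ k, ind T k * a (some k) j = a none j := by
    intro j
    simp only [ha, Matrix.sub_apply, vecMulVec_apply, mul_sub, Finset.sum_sub_distrib, uT,
      Option.elim, sum_ind_two, ← mul_assoc, ← Finset.sum_mul, sum_ind_self, sum_ind_ind T S,
      Finset.inter_comm T.1 S.1, h]
    push_cast; ring
  have hm : some k1 ∈ (Finset.univ : Finset Et).erase none := by simp
  refine (RT_rows a ((Finset.univ.erase none).erase (some k1))
    (fun k i => if i = none then uT S k else uT S k - uT T k) ?_ ?_ ?_).mono (by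
      rw [Finset.card_erase_of_mem hm]; simp)
  · rintro (_ | k) hk i
    · simp at hk
    · rw [ha, Matrix.sub_apply, Matrix.sub_apply, two_apply, vecMulVec_apply, vecMulVec_apply]
      rcases i with _ | i
      · apply sB_of_bound <;> rcases ind_cases S k with h1 | h1 <;>
          rcases ind_cases T k with h2 | h2 <;> simp [uT, jT, h1, h2]
      · by_cases hki : k = i
        · subst hki
          apply sB_of_bound <;> rcases ind_cases S k with h1 | h1 <;>
            rcases ind_cases T k with h2 | h2 <;> simp [uT, jT, h1, h2]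
        · apply sB_of_bound <;> rcases ind_cases S k with h1 | h1 <;>
            rcases ind_cases T k with h2 | h2 <;> rcases ind_cases S i with h1' | h1' <;>
            rcases ind_cases T i with h2' | h2' <;> simp [uT, jT, h1, h2, h1', h2', hki]
  · rintro (_ | k) hk i _
    · simp at hk
    · split_ifs
      · exact sA_uT S _
      · rcases ind_cases S k with h1 | h1 <;> rcases ind_cases T k with h2 | h2 <;>
          simp [uT, sA, h1, h2]
  · intro i hi j
    have e := fun f : Et → ℤ => Finset.add_sum_erase (Finset.univ.erase none) f hm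
    simp only [sum_erase_none] at e
    by_cases h0 : i = none
    · subst h0
      have := e fun k => uT S k * a k j
      simp only [uT, Option.elim, i1, hS] at this
      simp only [if_true, uT, Option.elim]
      linarith
    · have : i = some k1 := by simpa [h0] using hi
      subst this
      have := e fun k => (uT S k - uT T k) * a k j
      simp only [uT, Option.elim, i1, i2, sub_mul, Finset.sum_sub_distrib, hS, hT] at this
      simp only [h0, if_false, uT, Option.elim, sub_mul, Finset.sum_sub_distrib]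
      linarith

def frT {m : ℕ} (ε : Fin m → Et × Et × Et) :
    desT.Fr (GenT (m := m)) (Matrix Et Et ℤ) 47 where
  tri := triM ε
  R := RT
  E := (2 : ℤ) • 1
  P S := vecMulVec (uT S) (jT S)
  hneg := negT
  htri := by
    rintro a b c i j k ⟨s, u, v, h1, h2, h3, rfl⟩ ⟨s', u', v', h1', h2', h3', rfl⟩
      ⟨s'', u'', v'', h1'', h2'', h3'', rfl⟩
    have := Rk.sum (Gen := GenT (m := m)) s fun x hx => Rk.sum s' fun y hy => Rk.sum s'' fun z hz =>
      (rkT (fun i => (h2 x hx (ε i).1).mul ((h2' y hy (ε i).2.1).mul (h2'' z hz (ε i).2.2)))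
        (fun i => (h3 x hx (ε i).1).mul ((h3' y hy (ε i).2.1).mul (h3'' z hz (ε i).2.2)))).congr
        (triM_vec ε _ _ _ _ _ _).symm le_rfl
    refine this.congr ?_ ?_
    · symm
      rw [map_sum (triM ε), AddMonoidHom.finsetSum_apply, AddMonoidHom.finsetSum_apply]
      refine Finset.sum_congr rfl fun x _ => ?_
      rw [map_sum (triM ε _), AddMonoidHom.finsetSum_apply]
      refine Finset.sum_congr rfl fun y _ => ?_
      rw [map_sum]
    · simp only [Finset.sum_const, smul_eq_mul, mul_one]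
      gcongr
  re := (RT_rows _ Finset.univ (fun _ _ => 0) (by
    intro k _ i
    rw [two_apply]
    apply sB_of_bound <;> split_ifs <;> simp) (by simp)
    (by simp)).mono (by simp)
  rp S := ⟨{none}, fun _ => uT S, fun _ => jT S, by simp, fun _ _ => sA_uT S,
    fun _ _ i => (sA_jT S i).sB _, by simp⟩
  r1 := RT1
  r2 q := RT2 _ _ q.2
  h2 S T U := by
    refine (rkT (fun i => (sA_uT S (ε i).1).mul ((sA_uT T (ε i).2.1).mul (sA_uT U (ε i).2.2)))
      (fun i => sB_two.mul (((sA_jT S (ε i).1).mul ((sA_jT T (ε i).2.1).mul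
        (sA_jT U (ε i).2.2))).sB 2))).congr ?_ le_rfl
    rw [triM_vec]
    ext i j
    simp only [vecMulVec_apply, Matrix.add_apply]
    ring

theorem netT0 : NetT := by
  let ε : Fin ((47 + 2) ^ 3) ≃ Et × Et × Et := (Fintype.equivFinOfCardEq (by simp)).symm
  obtain ⟨W0, h⟩ := (frT ε).final rfl (by rw [card_Trip]; simp)
  refine ⟨(47 + 2) ^ 3, W0, by norm_num, fun W hW => ?_⟩
  obtain ⟨l, h1, h2, h3⟩ := h W hW
  refine ⟨l, h1, h2, fun V _ _ fr f0 fa X => ?_⟩
  have := h3 ⟨ZMod 2, 1, V, fr, f0, fa⟩ (goodT _ rfl rfl) X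
  have e : (frT ε).tri (frT ε).E (frT ε).E (frT ε).E = (8 : ℤ) • 1 := by
    change triM ε ((2 : ℤ) • 1) ((2 : ℤ) • 1) ((2 : ℤ) • 1) = _
    simp only [map_zsmul, AddMonoidHom.zsmul_apply, triM_one ε.injective, smul_smul]
    rfl
  rw [e] at this
  exact this

end T

end Vale.Agent.P338.NetP

theorem Vale.Agent.P338.netT : Vale.Agent.P338.NetT := Vale.Agent.P338.NetP.netT0

theorem Vale.Agent.P338.netC : Vale.Agent.P338.NetC := Vale.Agent.P338.NetP.netC0
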