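import Vale.Agent.P338.NetDefs

/-! Calculus of realisable transformations of framed wires. -/

namespace Vale.Agent.P338.NetP

open Function Matrix

structure Model (m : ℕ) where
  K : Type
  [cr : CommRing K]
  h : K
  V : Type
  [acg : AddCommGroup V]
  [md : Module K V]
  fr : Mx m → Module.End K V
  fr0 : fr 0 = 1
  fradd : ∀ A B, fr (A + B) = fr A * fr B

attribute [instance] Model.cr Model.acg Model.md

variable {W m : ℕ}

lemma Model.fr_fr (M : Model m) (A B : Mx m) (v : M.V) : M.fr A (M.fr B v) = M.fr (A + B) v := by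
  rw [M.fradd]; rfl

lemma Model.fr_zero (M : Model m) (v : M.V) : M.fr 0 v = v := by rw [M.fr0]; rfl

lemma runAll_append {K V : Type} [CommRing K] [AddCommGroup V] [Module K V] (h : K)
    (fr : Mx m → Module.End K V) (l l' : List (Step W m)) (X : Fin W → V) :
    runAll h fr (l ++ l') X = runAll h fr l' (runAll h fr l X) := by
  simp [runAll, List.foldl_append]

lemma runAll_cons {K V : Type} [CommRing K] [AddCommGroup V] [Module K V] (h : K)
    (fr : Mx m → Module.End K V) (s : Step W m) (l : List (Step W m)) (X : Fin W → V) :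
    runAll h fr (s :: l) X = runAll h fr l (s.run h fr X) := rfl

lemma paid_append (l l' : List (Step W m)) : paid (l ++ l') = paid l + paid l' := by
  simp [paid]

/-- `A` is a sum of generators, at most `n` of them paid -/
def Rk (Gen : Mx m → Bool → Prop) (A : Mx m) (n : ℕ) : Prop :=
  ∃ l : List (Mx m × Bool), (∀ x ∈ l, Gen x.1 x.2) ∧ (l.map Prod.fst).sum = A ∧
    l.countP Prod.snd ≤ n

section rk
variable {Gen : Mx m → Bool → Prop}

lemma Rk.zero : Rk Gen 0 0 := ⟨[], by simp, by simp, by simp⟩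

lemma Rk.gen {A : Mx m} {p : Bool} (h : Gen A p) : Rk Gen A (if p then 1 else 0) :=
  ⟨[(A, p)], by simpa using h, by simp, by cases p <;> simp⟩

lemma Rk.add {A B : Mx m} {n k : ℕ} (h : Rk Gen A n) (h' : Rk Gen B k) :
    Rk Gen (A + B) (n + k) := by
  obtain ⟨l, h1, h2, h3⟩ := h
  obtain ⟨l', h1', h2', h3'⟩ := h'
  refine ⟨l ++ l', ?_, by simp [h2, h2'], by rw [List.countP_append]; omega⟩
  intro x hx
  rcases List.mem_append.1 hx with hx | hx
  exacts [h1 x hx, h1' x hx]

lemma Rk.congr {A B : Mx m} {n k : ℕ} (h : Rk Gen A n) (hA : A = B) (hn : n ≤ k) :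
    Rk Gen B k := by
  obtain ⟨l, h1, h2, h3⟩ := h
  exact ⟨l, h1, h2.trans hA, h3.trans hn⟩

lemma Rk.neg (hneg : ∀ A p, Gen A p → Rk Gen (-A) (if p then 1 else 0)) {A : Mx m} {n : ℕ}
    (h : Rk Gen A n) : Rk Gen (-A) n := by
  obtain ⟨l, h1, rfl, h3⟩ := h
  refine Rk.congr (n := l.countP Prod.snd) ?_ rfl h3
  clear h3
  induction l with
  | nil => simpa using Rk.zero
  | cons x l ih =>
    have := (hneg _ _ (h1 x (by simp))).add (ih fun y hy => h1 y (by simp [hy]))
    refine this.congr (by simp; abel) ?_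
    rw [List.countP_cons]; omega

lemma Rk.sum {ι : Type*} (s : Finset ι) {A : ι → Mx m} {n : ι → ℕ}
    (h : ∀ i ∈ s, Rk Gen (A i) (n i)) : Rk Gen (∑ i ∈ s, A i) (∑ i ∈ s, n i) := by
  classical
  induction s using Finset.induction_on with
  | empty => simpa using Rk.zero
  | insert a s ha ih =>
    rw [Finset.sum_insert ha, Finset.sum_insert ha]
    exact (h a (by simp)).add (ih fun i hi => h i (by simp [hi]))

/-- the list of moves on one wire -/
lemma Rk.moves {A : Mx m} {n : ℕ} (h : Rk Gen A n) (i : Fin W) :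
    ∃ l : List (Step W m), (∀ s ∈ l, s.ok Gen) ∧ paid l ≤ n ∧
      ∀ (M : Model m) (X : Fin W → M.V), runAll M.h M.fr l X = update X i (M.fr A (X i)) := by
  obtain ⟨l, h1, rfl, h3⟩ := h
  refine ⟨l.map fun x => Step.move i x.1 x.2, ?_, ?_, ?_⟩
  · intro s hs
    obtain ⟨x, hx, rfl⟩ := List.mem_map.1 hs
    exact h1 x hx
  · refine le_trans (le_of_eq ?_) h3
    rw [paid, List.countP_map]; rfl
  · clear h1 h3
    intro M
    induction l with
    | nil => intro X; simp [runAll, M.fr_zero]
    | cons x l ih =>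
      intro X
      rw [List.map_cons, runAll_cons, ih]
      simp [Step.run, M.fr_fr, add_comm]

end rk

abbrev Tr (m : ℕ) (ι : Type) := (M : Model m) → (ι → M.V) → (ι → M.V)

/-- wires in frames `F` holding `L` can be brought to frames `F'` holding `T L` -/
def Real (Gen : Mx m → Bool → Prop) (G : Model m → Prop) {ι : Type} (c : ℕ) (F F' : ι → Mx m)
    (T : Tr m ι) : Prop :=
  ∀ (W : ℕ) (e : ι → Fin W), Injective e → ∃ l : List (Step W m), (∀ s ∈ l, s.ok Gen) ∧
    paid l ≤ c ∧ ∀ M : Model m, G M → ∀ (X : Fin W → M.V) (L : ι → M.V),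
      (∀ i, X (e i) = M.fr (F i) (L i)) →
      (∀ i, runAll M.h M.fr l X (e i) = M.fr (F' i) (T M L i)) ∧
        ∀ j, (∀ i, e i ≠ j) → runAll M.h M.fr l X j = X j

section real
variable {Gen : Mx m → Bool → Prop} {G : Model m → Prop} {ι : Type}

lemma Real.refl (F : ι → Mx m) : Real Gen G 0 F F (fun _ L => L) := by
  intro W e _
  exact ⟨[], by simp, by simp [paid], fun M _ X L h => ⟨h, fun _ _ => rfl⟩⟩

lemma Real.congr {c c' : ℕ} {F F' H H' : ι → Mx m} {T T' : Tr m ι} (h : Real Gen G c F F' T)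
    (hc : c ≤ c') (hF : F = H) (hF' : F' = H') (hT : ∀ M, G M → ∀ L, T M L = T' M L) :
    Real Gen G c' H H' T' := by
  subst hF hF'
  intro W e he
  obtain ⟨l, h1, h2, h3⟩ := h W e he
  refine ⟨l, h1, h2.trans hc, fun M hM X L hX => ?_⟩
  rw [← hT M hM]
  exact h3 M hM X L hX

lemma Real.trans {c c' : ℕ} {F F' F'' : ι → Mx m} {T T' : Tr m ι} (h : Real Gen G c F F' T)
    (h' : Real Gen G c' F' F'' T') : Real Gen G (c + c') F F'' (fun M L => T' M (T M L)) := by
  intro W e he
  obtain ⟨l, h1, h2, h3⟩ := h W e he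
  obtain ⟨l', h1', h2', h3'⟩ := h' W e he
  refine ⟨l ++ l', ?_, by rw [paid_append]; omega, fun M hM X L hX => ?_⟩
  · intro x hx
    rcases List.mem_append.1 hx with hx | hx
    exacts [h1 x hx, h1' x hx]
  · obtain ⟨a1, a2⟩ := h3 M hM X L hX
    obtain ⟨b1, b2⟩ := h3' M hM _ _ a1
    rw [runAll_append]
    exact ⟨b1, fun j hj => (b2 j hj).trans (a2 j hj)⟩

lemma Real.embed {κ : Type} (f : κ → ι) (hf : Injective f) {c : ℕ} {F₀ F₀' : κ → Mx m}
    {T₀ : Tr m κ} (h : Real Gen G c F₀ F₀' T₀) {F F' : ι → Mx m} {T : Tr m ι}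
    (h1 : ∀ k, F (f k) = F₀ k) (h2 : ∀ k, F' (f k) = F₀' k)
    (h3 : ∀ i, (∀ k, f k ≠ i) → F' i = F i)
    (h4 : ∀ M, G M → ∀ L k, T M L (f k) = T₀ M (fun k => L (f k)) k)
    (h5 : ∀ M, G M → ∀ L i, (∀ k, f k ≠ i) → T M L i = L i) : Real Gen G c F F' T := by
  intro W e he
  obtain ⟨l, a1, a2, a3⟩ := h W (fun k => e (f k)) (he.comp hf)
  refine ⟨l, a1, a2, fun M hM X L hX => ?_⟩
  obtain ⟨b1, b2⟩ := a3 M hM X (fun k => L (f k)) (fun k => by rw [hX, h1])
  refine ⟨fun i => ?_, fun j hj => b2 j fun k => hj _⟩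
  by_cases hi : ∃ k, f k = i
  · obtain ⟨k, rfl⟩ := hi
    rw [b1, h2, h4 M hM]
  · push Not at hi
    rw [b2 _ (fun k hk => hi k (he hk)), hX, h3 i hi, h5 M hM L i hi]

lemma Real.move [DecidableEq ι] (F : ι → Mx m) (i : ι) {A : Mx m} {n : ℕ}
    (h : Rk Gen (A - F i) n) : Real Gen G n F (update F i A) (fun _ L => L) := by
  intro W e he
  obtain ⟨l, h1, h2, h3⟩ := h.moves (e i)
  refine ⟨l, h1, h2, fun M _ X L hX => ?_⟩
  rw [h3]
  refine ⟨fun k => ?_, fun j hj => update_of_ne (hj i).symm _ _⟩
  by_cases hk : k = i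
  · subst hk
    simp [hX, M.fr_fr]
  · rw [update_of_ne (he.ne hk), update_of_ne hk, hX]

lemma Real.moves [Fintype ι] {F F' : ι → Mx m} {n : ι → ℕ}
    (h : ∀ i, Rk Gen (F' i - F i) (n i)) : Real Gen G (∑ i, n i) F F' (fun _ L => L) := by
  classical
  have : ∀ s : Finset ι, Real Gen G (∑ i ∈ s, n i) F (fun i => if i ∈ s then F' i else F i)
      (fun _ L => L) := by
    intro s
    induction s using Finset.induction_on with
    | empty => exact (Real.refl F).congr (by simp) rfl (by simp) fun _ _ _ => rfl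
    | insert a s ha ih =>
      have := ih.trans (Real.move (G := G) (fun i => if i ∈ s then F' i else F i) a (A := F' a)
        (n := n a) (by simpa [ha] using h a))
      refine this.congr (by rw [Finset.sum_insert ha]; omega) rfl ?_ fun _ _ _ => rfl
      funext i
      by_cases hi : i = a
      · subst hi; simp
      · simp [hi]
  exact (this Finset.univ).congr le_rfl rfl (by simp) fun _ _ _ => rfl

lemma Real.gate1 [DecidableEq ι] (F : ι → Mx m) {i j : ι} (hij : i ≠ j) (hF : F i = F j)
    (ng : Bool) : Real Gen G 0 F F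
      (fun M L => update L i (L i + (if ng then -M.h else M.h) • L j)) := by
  intro W e he
  refine ⟨[Step.gate (e i) (e j) ng], ?_, by simp [paid, Step.isPaid], fun M _ X L hX => ?_⟩
  · intro s hs
    rw [List.mem_singleton.1 hs]
    exact he.ne hij
  · change (∀ k, update X (e i) _ (e k) = _) ∧ ∀ k, _ → update X (e i) _ k = _
    refine ⟨fun k => ?_, fun k hk => update_of_ne (hk i).symm _ _⟩
    by_cases hk : k = i
    · subst hk
      cases ng <;> simp [hX, hF]
    · beta_reduce
      rw [update_of_ne (he.ne hk), update_of_ne hk, hX]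

lemma Real.gateN [DecidableEq ι] (F : ι → Mx m) {i j : ι} (hij : i ≠ j) (hF : F i = F j)
    (ng : Bool) (n : ℕ) : Real Gen G 0 F F
      (fun M L => update L i (L i + ((n : M.K) * if ng then -M.h else M.h) • L j)) := by
  induction n with
  | zero => exact (Real.refl F).congr le_rfl rfl rfl fun M _ L => by simp
  | succ n ih =>
    refine (ih.trans (Real.gate1 F hij hF ng)).congr le_rfl rfl rfl fun M _ L => ?_
    simp only [update_self, update_idem, update_of_ne hij.symm]
    congr 1
    rw [add_assoc, ← add_smul]; push_cast; rw [add_mul, one_mul]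

lemma Real.gate [DecidableEq ι] (F : ι → Mx m) {i j : ι} (hij : i ≠ j) (z : ℤ)
    (hF : z ≠ 0 → F i = F j) : Real Gen G 0 F F
      (fun M L => update L i (L i + ((z : M.K) * M.h) • L j)) := by
  by_cases hz : z = 0
  · subst hz
    exact (Real.refl F).congr le_rfl rfl rfl fun M _ L => by simp
  obtain ⟨n, rfl | rfl⟩ := z.eq_nat_or_neg
  · exact (Real.gateN F hij (hF hz) false n).congr le_rfl rfl rfl fun M _ L => by simp
  · exact (Real.gateN F hij (hF hz) true n).congr le_rfl rfl rfl fun M _ L => by simp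

lemma Real.gates [DecidableEq ι] (F : ι → Mx m) {Q : Type} [Fintype Q] (t s : Q → ι) (z : Q → ℤ)
    (hts : ∀ q q', t q ≠ s q') (hF : ∀ q, z q ≠ 0 → F (t q) = F (s q)) : Real Gen G 0 F F
      (fun M L j => L j + ∑ q, if t q = j then ((z q : M.K) * M.h) • L (s q) else 0) := by
  classical
  have : ∀ u : Finset Q, Real Gen G 0 F F
      (fun M L j => L j + ∑ q ∈ u, if t q = j then ((z q : M.K) * M.h) • L (s q) else 0) := by
    intro u
    induction u using Finset.induction_on with
    | empty => exact (Real.refl F).congr le_rfl rfl rfl fun M _ L => by simp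
    | insert a u ha ih =>
      refine (ih.trans (Real.gate F (hts a a) (z a) (hF a))).congr le_rfl rfl rfl fun M _ L => ?_
      funext j
      rw [Finset.sum_insert ha]
      have h0 : ∑ q ∈ u, (if t q = s a then ((z q : M.K) * M.h) • L (s q) else 0) = 0 :=
        Finset.sum_eq_zero fun q _ => if_neg (hts q a)
      by_cases hj : j = t a
      · subst hj
        simp only [update_self, h0, if_true, add_zero]
        abel
      · rw [update_of_ne hj, if_neg (Ne.symm hj), zero_add]
  exact this Finset.univ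

lemma Real.prod {g : Type} [Fintype g] {c : g → ℕ} {F F' : g → ι → Mx m} {T : g → Tr m ι}
    (h : ∀ a, Real Gen G (c a) (F a) (F' a) (T a)) :
    Real Gen G (∑ a, c a) (fun p : g × ι => F p.1 p.2) (fun p => F' p.1 p.2)
      (fun M L p => T p.1 M (fun i => L (p.1, i)) p.2) := by
  classical
  have : ∀ s : Finset g, Real Gen G (∑ a ∈ s, c a) (fun p : g × ι => F p.1 p.2)
      (fun p => if p.1 ∈ s then F' p.1 p.2 else F p.1 p.2)
      (fun M L p => if p.1 ∈ s then T p.1 M (fun i => L (p.1, i)) p.2 else L p) := by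
    intro s
    induction s using Finset.induction_on with
    | empty => exact (Real.refl _).congr (by simp) rfl (by simp) fun _ _ _ => by simp
    | insert a s ha ih =>
      have h1 := (h a).embed (ι := g × ι) (fun i => (a, i)) (Prod.mk_right_injective a)
        (F := fun p => if p.1 ∈ s then F' p.1 p.2 else F p.1 p.2)
        (F' := fun p => if p.1 ∈ insert a s then F' p.1 p.2 else F p.1 p.2)
        (T := fun M L p => if p.1 = a then T a M (fun i => L (a, i)) p.2 else L p)
        (by simp [ha]) (by simp) (by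
          rintro ⟨b, i⟩ hb
          have : b ≠ a := fun hh => hb i (by rw [hh])
          simp [this]) (by simp) (by
          rintro M _ L ⟨b, i⟩ hb
          have : b ≠ a := fun hh => hb i (by rw [hh])
          simp [this])
      refine (ih.trans h1).congr (by rw [Finset.sum_insert ha]; omega) rfl rfl fun M _ L => ?_
      funext ⟨b, i⟩
      by_cases hb : b = a
      · subst hb; simp [ha]
      · simp [hb]
  exact (this Finset.univ).congr le_rfl rfl (by simp) fun _ _ _ => by simp

lemma exists_inv (hneg : ∀ A p, Gen A p → Rk Gen (-A) (if p then 1 else 0))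
    (l : List (Step W m)) (hl : ∀ s ∈ l, s.ok Gen) : ∃ l' : List (Step W m),
      (∀ s ∈ l', s.ok Gen) ∧ paid l' ≤ paid l ∧
      ∀ (M : Model m) (X : Fin W → M.V), runAll M.h M.fr l' (runAll M.h M.fr l X) = X := by
  induction l with
  | nil => exact ⟨[], by simp, le_rfl, fun _ _ => rfl⟩
  | cons s l ih =>
    obtain ⟨l', h1, h2, h3⟩ := ih fun x hx => hl x (by simp [hx])
    have hs := hl s (by simp)
    have : ∃ u : List (Step W m), (∀ s ∈ u, s.ok Gen) ∧ paid u ≤ paid [s] ∧
        ∀ (M : Model m) (X : Fin W → M.V), runAll M.h M.fr u (s.run M.h M.fr X) = X := by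
      cases s with
      | gate i j ng =>
        refine ⟨[Step.gate i j (!ng)], ?_, by simp [paid, Step.isPaid], fun M X => ?_⟩
        · intro s hs'
          rw [List.mem_singleton.1 hs']; exact hs
        · have hij : i ≠ j := hs
          simp only [runAll, List.foldl_cons, List.foldl_nil, Step.run, update_self, update_idem,
            update_of_ne hij.symm]
          cases ng <;> simp
      | move i A p =>
        obtain ⟨u, a1, a2, a3⟩ := (hneg A p hs).moves i
        refine ⟨u, a1, a2.trans (by cases p <;> simp [paid, Step.isPaid]), fun M X => ?_⟩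
        rw [a3]
        simp [Step.run, M.fr_fr, M.fr_zero]
    obtain ⟨u, a1, a2, a3⟩ := this
    refine ⟨l' ++ u, ?_, ?_, fun M X => ?_⟩
    · intro x hx
      rcases List.mem_append.1 hx with hx | hx
      exacts [h1 x hx, a1 x hx]
    · have : paid (s :: l) = paid [s] + paid l := paid_append [s] l
      rw [paid_append]; omega
    · rw [runAll_append, runAll_cons, h3, a3]

lemma Real.inv (hneg : ∀ A p, Gen A p → Rk Gen (-A) (if p then 1 else 0)) {c : ℕ}
    {F F' : ι → Mx m} {T T' : Tr m ι} (h : Real Gen G c F F' T)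
    (hT : ∀ M, G M → ∀ L, T M (T' M L) = L) : Real Gen G c F' F T' := by
  classical
  intro W e he
  obtain ⟨l, h1, h2, h3⟩ := h W e he
  obtain ⟨l', a1, a2, a3⟩ := exists_inv hneg l h1
  refine ⟨l', a1, a2.trans h2, fun M hM X L hX => ?_⟩
  set Y : Fin W → M.V := extend e (fun i => M.fr (F i) (T' M L i)) X with hY
  have hY1 : ∀ i, Y (e i) = M.fr (F i) (T' M L i) := fun i => he.extend_apply _ _ _
  have hY2 : ∀ j, (∀ i, e i ≠ j) → Y j = X j := fun j hj =>
    extend_apply' _ _ _ (by rintro ⟨i, hi⟩; exact hj i hi)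
  obtain ⟨b1, b2⟩ := h3 M hM Y _ hY1
  have : runAll M.h M.fr l Y = X := by
    funext j
    by_cases hj : ∃ i, e i = j
    · obtain ⟨i, rfl⟩ := hj
      rw [b1, hT M hM, hX]
    · push Not at hj
      rw [b2 j hj, hY2 j hj]
  rw [← this, a3]
  refine ⟨hY1, fun j hj => ?_⟩
  rw [b2 j hj]

end real

end Vale.Agent.P338.NetP
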