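import Mathlib

/-! Oblivious networks of gates and frame moves on `W` wires. -/

namespace Vale.Agent.P338

open Function Matrix

abbrev Mx (m : ℕ) := Matrix (Fin m) (Fin m) ℤ

inductive Step (W m : ℕ) : Type
  | gate (i j : Fin W) (neg : Bool) : Step W m
  | move (i : Fin W) (A : Mx m) (paid : Bool) : Step W m

variable {W m : ℕ}

def Step.run {K V : Type} [CommRing K] [AddCommGroup V] [Module K V] (h : K)
    (fr : Mx m → Module.End K V) : Step W m → (Fin W → V) → (Fin W → V)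
  | .gate i j ng, X => update X i (X i + (if ng then -h else h) • X j)
  | .move i A _, X => update X i (fr A (X i))

def runAll {K V : Type} [CommRing K] [AddCommGroup V] [Module K V] (h : K)
    (fr : Mx m → Module.End K V) (l : List (Step W m)) (X : Fin W → V) : Fin W → V :=
  l.foldl (fun X s => s.run h fr X) X

def Step.isPaid : Step W m → Bool
  | .gate _ _ _ => false
  | .move _ _ p => p

def paid (l : List (Step W m)) : ℕ := l.countP Step.isPaid

def Step.ok (Gen : Mx m → Bool → Prop) : Step W m → Prop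
  | .gate i j _ => i ≠ j
  | .move _ A p => Gen A p

/-- generators for the transposition network -/
def GenT (A : Mx m) (p : Bool) : Prop :=
  p = true ∧ ∃ a b : Fin m → ℤ, A = vecMulVec a b ∧ (∀ i, a i = 0 ∨ a i = 1 ∨ a i = -1) ∧
    ∀ i, b i = 0 ∨ ∃ e ≤ 3, b i = 2 ^ e ∨ b i = -2 ^ e

/-- generators for the butterfly network -/
def GenC (A : Mx m) (p : Bool) : Prop :=
  (p = true ∧ ∃ w : Fin m → ℤ, (∀ i, w i = 0 ∨ w i = 1) ∧ A = vecMulVec w w) ∨
    (p = false ∧ ∃ B : Mx m, B.IsSymm ∧ A = (2 : ℤ) • B)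

def NetT : Prop :=
  ∃ m W0 : ℕ, 2 ≤ m ∧ ∀ W, W0 ≤ W → ∃ l : List (Step W m), (∀ s ∈ l, s.ok GenT) ∧
    paid l + 1 ≤ W * m ∧
    ∀ (V : Type) [AddCommGroup V] [Module (ZMod 2) V] (fr : Mx m → Module.End (ZMod 2) V),
      fr 0 = 1 → (∀ A B, fr (A + B) = fr A * fr B) →
      ∀ X, runAll (1 : ZMod 2) fr l X = fun i => fr ((8 : ℤ) • 1) (X i)

def NetC : Prop :=
  ∃ m W0 : ℕ, 2 ≤ m ∧ ∀ W, W0 ≤ W → ∃ l : List (Step W m), (∀ s ∈ l, s.ok GenC) ∧
    paid l + 1 ≤ W * m ∧
    ∀ (K : Type) [CommRing K] (h : K), 2 * h = 1 →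
    ∀ (V : Type) [AddCommGroup V] [Module K V] (fr : Mx m → Module.End K V),
      fr 0 = 1 → (∀ A B, fr (A + B) = fr A * fr B) →
      ∀ X, runAll h fr l X = fun i => fr 1 (X i)

end Vale.Agent.P338
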