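import Vale.Agent.P338.NetStage

/-! The full network of a design. -/

namespace Vale.Agent.P338.NetP

open Function Matrix

set_option linter.unusedSectionVars false

variable {m : ℕ} {Gen : Mx m → Bool → Prop} {G : Model m → Prop}

lemma g3x {Ω Λ : Type} [Fintype Ω] [DecidableEq Ω] [DecidableEq Λ] {c : ℕ}
    {F0 : Ω ⊕ Ω ⊕ Λ → Mx m} {A : Mx m}
    {x y : (M : Model m) → (Ω ⊕ Ω ⊕ Λ → M.V) → Ω → M.V}
    {a : (M : Model m) → (Ω ⊕ Ω ⊕ Λ → M.V) → Λ → M.V}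
    (h : Real Gen G c F0 (fun _ => A) (fun M L => st3 (x M L) (y M L) (a M L))) (z : ℤ) :
    Real Gen G c F0 (fun _ => A)
      (fun M L => st3 (fun s => x M L s + ((z : M.K) * M.h) • y M L s) (y M L) (a M L)) := by
  refine (h.trans (Real.gates _ (Q := Ω) (fun s => .inl s) (fun s => .inr (.inl s)) (fun _ => z)
    (by simp) (fun _ _ => rfl))).congr le_rfl rfl rfl fun M _ L => ?_
  funext j
  rcases j with S | S | p <;> simp [st3]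

lemma g3y {Ω Λ : Type} [Fintype Ω] [DecidableEq Ω] [DecidableEq Λ] {c : ℕ}
    {F0 : Ω ⊕ Ω ⊕ Λ → Mx m} {A : Mx m}
    {x y : (M : Model m) → (Ω ⊕ Ω ⊕ Λ → M.V) → Ω → M.V}
    {a : (M : Model m) → (Ω ⊕ Ω ⊕ Λ → M.V) → Λ → M.V}
    (h : Real Gen G c F0 (fun _ => A) (fun M L => st3 (x M L) (y M L) (a M L))) (z : ℤ) :
    Real Gen G c F0 (fun _ => A)
      (fun M L => st3 (x M L) (fun s => y M L s + ((z : M.K) * M.h) • x M L s) (a M L)) := by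
  refine (h.trans (Real.gates _ (Q := Ω) (fun s => .inr (.inl s)) (fun s => .inl s) (fun _ => z)
    (by simp) (fun _ _ => rfl))).congr le_rfl rfl rfl fun M _ L => ?_
  funext j
  rcases j with S | S | p <;> simp [st3]

namespace Des

variable {𝒮 σ ρ : Type} [Fintype 𝒮] [DecidableEq 𝒮] [Fintype σ] [DecidableEq σ]
  [Fintype ρ] [DecidableEq ρ] (D : Des 𝒮 σ ρ)

/-- frame data of a design -/
structure Fr (Gen : Mx m → Bool → Prop) (𝔹 : Type) [AddCommGroup 𝔹] (r : ℕ) where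
  tri : 𝔹 →+ 𝔹 →+ 𝔹 →+ Mx m
  R : 𝔹 → ℕ → Prop
  E : 𝔹
  P : 𝒮 → 𝔹
  hneg : ∀ A p, Gen A p → Rk Gen (-A) (if p then 1 else 0)
  htri : ∀ {a b c i j k}, R a i → R b j → R c k → Rk Gen (tri a b c) (i * (j * k))
  re : R E (r + 2)
  rp : ∀ S, R (P S) 1
  r1 : ∀ S, R (E - P S) (r + 1)
  r2 : ∀ q, R (E - P (D.s1 q) - P (D.s2 q)) r
  h2 : ∀ S T U, Rk Gen (tri (P S) (P T) (P U) + tri (P S) (P T) (P U)) 1

abbrev Wire (𝒮 σ ρ : Type) := (𝒮 × 𝒮 × 𝒮) ⊕ (𝒮 × 𝒮 × 𝒮) ⊕ (Fin 3 × (𝒮 × 𝒮) × (σ ⊕ ρ))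

variable {D} {𝔹 : Type} [AddCommGroup 𝔹] {r : ℕ} (Z : D.Fr Gen 𝔹 r)

lemma Fr.rk (Φ : 𝔹 →+ Mx m) (hΦ : ∀ a i, Z.R a i → Rk Gen (Φ a) i) :
    D.RkData Gen r (Φ Z.E) (fun S => Φ (Z.P S)) :=
  ⟨hΦ _ _ Z.re, (hΦ _ _ Z.re).neg Z.hneg, fun S => hΦ _ _ (Z.rp S),
    fun S => (hΦ _ _ (Z.r1 S)).congr (by simp) le_rfl,
    fun q => (hΦ _ _ (Z.r2 q)).congr (by simp) le_rfl⟩

def af (A : Mx m) (n : ℕ) : Fin 3 × (𝒮 × 𝒮) × (σ ⊕ ρ) → Mx m :=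
  fun l => if l.1.val < n then A else 0

lemma af_step (A : Mx m) (k : Fin 3) (l : Fin 3 × (𝒮 × 𝒮) × (σ ⊕ ρ))
    (h : ∀ u, (k, u) ≠ l) : af A (k.val + 1) l = af A k.val l := by
  have : l.1.val ≠ k.val := fun hh => h l.2 (Prod.ext (Fin.ext hh.symm) rfl)
  simp only [af]
  by_cases h1 : l.1.val < k.val
  · rw [if_pos h1, if_pos (by omega)]
  · rw [if_neg h1, if_neg (by omega)]

def Fr.cs (𝒮 σ ρ : Type) [Fintype 𝒮] [Fintype σ] [Fintype ρ] (r : ℕ) : ℕ :=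
  Fintype.card (𝒮 × 𝒮) *
    (mc 𝒮 σ ρ r + (Fintype.card σ + Fintype.card ρ) * ((r + 1) * (r + 2) * (r + 3)))

lemma Fr.stage1 : Real Gen D.Good (Fr.cs 𝒮 σ ρ r)
    (st3 (fun _ => 0) (fun s : 𝒮 × 𝒮 × 𝒮 => Z.tri (Z.P s.1) (Z.P s.2.1) (Z.P s.2.2))
      (af (𝒮 := 𝒮) (σ := σ) (ρ := ρ) (Z.tri Z.E Z.E Z.E) 0))
    (st3 (fun s => Z.tri (Z.E - Z.P s.1) (Z.P s.2.1) (Z.P s.2.2))
      (fun s => Z.tri Z.E (Z.P s.2.1) (Z.P s.2.2)) (af (Z.tri Z.E Z.E Z.E) 1))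
    (fun _ L => st3 (fun s => L (.inl s)) (fun s => L (.inr (.inl s)) + L (.inl s))
      (fun l => L (.inr (.inr l)))) := by
  refine lift (g := 𝒮 × 𝒮) (fun u => (u.2, u.1)) (Equiv.prodComm _ _).bijective
    (fun u => ((0 : Fin 3), u)) (Prod.mk_right_injective _) (fun _ x _ => x) (fun _ x y => y + x)
    (fun a => (D.stageA (Z.rk ((Z.tri.flip (Z.P a.1)).flip (Z.P a.2)) fun b i hb =>
      (Z.htri hb (Z.rp _) (Z.rp _)).congr rfl (by simp)) (B := 0) (One := Z.tri Z.E Z.E Z.E)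
      Rk.zero (((Z.htri Z.re (Z.r1 a.1) Z.re).add (Z.htri Z.re (Z.rp a.1) (Z.r1 a.2))).congr
        (by simp) le_rfl)).congr (le_of_eq (by ring)) rfl rfl fun _ _ _ => rfl)
    _ _ _ _ _ _ ?_ ?_ ?_ ?_ ?_ ?_ (af_step _ 0)
  all_goals simp [af]

lemma Fr.stage2 : Real Gen D.Good (Fr.cs 𝒮 σ ρ r)
    (st3 (fun s : 𝒮 × 𝒮 × 𝒮 => Z.tri (Z.E - Z.P s.1) Z.E (Z.P s.2.2))
      (fun s => Z.tri (Z.E - Z.P s.1) Z.E (Z.P s.2.2) + Z.tri (Z.P s.1) (Z.P s.2.1) (Z.P s.2.2))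
      (af (𝒮 := 𝒮) (σ := σ) (ρ := ρ) (Z.tri Z.E Z.E Z.E) 1))
    (st3 (fun s => Z.tri Z.E Z.E (Z.P s.2.2) - Z.tri (Z.P s.1) (Z.P s.2.1) (Z.P s.2.2))
      (fun s => Z.tri Z.E Z.E (Z.P s.2.2)) (af (Z.tri Z.E Z.E Z.E) 2))
    (fun _ L => st3 (fun s => L (.inl s) - L (.inr (.inl s))) (fun s => L (.inr (.inl s)))
      (fun l => L (.inr (.inr l)))) := by
  refine lift (g := 𝒮 × 𝒮) (fun u => (u.1.1, u.2, u.1.2))
    (⟨fun u => (u.1.1, u.2, u.1.2), fun s => ((s.1, s.2.2), s.2.1), fun _ => rfl, fun _ => rfl⟩ :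
      (𝒮 × 𝒮) × 𝒮 ≃ 𝒮 × 𝒮 × 𝒮).bijective
    (fun u => ((1 : Fin 3), u)) (Prod.mk_right_injective _) (fun _ x y => x - y) (fun _ _ y => y)
    (fun a => (D.stageB Z.hneg (Z.rk ((Z.tri (Z.P a.1)).flip (Z.P a.2)) fun b i hb =>
      (Z.htri (Z.rp _) hb (Z.rp _)).congr rfl (by simp))
      (B := Z.tri (Z.E - Z.P a.1) Z.E (Z.P a.2)) (One := Z.tri Z.E Z.E Z.E)
      (Z.htri (Z.r1 a.1) Z.re (Z.rp a.2)) ((Z.htri Z.re Z.re (Z.r1 a.2)).congr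
        (by simp) le_rfl)).congr (le_of_eq (by ring)) rfl rfl fun _ _ _ => rfl)
    _ _ _ _ _ _ ?_ ?_ ?_ ?_ ?_ ?_ (af_step _ 1)
  all_goals simp [af]

lemma Fr.stage3 : Real Gen D.Good (Fr.cs 𝒮 σ ρ r)
    (st3 (fun s : 𝒮 × 𝒮 × 𝒮 => Z.tri Z.E Z.E Z.E - Z.tri (Z.P s.1) (Z.P s.2.1) Z.E)
      (fun s => Z.tri Z.E Z.E Z.E - Z.tri (Z.P s.1) (Z.P s.2.1) Z.E +
        Z.tri (Z.P s.1) (Z.P s.2.1) (Z.P s.2.2))
      (af (𝒮 := 𝒮) (σ := σ) (ρ := ρ) (Z.tri Z.E Z.E Z.E) 2))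
    (st3 (fun s => Z.tri Z.E Z.E Z.E - Z.tri (Z.P s.1) (Z.P s.2.1) (Z.P s.2.2))
      (fun _ => Z.tri Z.E Z.E Z.E) (af (Z.tri Z.E Z.E Z.E) 3))
    (fun _ L => st3 (fun s => L (.inl s)) (fun s => L (.inr (.inl s)) + L (.inl s))
      (fun l => L (.inr (.inr l)))) := by
  refine lift (g := 𝒮 × 𝒮) (fun u => (u.1.1, u.1.2, u.2)) (Equiv.prodAssoc _ _ _).bijective
    (fun u => ((2 : Fin 3), u)) (Prod.mk_right_injective _) (fun _ x _ => x) (fun _ x y => y + x)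
    (fun a => (D.stageA (Z.rk (Z.tri (Z.P a.1) (Z.P a.2)) fun b i hb =>
      (Z.htri (Z.rp _) (Z.rp _) hb).congr rfl (by simp))
      (B := Z.tri Z.E Z.E Z.E - Z.tri (Z.P a.1) (Z.P a.2) Z.E) (One := Z.tri Z.E Z.E Z.E)
      (((Z.htri (Z.r1 a.1) Z.re Z.re).add (Z.htri (Z.rp a.1) (Z.r1 a.2) Z.re)).congr
        (by simp) le_rfl) (Rk.zero.congr (by simp) le_rfl)).congr (le_of_eq (by ring)) rfl rfl
        fun _ _ _ => rfl)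
    _ _ _ _ _ _ ?_ ?_ ?_ ?_ ?_ ?_ (af_step _ 2)
  all_goals simp [af]

lemma Fr.network : ∃ c : ℕ, c + Fintype.card 𝒮 ^ 3 = Fintype.card (Wire 𝒮 σ ρ) * (r + 2) ^ 3 +
      6 * Fintype.card 𝒮 ^ 2 * Fintype.card ρ * (r + 2) ∧
    Real Gen D.Good c (fun _ : Wire 𝒮 σ ρ => 0) (fun _ => Z.tri Z.E Z.E Z.E) (fun _ L => L) := by
  have a0 := Real.reframe (Gen := Gen) (G := D.Good) (fun _ : Wire 𝒮 σ ρ => (0 : Mx m))
    (st3 (fun _ => 0) (fun s : 𝒮 × 𝒮 × 𝒮 => Z.tri (Z.P s.1) (Z.P s.2.1) (Z.P s.2.2))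
      (af (𝒮 := 𝒮) (σ := σ) (ρ := ρ) (Z.tri Z.E Z.E Z.E) 0))
  have a1 := cM3 (a0.trans Z.stage1) (fun s : 𝒮 × 𝒮 × 𝒮 => Z.tri (Z.E - Z.P s.1) Z.E (Z.P s.2.2))
    (fun s => Z.tri (Z.E - Z.P s.1) Z.E (Z.P s.2.2) + Z.tri (Z.P s.1) (Z.P s.2.1) (Z.P s.2.2)) _ _
    (fun s => (Z.htri (Z.r1 s.1) (Z.r1 s.2.1) (Z.rp s.2.2)).congr (by simp; abel) le_rfl)
    (fun s => (Z.htri (Z.r1 s.1) (Z.r1 s.2.1) (Z.rp s.2.2)).congr (by simp; abel) le_rfl)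
  have a2 := cM3 (a1.trans Z.stage2)
    (fun s : 𝒮 × 𝒮 × 𝒮 => Z.tri Z.E Z.E Z.E - Z.tri (Z.P s.1) (Z.P s.2.1) Z.E)
    (fun s => Z.tri Z.E Z.E Z.E - Z.tri (Z.P s.1) (Z.P s.2.1) Z.E +
        Z.tri (Z.P s.1) (Z.P s.2.1) (Z.P s.2.2)) _ _
    (fun s => ((Z.htri (Z.r1 s.1) Z.re (Z.r1 s.2.2)).add
      (Z.htri (Z.rp s.1) (Z.r1 s.2.1) (Z.r1 s.2.2))).congr (by simp; abel) le_rfl)
    (fun s => ((Z.htri (Z.r1 s.1) Z.re (Z.r1 s.2.2)).add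
      (Z.htri (Z.rp s.1) (Z.r1 s.2.1) (Z.r1 s.2.2))).congr (by simp; abel) le_rfl)
  have a3 := cM3 (a2.trans Z.stage3)
    (fun s : 𝒮 × 𝒮 × 𝒮 => Z.tri Z.E Z.E Z.E + Z.tri (Z.P s.1) (Z.P s.2.1) (Z.P s.2.2))
    (fun _ => Z.tri Z.E Z.E Z.E) 1 0
    (fun s => (Z.h2 s.1 s.2.1 s.2.2).congr (by abel) le_rfl)
    (fun s => Rk.zero.congr (by abel) le_rfl)
  have a4 : Real Gen D.Good _ (fun _ : Wire 𝒮 σ ρ => (0 : Mx m)) (fun _ => Z.tri Z.E Z.E Z.E)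
      (fun M L => st3 (fun s => -L (.inr (.inl s))) (fun s => L (.inl s))
        (fun l => L (.inr (.inr l)))) :=
    (a3.trans (Real.reframe _ (fun _ => Z.tri Z.E Z.E Z.E))).congr le_rfl rfl rfl fun M _ L => by
      funext j
      rcases j with s | s | l
      · simp [st3, M.fr_fr, M.fr_zero]
      · simp [st3, M.fr_zero]
      · have : l.1.val < 3 := l.1.2
        simp [st3, af, M.fr_zero]
  refine ⟨_, ?_, (g3x (g3y (g3x a4 D.o) (-D.o)) D.o).congr le_rfl rfl rfl fun M hM L => ?_⟩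
  · simp only [Fr.cs, mc, Fintype.card_sum, Fintype.card_prod, Fintype.card_fin]
    ring
  · funext j
    rcases j with s | s | l <;> simp [st3, hM.1]

lemma Fr.final (hm : m = (r + 2) ^ 3)
    (hS : 6 * Fintype.card ρ * (r + 2) < Fintype.card 𝒮) :
    ∃ W0 : ℕ, ∀ W, W0 ≤ W → ∃ l : List (Step W m), (∀ s ∈ l, s.ok Gen) ∧ paid l + 1 ≤ W * m ∧
      ∀ M : Model m, D.Good M → ∀ X, runAll M.h M.fr l X =
        fun i => M.fr (Z.tri Z.E Z.E Z.E) (X i) := by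
  obtain ⟨c, hc, h⟩ := Z.network
  refine ⟨Fintype.card (Wire 𝒮 σ ρ), fun W hW => ?_⟩
  obtain ⟨k, rfl⟩ := Nat.exists_eq_add_of_le hW
  have a1 := h.embed (ι := Wire 𝒮 σ ρ ⊕ Fin k) Sum.inl Sum.inl_injective (F := fun _ => 0)
    (F' := Sum.elim (fun _ => Z.tri Z.E Z.E Z.E) fun _ => 0) (T := fun _ L => L)
    (fun _ => rfl) (fun _ => rfl) (by
      rintro (i | i) hi
      · exact absurd rfl (hi i)
      · rfl) (fun _ _ _ _ => rfl) (fun _ _ _ _ _ => rfl)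
  have a2 := a1.trans (Real.moves (F' := fun _ => Z.tri Z.E Z.E Z.E)
    (n := Sum.elim (fun _ => 0) fun _ => m) (by
      rintro (i | i)
      · exact Rk.zero.congr (by simp) le_rfl
      · exact (Z.htri Z.re Z.re Z.re).congr (by simp) (le_of_eq (by rw [Sum.elim_inr, hm]; ring))))
  let e : Wire 𝒮 σ ρ ⊕ Fin k ≃ Fin (Fintype.card (Wire 𝒮 σ ρ) + k) :=
    Fintype.equivFinOfCardEq (by simp only [Fintype.card_sum (α := Wire 𝒮 σ ρ), Fintype.card_fin])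
  obtain ⟨l, h1, h2, h3⟩ := a2 _ e e.injective
  refine ⟨l, h1, ?_, fun M hM X => ?_⟩
  · simp only [Fintype.sum_sum_type (α₁ := Wire 𝒮 σ ρ), Sum.elim_inl, Sum.elim_inr,
      Finset.sum_const, Finset.card_univ, smul_eq_mul, Fintype.card_fin, mul_zero, zero_add] at h2
    rw [← hm] at hc
    have h0 : 0 < Fintype.card 𝒮 ^ 2 := pow_pos (by omega) 2
    have := Nat.mul_lt_mul_of_pos_left hS h0
    have e1 : Fintype.card 𝒮 ^ 2 * Fintype.card 𝒮 = Fintype.card 𝒮 ^ 3 := by ring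
    have e2 : Fintype.card 𝒮 ^ 2 * (6 * Fintype.card ρ * (r + 2)) =
      6 * Fintype.card 𝒮 ^ 2 * Fintype.card ρ * (r + 2) := by ring
    rw [add_mul]
    omega
  · funext i
    obtain ⟨i, rfl⟩ := e.surjective i
    exact (h3 M hM X (fun i => X (e i)) fun i => (M.fr_zero _).symm).1 i

end Des

end Vale.Agent.P338.NetP
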