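import Vale.Agent.P338.NetCore

/-! The basic motif `y += x` with the help of dirty auxiliary wires. -/

namespace Vale.Agent.P338.NetP

open Function Matrix

set_option linter.unusedSectionVars false

structure Des (𝒮 σ ρ : Type) where
  s1 : σ → 𝒮
  s2 : σ → 𝒮
  N : σ → ℤ
  γ : 𝒮 → ρ → ℤ
  b : ρ → 𝒮 → ℤ
  o : ℤ

namespace Des

variable {m : ℕ} {𝒮 σ ρ : Type} [Fintype 𝒮] [DecidableEq 𝒮] [Fintype σ] [DecidableEq σ]
  [Fintype ρ] [DecidableEq ρ] (D : Des 𝒮 σ ρ)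

def Good (M : Model m) : Prop :=
  (D.o : M.K) * M.h = 1 ∧ ∀ S T,
    (∑ p, if D.s1 p = S ∧ D.s2 p = T then (D.N p : M.K) * M.h else 0) +
      ∑ i, ((D.γ S i : M.K) * M.h) * ((D.b i T : M.K) * M.h) = if S = T then 1 else 0

omit [DecidableEq σ] [DecidableEq ρ] in
lemma ident {M : Model m} (hM : D.Good M) (x : 𝒮 → M.V) (S : 𝒮) :
    (∑ p, if D.s1 p = S then ((D.N p : M.K) * M.h) • x (D.s2 p) else 0) +
      ∑ i, ((D.γ S i : M.K) * M.h) • ∑ T, ((D.b i T : M.K) * M.h) • x T = x S := by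
  have h1 : x S = ∑ T, (if S = T then (1 : M.K) else 0) • x T := by simp [ite_smul]
  rw [h1]
  simp only [← hM.2, add_smul, Finset.sum_add_distrib, Finset.sum_smul, Finset.smul_sum, smul_smul]
  congr 1
  · rw [Finset.sum_comm]
    refine Finset.sum_congr rfl fun p _ => ?_
    by_cases hp : D.s1 p = S
    · simp [hp, ite_smul]
    · simp [hp]
  · exact Finset.sum_comm

abbrev Wt (𝒮 σ ρ : Type) := 𝒮 ⊕ 𝒮 ⊕ σ ⊕ ρ

def st {A : Type} (x y : 𝒮 → A) (a : σ → A) (c : ρ → A) : Wt 𝒮 σ ρ → A :=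
  Sum.elim x (Sum.elim y (Sum.elim a c))

abbrev wx (S : 𝒮) : Wt 𝒮 σ ρ := .inl S
abbrev wy (S : 𝒮) : Wt 𝒮 σ ρ := .inr (.inl S)
abbrev wa (p : σ) : Wt 𝒮 σ ρ := .inr (.inr (.inl p))
abbrev wc (i : ρ) : Wt 𝒮 σ ρ := .inr (.inr (.inr i))

variable {Gen : Mx m → Bool → Prop} {G : Model m → Prop}

lemma gA (z : ℤ) (F : Wt 𝒮 σ ρ → Mx m) (hF : ∀ p, F (wa p) = F (wx (D.s2 p))) :
    Real Gen G 0 F F (fun M L => st (fun S => L (wx S)) (fun S => L (wy S))
      (fun p => L (wa p) + ((z : M.K) * M.h) • L (wx (D.s2 p))) (fun i => L (wc i))) := by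
  refine (Real.gates F (Q := σ) wa (fun p => wx (D.s2 p)) (fun _ => z) (by simp)
    (fun p _ => hF p)).congr le_rfl rfl rfl fun M _ L => ?_
  funext j
  rcases j with S | S | p | i <;> simp [st]

lemma gC (z : ℤ) (F : Wt 𝒮 σ ρ → Mx m) (hF : ∀ i T, F (wc i) = F (wx T)) :
    Real Gen G 0 F F (fun M L => st (fun S => L (wx S)) (fun S => L (wy S)) (fun p => L (wa p))
      (fun i => L (wc i) + (z : M.K) • ∑ T, ((D.b i T : M.K) * M.h) • L (wx T))) := by
  refine (Real.gates F (Q := ρ × 𝒮) (fun q => wc q.1) (fun q => wx q.2) (fun q => z * D.b q.1 q.2)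
    (by simp) (fun q _ => hF _ _)).congr le_rfl rfl rfl fun M _ L => ?_
  funext j
  rcases j with S | S | p | i
  · simp [st]
  · simp [st]
  · simp [st]
  · simp only [st, Sum.elim_inr, Fintype.sum_prod_type, Sum.inr.injEq, Finset.smul_sum, smul_smul]
    rw [Finset.sum_comm]
    simp [mul_assoc]

lemma gYa (z : ℤ) (F : Wt 𝒮 σ ρ → Mx m) (hF : ∀ p, F (wy (D.s1 p)) = F (wa p)) :
    Real Gen G 0 F F (fun M L => st (fun S => L (wx S))
      (fun S => L (wy S) + (z : M.K) •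
        ∑ p, if D.s1 p = S then ((D.N p : M.K) * M.h) • L (wa p) else 0)
      (fun p => L (wa p)) (fun i => L (wc i))) := by
  refine (Real.gates F (Q := σ) (fun p => wy (D.s1 p)) wa (fun p => z * D.N p)
    (by simp) (fun q _ => hF _)).congr le_rfl rfl rfl fun M _ L => ?_
  funext j
  rcases j with S | S | p | i
  · simp [st]
  · simp [st, Finset.smul_sum, smul_smul, mul_assoc]
  · simp [st]
  · simp [st]

lemma gYc (z : ℤ) (F : Wt 𝒮 σ ρ → Mx m) (hF : ∀ S i, F (wy S) = F (wc i)) :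
    Real Gen G 0 F F (fun M L => st (fun S => L (wx S))
      (fun S => L (wy S) + (z : M.K) • ∑ i, ((D.γ S i : M.K) * M.h) • L (wc i))
      (fun p => L (wa p)) (fun i => L (wc i))) := by
  refine (Real.gates F (Q := 𝒮 × ρ) (fun q => wy q.1) (fun q => wc q.2) (fun q => z * D.γ q.1 q.2)
    (by simp) (fun q _ => hF _ _)).congr le_rfl rfl rfl fun M _ L => ?_
  funext j
  rcases j with S | S | p | i
  · simp [st]
  · simp only [st, Sum.elim_inr, Sum.elim_inl, Fintype.sum_prod_type, Sum.inr.injEq,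
      Sum.inl.injEq, Finset.smul_sum, smul_smul]
    rw [Finset.sum_comm]
    simp [mul_assoc]
  · simp [st]
  · simp [st]

/-- rank data of the motif -/
structure RkData (Gen : Mx m → Bool → Prop) (r : ℕ) (e : Mx m) (p : 𝒮 → Mx m) : Prop where
  re : Rk Gen e (r + 2)
  rne : Rk Gen (-e) (r + 2)
  rp : ∀ S, Rk Gen (p S) 1
  r1 : ∀ S, Rk Gen (e - p S) (r + 1)
  r2 : ∀ q, Rk Gen (e - p (D.s1 q) - p (D.s2 q)) r

def mc (𝒮 σ ρ : Type) [Fintype 𝒮] [Fintype σ] [Fintype ρ] (r : ℕ) : ℕ :=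
  2 * Fintype.card 𝒮 * (r + 1) + Fintype.card σ * (r + 2) + 3 * Fintype.card ρ * (r + 2)

section chain
variable {c : ℕ} {F0 : Wt 𝒮 σ ρ → Mx m} {f1 f2 : 𝒮 → Mx m} {f3 : σ → Mx m} {f4 : ρ → Mx m}
  {x y : (M : Model m) → (Wt 𝒮 σ ρ → M.V) → 𝒮 → M.V}
  {a : (M : Model m) → (Wt 𝒮 σ ρ → M.V) → σ → M.V}
  {u : (M : Model m) → (Wt 𝒮 σ ρ → M.V) → ρ → M.V}

lemma cA (h : Real Gen G c F0 (st f1 f2 f3 f4) (fun M L => st (x M L) (y M L) (a M L) (u M L)))
    (z : ℤ) (hF : ∀ p, f3 p = f1 (D.s2 p)) : Real Gen G c F0 (st f1 f2 f3 f4)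
      (fun M L => st (x M L) (y M L) (fun p => a M L p + ((z : M.K) * M.h) • x M L (D.s2 p))
        (u M L)) :=
  (h.trans (D.gA z _ hF)).congr le_rfl rfl rfl fun _ _ _ => rfl

lemma cC (h : Real Gen G c F0 (st f1 f2 f3 f4) (fun M L => st (x M L) (y M L) (a M L) (u M L)))
    (z : ℤ) (hF : ∀ i T, f4 i = f1 T) : Real Gen G c F0 (st f1 f2 f3 f4)
      (fun M L => st (x M L) (y M L) (a M L)
        (fun i => u M L i + (z : M.K) • ∑ T, ((D.b i T : M.K) * M.h) • x M L T)) :=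
  (h.trans (D.gC z _ hF)).congr le_rfl rfl rfl fun _ _ _ => rfl

lemma cYa (h : Real Gen G c F0 (st f1 f2 f3 f4) (fun M L => st (x M L) (y M L) (a M L) (u M L)))
    (z : ℤ) (hF : ∀ p, f2 (D.s1 p) = f3 p) : Real Gen G c F0 (st f1 f2 f3 f4)
      (fun M L => st (x M L) (fun S => y M L S + (z : M.K) •
        ∑ p, if D.s1 p = S then ((D.N p : M.K) * M.h) • a M L p else 0) (a M L) (u M L)) :=
  (h.trans (D.gYa z _ hF)).congr le_rfl rfl rfl fun _ _ _ => rfl

lemma cYc (h : Real Gen G c F0 (st f1 f2 f3 f4) (fun M L => st (x M L) (y M L) (a M L) (u M L)))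
    (z : ℤ) (hF : ∀ S i, f2 S = f4 i) : Real Gen G c F0 (st f1 f2 f3 f4)
      (fun M L => st (x M L) (fun S => y M L S + (z : M.K) •
        ∑ i, ((D.γ S i : M.K) * M.h) • u M L i) (a M L) (u M L)) :=
  (h.trans (D.gYc z _ hF)).congr le_rfl rfl rfl fun _ _ _ => rfl

omit [DecidableEq 𝒮] [DecidableEq σ] [DecidableEq ρ] in
lemma cM {T : Tr m (Wt 𝒮 σ ρ)} (h : Real Gen G c F0 (st f1 f2 f3 f4) T)
    (g1 g2 : 𝒮 → Mx m) (g3 : σ → Mx m) (g4 : ρ → Mx m) (n1 n2 n3 n4 : ℕ)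
    (h1 : ∀ S, Rk Gen (g1 S - f1 S) n1) (h2 : ∀ S, Rk Gen (g2 S - f2 S) n2)
    (h3 : ∀ S, Rk Gen (g3 S - f3 S) n3) (h4 : ∀ S, Rk Gen (g4 S - f4 S) n4) :
    Real Gen G (c + (Fintype.card 𝒮 * (n1 + n2) + Fintype.card σ * n3 + Fintype.card ρ * n4)) F0
      (st g1 g2 g3 g4) T := by
  have := Real.moves (Gen := Gen) (G := G) (F := st f1 f2 f3 f4) (F' := st g1 g2 g3 g4)
    (n := st (fun _ => n1) (fun _ => n2) (fun _ => n3) (fun _ => n4)) (by
      rintro (S | S | q | i)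
      exacts [h1 S, h2 S, h3 q, h4 i])
  refine (h.trans this).congr (le_of_eq ?_) rfl rfl fun _ _ _ => rfl
  simp only [st, Fintype.sum_sum_type, Sum.elim_inl, Sum.elim_inr, Finset.sum_const,
      Finset.card_univ, smul_eq_mul]
  ring

end chain

lemma st_eta {A : Type} (L : Wt 𝒮 σ ρ → A) :
    L = st (fun S => L (wx S)) (fun S => L (wy S)) (fun q => L (wa q)) (fun i => L (wc i)) := by
  funext j
  rcases j with S | S | q | i <;> rfl

lemma motif {r : ℕ} {e : Mx m} {p : 𝒮 → Mx m} (R : D.RkData Gen r e p) (B : Mx m) :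
    Real Gen D.Good (mc 𝒮 σ ρ r)
      (st (fun _ => B) (fun S => B + p S) (fun _ : σ => B) (fun _ : ρ => B))
      (st (fun S => B + e - p S) (fun _ => B + e) (fun _ => B + e) (fun _ => B + e))
      (fun _ L => st (fun S => L (wx S)) (fun S => L (wy S) + L (wx S)) (fun q => L (wa q))
        (fun i => L (wc i))) := by
  have r0 : ∀ A : Mx m, Rk Gen (A - A) 0 := fun A => Rk.zero.congr (sub_self A).symm le_rfl
  have g0 : Real Gen D.Good 0
      (st (fun _ => B) (fun S => B + p S) (fun _ : σ => B) (fun _ : ρ => B))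
      (st (fun _ => B) (fun S => B + p S) (fun _ : σ => B) (fun _ : ρ => B))
      (fun _ L => st (fun S => L (wx S)) (fun S => L (wy S)) (fun q => L (wa q))
        (fun i => L (wc i))) :=
    (Real.refl _).congr le_rfl rfl rfl fun _ _ L => st_eta L
  have g1 := D.cC (D.cA g0 D.o fun _ => rfl) 1 fun _ _ => rfl
  have m1 := cM g1 (fun _ => B) (fun S => B + p S) (fun q => B + p (D.s1 q)) (fun _ => B) 0 0 1 0
    (fun _ => r0 _) (fun _ => r0 _) (fun q => (R.rp (D.s1 q)).congr (by abel) le_rfl)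
    (fun _ => r0 _)
  have g2 := D.cYa m1 1 fun _ => rfl
  have m2 := cM g2 (fun _ => B) (fun _ => B + e) (fun q => B + p (D.s1 q)) (fun _ => B + e)
    0 (r + 1) 0 (r + 2)
    (fun _ => r0 _) (fun S => (R.r1 S).congr (by abel) le_rfl) (fun _ => r0 _)
    (fun _ => R.re.congr (by abel) le_rfl)
  have g3 := D.cYc m2 1 fun _ _ => rfl
  have m3 := cM g3 (fun _ => B) (fun _ => B + e) (fun q => B + p (D.s1 q)) (fun _ => B)
    0 0 0 (r + 2)
    (fun _ => r0 _) (fun _ => r0 _) (fun _ => r0 _) (fun _ => R.rne.congr (by abel) le_rfl)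
  have g4 := D.cC m3 (-1) fun _ _ => rfl
  have m4 := cM g4 (fun S => B + e - p S) (fun _ => B + e) (fun q => B + e - p (D.s2 q))
    (fun _ => B) (r + 1) 0 r 0
    (fun S => (R.r1 S).congr (by abel) le_rfl) (fun _ => r0 _)
    (fun q => (R.r2 q).congr (by abel) le_rfl) (fun _ => r0 _)
  have g5 := D.cA m4 (-D.o) fun _ => rfl
  have m5 := cM g5 (fun S => B + e - p S) (fun _ => B + e) (fun _ => B + e)
    (fun _ => B + e) 0 0 1 (r + 2)
    (fun _ => r0 _) (fun _ => r0 _) (fun q => (R.rp (D.s2 q)).congr (by abel) le_rfl)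
    (fun _ => R.re.congr (by abel) le_rfl)
  have g6 := D.cYc (D.cYa m5 (-1) fun _ => rfl) (-1) fun _ _ => rfl
  refine g6.congr (le_of_eq ?_) rfl rfl fun M hM L => ?_
  · simp only [mc]
    ring
  · clear g0 g1 m1 g2 m2 g3 m3 g4 m4 g5 m5 g6
    funext j
    rcases j with S | S | q | i
    · rfl
    · have := D.ident hM (fun S => L (wx S)) S
      have e1 : ∀ (c : Prop) [Decidable c] (u v : M.V),
          (if c then u + v else 0) = (if c then u else 0) + (if c then v else 0) := by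
        intro c _ u v; split_ifs <;> simp
      simp only [st, Sum.elim_inl, Sum.elim_inr, hM.1, Int.cast_neg, neg_mul, Int.cast_one,
        one_smul, neg_smul, add_neg_cancel_right]
      simp only [smul_add, e1, Finset.sum_add_distrib]
      rw [← this]
      abel
    · simp [st, hM.1]
    · simp [st]

end Des

end Vale.Agent.P338.NetP
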