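import Vale.Agent.P338.NetMotif

/-! The three-stage network. -/

namespace Vale.Agent.P338.NetP

open Function Matrix

set_option linter.unusedSectionVars false

variable {m : ℕ} {Gen : Mx m → Bool → Prop} {G : Model m → Prop}

lemma Real.reframe {ι : Type} (F F' : ι → Mx m) :
    Real Gen G 0 F F' (fun M L i => M.fr (F i - F' i) (L i)) := by
  intro W e _
  refine ⟨[], by simp, by simp [paid], fun M _ X L h => ⟨fun i => ?_, fun _ _ => rfl⟩⟩
  change X (e i) = _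
  rw [h, M.fr_fr]; simp

def st3 {Ω Λ A : Type} (x y : Ω → A) (a : Λ → A) : Ω ⊕ Ω ⊕ Λ → A := Sum.elim x (Sum.elim y a)

lemma cM3 {Ω Λ : Type} [Fintype Ω] [Fintype Λ] {c : ℕ} {F0 : Ω ⊕ Ω ⊕ Λ → Mx m}
    {f1 f2 : Ω → Mx m} {f3 : Λ → Mx m} {T : Tr m (Ω ⊕ Ω ⊕ Λ)}
    (h : Real Gen G c F0 (st3 f1 f2 f3) T) (g1 g2 : Ω → Mx m) (n1 n2 : ℕ)
    (h1 : ∀ S, Rk Gen (g1 S - f1 S) n1) (h2 : ∀ S, Rk Gen (g2 S - f2 S) n2) :
    Real Gen G (c + Fintype.card Ω * (n1 + n2)) F0 (st3 g1 g2 f3) T := by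
  have := Real.moves (Gen := Gen) (G := G) (F := st3 f1 f2 f3) (F' := st3 g1 g2 f3)
    (n := st3 (fun _ => n1) (fun _ => n2) (fun _ => 0)) (by
      rintro (S | S | q)
      exacts [h1 S, h2 S, Rk.zero.congr (sub_self _).symm le_rfl])
  refine (h.trans this).congr (le_of_eq ?_) rfl rfl fun _ _ _ => rfl
  simp only [st3, Fintype.sum_sum_type, Sum.elim_inl, Sum.elim_inr, Finset.sum_const,
      Finset.card_univ, smul_eq_mul]
  ring

namespace Des

variable {𝒮 σ ρ : Type} [Fintype 𝒮] [DecidableEq 𝒮] [Fintype σ] [DecidableEq σ]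
  [Fintype ρ] [DecidableEq ρ] (D : Des 𝒮 σ ρ)

lemma pre_post {c n1 n2 : ℕ} {f1 f2 g1 g2 : 𝒮 → Mx m} {B B' One : Mx m} {T : Tr m (Wt 𝒮 σ ρ)}
    (h : Real Gen G c (st f1 f2 (fun _ => B) (fun _ => B)) (st g1 g2 (fun _ => B') (fun _ => B')) T)
    (h1 : Rk Gen B n1) (h2 : Rk Gen (One - B') n2) :
    Real Gen G (c + (Fintype.card σ + Fintype.card ρ) * (n1 + n2))
      (st f1 f2 (fun _ => 0) (fun _ => 0)) (st g1 g2 (fun _ => One) (fun _ => One)) T := by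
  have r0 : ∀ A : Mx m, Rk Gen (A - A) 0 := fun A => Rk.zero.congr (sub_self A).symm le_rfl
  have a1 := cM (Real.refl (Gen := Gen) (G := G)
    (st f1 f2 (fun _ : σ => 0) (fun _ : ρ => 0))) f1 f2 (fun _ => B) (fun _ => B) 0 0 n1 n1
    (fun _ => r0 _) (fun _ => r0 _) (fun _ => h1.congr (by abel) le_rfl)
    (fun _ => h1.congr (by abel) le_rfl)
  have a2 := cM (a1.trans h) g1 g2 (fun _ => One) (fun _ => One) 0 0 n2 n2
    (fun _ => r0 _) (fun _ => r0 _) (fun _ => h2) (fun _ => h2)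
  exact a2.congr (le_of_eq (by ring)) rfl rfl fun _ _ _ => rfl

lemma stageA {r n1 n2 : ℕ} {e : Mx m} {p : 𝒮 → Mx m} (R : D.RkData Gen r e p) {B One : Mx m}
    (h1 : Rk Gen B n1) (h2 : Rk Gen (One - (B + e)) n2) :
    Real Gen D.Good (mc 𝒮 σ ρ r + (Fintype.card σ + Fintype.card ρ) * (n1 + n2))
      (st (fun _ => B) (fun S => B + p S) (fun _ : σ => 0) (fun _ : ρ => 0))
      (st (fun S => B + e - p S) (fun _ => B + e) (fun _ => One) (fun _ => One))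
      (fun _ L => st (fun S => L (wx S)) (fun S => L (wy S) + L (wx S)) (fun q => L (wa q))
        (fun i => L (wc i))) :=
  pre_post (D.motif R B) h1 h2

def swp : Wt 𝒮 σ ρ → Wt 𝒮 σ ρ := st wy wx wa wc

lemma swp_swp (w : Wt 𝒮 σ ρ) : swp (swp w) = w := by
  rcases w with S | S | q | i <;> rfl

lemma stageB (hneg : ∀ A p, Gen A p → Rk Gen (-A) (if p then 1 else 0))
    {r n1 n2 : ℕ} {e : Mx m} {p : 𝒮 → Mx m} (R : D.RkData Gen r e p) {B One : Mx m}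
    (h1 : Rk Gen B n1) (h2 : Rk Gen (One - (B + e)) n2) :
    Real Gen D.Good (mc 𝒮 σ ρ r + (Fintype.card σ + Fintype.card ρ) * (n1 + n2))
      (st (fun _ => B) (fun S => B + p S) (fun _ : σ => 0) (fun _ : ρ => 0))
      (st (fun S => B + e - p S) (fun _ => B + e) (fun _ => One) (fun _ => One))
      (fun _ L => st (fun S => L (wx S) - L (wy S)) (fun S => L (wy S)) (fun q => L (wa q))
        (fun i => L (wc i))) := by
  have R' : D.RkData Gen r (-e) (fun S => -p S) :=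
    ⟨R.rne, R.re.congr (neg_neg e).symm le_rfl, fun S => (R.rp S).neg hneg,
      fun S => ((R.r1 S).neg hneg).congr (by abel) le_rfl,
      fun q => ((R.r2 q).neg hneg).congr (by abel) le_rfl⟩
  have a1 := (D.motif R' (B + e)).inv hneg (T' := fun _ L => st (fun S => L (wx S))
    (fun S => L (wy S) - L (wx S)) (fun q => L (wa q)) (fun i => L (wc i))) (by
      intro M _ L
      funext j
      rcases j with S | S | q | i <;> simp [st])
  refine pre_post ?_ h1 h2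
  refine a1.embed swp (Function.LeftInverse.injective swp_swp) ?_ ?_ ?_ ?_ ?_
  · rintro (S | S | q | i) <;> simp [st, swp]
  · rintro (S | S | q | i) <;> simp [st, swp, sub_eq_add_neg]
  · intro i hi; exact absurd (swp_swp i) (hi _)
  · rintro M _ L (S | S | q | i) <;> rfl
  · intro M _ L i hi; exact absurd (swp_swp i) (hi _)

def emb {Ω Λ g : Type} (φ : g × 𝒮 → Ω) (j : g × (σ ⊕ ρ) → Λ) :
    g × Wt 𝒮 σ ρ → Ω ⊕ Ω ⊕ Λ := fun w =>
  st (fun S => .inl (φ (w.1, S))) (fun S => .inr (.inl (φ (w.1, S))))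
    (fun q => .inr (.inr (j (w.1, .inl q)))) (fun i => .inr (.inr (j (w.1, .inr i)))) w.2

lemma emb_inj {Ω Λ g : Type} {φ : g × 𝒮 → Ω} (hφ : Injective φ) {j : g × (σ ⊕ ρ) → Λ}
    (hj : Injective j) : Injective (emb φ j) := by
  rintro ⟨a, S | S | q | i⟩ ⟨a', S' | S' | q' | i'⟩ hh <;>
    simp only [emb, st, Sum.elim_inl, Sum.elim_inr, hφ.eq_iff, hj.eq_iff, Sum.inl.injEq,
      Sum.inr.injEq, Prod.mk.injEq, reduceCtorEq, and_false] at hh <;>
    rw [hh.1, hh.2]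

lemma lift {Ω Λ g : Type} [Fintype g] (φ : g × 𝒮 → Ω) (hφ : Bijective φ) (j : g × (σ ⊕ ρ) → Λ)
    (hj : Injective j) {c : ℕ} {fx fy fx' fy' : g → 𝒮 → Mx m} {One : Mx m}
    (τx τy : (M : Model m) → M.V → M.V → M.V)
    (h : ∀ a, Real Gen G c (st (fx a) (fy a) (fun _ : σ => 0) (fun _ : ρ => 0))
      (st (fx' a) (fy' a) (fun _ => One) (fun _ => One))
      (fun M L => st (fun S => τx M (L (wx S)) (L (wy S))) (fun S => τy M (L (wx S)) (L (wy S)))
        (fun q => L (wa q)) (fun i => L (wc i))))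
    (Fx Fy Fx' Fy' : Ω → Mx m) (Fa Fa' : Λ → Mx m)
    (h1 : ∀ a S, Fx (φ (a, S)) = fx a S) (h2 : ∀ a S, Fy (φ (a, S)) = fy a S)
    (h3 : ∀ a S, Fx' (φ (a, S)) = fx' a S) (h4 : ∀ a S, Fy' (φ (a, S)) = fy' a S)
    (h5 : ∀ t, Fa (j t) = 0) (h6 : ∀ t, Fa' (j t) = One)
    (h7 : ∀ l, (∀ t, j t ≠ l) → Fa' l = Fa l) :
    Real Gen G (Fintype.card g * c) (st3 Fx Fy Fa) (st3 Fx' Fy' Fa')
      (fun M L => st3 (fun s => τx M (L (.inl s)) (L (.inr (.inl s))))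
        (fun s => τy M (L (.inl s)) (L (.inr (.inl s)))) (fun l => L (.inr (.inr l)))) := by
  have a1 := Real.prod h
  simp only [Finset.sum_const, Finset.card_univ, smul_eq_mul] at a1
  have key : ∀ i : Ω ⊕ Ω ⊕ Λ, (∀ k, emb φ j k ≠ i) → ∃ l, i = .inr (.inr l) ∧ ∀ t, j t ≠ l := by
    rintro (s | s | l) hi
    · obtain ⟨⟨a, S⟩, rfl⟩ := hφ.2 s
      exact absurd rfl (hi (a, wx S))
    · obtain ⟨⟨a, S⟩, rfl⟩ := hφ.2 s
      exact absurd rfl (hi (a, wy S))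
    · refine ⟨l, rfl, ?_⟩
      rintro ⟨a, q | i⟩ rfl
      · exact absurd rfl (hi (a, wa q))
      · exact absurd rfl (hi (a, wc i))
  refine a1.embed (emb φ j) (emb_inj hφ.1 hj) ?_ ?_ ?_ ?_ ?_
  · rintro ⟨a, S | S | q | i⟩
    exacts [h1 a S, h2 a S, h5 _, h5 _]
  · rintro ⟨a, S | S | q | i⟩
    exacts [h3 a S, h4 a S, h6 _, h6 _]
  · intro i hi
    obtain ⟨l, rfl, hl⟩ := key i hi
    exact h7 l hl
  · rintro M _ L ⟨a, S | S | q | i⟩ <;> rfl
  · intro M _ L i hi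
    obtain ⟨l, rfl, _⟩ := key i hi
    rfl

end Des

end Vale.Agent.P338.NetP
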