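import Vale.Agent.P338.Round

/-! Parameters as functions of `k = size n` and an exponent `e` (M7p).

Hints.  For large `k`, `nth Prime (2 k) ≤ k ^ 2` (`Chebyshev.pi_ge`), so `prm k t = nth Prime (k + t)`
for `t ≤ k` and `k < prm k t ≤ k ^ 2`; with `L = size k * e`, `2 ^ (L / 2) ≤ sz k e t ≤ 2 ^ (2 L)`.
`dd` is the largest `d` with `12 d ≤ k` and `QQ (12 d) ≤ 2 ^ (k - 4 L)`; the first bound is not the
active one.  `mm`: with `C = Q / s`, `s = ℓ ^ e`, `u = C ^ (ℓ - 1) ≡ 1 (mod ℓ)`, `v = u - 1`,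
`u Σ_{i<e} (-v) ^ i = 1 - (-v) ^ e ≡ 1 (mod s)` and `s - 1 ≡ -1`. -/

namespace Vale.Agent.P338

open Function Finset Vale.Agent.PT Vale.Agent.P320

def prm (k t : ℕ) : ℕ :=
  ∑ p ∈ range (k ^ 2 + 1), if p.Prime ∧ Nat.count Nat.Prime p = k + t then p else 0

def LL (k e : ℕ) : ℕ := k.size * e
def sz (k e t : ℕ) : ℕ := prm k t ^ e
def QQ (k e j : ℕ) : ℕ := ∏ t ∈ range j, sz k e t
def dd (k e : ℕ) : ℕ :=
  ∑ d ∈ range k, if 12 * (d + 1) ≤ k ∧ QQ k e (12 * (d + 1)) ≤ 2 ^ (k - 4 * LL k e) then 1 else 0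
def QF (k e : ℕ) : ℕ := QQ k e (12 * dd k e)
def bF (k e : ℕ) : ℕ := 2 ^ (k + 1) / QF k e + 1
def lmF (k e : ℕ) : ℕ := 2 * LL k e + 2
def mm (k e t : ℕ) : ℕ :=
  ((QF k e / sz k e t) ^ (prm k t - 2) *
    (∑ i ∈ range e, (((QF k e / sz k e t) ^ (prm k t - 1) - 1) * (sz k e t - 1)) ^ i) *
      (QF k e / sz k e t) - 1) / sz k e t
def zF (k : ℕ) : ℕ := k + 200

namespace ParP

theorem prime_iff (p : ℕ) :
    p.Prime ↔ 2 ≤ p ∧ ∑ q ∈ range p, (if 2 ≤ q ∧ q ∣ p then 1 else 0) = 0 := by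
  rw [Nat.prime_def_lt']
  refine and_congr_right fun _ => ?_
  simp only [Finset.sum_eq_zero_iff, mem_range, ite_eq_right_iff, one_ne_zero, imp_false, not_and]
  exact ⟨fun h q h1 h2 => h q h2 h1, fun h q h1 h2 => h q h2 h1⟩

variable {α : Type} [Ctx Bool α] {k e t : α → ℕ}

@[fun_prop] theorem prime_pt [∀ x, Decidable (k x).Prime] (hk : PT Bool k) :
    PT Bool fun x => decide (k x).Prime := by
  have : PT Bool fun x => decide
    (2 ≤ k x ∧ ∑ q ∈ range (k x), (if 2 ≤ q ∧ q ∣ k x then 1 else 0) = 0) := by fun_prop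
  exact this.congr fun x => by simp only [prime_iff]

@[fun_prop] theorem count_bt (hk : PT Bool k) : BT fun x => Nat.count Nat.Prime (k x) := by
  have : BT fun x => ∑ q ∈ range (k x), if q.Prime then 1 else 0 := by fun_prop
  exact this.congr fun x => by rw [Nat.count_eq_card_filter_range, Finset.card_filter]

@[fun_prop] theorem prm_pt (hk : PT Bool k) (ht : BT t) : PT Bool fun x => prm (k x) (t x) := by
  have : BT fun x => prm (k x) (t x) := by unfold prm; fun_prop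
  refine this.toPT (k := fun x => (k x ^ 2 + 1) * (k x ^ 2 + 1)) (by fun_prop) fun x => ?_
  refine (Finset.sum_le_card_nsmul _ _ (k x ^ 2 + 1) fun p hp => ?_).trans (by simp)
  have := mem_range.1 hp
  split_ifs <;> omega

@[fun_prop] theorem LL_pt (hk : PT Bool k) (he : PT Bool e) : PT Bool fun x => LL (k x) (e x) := by
  unfold LL; fun_prop

end ParP

open ParP

section
variable {α : Type} [Ctx Bool α] {k e t : α → ℕ}
theorem zF_pt : PT Bool zF := by unfold zF; fun_prop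
@[fun_prop] theorem sz_bt (hk : PT Bool k) (he : PT Bool e) (ht : BT t) :
    BT fun x => sz (k x) (e x) (t x) := BT.pow (BT.of (prm_pt hk ht)) he
@[fun_prop] theorem QQ_bt (hk : PT Bool k) (he : PT Bool e) (ht : PT Bool t) :
    BT fun x => QQ (k x) (e x) (t x) :=
  BT.prod (t := fun x i => sz (k x) (e x) i) ht (sz_bt (by fun_prop) (by fun_prop) (by fun_prop))
@[fun_prop] theorem dd_pt (hk : PT Bool k) (he : PT Bool e) : PT Bool fun x => dd (k x) (e x) := by
  have h1 : PT Bool fun z : α × ℕ => k z.1 := by fun_prop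
  have h2 : PT Bool fun z : α × ℕ => e z.1 := by fun_prop
  have h3 : PT Bool fun z : α × ℕ => 12 * (z.2 + 1) := by fun_prop
  have : BT fun x => dd (k x) (e x) :=
    BT.sum (t := fun x d => if 12 * (d + 1) ≤ k x ∧
      QQ (k x) (e x) (12 * (d + 1)) ≤ 2 ^ (k x - 4 * LL (k x) (e x)) then 1 else 0) hk
      (BT.ite (pt_dec_and (pt_dec_le (BT.of h3) (BT.of h1)) (pt_dec_le (QQ_bt h1 h2 h3)
        (BT.pow (BT.const 2) (h1.sub ((PT.const 4).mul (LL_pt h1 h2)))))) (BT.const 1) (BT.const 0))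
  refine this.toPT hk fun x => ?_
  refine (Finset.sum_le_card_nsmul _ _ 1 fun p _ => ?_).trans (by simp)
  split_ifs <;> omega
@[fun_prop] theorem dd_bt (hk : PT Bool k) (he : PT Bool e) : BT fun x => dd (k x) (e x) :=
  BT.of (dd_pt hk he)
@[fun_prop] theorem QF_bt (hk : PT Bool k) (he : PT Bool e) : BT fun x => QF (k x) (e x) :=
  QQ_bt hk he (by fun_prop)
@[fun_prop] theorem bF_bt (hk : PT Bool k) (he : PT Bool e) : BT fun x => bF (k x) (e x) := by
  unfold bF; fun_prop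
@[fun_prop] theorem lmF_bt (hk : PT Bool k) (he : PT Bool e) : BT fun x => lmF (k x) (e x) := by
  unfold lmF; fun_prop
@[fun_prop] theorem mm_bt (hk : PT Bool k) (he : PT Bool e) (ht : BT t) :
    BT fun x => mm (k x) (e x) (t x) := by
  have h1 : BT fun x => QF (k x) (e x) / sz (k x) (e x) (t x) := by fun_prop
  have h2 : PT Bool fun x => prm (k x) (t x) := prm_pt hk ht
  have h3 : BT fun x => ((QF (k x) (e x) / sz (k x) (e x) (t x)) ^ (prm (k x) (t x) - 1) - 1) *
    (sz (k x) (e x) (t x) - 1) := by fun_prop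
  have h4 := BT.sum (t := fun x i => (((QF (k x) (e x) / sz (k x) (e x) (t x)) ^
    (prm (k x) (t x) - 1) - 1) * (sz (k x) (e x) (t x) - 1)) ^ i) he
    (BT.pow (h3.comp (g := Prod.fst) (by fun_prop)) (by fun_prop))
  exact BT.div (BT.sub (BT.mul (BT.mul (BT.pow h1 (by fun_prop)) h4) h1) (BT.const 1))
    (sz_bt hk he ht)
end

structure Par (k e : ℕ) : Prop where
  s2 : ∀ t < 12 * dd k e, 2 ≤ sz k e t
  s4 : ∀ t < 12 * dd k e, 4 * sz k e t ≤ 2 ^ lmF k e
  cop : ∀ t < 12 * dd k e, ∀ t' < 12 * dd k e, t ≠ t' → Nat.Coprime (sz k e t) (sz k e t')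
  inv : ∀ t < 12 * dd k e, QF k e / sz k e t ∣ sz k e t * mm k e t + 1
  d1 : 1 ≤ dd k e
  dL : dd k e * LL k e ≤ k
  L1 : 1 ≤ LL k e
  Qle : QF k e ≤ 2 ^ k
  Qb : 2 ^ (k + 1) ≤ QF k e * bF k e
  Qb' : QF k e * bF k e ≤ 2 ^ (k + 2)
  blo : 2 ^ (4 * LL k e) ≤ bF k e
  bhi : bF k e ≤ 2 ^ (30 * LL k e)
  lb : 2 ^ lmF k e ≤ bF k e
  kb : k < bF k e
  lam : lamF (dd k e) (lmF k e) < 2 ^ (3 * LL k e)
  pool : ∀ r < 12, cW ^ (dd k e).size * lamF (dd k e) (lmF k e) ^ dd k e * (dd k e + 1) ^ dd k e ≤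
    QF k e / ∏ i ∈ range (dd k e), sz k e (r * dd k e + i)
  err : 24 * (2 * coreD (dd k e) (lmF k e)) + 20 ≤ bF k e

namespace ParP

theorem count_big {k : ℕ} (hk : 196 ≤ k) : 2 * k < Nat.count Nat.Prime (k ^ 2 + 1) := by
  have h := Chebyshev.pi_ge (k ^ 2)
  have hk' : (196 : ℝ) ≤ k := by exact_mod_cast hk
  set r := √(k : ℝ) with hr
  have hr2 : r ^ 2 = k := Real.sq_sqrt (by linarith)
  have hr14 : 14 ≤ r := Real.le_sqrt_of_sq_le (by linarith)
  have l1 : Real.log k ≤ 2 * r := by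
    rw [← hr2, Real.log_pow]
    have := Real.log_le_sub_one_of_pos (show 0 < r by linarith)
    push_cast; linarith
  have l0 : 0 < Real.log k := Real.log_pos (by linarith)
  have l2 : Real.log ((k : ℝ) ^ 2 + 1) ≤ 6 * r := by
    have : Real.log ((k : ℝ) ^ 2 + 1) ≤ Real.log ((k : ℝ) ^ 3) :=
      Real.log_le_log (by positivity) (by nlinarith)
    rw [Real.log_pow] at this
    push_cast at this; linarith
  have l3 := Real.log_two_gt_d9
  push_cast at h
  rw [Real.log_pow, div_le_iff₀ (by positivity)] at h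
  by_contra hn
  have h1 : ((k ^ 2).primeCounting : ℝ) ≤ 2 * k := by
    exact_mod_cast (not_lt.1 hn : Nat.count Nat.Prime (k ^ 2 + 1) ≤ 2 * k)
  have h2 : ((k ^ 2).primeCounting : ℝ) * ((2 : ℕ) * Real.log k) ≤ 2 * k * (2 * (2 * r)) := by
    push_cast; gcongr
  have h3 : (k : ℝ) ^ 2 * 0.69 ≤ (k : ℝ) ^ 2 * Real.log 2 := by gcongr; linarith
  rw [← hr2] at h2 h3 h l2
  have h4 : 14 * r ^ 3 ≤ r ^ 4 := by nlinarith [pow_pos (show 0 < r by linarith) 3]
  have h5 : 196 * r ≤ r ^ 3 := by nlinarith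
  push_cast at h h2
  nlinarith

theorem nth_le {k t : ℕ} (hk : 196 ≤ k) (ht : t ≤ k) : Nat.nth Nat.Prime (k + t) ≤ k ^ 2 :=
  Nat.le_of_lt_succ (Nat.nth_lt_of_lt_count (lt_of_le_of_lt (by omega) (count_big hk)))

theorem prm_eq {k t : ℕ} (hk : 196 ≤ k) (ht : t ≤ k) : prm k t = Nat.nth Nat.Prime (k + t) := by
  rw [prm, Finset.sum_eq_single (Nat.nth Nat.Prime (k + t))]
  · rw [if_pos ⟨Nat.prime_nth_prime _, Nat.count_nth_of_infinite Nat.infinite_setOf_prime _⟩]
  · intro p _ hp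
    rw [if_neg]
    rintro ⟨h1, h2⟩
    exact hp (by rw [← h2, Nat.nth_count h1])
  · intro h
    exact absurd (mem_range.2 (Nat.lt_succ_of_le (nth_le hk ht))) h

theorem cnt {P : ℕ → Prop} [DecidablePred P] {k : ℕ} (hk : ¬ P k) (hP : ∀ d, P (d + 1) → P d) :
    ¬ P (∑ d ∈ range k, if P d then 1 else 0) ∧
      ∀ d < ∑ d ∈ range k, if P d then 1 else 0, P d := by
  classical
  have hex : ∃ d, ¬ P d := ⟨k, hk⟩
  have h1 : ∀ d, P d ↔ d < Nat.find hex := by
    intro d
    refine ⟨fun h => ?_, fun h => not_not.1 (Nat.find_min hex h)⟩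
    by_contra hn
    obtain ⟨j, rfl⟩ := Nat.exists_eq_add_of_le (not_lt.1 hn)
    refine Nat.find_spec hex ?_
    clear hn
    induction j with
    | zero => exact h
    | succ j ih => exact ih (hP _ h)
  have h2 : (∑ d ∈ range k, if P d then 1 else 0) = Nat.find hex := by
    rw [← Finset.card_filter]
    have : (range k).filter P = range (Nat.find hex) := by
      ext d
      have := Nat.find_min' hex hk
      rw [mem_filter, mem_range, mem_range, h1]
      omega
    rw [this, card_range]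
  rw [h2]
  exact ⟨Nat.find_spec hex, fun d hd => (h1 d).2 hd⟩

theorem inv_dvd {C l e : ℕ} (hl : l.Prime) (hC : Nat.Coprime C l) (he : 1 ≤ e) (h0 : 0 < C) :
    C ∣ l ^ e * ((C ^ (l - 2) * (∑ i ∈ range e, ((C ^ (l - 1) - 1) * (l ^ e - 1)) ^ i) * C - 1) /
      l ^ e) + 1 := by
  set S := ∑ i ∈ range e, ((C ^ (l - 1) - 1) * (l ^ e - 1)) ^ i with hS
  have hS0 : 0 < S := Finset.sum_pos' (fun _ _ => Nat.zero_le _) ⟨0, mem_range.2 he, by simp⟩
  have hu : C ^ (l - 2) * S * C = C ^ (l - 1) * S := by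
    have := hl.two_le
    rw [show l - 1 = l - 2 + 1 by omega, pow_succ]; ring
  have u1 : 1 ≤ C ^ (l - 1) := Nat.one_le_pow _ _ h0
  have s1 : 1 ≤ l ^ e := Nat.one_le_pow _ _ hl.pos
  have hv : l ∣ C ^ (l - 1) - 1 := by
    have := Nat.ModEq.pow_totient hC
    rw [Nat.totient_prime hl] at this
    exact (Nat.modEq_iff_dvd' u1).1 this.symm
  have hX : 1 ≤ C ^ (l - 1) * S := Nat.mul_pos u1 hS0
  have hd : l ^ e ∣ C ^ (l - 1) * S - 1 := by
    have g := geom_sum_mul ((((C ^ (l - 1) - 1) * (l ^ e - 1) : ℕ) : ℤ)) e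
    have hw : l ^ e ∣ ((C ^ (l - 1) - 1) * (l ^ e - 1)) ^ e :=
      pow_dvd_pow_of_dvd (hv.mul_right _) e
    rw [← Int.natCast_dvd_natCast] at hw ⊢
    have hS' : (S : ℤ) = ∑ i ∈ range e, (((C ^ (l - 1) - 1) * (l ^ e - 1) : ℕ) : ℤ) ^ i := by
      rw [hS]; push_cast; rfl
    rw [← hS'] at g
    rw [Nat.cast_pow (_ * _) e] at hw
    generalize ((((C ^ (l - 1) - 1) * (l ^ e - 1) : ℕ) : ℤ)) ^ e = W at g hw
    push_cast [Nat.cast_sub u1, Nat.cast_sub s1, Nat.cast_sub hX] at g hw ⊢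
    have : (C : ℤ) ^ (l - 1) * S - 1 = (l : ℤ) ^ e * (S * (C ^ (l - 1) - 1)) - W := by
      linear_combination -g
    rw [this]
    exact (dvd_mul_right _ _).sub hw
  rw [hu, Nat.mul_div_cancel' hd, Nat.sub_add_cancel hX, ← hu]
  exact dvd_mul_left _ _

end ParP

theorem par_ok : ∃ K : ℕ, ∀ k e, 0 < k → K ≤ e → K * LL k e ≤ k → Par k e := by
  obtain ⟨c, hc⟩ : ∃ c, c = prog.length := ⟨_, rfl⟩
  obtain ⟨w, hw⟩ : ∃ w, cW = w := ⟨_, rfl⟩
  refine ⟨600 * c + w + 600, fun k e k0 he hk => ?_⟩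
  have hs0 : 1 ≤ k.size := Nat.size_pos.2 k0
  have hL : e ≤ LL k e := Nat.le_mul_of_pos_left _ hs0
  have hLk : 600 * LL k e ≤ k := (Nat.mul_le_mul_right _ (by omega)).trans hk
  have k1 : 600 * c + 600 ≤ k := by omega
  have hW : cW ≤ LL k e := by rw [hw]; omega
  have L6 : 600 ≤ LL k e := by omega
  have k2 : 196 ≤ k := by omega
  have hs : 2 ≤ k.size := Nat.lt_size.2 (by omega)
  have ks : k < 2 ^ k.size := Nat.lt_size_self k
  have ks' : 2 ^ (k.size - 1) ≤ k := Nat.lt_size.1 (by omega)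
  have e4 : 4 ≤ e := by omega
  clear hk he hw hL
  have kL : k ^ 4 ≤ 2 ^ LL k e := by
    calc k ^ 4 ≤ (2 ^ k.size) ^ 4 := Nat.pow_le_pow_left ks.le _
      _ ≤ (2 ^ k.size) ^ e := Nat.pow_le_pow_right (by positivity) e4
      _ = _ := by rw [← pow_mul]; rfl
  have kk : k ≤ k ^ 4 := Nat.le_self_pow (by norm_num) _
  have pr : ∀ t ≤ k, (prm k t).Prime := fun t ht => by
    rw [prm_eq k2 ht]; exact Nat.prime_nth_prime _
  have szu : ∀ t ≤ k, sz k e t ≤ 2 ^ (2 * LL k e) := fun t ht => by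
    calc sz k e t ≤ ((2 ^ k.size) ^ 2) ^ e := Nat.pow_le_pow_left (by
          rw [prm_eq k2 ht]; exact (nth_le k2 ht).trans (Nat.pow_le_pow_left ks.le _)) _
      _ = _ := by rw [← pow_mul, ← pow_mul, LL]; ring_nf
  have szl : ∀ t ≤ k, 2 ^ ((k.size - 1) * e) ≤ sz k e t := fun t ht => by
    rw [pow_mul]
    refine Nat.pow_le_pow_left (ks'.trans ?_) _
    rw [prm_eq k2 ht]
    have := Nat.add_two_le_nth_prime (k + t)
    omega
  have sz0 : ∀ t ≤ k, 0 < sz k e t := fun t ht => lt_of_lt_of_le (by positivity) (szl t ht)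
  have hh : LL k e ≤ 2 * ((k.size - 1) * e) := by
    rw [← mul_assoc]; exact Nat.mul_le_mul_right _ (by omega)
  have prl : ∀ S : Finset ℕ, (∀ t ∈ S, t ≤ k) →
      2 ^ ((k.size - 1) * e * S.card) ≤ ∏ t ∈ S, sz k e t := fun S hS => by
    rw [pow_mul]
    exact Finset.pow_card_le_prod _ _ _ fun t ht => szl t (hS t ht)
  have Qs : ∀ j, j + 12 ≤ k → QQ k e j ≤ QQ k e (j + 12) ∧
      QQ k e (j + 12) ≤ QQ k e j * 2 ^ (24 * LL k e) := fun j hj => by
    rw [QQ, QQ, prod_range_add]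
    refine ⟨Nat.le_mul_of_pos_right _ (Finset.prod_pos fun t ht => sz0 _ ?_),
      Nat.mul_le_mul_left _ ?_⟩
    · have := mem_range.1 ht; omega
    · refine (Finset.prod_le_pow_card _ _ _ fun t ht => szu _ ?_).trans ?_
      · have := mem_range.1 ht; omega
      · rw [← pow_mul, card_range]; exact le_of_eq (by ring_nf)
  obtain ⟨n1, n2⟩ := cnt (P := fun d => 12 * (d + 1) ≤ k ∧
      QQ k e (12 * (d + 1)) ≤ 2 ^ (k - 4 * LL k e)) (k := k) (fun h => by omega)
    (fun d h => ⟨by omega, (Qs (12 * (d + 1)) (by omega)).1.trans h.2⟩)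
  change ¬ (12 * (dd k e + 1) ≤ k ∧ QQ k e (12 * (dd k e + 1)) ≤ _) at n1
  change ∀ d < dd k e, _ at n2
  have d1 : 1 ≤ dd k e := by
    by_contra h
    rw [show dd k e = 0 by omega] at n1
    refine n1 ⟨by omega, (Qs 0 (by omega)).2.trans ?_⟩
    rw [QQ, prod_range_zero, one_mul]
    exact Nat.pow_le_pow_right (by norm_num) (by omega)
  obtain ⟨a1, a2⟩ := n2 (dd k e - 1) (by omega)
  rw [Nat.sub_add_cancel d1] at a1 a2
  change QF k e ≤ _ at a2
  have dL : 6 * (dd k e * LL k e) ≤ k := by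
    have h1 := (prl (range (12 * dd k e)) fun t ht => by have := mem_range.1 ht; omega).trans a2
    have h2 := (Nat.pow_le_pow_iff_right (by norm_num)).1 h1
    rw [card_range] at h2
    have h3 := Nat.mul_le_mul_left (6 * dd k e) hh
    have h4 : k - 4 * LL k e ≤ k := Nat.sub_le _ _
    nlinarith
  have d4 : 24 * dd k e ≤ k := by
    have := Nat.mul_le_mul_left (dd k e) (show 4 ≤ LL k e by omega)
    omega
  have Q0 : 0 < QF k e := by
    rw [QF, QQ]
    exact Finset.prod_pos fun t ht => sz0 t (by have := mem_range.1 ht; omega)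
  have a3 : 2 ^ (k - 4 * LL k e) ≤ QF k e * 2 ^ (24 * LL k e) :=
    (not_le.1 fun h => n1 ⟨by omega, h⟩).le.trans (Qs (12 * dd k e) (by omega)).2
  have Qle : QF k e ≤ 2 ^ k := a2.trans (Nat.pow_le_pow_right (by norm_num) (Nat.sub_le _ _))
  have blo : 2 ^ (4 * LL k e) ≤ bF k e := by
    refine le_trans ((Nat.le_div_iff_mul_le Q0).2 ?_) (Nat.le_succ _)
    refine (Nat.mul_le_mul_left _ a2).trans ?_
    rw [← pow_add]
    exact Nat.pow_le_pow_right (by norm_num) (by omega)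
  have L4 : 2 ^ LL k e ≤ 2 ^ (4 * LL k e) := Nat.pow_le_pow_right (by norm_num) (by omega)
  have lam : lamF (dd k e) (lmF k e) < 2 ^ (3 * LL k e) := by
    have h1 : ((dd k e + 4) ^ 2 + dd k e + 4) * 4 < k ^ 4 := by
      have b1 : dd k e + 5 ≤ k := by omega
      have b2 : (dd k e + 4) * (dd k e + 5) ≤ k * k := Nat.mul_le_mul (by omega) b1
      have b3 : 5 * (k * k) ≤ k ^ 4 := by
        rw [show k ^ 4 = k * k * (k * k) by ring]
        exact Nat.mul_le_mul_right _ (by nlinarith)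
      nlinarith
    rw [lamF, lmF, pow_add, show 3 * LL k e = LL k e + 2 * LL k e by ring, pow_add 2 (LL k e),
      mul_comm (2 ^ (2 * LL k e)), ← mul_assoc]
    exact Nat.mul_lt_mul_of_pos_right (h1.trans_le kL) (by positivity)
  refine ⟨fun t ht => ?_, fun t ht => ?_, fun t ht t' ht' hne => ?_, fun t ht => ?_, d1, by omega,
    by omega, Qle, (Nat.lt_mul_div_succ _ Q0).le, ?_, blo, ?_, ?_, ?_, lam, fun r hr => ?_, ?_⟩
  · exact (pr t (by omega)).two_le.trans (Nat.le_self_pow (by omega) _)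
  · have := szu t (by omega)
    rw [lmF, pow_add]; omega
  · refine Nat.Coprime.pow _ _ ((Nat.coprime_primes (pr t (by omega)) (pr t' (by omega))).2 ?_)
    rw [prm_eq k2 (by omega), prm_eq k2 (by omega)]
    exact fun h => hne (by have := Nat.nth_injective Nat.infinite_setOf_prime h; omega)
  · have h1 : QF k e / sz k e t = ∏ t' ∈ (range (12 * dd k e)).erase t, sz k e t' := by
      rw [QF, QQ, ← Finset.mul_prod_erase _ _ (mem_range.2 ht),
        Nat.mul_div_cancel_left _ (sz0 t (by omega))]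
    refine inv_dvd (pr t (by omega)) ?_ (by omega) ?_
    · rw [h1]
      refine Nat.Coprime.prod_left fun t' ht' => Nat.Coprime.pow_left _ ?_
      have b1 := mem_range.1 (Finset.mem_of_mem_erase ht')
      refine (Nat.coprime_primes (pr t' (by omega)) (pr t (by omega))).2 ?_
      rw [prm_eq k2 (by omega), prm_eq k2 (by omega)]
      exact fun h => Finset.ne_of_mem_erase ht'
        (by have := Nat.nth_injective Nat.infinite_setOf_prime h; omega)
    · rw [h1]
      exact Finset.prod_pos fun t' ht' => sz0 _ (by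
        have := mem_range.1 (Finset.mem_of_mem_erase ht'); omega)
  · have := Nat.mul_div_le (2 ^ (k + 1)) (QF k e)
    rw [bF, mul_add, mul_one, pow_succ 2 (k + 1), pow_succ 2 k] at *
    omega
  · have h1 : 2 ^ (k + 1) / QF k e ≤ 2 ^ (29 * LL k e) := by
      refine Nat.div_le_of_le_mul ?_
      calc 2 ^ (k + 1) ≤ 2 ^ (k - 4 * LL k e) * 2 ^ (5 * LL k e) := by
            rw [← pow_add]; exact Nat.pow_le_pow_right (by norm_num) (by omega)
        _ ≤ QF k e * 2 ^ (24 * LL k e) * 2 ^ (5 * LL k e) := Nat.mul_le_mul_right _ a3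
        _ = _ := by rw [mul_assoc, ← pow_add]; ring_nf
    have h2 : 2 ^ (29 * LL k e) < 2 ^ (30 * LL k e) :=
      Nat.pow_lt_pow_right (by norm_num) (by omega)
    rw [bF]; omega
  · exact (Nat.pow_le_pow_right (by norm_num) (by rw [lmF]; omega)).trans blo
  · have : k < k ^ 4 := by
      rw [show k ^ 4 = k * k ^ 3 by ring]
      exact lt_mul_of_one_lt_right k0 (Nat.one_lt_pow (by norm_num) (by omega))
    omega
  · have sub : Ico (r * dd k e) (r * dd k e + dd k e) ⊆ range (12 * dd k e) := fun t ht => by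
      have := (mem_Ico.1 ht).2
      have := Nat.mul_le_mul_right (dd k e) (show r + 1 ≤ 12 by omega)
      rw [mem_range]; nlinarith
    have h1 : ∏ i ∈ range (dd k e), sz k e (r * dd k e + i) =
        ∏ t ∈ Ico (r * dd k e) (r * dd k e + dd k e), sz k e t := by
      rw [Finset.prod_Ico_eq_prod_range, Nat.add_sub_cancel_left]
    rw [h1, QF, QQ, ← Finset.prod_sdiff sub, Nat.mul_div_cancel _ (Finset.prod_pos fun t ht =>
      sz0 t (by have := mem_range.1 (sub ht); omega))]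
    refine le_trans ?_ (prl _ fun t ht => by
      have := mem_range.1 (Finset.mem_sdiff.1 ht).1; omega)
    rw [Finset.card_sdiff_of_subset sub, card_range, Nat.card_Ico, Nat.add_sub_cancel_left]
    have b1 : cW ^ (dd k e).size ≤ (2 ^ LL k e) ^ dd k e :=
      (Nat.pow_le_pow_left (hW.trans Nat.lt_two_pow_self.le) _).trans
        (Nat.pow_le_pow_right (by positivity) (Nat.size_le.2 Nat.lt_two_pow_self))
    have b2 := Nat.pow_le_pow_left lam.le (dd k e)
    have b3 : (dd k e + 1) ^ dd k e ≤ (2 ^ LL k e) ^ dd k e := Nat.pow_le_pow_left (by omega) _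
    refine (Nat.mul_le_mul (Nat.mul_le_mul b1 b2) b3).trans ?_
    simp only [← pow_mul, ← pow_add]
    refine Nat.pow_le_pow_right (by norm_num) ?_
    rw [show 12 * dd k e - dd k e = 11 * dd k e by omega]
    have := Nat.mul_le_mul_left (dd k e) hh
    generalize (k.size - 1) * e = y at this ⊢
    have := Nat.zero_le (y * dd k e)
    linarith
  · have b1 : 3 * lmF k e + 1 ≤ k := by rw [lmF]; omega
    have b2 : dd k e * (lmF k e + 4) + 3 ≤ k := by
      rw [lmF]
      have := Nat.mul_le_mul_left (dd k e) (show 2 * LL k e + 2 + 4 ≤ 3 * LL k e by omega)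
      linarith
    have b3 : coreD (dd k e) (lmF k e) ≤ c * k * k := by
      rw [hc]; exact Nat.mul_le_mul (Nat.mul_le_mul_left _ b1) b2
    have b4 : k * (k * k) ≤ k ^ 4 := by
      rw [show k ^ 4 = k * (k * (k * k)) by ring]
      exact Nat.le_mul_of_pos_left _ k0
    have b5 := Nat.mul_le_mul_right (k * k) k1
    have b6 : 1 ≤ k * k := Nat.mul_pos k0 k0
    have b7 := Nat.zero_le (c * k * k)
    linarith

end Vale.Agent.P338
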