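import Vale.Agent.P338.RoundA

/-! Index layouts and size estimates for one round. -/

namespace Vale.Agent.P338.TrP

open Function Finset Vale.Agent.PT Vale.Agent.P320

variable {X : Cx} {e : Cmd} {a : Ar}

def mk (d : ℕ) (v w u : ℕ → ℕ) (h : ℕ) : ℕ → ℕ := fun t =>
  if t < d then v t else if t < 2 * d then w (t - d) else if t < 3 * d then u (t - 2 * d) else h

section
variable {d : ℕ} {v w u : ℕ → ℕ} {h i : ℕ}
lemma mk1 (hi : i < d) : mk d v w u h i = v i := if_pos hi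
lemma mk2 (hi : i < d) : mk d v w u h (d + i) = w i := by
  rw [mk, if_neg (by omega), if_pos (by omega), Nat.add_sub_cancel_left]
lemma mk3 (hi : i < d) : mk d v w u h (2 * d + i) = u i := by
  rw [mk, if_neg (by omega), if_neg (by omega), if_pos (by omega), Nat.add_sub_cancel_left]
lemma mk3' (hi : i < d) : mk d v w u h (d + d + i) = u i := by rw [← two_mul, mk3 hi]
lemma mk4 : mk d v w u h (d + d + d) = h := by
  rw [mk, if_neg (by omega), if_neg (by omega), if_neg (by omega)]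
end

lemma Lo_mk3 (d : ℕ) (r1 r2 r3 : ℕ → ℕ) (T : ℕ) :
    Lo (mk d r1 r2 r3 T) d = Lo r1 d ∧ Lo (sh d (mk d r1 r2 r3 T)) d = Lo r2 d ∧
      Lo (sh (d + d) (mk d r1 r2 r3 T)) d = Lo r3 d :=
  ⟨Lo_congr fun _ hj => mk1 hj, Lo_congr fun _ hj => mk2 hj, Lo_congr fun _ hj => mk3' hj⟩

lemma Lo_mk (d : ℕ) (r1 r2 r3 : ℕ → ℕ) (T : ℕ) :
    Lo (mk d r1 r2 r3 T) (3 * d + 1) = T * Lo r3 d * Lo r2 d * Lo r1 d := by
  obtain ⟨h1, h2, h3⟩ := Lo_mk3 d r1 r2 r3 T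
  rw [show 3 * d = d + d + d by ring, Lo_succ, Lo_add, Lo_add, h1, h2, h3, mk4]; ring

lemma enc_mk (d : ℕ) (r1 r2 r3 : ℕ → ℕ) (T : ℕ) (v w u : ℕ → ℕ) (h : ℕ) :
    enc (mk d r1 r2 r3 T) (3 * d + 1) (mk d v w u h) =
      ((h * Lo r3 d + enc r3 d u) * Lo r2 d + enc r2 d w) * Lo r1 d + enc r1 d v := by
  obtain ⟨h1, h2, h3⟩ := Lo_mk3 d r1 r2 r3 T
  have e1 : enc (mk d r1 r2 r3 T) d (mk d v w u h) = enc r1 d v :=
    enc_congr' (fun _ hj => mk1 hj) fun _ hj => mk1 hj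
  have e2 : enc (sh d (mk d r1 r2 r3 T)) d (sh d (mk d v w u h)) = enc r2 d w :=
    enc_congr' (fun _ hj => mk2 hj) fun _ hj => mk2 hj
  have e3 : enc (sh (d + d) (mk d r1 r2 r3 T)) d (sh (d + d) (mk d v w u h)) = enc r3 d u :=
    enc_congr' (fun _ hj => mk3' hj) fun _ hj => mk3' hj
  rw [show 3 * d = d + d + d by ring, enc_succ, enc_add, enc_add, Lo_add _ (d + d), Lo_add _ d, h1,
    h2, h3, e1, e2, e3, mk4]; ring

lemma mk_rel {R : ℕ → ℕ → Prop} {d : ℕ} {v w u v' w' u' : ℕ → ℕ} {h h' : ℕ}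
    (h1 : ∀ i < d, R (v i) (v' i)) (h2 : ∀ i < d, R (w i) (w' i)) (h3 : ∀ i < d, R (u i) (u' i))
    (h4 : R h h') (t : ℕ) : R (mk d v w u h t) (mk d v' w' u' h' t) := by
  unfold mk
  split_ifs
  exacts [h1 _ ‹_›, h2 _ (by omega), h3 _ (by omega), h4]

lemma SW_mk {d : ℕ} {s r2 r3 : ℕ → ℕ} {T : ℕ} (v w u : ℕ → ℕ) (h : ℕ) :
    SW (mk d s r2 r3 T) (2 * d) d (mk d v w u h)
      (mk d (fun i => u i % s i) w (fun i => u i / s i * s i + v i) h) := by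
  refine ⟨fun t ht => ⟨u t / s t, ?_, ?_⟩, fun t h1 h2 => ?_⟩
  · simp only [mk1 ht, mk3 ht]; exact (Nat.div_add_mod' _ _).symm
  · simp only [mk1 ht, mk3 ht]
  · unfold mk
    simp only [if_neg h1]
    split_ifs
    · rfl
    · omega
    · rfl

lemma dg_enc (R d : ℕ) (y : ℕ → ℕ) : enc (fun _ => R) d y = dg R d y :=
  sum_congr rfl fun j _ => by rw [Lo_const]

lemma allL_shift {s g : ℕ → ℕ} {d0 : ℕ} {F F' : (ℕ → ℕ) → ℂ}
    (h : ∀ v : ℕ → ℕ, (∀ i < d0, v i < s i) → F (fun i => g i * s i + v i) = F' v) :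
    ∀ d ≤ d0, ∀ v : ℕ → ℕ, (∀ i < d0, v i < s i) →
      allL (fun i => dft (s i)) d F (fun i => g i * s i + v i) =
        allL (fun i => dft (s i)) d F' v := by
  intro d
  induction d with
  | zero => exact fun _ => h
  | succ d ih =>
    intro hd v hv
    have h1 := hv d hd
    simp only [allL, lift, dft, Nat.mul_add_mod_of_lt h1, Nat.mod_eq_of_lt h1, Nat.add_sub_cancel,
      Nat.sub_self, zero_add]
    refine sum_congr rfl fun α hα => ?_
    rw [← ih (by omega) (update v d α) fun i hi => ?_]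
    · congr 2
      funext i
      by_cases hi : i = d
      · subst hi; simp
      · simp [hi]
    · by_cases hi' : i = d
      · subst hi'; simpa using hα
      · rw [update_of_ne hi']; exact hv i hi

lemma succ_pow_le {k d : ℕ} (hk : 0 < k) (h : d ≤ k) : (k + 1) ^ d ≤ 3 * k ^ d := by
  have h0 : (0 : ℝ) < k := by exact_mod_cast hk
  have h1 : (1 + (k : ℝ)⁻¹) ^ d ≤ 3 :=
    ((pow_le_pow_right₀ (by simp) h).trans Real.one_add_inv_pow_le_exp).trans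
      Real.exp_one_lt_three.le
  have h2 : ((k : ℝ) + 1) ^ d = (1 + (k : ℝ)⁻¹) ^ d * k ^ d := by
    rw [← mul_pow]; congr 1; field_simp
  have : ((k : ℝ) + 1) ^ d ≤ 3 * k ^ d := by
    rw [h2]; exact mul_le_mul_of_nonneg_right h1 (by positivity)
  exact_mod_cast this

lemma U_bound {d E s : ℕ} (hs : 0 < s) (h : 4 * s ≤ E) :
    (d + 4) ^ 2 * E ≤ 8 * (((d + 4) ^ 2 + 2) * E / (8 * s)) * s ∧
      8 * (((d + 4) ^ 2 + 2) * E / (8 * s)) * s ≤ ((d + 4) ^ 2 + 2) * E := by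
  have h1 := Nat.div_add_mod (((d + 4) ^ 2 + 2) * E) (8 * s)
  have h2 := Nat.mod_lt (((d + 4) ^ 2 + 2) * E) (show 0 < 8 * s by omega)
  have h3 : 8 * (((d + 4) ^ 2 + 2) * E / (8 * s)) * s =
      8 * s * (((d + 4) ^ 2 + 2) * E / (8 * s)) := by ring
  have h4 : ((d + 4) ^ 2 + 2) * E = (d + 4) ^ 2 * E + 2 * E := by ring
  omega

lemma lam_pow_le {d E : ℕ} {U : ℕ → ℕ} (h : ∀ i < d, (d + 4) ^ 2 * E ≤ U i) :
    (((d + 4) ^ 2 + d + 4) * E) ^ d ≤ 3 * Lo U d := by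
  have h1 : ((d + 4) ^ 2 * E) ^ d ≤ Lo U d := by rw [← Lo_const]; exact Lo_le h
  have h2 := succ_pow_le (k := d + 4) (d := d) (by omega) (by omega)
  calc (((d + 4) ^ 2 + d + 4) * E) ^ d = (d + 4 + 1) ^ d * ((d + 4) * E) ^ d := by
        rw [← mul_pow]; congr 1; ring
    _ ≤ 3 * (d + 4) ^ d * ((d + 4) * E) ^ d := Nat.mul_le_mul_right _ h2
    _ = 3 * ((d + 4) ^ 2 * E) ^ d := by rw [mul_assoc, ← mul_pow]; congr 2; ring
    _ ≤ _ := Nat.mul_le_mul_left _ h1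

section
variable {H Q' d : Ar → ℕ} {s m : ℕ → Ar → ℕ} (hs : Sm 32 a) (hd : d a ≤ a.z)
  (h0 : 0 < H a * (Q' a * Lo (s · a) (d a))) (hn : 1000 * (H a * (Q' a * Lo (s · a) (d a))) < 2 ^ a.z)
  {lm : ℕ} (hl : ∀ t < d a, s t a < 2 ^ lm) (hQ : 2 ^ lm ≤ Q' a)
include hs hd h0 hn hl hQ

lemma fwd_acts (x : ℕ → Rec X.b) :
    ∃ z, Acts X e (loopF d (spl H Q' d s m false)) a (arr (H a * (Q' a * Lo (s · a) (d a))) x)
        (arr (H a * (Q' a * Lo (s · a) (d a))) z)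
        (d a * (tc lm * (H a * (Q' a * Lo (s · a) (d a)))) + 11 * (d a + 1)) ∧
      Rel (H a) (Q' a) (s · a) (m · a) (d a) (d a) x z := by
  obtain ⟨ys, a1, y, rfl, a2⟩ := loopF_acts (X := X) (e := e) (n := d)
    (c := spl H Q' d s m false) (hs.mono (by omega)) (hd.trans_lt Nat.lt_two_pow_self)
    (fun k ys => ∃ y, ys = arr (H a * (Q' a * Lo (s · a) (d a))) y ∧
      Rel (H a) (Q' a) (s · a) (m · a) (d a) k x y)
    (fun _ => tc lm * (H a * (Q' a * Lo (s · a) (d a)))) (by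
      rintro e' k hk _ ⟨y, rfl, hy⟩
      obtain ⟨y', c1, c2⟩ := spl_acts (X := X) (e := e') (m := m) (hs.mono (by omega)) hd h0 hn hl
        hQ hk false y
      exact ⟨_, c1, y', rfl, c2 x hy⟩) _ ⟨x, rfl, Rel.zero _ _ _ _ _ _⟩
  exact ⟨y, a1.mono (by simp), a2⟩

lemma bwd_acts (z : ℕ → Rec X.b) :
    ∃ y, Acts X e (loopF d (.arg (fun x => (d x.t - 1 - x.g 0) :: x.t.l) (spl H Q' d s m true))) a
        (arr (H a * (Q' a * Lo (s · a) (d a))) z) (arr (H a * (Q' a * Lo (s · a) (d a))) y)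
        (d a * (tc lm * (H a * (Q' a * Lo (s · a) (d a))) + 1) + 11 * (d a + 1)) ∧
      Rel (H a) (Q' a) (s · a) (m · a) (d a) (d a) y z := by
  have hz : d a < 2 ^ a.z := hd.trans_lt Nat.lt_two_pow_self
  obtain ⟨ys, a1, y, rfl, a2⟩ := loopF_acts (X := X) (e := e) (n := d)
    (c := .arg (fun x => (d x.t - 1 - x.g 0) :: x.t.l) (spl H Q' d s m true))
    (hs.mono (by omega)) hz
    (fun k ys => ∃ y, ys = arr (H a * (Q' a * Lo (s · a) (d a))) y ∧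
      ∀ x, Rel (H a) (Q' a) (s · a) (m · a) (d a) (d a - k) x y →
        Rel (H a) (Q' a) (s · a) (m · a) (d a) (d a) x z)
    (fun _ => tc lm * (H a * (Q' a * Lo (s · a) (d a))) + 1) (by
      rintro e' k hk _ ⟨y, rfl, hy⟩
      obtain ⟨y', c1, c2⟩ := spl_acts (X := X) (e := e') (m := m) (hs.mono (by omega)) hd h0 hn hl
        hQ (show d a - 1 - k < d a by omega) true y
      refine ⟨_, c1.arg (a' := a.c (d a - 1 - k)) rfl (sm_c.2 ⟨by omega, hs.mono (by omega)⟩), y',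
        rfl, fun x hx => hy x ?_⟩
      have := c2 x (by rwa [show d a - 1 - k = d a - (k + 1) by omega])
      rwa [show d a - 1 - k + 1 = d a - k by omega] at this) _ ⟨z, rfl, fun _ h => h⟩
  exact ⟨y, a1.mono (by simp), a2 y (by rw [Nat.sub_self]; exact Rel.zero _ _ _ _ _ _)⟩

end

lemma Rel.top {α : Type} {H Q' : ℕ} {s m : ℕ → ℕ} {d : ℕ} {x z : ℕ → α} (r : Rel H Q' s m d d x z)
    {h β : ℕ} {v : ℕ → ℕ} (hh : h < H) (hβ : β < Q') (hv : ∀ i < d, v i < s i) :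
    z (ix Q' (Lo s d) h β (enc s d v)) = x (h * (Q' * Lo s d) + pos s m v d Q' β) := by
  have e : Qj Q' s d d = Q' := by simp [Qj, Lo]
  have := r h hh β (by rwa [e]) v hv
  rwa [e] at this

end Vale.Agent.P338.TrP
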