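import Vale.Agent.P338.Core
import Vale.Agent.P338.RoundB

/-! One round: Fourier transforms along `d` coprime factors of a cyclic index.

Plan (M7a).  Array of shape `H × Q`, `Q = D Q'`, `D = Π_{i<d} s i`, `D_j = Π_{i<j} s i`,
`Q_j = Q / D_j`.  Mixed radix numbers `mr R W o n` (coordinates `o ≤ t < o + n`, radices `R`).
1. split loop, `j < d`: shape `H × Q_{j+1} × 1 × s j × D_j`, `ut` with `f γ = m j * γ`.  Invariant
   `Rel j x z : z (ix Q_j D_j h β (mr s a 0 j)) = x (h Q + pos s m a j Q_j β)`.  The way back runs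
   `j = d - 1, …, 0` with `f γ = Q_{j+1} - m j * γ % Q_{j+1}` and invariant
   `∀ x, Rel j x z_j → Rel d x z_d`.
2. `pad` the pool `β < Q'` to `H1 * Π U i * (Mz - 1) ^ d`, `U i = 8 (Λ0 / (8 s i)) s i`,
   `H1 = cW ^ size d * (Q' / (cW ^ size d * Π U i * (Mz - 1) ^ d) + 1)`; now the index is mixed radix
   with coordinates `i < d` (radix `s i`), `d + i` (radix `Mz - 1`), `2 d + i` (radix `U i`), top.
3. swap loop: exchange coordinate `i` with the residue mod `s i` of coordinate `2 d + i` (`swp`).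
4. pad loop over the coordinates `d ≤ t < 3 d` to radices `Mz`, `Λ` (one lemma for arbitrary old and
   new radices serves for padding and for truncation).
5. `core` with `H * H1`, `L = D`, `Mz = d + 2`, `Λ0 = ((d + 4) ^ 2 + 2) 2 ^ lm`,
   `Λ = Λ0 + Mz 2 ^ lm`; padded positions hold `default` (`Apx.zero`); size `≤ 18 H Q`.
6. undo 4, 3, 2, 1. -/

namespace Vale.Agent.P338

open Function Finset Vale.Agent.PT Vale.Agent.P320

structure RP where
  H : Ar → ℕ
  Q' : Ar → ℕ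
  d : Ar → ℕ
  lm : Ar → ℕ
  s : ℕ → Ar → ℕ
  m : ℕ → Ar → ℕ

def RP.ok (p : RP) : Prop := BT p.H ∧ BT p.Q' ∧ BT p.d ∧ BT p.lm ∧ B1 p.s ∧ B1 p.m

def RP.Q (p : RP) (a : Ar) : ℕ := p.Q' a * ∏ i ∈ range (p.d a), p.s i a

/-- padded field size -/
def lamF (d lm : ℕ) : ℕ := ((d + 4) ^ 2 + d + 4) * 2 ^ lm

structure RP.good (p : RP) (b : ℕ) (a : Ar) : Prop where
  sm : Sm 80 a
  pos : 0 < p.H a
  lt : 100000 * (p.H a * p.Q a) < 2 ^ a.z
  d1 : 1 ≤ p.d a
  db : p.d a < b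
  lb : 2 ^ p.lm a ≤ b
  s2 : ∀ i < p.d a, 2 ≤ p.s i a
  s4 : ∀ i < p.d a, 4 * p.s i a ≤ 2 ^ p.lm a
  pool : cW ^ (p.d a).size * lamF (p.d a) (p.lm a) ^ p.d a * (p.d a + 1) ^ p.d a ≤ p.Q' a

namespace RP

open TrP

variable (p : RP)

def L0 (a : Ar) : ℕ := ((p.d a + 4) ^ 2 + 2) * 2 ^ a.u (p.lm a)
def La (a : Ar) : ℕ := p.L0 a + (p.d a + 2) * 2 ^ a.u (p.lm a)
def G (i : ℕ) (a : Ar) : ℕ := 8 * (p.L0 a / (8 * ap1 p.s i a))
def U (i : ℕ) (a : Ar) : ℕ := ap1 p.G i a * ap1 p.s i a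
def D (a : Ar) : ℕ := ∏ i ∈ range (a.u (p.d a)), ap1 p.s i a
def B (a : Ar) : ℕ := (∏ i ∈ range (a.u (p.d a)), ap1 p.U i a) * (p.d a + 1) ^ a.u (p.d a)
noncomputable def H1 (a : Ar) : ℕ :=
  cW ^ (p.d a).size * (p.Q' a / (cW ^ (p.d a).size * p.B a) + 1)
noncomputable def P' (a : Ar) : ℕ := p.H1 a * p.B a
noncomputable def old (t : ℕ) (a : Ar) : ℕ :=
  if t < p.d a then ap1 p.s t a else if t < 2 * p.d a then p.d a + 1
  else if t < 3 * p.d a then ap1 p.U (t - 2 * p.d a) a else p.H a * p.H1 a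
noncomputable def new (t : ℕ) (a : Ar) : ℕ :=
  if t < p.d a then ap1 p.s t a else if t < 2 * p.d a then p.d a + 2
  else if t < 3 * p.d a then p.La a else p.H a * p.H1 a
noncomputable def cp : CP :=
  ⟨fun a => p.H a * p.H1 a, p.d, p.La, fun a => p.d a + 2, p.D, p.lm, p.L0, p.s⟩
noncomputable def sw : Cmd := swAll p.d (fun a => 2 * p.d a) (fun a => 3 * p.d a + 1) p.old p.G
noncomputable def pre : Cmd :=
  .seq (pad p.H p.Q' p.P' p.D) (.seq p.sw (padAll (fun a => 3 * p.d a + 1) p.old p.new))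
noncomputable def post : Cmd :=
  .seq (padAll (fun a => 3 * p.d a + 1) p.new p.old) (.seq p.sw (pad p.H p.P' p.Q' p.D))

section ok
variable {p} (h : p.ok)
include h

lemma L0_bt : BT p.L0 := by obtain ⟨h1, h2, h3, h4, h5, h6⟩ := h; unfold L0; fun_prop
lemma La_bt : BT p.La := by
  have := L0_bt h
  obtain ⟨h1, h2, h3, h4, h5, h6⟩ := h; unfold La; fun_prop
lemma G_b1 : B1 p.G := by
  have := L0_bt h
  obtain ⟨h1, h2, h3, h4, h5, h6⟩ := h; unfold B1 G; fun_prop (disch := assumption)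
lemma U_b1 : B1 p.U := by
  have := G_b1 h
  obtain ⟨h1, h2, h3, h4, h5, h6⟩ := h; unfold B1 U; fun_prop (disch := assumption)
lemma D_bt : BT p.D := by
  obtain ⟨h1, h2, h3, h4, h5, h6⟩ := h; unfold D; fun_prop (disch := assumption)
lemma B_bt : BT p.B := by
  have := U_b1 h
  obtain ⟨h1, h2, h3, h4, h5, h6⟩ := h; unfold B; fun_prop (disch := assumption)
lemma H1_bt : BT p.H1 := by
  have := B_bt h
  obtain ⟨h1, h2, h3, h4, h5, h6⟩ := h; unfold H1; fun_prop
lemma P'_bt : BT p.P' := (H1_bt h).mul (B_bt h)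
lemma old_b1 : B1 p.old := by
  have := U_b1 h
  have := H1_bt h
  obtain ⟨h1, h2, h3, h4, h5, h6⟩ := h; unfold B1 old; fun_prop (disch := assumption)
lemma new_b1 : B1 p.new := by
  have := La_bt h
  have := H1_bt h
  obtain ⟨h1, h2, h3, h4, h5, h6⟩ := h; unfold B1 new; fun_prop (disch := assumption)
lemma n_bt : BT fun a => 3 * p.d a + 1 := by obtain ⟨h1, h2, h3, h4, h5, h6⟩ := h; fun_prop
lemma cp_ok : p.cp.ok :=
  ⟨h.1.mul (H1_bt h), h.2.2.1, La_bt h, h.2.2.1.add (BT.const 2), D_bt h, h.2.2.2.1, L0_bt h,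
    h.2.2.2.2.1⟩
lemma sw_ok : p.sw.ok := swAll_ok h.2.2.1 ((BT.const 2).mul h.2.2.1) (n_bt h) (old_b1 h) (G_b1 h)
lemma pre_ok : p.pre.ok :=
  ⟨pad_ok h.1 h.2.1 (P'_bt h) (D_bt h), sw_ok h, padAll_ok (n_bt h) (old_b1 h) (new_b1 h)⟩
lemma post_ok : p.post.ok :=
  ⟨padAll_ok (n_bt h) (new_b1 h) (old_b1 h), sw_ok h, pad_ok h.1 (P'_bt h) h.2.1 (D_bt h)⟩

end ok

lemma old_eq (a : Ar) : (p.old · a) =
    TrP.mk (p.d a) (p.s · a) (fun _ => p.d a + 1) (p.U · a) (p.H a * p.H1 a) := rfl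
lemma new_eq (a : Ar) : (p.new · a) =
    TrP.mk (p.d a) (p.s · a) (fun _ => p.d a + 2) (fun _ => p.La a) (p.H a * p.H1 a) := rfl
lemma Q_eq (a : Ar) : p.Q a = p.Q' a * Lo (p.s · a) (p.d a) := rfl

section facts
variable {p} {b : ℕ} {a : Ar} (g : p.good b a)
include g

lemma D0 : 0 < Lo (p.s · a) (p.d a) := Lo_pos fun j hj => by have := g.s2 j hj; omega
lemma lamQ : lamF (p.d a) (p.lm a) ^ p.d a ≤ p.Q' a := by
  refine le_trans ?_ g.pool
  have := cW_pos
  exact (Nat.le_mul_of_pos_left _ (by positivity)).trans (Nat.le_mul_of_pos_right _ (by positivity))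
lemma Qz : 2 * p.Q' a < 2 ^ a.z := by
  have h1 : p.Q' a ≤ p.H a * p.Q a :=
    (Nat.le_mul_of_pos_right _ (D0 g)).trans (Nat.le_mul_of_pos_left _ g.pos)
  have := g.lt
  omega
lemma lmQ : 2 ^ p.lm a ≤ p.Q' a := by
  refine le_trans ?_ ((Nat.le_self_pow (by have := g.d1; omega) _).trans (lamQ g))
  exact Nat.le_mul_of_pos_left _ (by positivity)
lemma nz : 3 * p.d a + 1 ≤ a.z := by
  have h1 : 2 ^ 3 ≤ lamF (p.d a) (p.lm a) :=
    le_trans (by nlinarith) (Nat.le_mul_of_pos_right _ (by positivity))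
  have h2 := (Nat.pow_le_pow_left h1 (p.d a)).trans (lamQ g)
  have h3 := Qz g
  rw [← pow_mul] at h2
  exact ((Nat.pow_lt_pow_iff_right (a := 2) (by norm_num)).1 (by rw [pow_succ]; omega)).le
lemma du : a.u (p.d a) = p.d a := a.u_eq (by have := nz g; omega)
lemma lu : a.u (p.lm a) = p.lm a := a.u_eq ((Nat.pow_lt_pow_iff_right (a := 2) (by norm_num)).1
  (by have := lmQ g; have := Qz g; omega)).le
lemma L0_eq : p.L0 a = ((p.d a + 4) ^ 2 + 2) * 2 ^ p.lm a := by rw [L0, lu g]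
lemma La_eq : p.La a = lamF (p.d a) (p.lm a) := by rw [La, L0_eq g, lu g, lamF]; ring
lemma D_eq : p.D a = Lo (p.s · a) (p.d a) := by rw [D, du g]; rfl
lemma B_eq : p.B a = Lo (p.U · a) (p.d a) * (p.d a + 1) ^ p.d a := by rw [B, du g]; rfl
omit g in
lemma L0_le : p.L0 a ≤ p.La a := Nat.le_add_right _ _
lemma U_bd {i : ℕ} (hi : i < p.d a) :
    (p.d a + 4) ^ 2 * 2 ^ p.lm a ≤ p.U i a ∧ p.U i a ≤ p.L0 a := by
  have := U_bound (d := p.d a) (show 0 < p.s i a by have := g.s2 i hi; omega) (g.s4 i hi)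
  rwa [← L0_eq g] at this
lemma U0 {i : ℕ} (hi : i < p.d a) : 0 < p.U i a := lt_of_lt_of_le (by positivity) (U_bd g hi).1
lemma B0 : 0 < p.B a := by
  rw [B_eq g]; exact Nat.mul_pos (Lo_pos fun j hj => U0 g hj) (by positivity)
omit g in
lemma H10 : 0 < p.H1 a := by have := cW_pos; unfold H1; positivity
lemma P_bd : p.Q' a < p.P' a ∧ p.P' a ≤ 2 * p.Q' a := by
  have h0 : 0 < cW ^ (p.d a).size * p.B a := by have := cW_pos; have := B0 g; positivity
  have h1 : cW ^ (p.d a).size * p.B a ≤ p.Q' a := by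
    refine le_trans ?_ g.pool
    rw [B_eq g, ← mul_assoc, ← La_eq g, ← Lo_const (p.La a)]
    exact Nat.mul_le_mul_right _ (Nat.mul_le_mul_left _
      (Lo_le fun j hj => (U_bd g hj).2.trans L0_le))
  have h2 := Nat.div_add_mod (p.Q' a) (cW ^ (p.d a).size * p.B a)
  have h3 := Nat.mod_lt (p.Q' a) h0
  have h4 : p.P' a = cW ^ (p.d a).size * p.B a * (p.Q' a / (cW ^ (p.d a).size * p.B a)) +
      cW ^ (p.d a).size * p.B a := by rw [P', H1]; ring
  omega
lemma HQ0 : 0 < p.H a * p.Q a := Nat.mul_pos g.pos (Nat.mul_pos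
  (lt_of_lt_of_le (by positivity) (lmQ g)) (D0 g))
lemma N0_eq : p.H a * p.Q' a * p.D a = p.H a * p.Q a := by rw [D_eq g, Q_eq, mul_assoc]
lemma N1_eq : Lo (p.old · a) (3 * p.d a + 1) = p.H a * p.P' a * p.D a := by
  rw [old_eq, Lo_mk, P', B_eq g, D_eq g, Lo_const]; ring
lemma N1_bd : 0 < p.H a * p.P' a * p.D a ∧ p.H a * p.P' a * p.D a ≤ 2 * (p.H a * p.Q a) := by
  have h1 := P_bd g
  refine ⟨Nat.mul_pos (Nat.mul_pos g.pos (by omega)) (by rw [D_eq g]; exact D0 g), ?_⟩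
  rw [← N0_eq g]
  exact (Nat.mul_le_mul_right _ (Nat.mul_le_mul_left _ h1.2)).trans (le_of_eq (by ring))
lemma N2_eq : Lo (p.new · a) (3 * p.d a + 1) = p.cp.N a := by
  rw [new_eq, Lo_mk, Lo_const, Lo_const, ← D_eq g]; rfl
lemma N2_bd : p.cp.N a ≤ 18 * (p.H a * p.Q a) := by
  have h1 : p.La a ^ p.d a ≤ 3 * Lo (p.U · a) (p.d a) := by
    rw [La_eq g]; exact lam_pow_le fun i hi => (U_bd g hi).1
  have h2 := succ_pow_le (k := p.d a + 1) (d := p.d a) (by omega) (by omega)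
  have h3 := (N1_bd g).2
  calc p.cp.N a = p.H a * p.H1 a * p.La a ^ p.d a * (p.d a + 1 + 1) ^ p.d a * p.D a := rfl
    _ ≤ p.H a * p.H1 a * (3 * Lo (p.U · a) (p.d a)) * (3 * (p.d a + 1) ^ p.d a) * p.D a := by
      gcongr
    _ = 9 * (p.H a * p.P' a * p.D a) := by rw [P', B_eq g]; ring
    _ ≤ _ := by omega
lemma rad_bd (t : ℕ) : (0 < p.old t a ∧ p.old t a ≤ p.new t a) ∧
    (0 < p.new t a ∧ p.new t a ≤ p.new t a) := by
  have := mk_rel (R := fun x y => 0 < x ∧ x ≤ y) (d := p.d a) (v := (p.s · a)) (v' := (p.s · a))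
    (w := fun _ => p.d a + 1) (w' := fun _ => p.d a + 2) (u := (p.U · a)) (u' := fun _ => p.La a)
    (h := p.H a * p.H1 a) (h' := p.H a * p.H1 a)
    (fun i hi => ⟨by have := g.s2 i hi; omega, le_rfl⟩) (fun _ _ => ⟨by omega, by omega⟩)
    (fun i hi => ⟨U0 g hi, (U_bd g hi).2.trans L0_le⟩) ⟨Nat.mul_pos g.pos H10, le_rfl⟩ t
  exact ⟨this, this.1.trans_le this.2, le_rfl⟩
lemma cp_good : p.cp.good b a where
  sm := g.sm.mono (by omega)
  pos := by rw [← N2_eq g]; exact Lo_pos fun t _ => (rad_bd g t).2.1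
  lt := by have := N2_bd g; have := g.lt; omega
  d1 := g.d1
  db := g.db
  lb := g.lb
  wd := Dvd.dvd.mul_left (Dvd.intro _ rfl) _
  mz := Nat.le_add_left _ _
  dv := by change _ ∣ p.L0 a; rw [L0_eq g]; exact Dvd.intro_left _ rfl
  big := by change _ ≤ p.L0 a; rw [L0_eq g]; exact Nat.mul_le_mul_right _ (by ring_nf; omega)
  lam := by change p.La a = _; rw [La, lu g]; rfl
  s0 := fun i hi => by have := g.s2 i hi; exact lt_of_lt_of_le (by omega) this
  s4 := g.s4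
lemma slt : ∀ t < p.d a, p.s t a < 2 ^ p.lm a := fun t ht => by
  have := g.s2 t ht; have := g.s4 t ht; omega

end facts

/-- the pool index carried by the upper coordinates -/
noncomputable def be (a : Ar) (top : ℕ) (w u : ℕ → ℕ) : ℕ :=
  (top % p.H1 a * Lo (p.U · a) (p.d a) + enc (p.U · a) (p.d a) u) * (p.d a + 1) ^ p.d a +
    enc (fun _ => p.d a + 1) (p.d a) w

section acts
variable {p} {X : Cx} {e : Cmd} {a : Ar} (g : p.good X.b a)
include g

lemma enc_old (v w u : ℕ → ℕ) (top : ℕ) :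
    enc (p.old · a) (3 * p.d a + 1) (TrP.mk (p.d a) v w u top) =
      ix (p.P' a) (p.D a) (top / p.H1 a) (p.be a top w u) (enc (p.s · a) (p.d a) v) := by
  rw [old_eq, enc_mk, ix, be, P', B_eq g, D_eq g, Lo_const]
  conv_lhs => rw [← Nat.div_add_mod' top (p.H1 a)]
  ring

lemma enc_new (v w u : ℕ → ℕ) (top : ℕ) :
    enc (p.new · a) (3 * p.d a + 1) (TrP.mk (p.d a) v w u top) =
      lx (p.d a) (p.La a) (p.d a + 2) (p.D a) top u w (enc (p.s · a) (p.d a) v) := by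
  rw [new_eq, enc_mk, lx, D_eq g, Lo_const, Lo_const, dg_enc, dg_enc]

lemma be_lt {w u : ℕ → ℕ} (top : ℕ) (hw : ∀ i < p.d a, w i < p.d a + 1)
    (hu : ∀ i < p.d a, u i < p.U i a) : p.be a top w u < p.P' a := by
  rw [be, P', B_eq g, ← mul_assoc, ← Lo_const]
  exact lt2 (lt2 (Nat.mod_lt _ H10) (enc_lt hu)) (enc_lt hw)

lemma sw_acts (x : ℕ → Rec X.b) :
    ∃ y, Acts X e p.sw a (arr (p.H a * p.P' a * p.D a) x) (arr (p.H a * p.P' a * p.D a) y)
        (p.d a * (tc (p.lm a) * (2 * (p.H a * p.Q a))) + 11 * (p.d a + 1)) ∧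
      ∀ v w u : ℕ → ℕ, ∀ top < p.H a * p.H1 a, (∀ i < p.d a, v i < p.s i a) →
        (∀ i < p.d a, w i < p.d a + 1) → (∀ i < p.d a, u i < p.U i a) →
        (∀ i < p.d a, u i / p.s i a * p.s i a + v i < p.U i a) ∧
        y (enc (p.old · a) (3 * p.d a + 1) (TrP.mk (p.d a) v w u top)) =
          x (enc (p.old · a) (3 * p.d a + 1) (TrP.mk (p.d a) (fun i => u i % p.s i a) w
            (fun i => u i / p.s i a * p.s i a + v i) top)) := by
  have h1 := N1_bd g
  have h2 := g.lt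
  obtain ⟨y, c1, c2⟩ := swAll_acts (X := X) (e := e) (d := p.d) (c := fun a => 2 * p.d a)
    (n := fun a => 3 * p.d a + 1) (R := p.old) (G := p.G) (g.sm.mono (by omega)) (nz g)
    (by omega) (by omega)
    (fun t ht => by
      rw [show p.old (2 * p.d a + t) a = _ from congrFun (old_eq p a) _,
        show p.old t a = _ from congrFun (old_eq p a) _, mk1 ht, mk3 ht]; rfl)
    (by rw [N1_eq g]; omega) (by rw [N1_eq g]; omega) (lm := p.lm a)
    (fun t ht => by rw [show p.old t a = _ from congrFun (old_eq p a) _, mk1 ht]; exact slt g t ht) x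
  rw [N1_eq g] at c1
  refine ⟨y, c1.mono (Nat.add_le_add_right (Nat.mul_le_mul_left _ (Nat.mul_le_mul_left _ h1.2)) _),
    fun v w u top ht hv hw hu => ?_⟩
  have h3 : ∀ i < p.d a, u i / p.s i a * p.s i a + v i < p.U i a := fun i hi =>
    lt2 (Nat.div_lt_of_lt_mul (by rw [mul_comm]; exact hu i hi)) (hv i hi)
  exact ⟨h3, c2 _ _ (fun t _ => mk_rel (R := (· < ·)) hv hw hu ht t)
    (fun t _ => mk_rel (R := (· < ·))
      (fun i hi => Nat.mod_lt _ (by have := g.s2 i hi; omega)) hw h3 ht t)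
    (old_eq p a ▸ SW_mk v w u top :)⟩

open Classical in
lemma pre_acts (x : ℕ → Rec X.b) :
    ∃ y, Acts X e p.pre a (arr (p.H a * p.Q a) x) (arr (p.cp.N a) y)
        (200000 * (p.d a * (tc (p.lm a) + 1) * (p.H a * p.Q a))) ∧
      ∀ v w u : ℕ → ℕ, ∀ top < p.H a * p.H1 a, (∀ i < p.d a, v i < p.s i a) →
        (∀ i < p.d a, w i < p.d a + 1) → (∀ i < p.d a, u i < p.La a) →
        y (lx (p.d a) (p.La a) (p.d a + 2) (p.D a) top u w (enc (p.s · a) (p.d a) v)) =
          if (∀ i < p.d a, u i < p.U i a) ∧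
            p.be a top w (fun i => u i / p.s i a * p.s i a + v i) < p.Q' a then
            x (ix (p.Q' a) (p.D a) (top / p.H1 a)
              (p.be a top w fun i => u i / p.s i a * p.s i a + v i)
              (enc (p.s · a) (p.d a) fun i => u i % p.s i a))
          else default := by
  have h0 := HQ0 g
  have h1 := N1_bd g
  have h2 := g.lt
  have h3 := N2_bd g
  obtain ⟨y1, a1, b1⟩ := pad_acts (X := X) (e := e) (H := p.H) (A := p.Q') (A' := p.P') (L := p.D)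
    (g.sm.mono (by omega)) (by rw [N0_eq g]; omega) (by rw [N0_eq g]; omega) x
  obtain ⟨y2, a2, b2⟩ := sw_acts (e := e) g y1
  obtain ⟨y3, a3, b3⟩ := padAll_acts (X := X) (e := e) (n := fun a => 3 * p.d a + 1)
    (old := p.old) (new := p.new) (g.sm.mono (by omega)) (nz g) (p.new · a)
    (fun t _ => (rad_bd g t).1) (fun t _ => (rad_bd g t).2) (by rw [N2_eq g]; omega) y2
  rw [N0_eq g] at a1
  rw [N1_eq g, N2_eq g] at a3
  refine ⟨y3, (a1.seq (a2.seq a3)).mono ?_, fun v w u top ht hv hw hu => ?_⟩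
  · have := g.d1
    have h4 : p.d a ≤ p.d a * (p.H a * p.Q a) := Nat.le_mul_of_pos_right _ h0
    have h5 : p.H a * p.Q a ≤ p.d a * (p.H a * p.Q a) := Nat.le_mul_of_pos_left _ this
    have h6 : p.d a * p.cp.N a ≤ p.d a * (18 * (p.H a * p.Q a)) := Nat.mul_le_mul_left _ h3
    generalize p.H a * p.Q a = N at *
    nlinarith [Nat.zero_le (p.d a * tc (p.lm a) * N)]
  · rw [← enc_new g, b3 _ fun t _ => mk_rel (R := (· < ·)) hv
      (fun i hi => (hw i hi).trans (Nat.lt_succ_self _)) hu ht t]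
    by_cases hU : ∀ i < p.d a, u i < p.U i a
    · obtain ⟨c1, c2⟩ := b2 v w u top ht hv hw hU
      have c3 : ∀ t < 3 * p.d a + 1, TrP.mk (p.d a) v w u top t < p.old t a :=
        fun t _ => mk_rel (R := (· < ·)) hv hw hU ht t
      rw [if_pos c3, c2, enc_old g,
        b1 _ (Nat.div_lt_of_lt_mul (by rwa [mul_comm])) _ (be_lt g top hw c1) _
          (by rw [D_eq g]; exact enc_lt fun i hi => Nat.mod_lt _ (by have := g.s2 i hi; omega))]
      exact if_congr (by simp only [iff_and_self]; exact fun _ => hU) rfl rfl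
    · refine (if_neg fun h => hU fun i hi => ?_).trans (if_neg fun h => hU h.1).symm
      have := h (2 * p.d a + i) (by omega)
      rwa [show p.old (2 * p.d a + i) a = _ from congrFun (old_eq p a) _, mk3 hi, mk3 hi] at this

lemma post_acts (x : ℕ → Rec X.b) :
    ∃ y, Acts X e p.post a (arr (p.cp.N a) x) (arr (p.H a * p.Q a) y)
        (200000 * (p.d a * (tc (p.lm a) + 1) * (p.H a * p.Q a))) ∧
      ∀ v w u : ℕ → ℕ, ∀ top < p.H a * p.H1 a, (∀ i < p.d a, v i < p.s i a) →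
        (∀ i < p.d a, w i < p.d a + 1) → (∀ i < p.d a, u i < p.U i a) → p.be a top w u < p.Q' a →
        y (ix (p.Q' a) (p.D a) (top / p.H1 a) (p.be a top w u) (enc (p.s · a) (p.d a) v)) =
          x (lx (p.d a) (p.La a) (p.d a + 2) (p.D a) top (fun i => u i / p.s i a * p.s i a + v i) w
            (enc (p.s · a) (p.d a) fun i => u i % p.s i a)) := by
  have h0 := HQ0 g
  have h1 := N1_bd g
  have h2 := g.lt
  have h3 := N2_bd g
  obtain ⟨y1, a1, b1⟩ := padAll_acts (X := X) (e := e) (n := fun a => 3 * p.d a + 1)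
    (old := p.new) (new := p.old) (g.sm.mono (by omega)) (nz g) (p.new · a)
    (fun t _ => (rad_bd g t).2) (fun t _ => (rad_bd g t).1) (by rw [N2_eq g]; omega) x
  obtain ⟨y2, a2, b2⟩ := sw_acts (e := e) g y1
  obtain ⟨y3, a3, b3⟩ := pad_acts (X := X) (e := e) (H := p.H) (A := p.P') (A' := p.Q') (L := p.D)
    (g.sm.mono (by omega)) h1.1 (by rw [N0_eq g]; omega) y2
  rw [N0_eq g] at a3
  rw [N1_eq g, N2_eq g] at a1
  refine ⟨y3, (a1.seq (a2.seq a3)).mono ?_, fun v w u top ht hv hw hu hβ => ?_⟩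
  · have := g.d1
    have h4 : p.d a ≤ p.d a * (p.H a * p.Q a) := Nat.le_mul_of_pos_right _ h0
    have h5 : p.H a * p.Q a ≤ p.d a * (p.H a * p.Q a) := Nat.le_mul_of_pos_left _ this
    have h6 : p.d a * p.cp.N a ≤ p.d a * (18 * (p.H a * p.Q a)) := Nat.mul_le_mul_left _ h3
    generalize p.H a * p.Q a = N at *
    nlinarith [Nat.zero_le (p.d a * tc (p.lm a) * N)]
  · obtain ⟨c1, c2⟩ := b2 v w u top ht hv hw hu
    have hv' : ∀ t, TrP.mk (p.d a) (fun i => u i % p.s i a) w (fun i => u i / p.s i a * p.s i a + v i)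
        top t < p.old t a := fun t => mk_rel (R := (· < ·))
      (fun i hi => Nat.mod_lt _ (by have := g.s2 i hi; omega)) hw c1 ht t
    rw [b3 _ (Nat.div_lt_of_lt_mul (by rwa [mul_comm])) _ hβ _ (by rw [D_eq g]; exact enc_lt hv),
      if_pos (be_lt g top hw hu), ← enc_old g, c2, b1 _ fun t _ => hv' t,
      if_pos fun t _ => (hv' t).trans_le (rad_bd g t).1.2, enc_new g]

lemma be_surj {h β : ℕ} (hh : h < p.H a) (hβ : β < p.Q' a) :
    ∃ top < p.H a * p.H1 a, ∃ w u : ℕ → ℕ, (∀ i < p.d a, w i < p.d a + 1) ∧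
      (∀ i < p.d a, u i < p.U i a) ∧ top / p.H1 a = h ∧ p.be a top w u = β := by
  have h1 := (hβ.trans (P_bd g).1)
  rw [P', B_eq g, ← mul_assoc] at h1
  have h2 : 0 < (p.d a + 1) ^ p.d a := by positivity
  have h3 : 0 < Lo (p.U · a) (p.d a) := Lo_pos fun j hj => U0 g hj
  have h4 : β / (p.d a + 1) ^ p.d a / Lo (p.U · a) (p.d a) < p.H1 a := by
    rwa [Nat.div_lt_iff_lt_mul h3, Nat.div_lt_iff_lt_mul h2]
  refine ⟨h * p.H1 a + β / (p.d a + 1) ^ p.d a / Lo (p.U · a) (p.d a), lt2 hh h4,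
    fun j => β % (p.d a + 1) ^ p.d a / (p.d a + 1) ^ j % (p.d a + 1),
    fun j => β / (p.d a + 1) ^ p.d a % Lo (p.U · a) (p.d a) / Lo (p.U · a) j % p.U j a,
    fun _ _ => Nat.mod_lt _ (by omega), fun i hi => Nat.mod_lt _ (U0 g hi), ?_, ?_⟩
  · rw [add_comm, Nat.add_mul_div_right _ _ H10, Nat.div_eq_of_lt h4, zero_add]
  · rw [be, enc_digits (Nat.mod_lt _ h2), enc_digits' (r := (p.U · a)) (Nat.mod_lt _ h3),
      Nat.mul_add_mod_of_lt h4, Nat.div_add_mod', Nat.div_add_mod']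

end acts

end RP

open TrP

noncomputable def round (p : RP) : Cmd :=
  .seq (loopF p.d (spl p.H p.Q' p.d p.s p.m false)) (.seq p.pre (.seq (core p.cp) (.seq p.post
    (loopF p.d (.arg (fun x => (p.d x.t - 1 - x.g 0) :: x.t.l) (spl p.H p.Q' p.d p.s p.m true))))))

theorem round_ok {p : RP} (h : p.ok) : (round p).ok := by
  have h' := h
  obtain ⟨h1, h2, h3, h4, h5, h6⟩ := h'
  exact ⟨loopF_ok h3 (spl_ok h1 h2 h3 h5 h6 _), RP.pre_ok h, core_ok (RP.cp_ok h), RP.post_ok h,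
    loopF_ok h3 ⟨by fun_prop, spl_ok h1 h2 h3 h5 h6 _⟩⟩

open Classical in
theorem round_acts : ∃ K : ℕ, ∀ (X : Cx) (e : Cmd) (a : Ar) (p : RP), p.ok → p.good X.b a →
    ∀ (n : ℕ), n + coreD (p.d a) (p.lm a) + 1 ≤ 4 * X.b → ∀ (x : ℕ → Rec X.b)
      (Y : ℕ → ℕ → (ℕ → ℕ) → ℂ),
      (∀ h < p.H a, ∀ β < p.Q' a, ∀ v : ℕ → ℕ, (∀ i < p.d a, v i < p.s i a) →
        Apx X.b n (rv (x (h * p.Q a + pos (p.s · a) (p.m · a) v (p.d a) (p.Q' a) β))) (Y h β v)) →
      ∃ y, Acts X e (round p) a (arr (p.H a * p.Q a) x) (arr (p.H a * p.Q a) y)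
          (K * ((p.d a * (tc (p.lm a) + 1) + (p.lm a + 1) *
              (cc (p.d a) * ((lamF (p.d a) (p.lm a)).size + 1) + X.μ + 1)) * (p.H a * p.Q a) +
            (p.lm a + 1) * p.d a * lamF (p.d a) (p.lm a) * X.σ)) ∧
        ∀ h < p.H a, ∀ β < p.Q' a, ∀ v : ℕ → ℕ, (∀ i < p.d a, v i < p.s i a) →
          Apx X.b (n + coreD (p.d a) (p.lm a))
            (rv (y (h * p.Q a + pos (p.s · a) (p.m · a) v (p.d a) (p.Q' a) β)))
            (allL (fun i => dft (p.s i a)) (p.d a) (Y h β) v) := by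
  obtain ⟨K, hK⟩ := core_acts
  refine ⟨18 * K + 500000, fun X e a p h g n hn x Y hA => ?_⟩
  have h0 := RP.HQ0 g
  have h1 := g.lt
  have hd : p.d a ≤ a.z := by have := RP.nz g; omega
  have hs : ∀ i < p.d a, 0 < p.s i a := fun i hi => by have := g.s2 i hi; omega
  obtain ⟨z1, a1, b1⟩ := fwd_acts (X := X) (e := e) (H := p.H) (Q' := p.Q') (d := p.d) (s := p.s)
    (m := p.m) (g.sm.mono (by omega)) hd h0 (by rw [← RP.Q_eq]; omega) (RP.slt g) (RP.lmQ g) x
  obtain ⟨z2, a2, b2⟩ := RP.pre_acts (e := e) g z1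
  obtain ⟨z3, a3, b3⟩ := hK X e a p.cp (RP.cp_ok h) (RP.cp_good g) n hn z2
    (fun top w l u => if (∀ i < p.d a, u i < p.U i a) ∧ p.be a top w
        (fun i => u i / p.s i a * p.s i a + l / Lo (p.s · a) i % p.s i a) < p.Q' a then
      Y (top / p.H1 a) (p.be a top w
        fun i => u i / p.s i a * p.s i a + l / Lo (p.s · a) i % p.s i a)
        fun i => if i < p.d a then u i % p.s i a else u i
      else 0) (fun top ht w hw l hl u hu => by
        have hl' : l < Lo (p.s · a) (p.d a) := RP.D_eq g ▸ hl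
        have := b2 (fun i => l / Lo (p.s · a) i % p.s i a) w u top ht
          (fun i hi => Nat.mod_lt _ (hs i hi)) (fun i hi => Nat.lt_of_succ_lt_succ (hw i hi))
          fun i hi => (hu i hi).trans_le RP.L0_le
        rw [enc_digits' hl'] at this
        change Apx _ _ (rv (z2 (lx (p.d a) (p.La a) (p.d a + 2) (p.D a) top u w l))) _
        rw [this]
        split_ifs with hc
        · have hv : ∀ i < p.d a, (if i < p.d a then u i % p.s i a else u i) < p.s i a :=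
            fun i hi => by rw [if_pos hi]; exact Nat.mod_lt _ (hs i hi)
          have ht' : top / p.H1 a < p.H a := Nat.div_lt_of_lt_mul (by rwa [mul_comm])
          have := hA _ ht' _ hc.2 _ hv
          rwa [RP.Q_eq, ← b1.top ht' hc.2 hv, ← RP.D_eq g,
            enc_congr (d' := fun i => u i % p.s i a) fun j hj => if_pos hj] at this
        · rw [show rv (default : Rec X.b) = 0 from rv_zero default default]
          exact Apx.zero n)
  obtain ⟨z4, a4, b4⟩ := RP.post_acts (e := e) g z3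
  obtain ⟨y, a5, b5⟩ := bwd_acts (X := X) (e := e) (H := p.H) (Q' := p.Q') (d := p.d) (s := p.s)
    (m := p.m) (g.sm.mono (by omega)) hd h0 (by rw [← RP.Q_eq]; omega) (RP.slt g) (RP.lmQ g) z4
  refine ⟨y, (a1.seq (a2.seq (a3.seq (a4.seq a5)))).mono ?_, fun h' hh β hβ v hv => ?_⟩
  · have h3 := RP.N2_bd g
    have h4 := g.d1
    rw [← RP.Q_eq, ← RP.La_eq g]
    change _ + (_ + (K * ((p.d a + (p.lm a + 1) * (cc (p.d a) * ((p.La a).size + 1) + X.μ + 1)) *
      _ + (p.lm a + 1) * p.d a * p.La a * X.σ) + _ + 1) + 1) + 1 ≤ _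
    generalize (p.lm a + 1) * (cc (p.d a) * ((p.La a).size + 1) + X.μ + 1) = c at *
    generalize (p.lm a + 1) * p.d a * p.La a * X.σ = S at *
    generalize p.H a * p.Q a = N at *
    generalize p.cp.N a = N' at *
    generalize tc (p.lm a) = t at *
    generalize p.d a = d at *
    have h5 : d ≤ d * N := Nat.le_mul_of_pos_right _ h0
    have h6 : (d + c) * N' + S ≤ 18 * ((d * (t + 1) + c) * N + S) := by
      nlinarith [Nat.mul_le_mul_left (d + c) h3, Nat.zero_le (d * t * N)]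
    nlinarith [Nat.mul_le_mul_left K h6, Nat.zero_le (d * t * N), Nat.zero_le (c * N)]
  · obtain ⟨top, ht, w, u, hw, hu, rfl, rfl⟩ := RP.be_surj g hh hβ
    have hG : ∀ v' : ℕ → ℕ, (∀ i < p.d a, v' i < p.s i a) → ∀ i < p.d a,
        (if i < p.d a then u i / p.s i a else 0) * p.s i a + v' i < p.U i a := fun v' hv' i hi => by
      rw [if_pos hi]
      exact lt2 (Nat.div_lt_of_lt_mul (by rw [mul_comm]; exact hu i hi)) (hv' i hi)
    have hρ : ∀ i < p.d a, u i % p.s i a < p.s i a := fun i hi => Nat.mod_lt _ (hs i hi)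
    have c := b3 top ht w (fun i hi => Nat.succ_lt_succ (hw i hi))
      (enc (p.s · a) (p.d a) fun i => u i % p.s i a) (RP.D_eq g ▸ enc_lt hρ :)
      (fun i => (if i < p.d a then u i / p.s i a else 0) * p.s i a + v i)
      fun i hi => (hG v hv i hi).trans_eq (mul_assoc _ _ _)
    change Apx _ _ (rv (z3 (lx (p.d a) (p.La a) (p.d a + 2) (p.D a) _ _ _ _)))
      (allL (fun i => dft (p.s i a)) (p.d a) _ _) at c
    rw [allL_shift (F' := Y (top / p.H1 a) (p.be a top w u)) (d0 := p.d a) (fun v' hv' => ?_) _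
      le_rfl v hv] at c
    · rw [RP.Q_eq, ← b5.top hh hβ hv, ← RP.D_eq g, b4 v w u top ht hv hw hu hβ]
      rwa [lx, dg_congr (y' := fun i => u i / p.s i a * p.s i a + v i)
        fun t ht => by rw [if_pos ht]] at c
    · have e1 : p.be a top w (fun i => ((if i < p.d a then u i / p.s i a else 0) * p.s i a + v' i) /
          p.s i a * p.s i a + (enc (p.s · a) (p.d a) fun i => u i % p.s i a) / Lo (p.s · a) i %
            p.s i a) = p.be a top w u := by
        unfold RP.be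
        congr 3
        refine enc_congr fun j hj => ?_
        rw [dig_enc hρ hj, if_pos hj, add_comm (_ * _) (v' j), Nat.add_mul_div_right _ _ (hs j hj),
          Nat.div_eq_of_lt (hv' j hj), zero_add, Nat.div_add_mod']
      rw [e1, if_pos ⟨hG v' hv', hβ⟩]
      congr 1
      funext i
      by_cases hi : i < p.d a
      · simp only [if_pos hi, Nat.mul_add_mod_of_lt (hv' i hi)]
      · simp [hi]

end Vale.Agent.P338
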