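import Vale.Agent.P338.Trans
import Vale.Agent.P338.Util
import Vale.Agent.P338.Dft

/-! Loops over the coordinates of a mixed radix index. -/

namespace Vale.Agent.P338.TrP

open Function Finset Vale.Agent.PT Vale.Agent.P320

variable {X : Cx} {e : Cmd} {a : Ar}

def HiU (R : ℕ → Ar → ℕ) (n p : Ar → ℕ) (x : Ar) : ℕ :=
  ∏ j ∈ range (x.u (n x - (p x + 1))), ap1 R (p x + 1 + j) x.t
def LoU (R : ℕ → Ar → ℕ) (p : Ar → ℕ) (x : Ar) : ℕ := ∏ j ∈ range (x.u (p x)), ap1 R j x.t

lemma HiU_bt {R : ℕ → Ar → ℕ} (hR : B1 R) {n p : Ar → ℕ} (hn : BT n) (hp : BT p) :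
    BT (HiU R n p) := by
  unfold HiU; fun_prop (disch := assumption)
lemma LoU_bt {R : ℕ → Ar → ℕ} (hR : B1 R) {p : Ar → ℕ} (hp : BT p) : BT (LoU R p) := by
  unfold LoU; fun_prop (disch := assumption)

lemma HiU_eq (R : ℕ → Ar → ℕ) {n p : Ar → ℕ} {x : Ar} (h : n x ≤ x.z) :
    HiU R n p x = Hi (fun j => R j x.t) (n x) (p x) := by
  rw [HiU, x.u_eq ((Nat.sub_le _ _).trans h)]; rfl
lemma LoU_eq (R : ℕ → Ar → ℕ) {p : Ar → ℕ} {x : Ar} (h : p x ≤ x.z) :
    LoU R p x = Lo (fun j => R j x.t) (p x) := by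
  rw [LoU, x.u_eq h]; rfl

lemma Lo_pos {r : ℕ → ℕ} {n : ℕ} (h : ∀ j < n, 0 < r j) : 0 < Lo r n :=
  prod_pos fun j hj => h j (mem_range.1 hj)
lemma Lo_le {r r' : ℕ → ℕ} {n : ℕ} (h : ∀ j < n, r j ≤ r' j) : Lo r n ≤ Lo r' n :=
  prod_le_prod' fun j hj => h j (mem_range.1 hj)
lemma Hi_congr {r r' : ℕ → ℕ} {n p : ℕ} (h : ∀ j, p < j → r j = r' j) : Hi r n p = Hi r' n p :=
  Lo_congr fun j _ => h _ (by omega)
lemma hi_congr' {r r' : ℕ → ℕ} {n p : ℕ} (d : ℕ → ℕ) (h : ∀ j, p < j → r j = r' j) :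
    hi r n p d = hi r' n p d := enc_congr' (fun j _ => h _ (by omega)) fun _ _ => rfl

lemma enc_digits' {r : ℕ → ℕ} {n l : ℕ} (h : l < Lo r n) :
    enc r n (fun j => l / Lo r j % r j) = l := by
  have : ∀ n, enc r n (fun j => l / Lo r j % r j) = l % Lo r n := fun n => by
    induction n with
    | zero => simp [enc, Lo, Nat.mod_one]
    | succ n ih => rw [enc_succ, ih, Lo_succ, Nat.mod_mul]; ring
  rw [this, Nat.mod_eq_of_lt h]

def mix (k : ℕ) (f g : ℕ → ℕ) : ℕ → ℕ := fun t => if t < k then f t else g t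

def padAll (n : Ar → ℕ) (old new : ℕ → Ar → ℕ) : Cmd :=
  loopF n (pad (HiU old (fun x => n x.t) fun x => x.g 0) (fun x => ap1 old (x.g 0) x.t)
    (fun x => ap1 new (x.g 0) x.t) (LoU new fun x => x.g 0))

lemma padAll_ok {n : Ar → ℕ} {old new : ℕ → Ar → ℕ} (hn : BT n) (h1 : B1 old) (h2 : B1 new) :
    (padAll n old new).ok :=
  loopF_ok hn (pad_ok (HiU_bt h1 (by fun_prop) (by fun_prop)) (by fun_prop (disch := assumption))
    (by fun_prop (disch := assumption)) (LoU_bt h2 (by fun_prop)))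

open Classical in
lemma padAll_acts {n : Ar → ℕ} {old new : ℕ → Ar → ℕ} (hs : Sm 11 a) (hn : n a ≤ a.z)
    (M : ℕ → ℕ) (h1 : ∀ t < n a, 0 < old t a ∧ old t a ≤ M t)
    (h2 : ∀ t < n a, 0 < new t a ∧ new t a ≤ M t) (hM : 6 * Lo M (n a) < 2 ^ a.z)
    (x : ℕ → Rec X.b) :
    ∃ y, Acts X e (padAll n old new) a (arr (Lo (old · a) (n a)) x) (arr (Lo (new · a) (n a)) y)
        (n a * (2000 * Lo M (n a)) + 11 * (n a + 1)) ∧
      ∀ d : ℕ → ℕ, (∀ t < n a, d t < new t a) → y (enc (new · a) (n a) d) =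
        if ∀ t < n a, d t < old t a then x (enc (old · a) (n a) d) else default := by
  have hz : n a < 2 ^ a.z := hn.trans_lt Nat.lt_two_pow_self
  obtain ⟨ys, a1, y, rfl, a2⟩ := loopF_acts (X := X) (e := e) (n := n)
    (c := pad (HiU old (fun x => n x.t) fun x => x.g 0) (fun x => ap1 old (x.g 0) x.t)
      (fun x => ap1 new (x.g 0) x.t) (LoU new fun x => x.g 0)) (hs.mono (by omega)) hz
    (fun k ys => ∃ y, ys = arr (Lo (mix k (new · a) (old · a)) (n a)) y ∧
      ∀ d : ℕ → ℕ, (∀ t < n a, d t < mix k (new · a) (old · a) t) →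
        y (enc (mix k (new · a) (old · a)) (n a) d) =
          if ∀ t < n a, d t < old t a then x (enc (old · a) (n a) d) else default)
    (fun _ => 2000 * Lo M (n a)) (by
      rintro e' k hk _ ⟨y, rfl, hy⟩
      have e1 : HiU old (fun x => n x.t) (fun x => x.g 0) (a.c k) = Hi (old · a) (n a) k :=
        HiU_eq _ hn
      have e2 : LoU new (fun x => x.g 0) (a.c k) = Lo (new · a) k := LoU_eq _ (hk.le.trans hn)
      have m1 : ∀ k', k ≤ k' → k' ≤ k + 1 → Hi (mix k' (new · a) (old · a)) (n a) k =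
          Hi (old · a) (n a) k := fun k' _ _ => Hi_congr fun j hj => if_neg (by omega)
      have m2 : ∀ k', k ≤ k' → Lo (mix k' (new · a) (old · a)) k = Lo (new · a) k :=
        fun k' _ => Lo_congr fun j hj => if_pos (by omega)
      have m3 : mix k (new · a) (old · a) k = old k a := if_neg (by omega)
      have m4 : mix (k + 1) (new · a) (old · a) k = new k a := if_pos (by omega)
      have n1 : Hi (old · a) (n a) k * old k a * Lo (new · a) k =
          Lo (mix k (new · a) (old · a)) (n a) := by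
        rw [Lo_split hk, m1 k le_rfl (by omega), m2 k le_rfl, m3]
      have n2 : Hi (old · a) (n a) k * new k a * Lo (new · a) k =
          Lo (mix (k + 1) (new · a) (old · a)) (n a) := by
        rw [Lo_split hk, m1 _ (by omega) le_rfl, m2 _ (by omega), m4]
      have b : ∀ k', 0 < Lo (mix k' (new · a) (old · a)) (n a) ∧
          Lo (mix k' (new · a) (old · a)) (n a) ≤ Lo M (n a) := fun k' =>
        ⟨Lo_pos fun j hj => by unfold mix; split_ifs; exacts [(h2 j hj).1, (h1 j hj).1],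
          Lo_le fun j hj => by unfold mix; split_ifs; exacts [(h2 j hj).2, (h1 j hj).2]⟩
      have b1 := b k
      have b2 := b (k + 1)
      obtain ⟨y', c1, c2⟩ := pad_acts (X := X) (e := e') (a := a.c k)
        (H := HiU old (fun x => n x.t) fun x => x.g 0) (A := fun x => ap1 old (x.g 0) x.t)
        (A' := fun x => ap1 new (x.g 0) x.t) (L := LoU new fun x => x.g 0)
        (sm_c.2 ⟨by omega, hs⟩) (by simp only [e1, e2, ap1_eq, Ar.c_g0, Ar.c_t, n1]; omega)
        (by simp only [e1, e2, ap1_eq, Ar.c_g0, Ar.c_t, n1, n2, Ar.c_z]; omega) y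
      simp only [e1, e2, ap1_eq, Ar.c_g0, Ar.c_t, n1, n2] at c1 c2
      refine ⟨_, c1.mono (by omega), y', rfl, fun d hd => ?_⟩
      have d1 := hi_lt (p := k) hd
      have d2 := enc_lt (n := k) fun j hj => hd j (by omega)
      rw [m1 _ (by omega) le_rfl] at d1
      rw [m2 _ (by omega)] at d2
      rw [enc_split hk, m4, m2 _ (by omega), c2 _ d1 _ (m4 ▸ hd k hk) _ d2]
      split_ifs with hc hc' hc'
      · rw [← if_pos hc' (t := x (enc (old · a) (n a) d)) (e := default), ← hy d fun t ht => ?_,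
          enc_split hk, m3, m2 _ le_rfl]
        · congr 2
          · exact hi_congr' _ fun j hj => if_congr (by omega) rfl rfl
          · exact enc_congr' (fun j hj => if_congr (by omega) rfl rfl) fun _ _ => rfl
        · have := hd t ht
          unfold mix at this ⊢
          split_ifs with h3
          · rwa [if_pos (by omega)] at this
          · exact hc' t ht
      · rw [← if_neg hc' (t := x (enc (old · a) (n a) d)) (e := default), ← hy d fun t ht => ?_,
          enc_split hk, m3, m2 _ le_rfl]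
        · congr 2
          · exact hi_congr' _ fun j hj => if_congr (by omega) rfl rfl
          · exact enc_congr' (fun j hj => if_congr (by omega) rfl rfl) fun _ _ => rfl
        · have := hd t ht
          by_cases h3 : t = k
          · subst h3; rwa [m3]
          · unfold mix at this ⊢
            rwa [if_congr (show t < k ↔ t < k + 1 by omega) rfl rfl]
      · exact absurd (hc' k hk) hc
      · rfl) (arr (Lo (old · a) (n a)) x) ⟨x, rfl, fun d hd => (if_pos hd).symm⟩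
  have e1 : Lo (mix (n a) (new · a) (old · a)) (n a) = Lo (new · a) (n a) :=
    Lo_congr fun j hj => if_pos hj
  rw [e1] at a1
  refine ⟨y, a1.mono (by simp), fun d hd => ?_⟩
  rw [← a2 d fun t ht => by rw [mix, if_pos ht]; exact hd t ht]
  exact congrArg y (enc_congr' (fun j hj => (if_pos hj).symm) fun _ _ => rfl)

/-- `u` and `u'` differ by exchanging coordinate `t < k` with the residue of coordinate `c + t` -/
def SW (s : ℕ → ℕ) (c k : ℕ) (u u' : ℕ → ℕ) : Prop :=
  (∀ t < k, ∃ g, u (c + t) = g * s t + u' t ∧ u' (c + t) = g * s t + u t) ∧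
    ∀ t, ¬ t < k → ¬ (c ≤ t ∧ t < c + k) → u t = u' t

noncomputable def swAll (d c n : Ar → ℕ) (R G : ℕ → Ar → ℕ) : Cmd :=
  loopF d (swp (fun x => HiU R (fun x => n x.t) (fun x => c x.t + x.g 0) x * ap1 G (x.g 0) x.t)
    (fun x => ap1 R (x.g 0) x.t) (HiU R (fun x => c x.t + x.g 0) fun x => x.g 0)
    (LoU R fun x => x.g 0))

lemma swAll_ok {d c n : Ar → ℕ} {R G : ℕ → Ar → ℕ} (hd : BT d) (hc : BT c) (hn : BT n) (h1 : B1 R)
    (h2 : B1 G) : (swAll d c n R G).ok :=
  loopF_ok hd (swp_ok (BT.mul (HiU_bt h1 (by fun_prop) (by fun_prop))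
    (by fun_prop (disch := assumption))) (by fun_prop (disch := assumption))
    (HiU_bt h1 (by fun_prop) (by fun_prop)) (LoU_bt h1 (by fun_prop)))

lemma swAll_acts {d c n : Ar → ℕ} {R G : ℕ → Ar → ℕ} (hs : Sm 31 a) (hn : n a ≤ a.z)
    (hdc : d a ≤ c a) (hcn : c a + d a ≤ n a) (hG : ∀ t < d a, R (c a + t) a = G t a * R t a)
    (h0 : 0 < Lo (R · a) (n a)) (hM : 300 * Lo (R · a) (n a) < 2 ^ a.z) {lm : ℕ}
    (hl : ∀ t < d a, R t a < 2 ^ lm) (x : ℕ → Rec X.b) :
    ∃ y, Acts X e (swAll d c n R G) a (arr (Lo (R · a) (n a)) x) (arr (Lo (R · a) (n a)) y)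
        (d a * (tc lm * Lo (R · a) (n a)) + 11 * (d a + 1)) ∧
      ∀ u u' : ℕ → ℕ, (∀ t < n a, u t < R t a) → (∀ t < n a, u' t < R t a) →
        SW (R · a) (c a) (d a) u u' → y (enc (R · a) (n a) u) = x (enc (R · a) (n a) u') := by
  have hz : n a < 2 ^ a.z := hn.trans_lt Nat.lt_two_pow_self
  obtain ⟨ys, a1, y, rfl, a2⟩ := loopF_acts (X := X) (e := e) (n := d)
    (c := swp (fun x => HiU R (fun x => n x.t) (fun x => c x.t + x.g 0) x * ap1 G (x.g 0) x.t)
      (fun x => ap1 R (x.g 0) x.t) (HiU R (fun x => c x.t + x.g 0) fun x => x.g 0)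
      (LoU R fun x => x.g 0)) (hs.mono (by omega)) (by omega)
    (fun k ys => ∃ y, ys = arr (Lo (R · a) (n a)) y ∧
      ∀ u u' : ℕ → ℕ, (∀ t < n a, u t < R t a) → (∀ t < n a, u' t < R t a) →
        SW (R · a) (c a) k u u' → y (enc (R · a) (n a) u) = x (enc (R · a) (n a) u'))
    (fun _ => tc lm * Lo (R · a) (n a)) (by
      rintro e' k hk _ ⟨y, rfl, hy⟩
      have e1 : HiU R (fun x => n x.t) (fun x => c x.t + x.g 0) (a.c k) =
          Hi (R · a) (n a) (c a + k) := HiU_eq _ hn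
      have e2 : HiU R (fun x => c x.t + x.g 0) (fun x => x.g 0) (a.c k) =
          Hi (R · a) (c a + k) k := HiU_eq _ (show c a + k ≤ a.z by omega)
      have e3 : LoU R (fun x => x.g 0) (a.c k) = Lo (R · a) k := LoU_eq _ (show k ≤ a.z by omega)
      have k1 : k < c a + k := by omega
      have k2 : c a + k < n a := by omega
      have n1 : Hi (R · a) (n a) (c a + k) * G k a * R k a * Hi (R · a) (c a + k) k * R k a *
          Lo (R · a) k = Lo (R · a) (n a) := by
        rw [Lo_split (k1.trans k2), (hi_split k1 k2 fun _ => 0).2, hG k hk]; ring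
      obtain ⟨y', c1, c2⟩ := swp_acts (X := X) (e := e') (a := a.c k)
        (H := fun x => HiU R (fun x => n x.t) (fun x => c x.t + x.g 0) x * ap1 G (x.g 0) x.t)
        (A := fun x => ap1 R (x.g 0) x.t) (M := HiU R (fun x => c x.t + x.g 0) fun x => x.g 0)
        (L := LoU R fun x => x.g 0) (sm_c.2 ⟨by omega, hs⟩)
        (by simp only [e1, e2, e3, ap1_eq, Ar.c_g0, Ar.c_t, n1]; omega)
        (by simp only [e1, e2, e3, ap1_eq, Ar.c_g0, Ar.c_t, n1, Ar.c_z]; omega) y
      simp only [e1, e2, e3, ap1_eq, Ar.c_g0, Ar.c_t, n1] at c1 c2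
      refine ⟨_, c1.mono (Nat.mul_le_mul_right _ (tc_sub.1 (Nat.size_le.2 (hl k hk)))), y', rfl,
        fun u u' hu hu' hsw => ?_⟩
      obtain ⟨g, g1, g2⟩ := hsw.1 k (by omega)
      have sp : ∀ (v : ℕ → ℕ) (α : ℕ), v (c a + k) = g * R k a + α → enc (R · a) (n a) v =
          ix5 (R k a) (Hi (R · a) (c a + k) k) (R k a) (Lo (R · a) k)
            (hi (R · a) (n a) (c a + k) v * G k a + g) α (hi (R · a) (c a + k) k v) (v k)
            (enc (R · a) k v) := fun v α hv => by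
        rw [enc_split (k1.trans k2), (hi_split k1 k2 v).1, hv, hG k hk]
        simp only [ix5, ix]; ring
      have hg : g < G k a := by
        have := hu _ k2
        rw [g1, hG k hk] at this
        exact lt_of_mul_lt_mul_right (lt_of_le_of_lt (Nat.le_add_right _ _) this) (Nat.zero_le _)
      rw [sp u _ g1, c2 _ (lt2 (hi_lt hu) hg) _ (hu' k (by omega)) _
        (hi_lt fun j hj => hu j (by omega)) _ (hu k (by omega)) _ (enc_lt fun j hj => hu j (by omega)),
        ← hy (update (update u k (u' k)) (c a + k) (u' (c a + k))) u' ?_ hu' ⟨?_, ?_⟩,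
        sp _ (u k) (by rw [update_self, g2]), update_of_ne k1.ne, update_self]
      · congr 2
        · congr 2
          exact hi_congr fun j hj => by rw [update_of_ne (by omega), update_of_ne (by omega)]
        · exact enc_congr fun j hj => by
            simp only [sh]; rw [update_of_ne (by omega), update_of_ne (by omega)]
        · exact enc_congr fun j hj => by rw [update_of_ne (by omega), update_of_ne (by omega)]
      · intro t ht
        simp only [update_apply]
        split_ifs with h1 h2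
        · subst h1; exact hu' _ ht
        · subst h2; exact hu' _ ht
        · exact hu t ht
      · intro t ht
        rw [update_of_ne (by omega), update_of_ne (by omega), update_of_ne (by omega),
          update_of_ne (by omega)]
        exact hsw.1 t (by omega)
      · intro t h1 h2
        simp only [update_apply]
        split_ifs with h3 h4
        · rw [h3]
        · rw [h4]
        · exact hsw.2 t (by omega) (by omega)) (arr (Lo (R · a) (n a)) x)
    ⟨x, rfl, fun u u' _ _ h => congrArg x (enc_congr fun j _ => h.2 j (by omega) (by omega))⟩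
  exact ⟨y, a1.mono (by simp), a2⟩

/-! ### splitting off the coprime factors -/

def Qj (Q' : ℕ) (s : ℕ → ℕ) (d j : ℕ) : ℕ := Q' * Lo (sh j s) (d - j)

lemma Qj_succ {Q' : ℕ} {s : ℕ → ℕ} {d j : ℕ} (h : j < d) :
    Qj Q' s d j = Qj Q' s d (j + 1) * s j := by
  rw [Qj, Qj, show d - j = 1 + (d - (j + 1)) by omega, Lo_add, mul_assoc]
  congr 1
  rw [mul_comm]
  congr 1
  · exact Lo_congr fun i _ => by simp only [sh, add_assoc]
  · simp [Lo, sh]

lemma Qj_mul {Q' : ℕ} {s : ℕ → ℕ} {d j : ℕ} (h : j ≤ d) : Qj Q' s d j * Lo s j = Q' * Lo s d := by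
  rw [Qj, show Lo s d = Lo s (j + (d - j)) by congr 1; omega, Lo_add]; ring

def Rel {α : Type} (H Q' : ℕ) (s m : ℕ → ℕ) (d j : ℕ) (x z : ℕ → α) : Prop :=
  ∀ h < H, ∀ β < Qj Q' s d j, ∀ v : ℕ → ℕ, (∀ i < d, v i < s i) →
    z (ix (Qj Q' s d j) (Lo s j) h β (enc s j v)) = x (h * (Q' * Lo s d) + pos s m v j (Qj Q' s d j) β)

lemma Rel.zero {α : Type} (H Q' : ℕ) (s m : ℕ → ℕ) (d : ℕ) (x : ℕ → α) : Rel H Q' s m d 0 x x := by
  intro h _ β _ v _
  have : sh 0 s = s := by funext j; simp [sh]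
  simp [ix, enc, Lo, pos, Qj, this]

lemma Rel.step {α : Type} {H Q' : ℕ} {s m : ℕ → ℕ} {d j : ℕ} (hj : j < d) {x z z' : ℕ → α}
    (h : Rel H Q' s m d j x z)
    (h' : ∀ h < H, ∀ β < Qj Q' s d (j + 1), ∀ γ < s j, ∀ l < Lo s j,
      z' (ix5 (Qj Q' s d (j + 1)) 1 (s j) (Lo s j) h β 0 γ l) =
        z (ix5 (Qj Q' s d (j + 1)) 1 (s j) (Lo s j) h ((β + m j * γ) % Qj Q' s d (j + 1)) 0 γ l)) :
    Rel H Q' s m d (j + 1) x z' := by
  intro h0 hh β hβ v hv
  have e1 : ix (Qj Q' s d (j + 1)) (Lo s (j + 1)) h0 β (enc s (j + 1) v) =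
      ix5 (Qj Q' s d (j + 1)) 1 (s j) (Lo s j) h0 β 0 (v j) (enc s j v) := by
    simp only [ix5, ix, enc_succ, Lo_succ]; ring
  rw [e1, h' h0 hh β hβ _ (hv j hj) _ (enc_lt fun i hi => hv i (by omega)), pos, ← Qj_succ hj,
    ← h h0 hh _ (by rw [Qj_succ hj]; exact lt2 (Nat.mod_lt _ (by omega)) (hv j hj)) v hv]
  congr 1
  simp only [ix5, ix, Qj_succ hj]; ring

noncomputable def spl (H Q' d : Ar → ℕ) (s m : ℕ → Ar → ℕ) (inv : Bool) : Cmd :=
  ut (fun x => H x.t) (fun x => Q' x.t * HiU s (fun x => d x.t) (fun x => x.g 0) x) (fun _ => 1)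
    (fun x => ap1 s (x.g 0) x.t) (LoU s fun x => x.g 0) fun γ x =>
      if inv then Q' x.t * HiU s (fun x => d x.t) (fun x => x.g 0) x -
        ap1 m (x.g 0) x.t * γ % (Q' x.t * HiU s (fun x => d x.t) (fun x => x.g 0) x)
      else ap1 m (x.g 0) x.t * γ

lemma spl_ok {H Q' d : Ar → ℕ} {s m : ℕ → Ar → ℕ} (h1 : BT H) (h2 : BT Q') (h3 : BT d) (h4 : B1 s)
    (h5 : B1 m) (inv : Bool) : (spl H Q' d s m inv).ok := by
  have h6 : BT (HiU s (fun x => d x.t) fun x => x.g 0) := HiU_bt h4 (by fun_prop) (by fun_prop)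
  refine ut_ok (by fun_prop) (by fun_prop) (by fun_prop) (by fun_prop (disch := assumption))
    (LoU_bt h4 (by fun_prop)) ?_
  unfold B1
  cases inv
  · simp only [Bool.false_eq_true, if_false]; fun_prop (disch := assumption)
  · simp only [if_true]; fun_prop (disch := assumption)

lemma spl_acts {H Q' d : Ar → ℕ} {s m : ℕ → Ar → ℕ} (hs : Sm 31 a) (hd : d a ≤ a.z)
    (h0 : 0 < H a * (Q' a * Lo (s · a) (d a))) (hn : 1000 * (H a * (Q' a * Lo (s · a) (d a))) < 2 ^ a.z)
    {lm : ℕ} (hl : ∀ t < d a, s t a < 2 ^ lm) (hQ : 2 ^ lm ≤ Q' a) {j : ℕ} (hj : j < d a)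
    (inv : Bool) (z : ℕ → Rec X.b) :
    ∃ z', Acts X e (spl H Q' d s m inv) (a.c j) (arr (H a * (Q' a * Lo (s · a) (d a))) z)
        (arr (H a * (Q' a * Lo (s · a) (d a))) z') (tc lm * (H a * (Q' a * Lo (s · a) (d a)))) ∧
      ∀ x, if inv then Rel (H a) (Q' a) (s · a) (m · a) (d a) j x z' →
          Rel (H a) (Q' a) (s · a) (m · a) (d a) (j + 1) x z
        else Rel (H a) (Q' a) (s · a) (m · a) (d a) j x z →
          Rel (H a) (Q' a) (s · a) (m · a) (d a) (j + 1) x z' := by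
  have hz : d a < 2 ^ a.z := hd.trans_lt Nat.lt_two_pow_self
  have e1 : Q' a * HiU s (fun x => d x.t) (fun x => x.g 0) (a.c j) =
      Qj (Q' a) (s · a) (d a) (j + 1) :=
    congrArg (Q' a * ·) (HiU_eq (n := fun x => d x.t) (p := fun x => x.g 0) (x := a.c j) _ hd)
  have e2 : LoU s (fun x => x.g 0) (a.c j) = Lo (s · a) j := LoU_eq _ (hj.le.trans hd)
  have n1 : H a * Qj (Q' a) (s · a) (d a) (j + 1) * 1 * s j a * Lo (s · a) j =
      H a * (Q' a * Lo (s · a) (d a)) := by
    rw [← Qj_mul hj.le, Qj_succ hj]; ring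
  have hp : 0 < H a * Qj (Q' a) (s · a) (d a) (j + 1) * 1 * s j a * Lo (s · a) j := n1 ▸ h0
  have hA : 0 < Qj (Q' a) (s · a) (d a) (j + 1) := Nat.pos_of_mul_pos_left
    (Nat.pos_of_mul_pos_right (Nat.pos_of_mul_pos_right (Nat.pos_of_mul_pos_right hp)))
  obtain ⟨z', c1, c2⟩ := ut_acts (X := X) (e := e) (a := a.c j) (H := fun x => H x.t)
    (A := fun x => Q' x.t * HiU s (fun x => d x.t) (fun x => x.g 0) x) (M := fun _ => 1)
    (C := fun x => ap1 s (x.g 0) x.t) (L := LoU s fun x => x.g 0) (f := fun γ x =>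
      if inv then Q' x.t * HiU s (fun x => d x.t) (fun x => x.g 0) x -
        ap1 m (x.g 0) x.t * γ % (Q' x.t * HiU s (fun x => d x.t) (fun x => x.g 0) x)
      else ap1 m (x.g 0) x.t * γ) (sm_c.2 ⟨by omega, hs⟩)
    (by simp only [e1, e2, ap1_eq, Ar.c_g0, Ar.c_t, n1]; exact h0)
    (by simp only [e1, e2, ap1_eq, Ar.c_g0, Ar.c_t, n1]; exact hn)
    (by
      simp only [e1, ap1_eq, Ar.c_g0, Ar.c_t]
      exact ((hl j hj).le.trans hQ).trans
        (Nat.le_mul_of_pos_right _ (Nat.pos_of_mul_pos_left hA))) z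
  simp only [e1, e2, ap1_eq, Ar.c_g0, Ar.c_t, n1] at c1 c2
  refine ⟨z', c1.mono (Nat.mul_le_mul_right _ (tc_sub.1 (Nat.size_le.2 (hl j hj)))), fun x => ?_⟩
  cases inv
  · exact fun h => h.step hj fun h hh β hβ γ hγ l hl => c2 h hh β hβ 0 one_pos γ hγ l hl
  · refine fun h => h.step hj fun h hh β hβ γ hγ l hl => ?_
    rw [c2 h hh _ (Nat.mod_lt _ hA) 0 one_pos γ hγ l hl, if_pos rfl]
    congr 2
    have := Nat.mod_lt (m j a * γ) hA
    rw [Nat.mod_add_mod, ← Nat.mod_add_div (m j a * γ) (Qj (Q' a) (s · a) (d a) (j + 1)),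
      Nat.add_mul_mod_self_left, Nat.mod_mod]
    generalize m j a * γ % Qj (Q' a) (s · a) (d a) (j + 1) = c at *
    generalize m j a * γ / Qj (Q' a) (s · a) (d a) (j + 1) = k at *
    generalize Qj (Q' a) (s · a) (d a) (j + 1) = A at *
    rw [show β + (c + A * k) + (A - c) = β + A * (k + 1) by rw [mul_add]; omega,
      Nat.add_mul_mod_self_left, Nat.mod_eq_of_lt hβ]

end Vale.Agent.P338.TrP
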