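import Vale.Agent.P338.Par

/-! The multiplication command (M7t).

Plan.  Arguments `⟨zF k, [k]⟩`; all parameters are functions of `k = a.u (a.g _)` and `e = eF k`.
Read `Q` chunks of `y`, then of `x` (loop: `read`, move to stack 2; then move back), giving
`arr (2 Q)`; twelve rounds (`loop`, `round` with `H = 2`, invariant: `Apx (b + r Δ)` of `Z r` from
`dft_rounds`, using `pos_surj`); pointwise `gather … .muls`; twelve rounds with `H = 1`; `ng 1 Q 1`;
multiply by `1 / Q` (`ldN 1`, record `(2 ^ (3 b) / Q, 0)`, `tab 1 1 Q .muls`); add `2 ^ (3 b - 1)`,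
`muls` with the record `(1, 0)` (`Apx.round`, `conv_dft`); loop `emit` (`emit_nat`, `sum_cv`). -/

namespace Vale.Agent.P338

open Function Finset Vale.Agent.PT Vale.Agent.P320

namespace Tp

variable (eF : ℕ → ℕ)

def kf (a : Ar) : ℕ := a.u (a.g 0)
def Qf (a : Ar) : ℕ := QF (kf a) (eF (kf a))
def df (a : Ar) : ℕ := dd (kf a) (eF (kf a))

def rd (y : Bool) : Cmd :=
  .seq (loop (Qf eF) (.seq (.op (.read y)) (.op (.mv 0 2)))) (mvN (Qf eF) 2 0)

def rp (H : ℕ) : RP where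
  H _ := H
  Q' a := Qf eF a.t / ∏ i ∈ range (df eF a.t), sz (kf a.t) (eF (kf a.t)) (a.g 0 * df eF a.t + i)
  d a := df eF a.t
  lm a := lmF (kf a.t) (eF (kf a.t))
  s i a := sz (kf a.t) (eF (kf a.t)) (a.g 0 * df eF a.t + i)
  m i a := mm (kf a.t) (eF (kf a.t)) (a.g 0 * df eF a.t + i)

noncomputable def rds (H : ℕ) : Cmd := loopF (fun _ => 12) (round (rp eF H))

def cst (f : ℕ → ℕ → ℕ) (o : BOp) : Cmd :=
  .seq (ldN (fun _ => 1) (fun _ x => f (Qf eF x.1) x.2) fun _ _ => 0)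
    (tab (fun _ => 1) (fun _ => 1) (Qf eF) o)

noncomputable def mid : Cmd :=
  .seq (rds eF 2) (.seq (gather (Qf eF) (Qf eF) (Qf eF) .muls .fst (fun _ _ => true) (fun i _ => i)
    fun i _ => i) (.seq (rds eF 1) (.seq (ng (fun _ => 1) (Qf eF) fun _ => 1)
      (.seq (cst eF (fun Q b => 2 ^ (3 * b) / Q) .muls)
        (.seq (cst eF (fun _ b => 2 ^ (3 * b - 1)) .add) (cst eF (fun _ _ => 1) .muls))))))

variable {eF}

section
variable {α : Type} [Ctx Bool α] {a : α → Ar}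
@[fun_prop] theorem kf_pt (ha : PT Bool a) : PT Bool fun x => kf (a x) := by unfold kf; fun_prop
theorem Qf_bt (h : PT Bool eF) : BT (Qf eF) := by unfold Qf; fun_prop
theorem df_pt (h : PT Bool eF) : PT Bool (df eF) := by unfold df; fun_prop
end

theorem rp_ok (h : PT Bool eF) (H : ℕ) : (rp eF H).ok := by
  have h1 := Qf_bt h
  have h2 := df_pt h
  have h3 := BT.of h2
  refine ⟨BT.const _, ?_, ?_, ?_, ?_, ?_⟩ <;> simp only [rp, B1] <;> fun_prop

/-- the record holding a chunk -/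
def rc (b : ℕ) (l : List Bool) (i : ℕ) : Rec b := (⟨readW b (l.drop (i * b)), by simp⟩, Wd.zero b)

variable {X : Cx} {e : Cmd} {a : Ar}

lemma rd_do (y : Bool) (hs : Sm 2 a) (hn : Qf eF a < 2 ^ a.z) (s : AS X.b) :
    Do X e (rd eF y) a s { s.set 0 (arr (Qf eF a) (rc X.b (s.In y)) ++ s.D 0) with
      In := update s.In y ((s.In y).drop (Qf eF a * X.b)) } (24 * Qf eF a + 21) := by
  have h1 := loop_seq (e := e) (c := .seq (.op (.read y)) (.op (.mv 0 2))) hs hn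
    (fun i => { s.set 2 ((arr i (rc X.b (s.In y))).reverse ++ s.D 2) with
      In := update s.In y ((s.In y).drop (i * X.b)) }) 3 (fun i _ e' => by
      refine ((Do.op (m := .read y) trivial).seq (Do.op (m := .mv 0 2) ⟨by decide, by
        simp [Mic.sem]⟩)).congr (AS.ext' (fun t => ?_) ?_ rfl rfl)
      · fin_cases t <;> simp [Mic.sem, arr_succ, rc]
      · simp [Mic.sem, add_mul])
  have e0 : ({ s.set 2 ((arr 0 (rc X.b (s.In y))).reverse ++ s.D 2) with
      In := update s.In y ((s.In y).drop (0 * X.b)) } : AS X.b) = s :=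
    AS.ext' (fun t => by fin_cases t <;> simp [arr]) (by simp) rfl rfl
  rw [e0] at h1
  refine (h1.seq (mvN_do (by decide) hs hn (arr (Qf eF a) (rc X.b (s.In y))).reverse (s.D 2)
    (by simp) (by simp))).of (AS.ext' (fun t => ?_) rfl rfl rfl) (by omega)
  fin_cases t <;> simp

lemma cst_acts (f : ℕ → ℕ → ℕ) (o : BOp) (hs : Sm 10 a) (h0 : 0 < Qf eF a)
    (hn : 6 * Qf eF a < 2 ^ a.z) (x : ℕ → Rec X.b) :
    Acts X e (cst eF f o) a (arr (Qf eF a) x)
      (arr (Qf eF a) fun i => o.sem (x i) (Wd.ofNat X.b (f (Qf eF a) X.b), Wd.ofNat X.b 0))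
      (2 * X.σ + 2 * (X.μ * Qf eF a) + 2201 * Qf eF a) := by
  obtain ⟨y, h1, h2⟩ := tab_acts (e := e) (H := fun _ => 1) (A := fun _ => 1) (L := Qf eF) (o := o)
    hs (by simpa) (by simpa) x fun _ => (Wd.ofNat X.b (f (Qf eF a) X.b), Wd.ofNat X.b 0)
  simp only [one_mul] at h1
  refine ((((ldN_acts (n := fun _ => 1) hs (by omega)).frame _).seq h1).congr rfl
    (arr_congr fun i hi => ?_)).mono (by rw [add_mul 2000, mul_assoc]; omega)
  simpa [ix] using h2 0 one_pos 0 one_pos i hi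

lemma bitsL_add (k m z : ℕ) : bitsL (k + m) z = bitsL k z ++ bitsL m (z / 2 ^ k) := by
  simp [bitsL, List.range_add, Nat.testBit_div_two_pow, add_comm]

lemma em_do {n : Ar → ℕ} (hs : Sm 2 a) (hn : n a < 2 ^ a.z) (hb : 1 ≤ X.b) (y : ℕ → Rec X.b)
    (c : ℕ → ℕ) (hy : ∀ i < n a, (y i).1 = Wd.ofNat X.b (c i)) (hc : ∀ i < n a, c i ≤ 2 ^ (3 * X.b))
    (s : AS X.b) (h0 : s.D 0 = arr (n a) y) (h1 : s.Acc = Wd.zero X.b) (h2 : s.Out = []) :
    ∃ w, Do X e (loop n (.op .emit)) a s { s.set 0 [] with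
      Acc := w, Out := bin (n a * X.b) (∑ m ∈ range (n a), c m * 2 ^ (m * X.b)) }
      (11 * n a + 10) := by
  let S : ℕ → ℕ := fun i => ∑ m ∈ range i, c m * 2 ^ (m * X.b)
  have k1 : ∀ i, S (i + 1) / 2 ^ (i * X.b) = c i + S i / 2 ^ (i * X.b) := fun i => by
    simp only [S, sum_range_succ]
    rw [Nat.add_mul_div_right _ _ (by positivity), add_comm]
  have k2 : ∀ i, S (i + 1) / 2 ^ ((i + 1) * X.b) = (c i + S i / 2 ^ (i * X.b)) / 2 ^ X.b :=
    fun i => by rw [← k1, Nat.div_div_eq_div_mul, ← pow_add, add_mul, one_mul]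
  have k3 : ∀ i ≤ n a, S i / 2 ^ (i * X.b) ≤ 2 ^ (3 * X.b) := fun i hi => by
    induction i with
    | zero => simp [S]
    | succ i ih =>
      have := ih (by omega)
      have := hc i hi
      have h3 : 2 ^ 1 ≤ 2 ^ X.b := Nat.pow_le_pow_right two_pos hb
      rw [k2]
      exact (Nat.div_le_div_left h3 two_pos).trans (by omega)
  have k4 : 2 ^ (3 * X.b) * 2 ^ 2 ≤ 2 ^ (10 * X.b) := by
    rw [← pow_add]; exact Nat.pow_le_pow_right two_pos (by omega)
  have h := loop_seq (e := e) (c := .op .emit) hs hn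
    (fun i => { s.set 0 ((arr (n a) y).drop i) with
      Acc := Wd.ofNat X.b (S i / 2 ^ (i * X.b)), Out := (bitsL (i * X.b) (S i)).reverse }) 1
    (fun i hi e' => by
      obtain ⟨a1, a2, a3⟩ := drop_cons (xs := arr (n a) y) (k := i) (by simpa) []
      rw [List.append_nil] at a1 a2 a3
      rw [List.append_nil] at a2
      rw [arr_getElem] at a3
      have := k3 i hi.le
      have := hc i hi
      have : 0 < 2 ^ (3 * X.b) := by positivity
      obtain ⟨b1, b2⟩ := emit_nat (b := X.b) (c := c i) (a := S i / 2 ^ (i * X.b)) (by omega)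
      refine (Do.op (m := .emit) (by simpa [Mic.pre] using hi)).congr
        (AS.ext' (fun t => ?_) rfl (Subtype.ext ?_) ?_)
      · fin_cases t <;> simp [Mic.sem]
      · simp only [Mic.sem, AS.set_D, if_true, a3, hy i hi, b1, k2]
      · simp only [Mic.sem, AS.set_D, if_true, a3, hy i hi, b2]
        rw [add_mul, one_mul, bitsL_add, List.reverse_append, k1]
        congr 2
        refine Bt.eq_bitsL (by simp) ?_
        simp only [Bt.val_bitsL, S, sum_range_succ, Nat.add_mul_mod_self_right])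
  have e0 : ({ s.set 0 ((arr (n a) y).drop 0) with
      Acc := Wd.ofNat X.b (S 0 / 2 ^ (0 * X.b)), Out := (bitsL (0 * X.b) (S 0)).reverse } : AS X.b)
      = s := AS.ext' (fun t => by fin_cases t <;> simp [h0]) rfl
        (by simp [S, h1, zero_eq_ofNat]) (by simp [h2, bitsL])
  rw [e0] at h
  exact ⟨_, h.of (AS.ext' (fun t => by fin_cases t <;> simp) rfl rfl (by rw [bin_eq])) (by omega)⟩

/-- the weight per record -/
noncomputable def WW (k e μ : ℕ) : ℕ :=
  k / LL k e * (tc (4 * LL k e) + 1) + LL k e * (cc k * LL k e + μ + 1)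

/-- the cost scale -/
noncomputable def BB (k e μ σ : ℕ) : ℕ := WW k e μ * QF k e + k * 2 ^ (4 * LL k e) * σ

lemma kf_eq (k : ℕ) : kf ⟨zF k, [k]⟩ = k := Ar.u_eq _ (by simp [zF])

lemma sm_top (k : ℕ) : Sm 90 ⟨zF k, [k]⟩ :=
  ⟨by simp [zF], by simpa [zF] using k.lt_two_pow_self.trans_le (Nat.pow_le_pow_right two_pos (by omega))⟩

lemma Q_small {k e : ℕ} (h : Par k e) : 200000 * QF k e < 2 ^ zF k := by
  have := h.Qle
  have : 0 < 2 ^ k := by positivity
  rw [zF, pow_add]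
  omega

lemma Q_pos {k e : ℕ} (h : Par k e) : 0 < QF k e :=
  Nat.pos_of_mul_pos_right (lt_of_lt_of_le (by positivity) h.Qb)

lemma cost_le {k e : ℕ} (h : Par k e) (H μ σ : ℕ) (hH : H ≤ 2) :
    (dd k e * (tc (lmF k e) + 1) + (lmF k e + 1) *
        (cc (dd k e) * ((lamF (dd k e) (lmF k e)).size + 1) + μ + 1)) * (H * QF k e) +
      (lmF k e + 1) * dd k e * lamF (dd k e) (lmF k e) * σ ≤ 40 * BB k e μ σ := by
  have hL := h.L1
  have h1 : dd k e ≤ k / LL k e := (Nat.le_div_iff_mul_le hL).2 h.dL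
  have h2 : tc (lmF k e) ≤ tc (4 * LL k e) := tc_sub.1 (by unfold lmF; omega)
  have h3 : cc (dd k e) ≤ cc k := cc_sub.1 (h1.trans (Nat.div_le_self _ _))
  have h4 : (lamF (dd k e) (lmF k e)).size + 1 ≤ 4 * LL k e := by
    have := Nat.size_le.2 h.lam; omega
  have h5 : lmF k e + 1 ≤ 5 * LL k e := by unfold lmF; omega
  have h6 : lamF (dd k e) (lmF k e) ≤ 2 ^ (4 * LL k e) :=
    h.lam.le.trans (Nat.pow_le_pow_right two_pos (by omega))
  have h7 : (lmF k e + 1) * dd k e ≤ 5 * k := by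
    have := h.dL
    calc _ ≤ 5 * LL k e * dd k e := by gcongr
      _ ≤ _ := by nlinarith
  calc _ ≤ (k / LL k e * (tc (4 * LL k e) + 1) + 5 * LL k e *
        (cc k * (4 * LL k e) + μ + 1)) * (2 * QF k e) + 5 * k * 2 ^ (4 * LL k e) * σ := by gcongr
    _ ≤ _ := by
      unfold BB WW
      generalize k / LL k e * (tc (4 * LL k e) + 1) = u
      generalize 2 ^ (4 * LL k e) = v
      nlinarith [Nat.zero_le (u * QF k e), Nat.zero_le (LL k e * μ * QF k e),
        Nat.zero_le (LL k e * QF k e), Nat.zero_le (k * v * σ)]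

lemma BB_ge {k e : ℕ} (h : Par k e) (μ σ : ℕ) : μ * QF k e + QF k e + σ ≤ BB k e μ σ := by
  have hL := h.L1
  have hk : 1 ≤ k := le_trans (Nat.mul_pos h.d1 hL) h.dL
  have h1 : μ + 1 ≤ WW k e μ :=
    le_add_left (le_trans (by omega) (Nat.le_mul_of_pos_left (cc k * LL k e + μ + 1) hL))
  have h2 : σ ≤ k * 2 ^ (4 * LL k e) * σ := Nat.le_mul_of_pos_left _ (by positivity)
  have h3 := Nat.mul_le_mul_right (QF k e) h1
  unfold BB
  rw [add_mul, one_mul] at h3
  omega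

theorem rds_acts : ∃ K : ℕ, ∀ eF : ℕ → ℕ, PT Bool eF → ∀ k, Par k (eF k) → ∀ (μ σ : ℕ) (e : Cmd),
    ∃ ξ : ℂ, IsPrimitiveRoot ξ (QF k (eF k)) ∧ ∀ H n : ℕ, 0 < H → H ≤ 2 →
      n + 12 * coreD (dd k (eF k)) (lmF k (eF k)) + 1 ≤ 4 * bF k (eF k) →
      ∀ (x : ℕ → Rec (bF k (eF k))) (Z0 : ℕ → ℕ → ℂ),
      (∀ h < H, ∀ ν < QF k (eF k), Apx _ n (rv (x (h * QF k (eF k) + ν))) (Z0 h ν)) →
      ∃ y, Acts ⟨bF k (eF k), μ, σ⟩ e (rds eF H) ⟨zF k, [k]⟩ (arr (H * QF k (eF k)) x)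
          (arr (H * QF k (eF k)) y) (K * BB k (eF k) μ σ) ∧
        ∀ h < H, ∀ ν < QF k (eF k), Apx _ (n + 12 * coreD (dd k (eF k)) (lmF k (eF k)))
          (rv (y (h * QF k (eF k) + ν))) (∑ ν' ∈ range (QF k (eF k)), ξ ^ (ν * ν') * Z0 h ν') := by
  obtain ⟨K, hK⟩ := round_acts
  refine ⟨480 * K + 143, fun eF he k hP μ σ e => ?_⟩
  obtain ⟨ξ, hξ, hZ⟩ := dft_rounds (sz k (eF k)) (mm k (eF k)) 12 (dd k (eF k)) (QF k (eF k)) rfl
    (fun t ht => lt_of_lt_of_le two_pos (hP.s2 t ht)) hP.cop hP.inv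
  refine ⟨ξ, hξ, fun H n hH hH2 hn x Z0 hx => ?_⟩
  choose Z z0 z1 z2 using fun h => hZ (Z0 h)
  have hs := sm_top k
  have hQ := Q_small hP
  have hQ0 := Q_pos hP
  have hB := BB_ge hP μ σ
  have hz : 12 < 2 ^ zF k := by omega
  obtain ⟨ys, h1, y, rfl, h2⟩ := loopF_acts (X := ⟨bF k (eF k), μ, σ⟩) (e := e)
    (n := fun _ => 12) (c := round (rp eF H)) (hs.mono (by omega)) hz
    (fun r xs => ∃ y, xs = arr (H * QF k (eF k)) y ∧ ∀ h < H, ∀ ν < QF k (eF k),
      Apx _ (n + r * coreD (dd k (eF k)) (lmF k (eF k))) (rv (y (h * QF k (eF k) + ν))) (Z h r ν))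
    (fun _ => K * (40 * BB k (eF k) μ σ)) (by
      rintro e' r hr _ ⟨y, rfl, hy⟩
      have hi : ∀ i < dd k (eF k), r * dd k (eF k) + i < 12 * dd k (eF k) := fun i hi => by
        nlinarith
      have hd : ∏ i ∈ range (dd k (eF k)), sz k (eF k) (r * dd k (eF k) + i) ∣ QF k (eF k) := by
        obtain ⟨j, hj⟩ : ∃ j, 12 * dd k (eF k) = r * dd k (eF k) + dd k (eF k) + j :=
          Nat.exists_eq_add_of_le (by nlinarith)
        rw [QF, QQ, hj, prod_range_add, prod_range_add]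
        exact Dvd.dvd.mul_right (Dvd.intro_left _ rfl) _
      have eQ := Nat.div_mul_cancel hd
      have := hK ⟨bF k (eF k), μ, σ⟩ e' ((⟨zF k, [k]⟩ : Ar).c r) (rp eF H) (rp_ok he H)
      simp only [RP.Q, rp, Ar.c_t, Ar.c_g0, Qf, df, kf_eq, eQ] at this
      obtain ⟨y', h3, h4⟩ := this (by
        constructor <;> try simp only [RP.Q, Ar.c_t, Ar.c_g0, Ar.c_z, kf_eq, eQ]
        · exact sm_c.2 ⟨by show r < 2 ^ zF k; omega, hs.mono (by omega)⟩
        · exact hH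
        · show _ < 2 ^ zF k; nlinarith
        · exact hP.d1
        · exact lt_of_le_of_lt ((Nat.le_mul_of_pos_right _ hP.L1).trans hP.dL) hP.kb
        · exact hP.lb
        · exact fun i h => hP.s2 _ (hi i h)
        · exact fun i h => hP.s4 _ (hi i h)
        · exact hP.pool r hr) (n + r * coreD (dd k (eF k)) (lmF k (eF k))) (by nlinarith) y
        (fun h β v => Z h r (pos (fun i => sz k (eF k) (r * dd k (eF k) + i))
          (fun i => mm k (eF k) (r * dd k (eF k) + i)) v (dd k (eF k)) (QF k (eF k) /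
            ∏ i ∈ range (dd k (eF k)), sz k (eF k) (r * dd k (eF k) + i)) β))
        fun h hh β hβ v hv => hy h hh _ ((pos_lt _ _ v _ _ β hβ hv).trans_eq eQ)
      refine ⟨_, h3.mono (Nat.mul_le_mul_left _ (cost_le hP H μ σ hH2)), y', rfl,
        fun h hh ν hν => ?_⟩
      obtain ⟨β, hβ, v, hv, rfl⟩ := pos_surj (fun i => sz k (eF k) (r * dd k (eF k) + i))
        (fun i => mm k (eF k) (r * dd k (eF k) + i)) (dd k (eF k)) _ ν (hν.trans_eq eQ.symm)
      rw [z1 h r hr β hβ v hv, add_mul, one_mul, ← add_assoc]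
      exact h4 h hh β hβ v hv) (arr _ x) ⟨x, rfl, fun h hh ν hν => by
        rw [z0 h ν hν]; simpa using hx h hh ν hν⟩
  refine ⟨y, h1.mono ?_, fun h hh ν hν => z2 h ν hν ▸ h2 h hh ν hν⟩
  simp only [sum_const, card_range, smul_eq_mul]
  nlinarith

theorem mid_acts : ∃ K : ℕ, ∀ eF : ℕ → ℕ, PT Bool eF → ∀ k, Par k (eF k) → ∀ (μ σ : ℕ) (e : Cmd)
    (x : ℕ → Rec (bF k (eF k))) (u v : ℕ → ℕ),
    (∀ ν < QF k (eF k), Apx _ (bF k (eF k)) (rv (x ν)) (u ν)) →
    (∀ ν < QF k (eF k), Apx _ (bF k (eF k)) (rv (x (QF k (eF k) + ν))) (v ν)) →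
    (∀ i j, u i ≠ 0 → v j ≠ 0 → i + j < QF k (eF k)) →
    ∃ y, Acts ⟨bF k (eF k), μ, σ⟩ e (mid eF) ⟨zF k, [k]⟩ (arr (2 * QF k (eF k)) x)
        (arr (QF k (eF k)) y) (K * BB k (eF k) μ σ) ∧
      ∀ m < QF k (eF k), (y m).1 = Wd.ofNat _ (cv u v m) := by
  obtain ⟨K, hK⟩ := rds_acts
  refine ⟨2 * K + 12000, fun eF he k hP μ σ e x u v hu hv huv => ?_⟩
  obtain ⟨ξ, hξ, hR⟩ := hK eF he k hP μ σ e
  have hs := sm_top k
  have hQ := Q_small hP
  have hQ0 := Q_pos hP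
  have hB := BB_ge hP μ σ
  have herr := hP.err
  have eQ : Qf eF ⟨zF k, [k]⟩ = QF k (eF k) := by rw [Qf, kf_eq]
  obtain ⟨y1, a1, p1⟩ := hR 2 (bF k (eF k)) two_pos le_rfl (by omega) x
    (fun h ν => if h = 0 then u ν else v ν) fun h hh ν hν => by
      interval_cases h
      · simpa using hu ν hν
      · simpa using hv ν hν
  have a2 := gather_acts (X := ⟨bF k (eF k), μ, σ⟩) (e := e) (n1 := Qf eF) (n2 := Qf eF)
    (n' := Qf eF) (o1 := .muls) (o2 := .fst) (p := fun _ _ => true) (φ := fun i _ => i)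
    (ψ := fun i _ => i) (hs.mono (by omega)) (by rw [eQ]; show _ < 2 ^ zF k; omega) (eQ ▸ hQ0)
    (eQ ▸ hQ0) (fun i hi _ => hi) (fun i hi _ => hi) (fun i j h _ _ _ => h.le)
    (fun i j h _ _ _ => h.le) (fun i => y1 (QF k (eF k) + i)) y1
  rw [eQ, ← arr_add, ← two_mul] at a2
  obtain ⟨y3, a3, p3⟩ := hR 1 (bF k (eF k) + 12 * coreD (dd k (eF k)) (lmF k (eF k)) +
    (bF k (eF k) + 12 * coreD (dd k (eF k)) (lmF k (eF k))) + 3) one_pos one_le_two (by omega)
    (fun i => BOp.muls.sem (y1 (QF k (eF k) + i)) (y1 i))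
    (fun _ ν => (∑ i ∈ range (QF k (eF k)), ξ ^ (ν * i) * u i) *
      ∑ j ∈ range (QF k (eF k)), ξ ^ (ν * j) * v j) fun h hh ν hν => by
      obtain rfl : h = 0 := by omega
      have q0 := p1 0 two_pos ν hν
      have q1 := p1 1 one_lt_two ν hν
      simp only [zero_mul, zero_add, one_mul, if_true, one_ne_zero, if_false] at q0 q1 ⊢
      rw [mul_comm (∑ _ ∈ _, _)]
      exact q1.muls q0 (by omega)
  obtain ⟨y4, a4, p4⟩ := ng_acts (X := ⟨bF k (eF k), μ, σ⟩) (e := e) (H := fun _ => 1)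
    (A := Qf eF) (L := fun _ => 1) (hs.mono (by omega)) (by simpa [eQ])
    (by rw [eQ]; show _ < 2 ^ zF k; omega) y3
  have a5 := fun f o x => cst_acts (X := ⟨bF k (eF k), μ, σ⟩) (e := e) (eF := eF) f o
    (hs.mono (by omega)) (eQ ▸ hQ0) (by rw [eQ]; show _ < 2 ^ zF k; omega) x
  simp only [eQ, one_mul, mul_one] at a3 a4 p4 a5
  refine ⟨_, (a1.seq (a2.seq (a3.seq (a4.seq ((a5 _ _ _).seq ((a5 _ _ _).seq (a5 _ _ _))))))).mono
    (by simp only [BOp.mc, add_zero, one_mul, add_mul, mul_assoc]; omega), fun m hm => ?_⟩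
  have q1 := p4 0 one_pos m hm 0 one_pos
  have q2 := p3 0 one_pos _ (Nat.mod_lt (QF k (eF k) - m) hQ0)
  simp only [ix, zero_mul, zero_add, mul_one, add_zero] at q1 q2
  have q3 : Apx (bF k (eF k)) 0 (rv (Wd.ofNat _ (2 ^ (3 * bF k (eF k)) / QF k (eF k)),
      Wd.ofNat _ 0)) (1 / QF k (eF k)) := by
    have hQ1 : (1 : ℝ) ≤ QF k (eF k) := by exact_mod_cast hQ0
    refine ⟨(2 ^ (3 * bF k (eF k)) / QF k (eF k) : ℕ), ?_, ?_, ?_⟩
    · rw [rv_nat _ ((Nat.div_le_self _ _).trans_lt (Nat.pow_lt_pow_right one_lt_two (by omega))),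
        map_natCast]
    · have e1 : (((2 ^ (3 * bF k (eF k)) / QF k (eF k) : ℕ) : GaussianInt) : ℂ) -
          2 ^ (3 * bF k (eF k)) * (1 / QF k (eF k)) =
          (((2 ^ (3 * bF k (eF k)) / QF k (eF k) : ℕ) -
            ((2 ^ (3 * bF k (eF k)) : ℕ) : ℝ) / QF k (eF k) : ℝ) : ℂ) := by
        rw [map_natCast]; push_cast; ring
      rw [e1, Complex.norm_real, Real.norm_eq_abs, ← Nat.floor_div_eq_div (K := ℝ), pow_zero]
      exact Nat.abs_floor_sub_le (div_nonneg (Nat.cast_nonneg _) (Nat.cast_nonneg _))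
    · rw [norm_div, norm_one, Complex.norm_natCast, pow_zero]
      exact (div_le_one (by linarith)).2 hQ1
  have q4 := q2.muls q3 (by omega)
  rw [conv_dft hξ u v huv hm, ← q1] at q4
  exact q4.round (by omega)

end Tp

open Tp

noncomputable def top (eF : ℕ → ℕ) : Cmd :=
  .seq (rd eF true) (.seq (rd eF false) (.seq (mid eF) (loop (Qf eF) (.op .emit))))

theorem top_ok {eF : ℕ → ℕ} (h : PT Bool eF) : (top eF).ok := by
  have h1 := Qf_bt h
  have h2 : ∀ y, (rd eF y).ok := fun y => ⟨loop_ok h1 ⟨trivial, trivial⟩, mvN_ok h1⟩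
  have h3 : ∀ H, (rds eF H).ok := fun H => loopF_ok (BT.const _) (round_ok (rp_ok h H))
  have h4 : ∀ f o, (BT fun x : Bin × Ar × ℕ => f (Qf eF x.2.1) x.2.2) → (cst eF f o).ok :=
    fun f o hf => ⟨ldN_ok (BT.const _) hf (BT.const _), tab_ok (BT.const _) (BT.const _) h1⟩
  refine ⟨h2 _, h2 _, ⟨h3 _, gather_ok h1 h1 h1 (PT.const _) ?_ ?_, h3 _,
    ng_ok (BT.const _) h1 (BT.const _), h4 _ _ ?_, h4 _ _ ?_, h4 _ _ ?_⟩, loop_ok h1 trivial⟩
  all_goals (try unfold B1); fun_prop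

theorem top_mul : ∃ K : ℕ, ∀ eF : ℕ → ℕ, PT Bool eF → ∀ n, Par n.size (eF n.size) → ∀ μ σ : ℕ,
    ∃ t, MulDo ⟨bF n.size (eF n.size), μ, σ⟩ (top eF) ⟨zF n.size, [n.size]⟩ n t ∧
      (t + 1) * bF n.size (eF n.size) ≤
        K * (n * (n.size / LL n.size (eF n.size) * (tc (4 * LL n.size (eF n.size)) + 1) +
            LL n.size (eF n.size) * (cc n.size * LL n.size (eF n.size) + μ + 1)) +
          n.size * 2 ^ (4 * LL n.size (eF n.size)) * σ * bF n.size (eF n.size)) := by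
  obtain ⟨K, hK⟩ := mid_acts
  refine ⟨8 * (K + 116), fun eF he n hP μ σ => ?_⟩
  have hn := Nat.lt_size_self n
  have hk : 0 < n.size := Nat.lt_of_lt_of_le (Nat.mul_pos hP.d1 hP.L1) hP.dL
  have hn' : 2 ^ (n.size - 1) ≤ n := Nat.lt_size.1 (by omega)
  generalize n.size = k at *
  have hs := sm_top k
  have hQ := Q_small hP
  have hQ0 := Q_pos hP
  have hB := BB_ge hP μ σ
  have eQ : Qf eF ⟨zF k, [k]⟩ = QF k (eF k) := by rw [Qf, kf_eq]
  have h2n : 2 * n ≤ QF k (eF k) * bF k (eF k) := le_trans (by rw [pow_succ]; omega) hP.Qb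
  refine ⟨(K + 115) * BB k (eF k) μ σ, fun x y hx hy => ?_, ?_⟩
  · have hx' : ofBits x < 2 ^ n := hx ▸ ofBits_lt x
    have hy' : ofBits y < 2 ^ n := hy ▸ ofBits_lt y
    have hz : Qf eF ⟨zF k, [k]⟩ < 2 ^ zF k := by omega
    have hr : ∀ l i, Apx _ (bF k (eF k)) (rv (rc (bF k (eF k)) l i))
        (chunk (bF k (eF k)) (ofBits l) i) := fun l i => by
      simpa only [Bt.val_drop, rc, chunk] using apx_read (b := bF k (eF k)) (l.drop (i * bF k (eF k)))
    obtain ⟨w, a1, p1⟩ := hK eF he k hP μ σ .self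
      (fun i => if i < QF k (eF k) then rc _ x i else rc _ y (i - QF k (eF k))) _ _
      (fun ν hν => by simpa only [if_pos hν] using hr x ν) (fun ν _ => by simpa using hr y ν)
      fun i j => chunk_lt hx' hy' h2n
    have r1 := rd_do (X := ⟨bF k (eF k), μ, σ⟩) (e := .self) true (hs.mono (by omega)) hz
      (AS.init _ x y)
    have r2 := fun s => rd_do (X := ⟨bF k (eF k), μ, σ⟩) (e := .self) false (hs.mono (by omega)) hz s
    have hb : k < bF k (eF k) := hP.kb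
    have r3 := em_do (X := ⟨bF k (eF k), μ, σ⟩) (e := .self) (hs.mono (by omega)) hz
      (by show 1 ≤ bF k (eF k); omega) w _ (eQ ▸ p1) (fun i hi => (cv_le _ _ _ _).trans (by
        have : i + 1 ≤ 2 ^ bF k (eF k) :=
          (eQ ▸ hi : i + 1 ≤ QF k (eF k)).trans (hP.Qle.trans (Nat.pow_le_pow_right two_pos hb.le))
        show _ ≤ 2 ^ (3 * bF k (eF k))
        rw [show 3 * bF k (eF k) = bF k (eF k) + 2 * bF k (eF k) by ring, pow_add]
        gcongr))
    have r4 := fun s' T h => Do.mono (T' := (K + 115) * BB k (eF k) μ σ)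
      (r1.seq ((r2 _).seq (Do.seq (d := loop (Qf eF) (.op .emit)) (s2 := s') (T2 := T) (a1 _ [] (by
        rw [two_mul, arr_add]
        simp only [eQ, AS.set_D, if_true, AS.init, List.append_nil]
        congr 1
        · exact arr_congr fun i hi => by simp [hi]
        · exact arr_congr fun i hi => by simp)) h)))
    refine ⟨_, _, r4 _ _ (r3 _ (by simp [eQ]) rfl rfl).choose_spec ?_, fun i => ?_, h2n, ?_⟩
    · rw [eQ, add_mul]; omega
    · fin_cases i <;> simp [AS.init]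
    · simp only [eQ, sum_cv hx' hy' h2n]
  · have h8 : QF k (eF k) * bF k (eF k) ≤ 8 * n := by
      refine hP.Qb'.trans ?_
      rw [show k + 2 = k - 1 + 3 by omega, pow_add]; omega
    calc _ ≤ (K + 116) * BB k (eF k) μ σ * bF k (eF k) := by
          gcongr; rw [add_mul, add_mul]; omega
      _ = (K + 116) * (WW k (eF k) μ * (QF k (eF k) * bF k (eF k)) +
          k * 2 ^ (4 * LL k (eF k)) * σ * bF k (eF k)) := by unfold BB; ring
      _ ≤ (K + 116) * (WW k (eF k) μ * (8 * n) +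
          8 * (k * 2 ^ (4 * LL k (eF k)) * σ * bF k (eF k))) :=
        Nat.mul_le_mul_left _ (add_le_add (Nat.mul_le_mul_left _ h8) (by omega))
      _ = _ := by unfold WW; ring

end Vale.Agent.P338
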