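import Vale.Agent.P338.TransD
import Vale.Agent.P338.Arr
import Vale.Agent.P338.Net
import Vale.Agent.P338.Ring

/-! Transposition of two equal fields in a sublogarithmic number of passes, and translation of an
upper field controlled by a lower one.

Plan for `swp` (M3).  Take `m, W0` from `netT`, fix `w` with `W = 3 ^ w ≥ W0` and the step list `l`.
Recursive command `cT` with arguments `[H, e, M, L]` on shape `H × 3^e × M × 3^e × L`:
* naive swap `nsw` of shape `H × A × M × A × L` at cost `O(A^2)` passes (loop over the classes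
  `(α0, β0)`; keep `[r, x]` on the stack, `swap2; dup; swap2; gather` overwrites one class of `r`);
  used when `e < w + m` and for the top `w + r` digits, where `e = w + r + m e'`, `r < m`;
* with `q = 3^e'` the rest of the first field is `x ∈ (ℤ/q)^m`, the rest of the second field is
  `y ∈ (ℤ/q)^m`; wires = top `w` digits of the first field (`focus H W (rest) i 1`, `gate ... .xor`);
  `V` = functions on index tuples with values `Bool × ℕ → ZMod 2` (use `bv`, `bv_inj`, `bv_xor` of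
  Ring.lean), `fr A X (.., x, .., y, ..) = X (.., x + A y / 8, .., y, ..)`; the network realises
  `x += y` on all wires; the swap of `x` and `y` is `x += y` conjugated by the lower shears
  `y -= x` (one `lt` per digit) and a negation (`ng` per digit);
* a paid move `a bᵀ`: identity if `a = 0` or `b = 0`; otherwise let `g0` be the highest digit with
  `a ≠ 0` and `g1` the lowest digit with `b ≠ 0`; change variables by `lt` (controls are above),
  `ng`, and doubling/halving mod `q` (`pm`: `α ↦ 2 α % q` is increasing on `2 α < q` and on its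
  complement, `α ↦ α / 2 mod q` on even and on odd `α`) so that the move becomes the single upper
  shear `x_g0 += y_g1 = (y += x) ∘ (neg ∘ swap) ∘ (y += x)`, one recursive call with `e'`;
* passes: `t(e) ≤ (W m - 1) / W * t(e') + c`, `e' ≤ e / m`, so `t(e) = O(e^(1-δ))` (`sub_rec`).
`swp` pads both fields to `3^e`, `e = clog 3 A`, and truncates afterwards.
`ut`: unfold the upper field periodically to length `C r ≥ 2 A` (`r = 2 A / C + 1`, two copies and
junk), split it as `(α1 < C, α0 < r)`, swap `α1` with the control, translate `α0` and then `α1`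
(with carry) by `lt`, swap back, truncate to `α < A`. -/

namespace Vale.Agent.P338

open Function Vale.Agent.PT Vale.Agent.P320

variable {X : Cx} {e : Cmd} {a : Ar}

namespace TrP

noncomputable def cT : Cmd := exists_cT.choose
noncomputable def tT : ℕ → ℕ := exists_cT.choose_spec.choose
lemma cT_ok : cT.ok := exists_cT.choose_spec.choose_spec.1
lemma tT_sub : Sub tT := exists_cT.choose_spec.choose_spec.2.1
lemma cT_spec (X : Cx) (z E H M L : ℕ) (hz : 15 ≤ z) (h0 : 0 < H * 3 ^ E * M * 3 ^ E * L)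
    (hn : 6 * (H * 3 ^ E * M * 3 ^ E * L) < 2 ^ z) : SwapSpec X cT z E (3 ^ E) (tT E) H M L :=
  exists_cT.choose_spec.choose_spec.2.2 X z E H M L hz h0 hn

def ce (A : ℕ) : ℕ := ∑ k ∈ Finset.range A.size, if 3 ^ k < A then 1 else 0

lemma clog_le_size (A : ℕ) : Nat.clog 3 A ≤ A.size :=
  (Nat.clog_le_iff_le_pow (by norm_num)).2
    ((Nat.lt_size_self A).le.trans (Nat.pow_le_pow_left (by norm_num) _))

lemma ce_eq (A : ℕ) : ce A = Nat.clog 3 A := by
  rw [ce, Finset.sum_boole, Nat.cast_id, ← Finset.card_range (Nat.clog 3 A)]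
  congr 1
  ext k
  have := clog_le_size A
  simp only [Finset.mem_filter, Finset.mem_range, ← Nat.lt_clog_iff_pow_lt (by norm_num : 1 < 3)]
  omega

lemma ce_spec {A : ℕ} (hA : 0 < A) : A ≤ 3 ^ ce A ∧ 3 ^ ce A ≤ 3 * A ∧ ce A ≤ A.size := by
  rw [ce_eq]
  refine ⟨Nat.le_pow_clog (by norm_num) _, ?_, clog_le_size A⟩
  rcases Nat.eq_zero_or_pos (Nat.clog 3 A) with h | h
  · rw [h]; omega
  · have := (Nat.lt_clog_iff_pow_lt (by norm_num : 1 < 3)).1 (Nat.sub_lt h Nat.one_pos)
    rw [show Nat.clog 3 A = Nat.clog 3 A - 1 + 1 by omega, pow_succ]; omega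

lemma ix5_eq (A M B L h α μ β l : ℕ) :
    ix5 A M B L h α μ β l = ix A (M * B * L) h α (ix B L μ β l) := by
  simp only [ix5, ix]; ring

noncomputable def ts (s : ℕ) : ℕ := 9 * tT s + 33000

end TrP

open TrP

noncomputable def tc : ℕ → ℕ := fun s => 6 * ts s + 25000
theorem tc_sub : Sub tc := (tT_sub.affine 9 33000).affine 6 25000

noncomputable def swp (H A M L : Ar → ℕ) : Cmd :=
  .seq (pad H A (fun a => 3 ^ a.u (ce (A a))) fun a => M a * A a * L a)
    (.seq (pad (fun a => H a * 3 ^ a.u (ce (A a)) * M a) A (fun a => 3 ^ a.u (ce (A a))) L)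
      (.seq (.arg (fun a => [H a, ce (A a), M a, L a]) (.fix cT))
        (.seq (pad (fun a => H a * 3 ^ a.u (ce (A a)) * M a) (fun a => 3 ^ a.u (ce (A a))) A L)
          (pad H (fun a => 3 ^ a.u (ce (A a))) A fun a => M a * A a * L a))))
theorem swp_ok {H A M L} (h1 : BT H) (h2 : BT A) (h3 : BT M) (h4 : BT L) : (swp H A M L).ok := by
  have h5 : BT fun a => ce (A a) := by unfold ce; fun_prop
  have h6 : BT fun a : Ar => 3 ^ a.u (ce (A a)) := BT.pow (BT.const _) (pt_u PT.id' h5)
  have h7 : BT fun a : Ar => H a * 3 ^ a.u (ce (A a)) * M a := (h1.mul h6).mul h3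
  exact ⟨pad_ok h1 h2 h6 (by fun_prop), pad_ok h7 h2 h6 h4,
    ⟨LB.cons h1 (LB.cons h5 (LB.cons h3 (LB.cons h4 (LB.const _)))), cT_ok⟩, pad_ok h7 h6 h2 h4,
    pad_ok h1 h6 h2 (by fun_prop)⟩
theorem swp_acts' {H A M L : Ar → ℕ} (hs : Sm 30 a) (h0 : 0 < H a * A a * M a * A a * L a)
    (hn : 300 * (H a * A a * M a * A a * L a) < 2 ^ a.z) (x : ℕ → Rec X.b) :
    ∃ y, Acts X e (swp H A M L) a (arr (H a * A a * M a * A a * L a) x)
        (arr (H a * A a * M a * A a * L a) y) (ts (A a).size * (H a * A a * M a * A a * L a)) ∧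
      ∀ h < H a, ∀ α < A a, ∀ μ < M a, ∀ β < A a, ∀ l < L a,
        y (ix5 (A a) (M a) (A a) (L a) h α μ β l) = x (ix5 (A a) (M a) (A a) (L a) h β μ α l) := by
  have hA : 0 < A a := Nat.pos_of_mul_pos_left (Nat.pos_of_mul_pos_right h0)
  obtain ⟨c1, c2, c3⟩ := ce_spec hA
  have b : ∀ {u v : ℕ}, u * v = H a * A a * M a * A a * L a → u < 2 ^ a.z := by
    intro u v h
    rw [← h] at h0 hn
    have := Nat.le_mul_of_pos_right u (Nat.pos_of_mul_pos_left h0)
    omega
  have hAz : A a < 2 ^ a.z := b (v := H a * M a * A a * L a) (by ring)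
  have hE : ce (A a) ≤ a.z := c3.trans (Nat.size_le.2 hAz)
  have u0 : a.u (ce (A a)) = ce (A a) := a.u_eq hE
  have hs10 : Sm 10 a := hs.mono (by omega)
  obtain ⟨Q, hQ⟩ : ∃ Q, Q = 3 ^ ce (A a) := ⟨_, rfl⟩
  rw [← hQ] at c1 c2
  have n0 : H a * A a * (M a * A a * L a) = H a * A a * M a * A a * L a := by ring
  have n1 : H a * Q * (M a * A a * L a) = H a * Q * M a * A a * L a := by ring
  have l1 : H a * Q * M a * A a * L a ≤ 3 * (H a * A a * M a * A a * L a) := by
    calc _ ≤ H a * (3 * A a) * M a * A a * L a := by gcongr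
      _ = _ := by ring
  have l2 : H a * Q * M a * Q * L a ≤ 9 * (H a * A a * M a * A a * L a) := by
    calc _ ≤ H a * (3 * A a) * M a * (3 * A a) * L a := by gcongr
      _ = _ := by ring
  have g1 : H a * A a * M a * A a * L a ≤ H a * Q * M a * A a * L a := by gcongr
  have g2 : H a * A a * M a * A a * L a ≤ H a * Q * M a * Q * L a := by gcongr
  obtain ⟨x1, a1, b1⟩ := pad_acts (e := e) (H := H) (A := A) (A' := fun a => 3 ^ a.u (ce (A a)))
    (L := fun a => M a * A a * L a) hs10 (by simpa only [n0] using h0)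
    (by simp only [u0, ← hQ, n0, n1]; omega) x
  obtain ⟨x2, a2, b2⟩ := pad_acts (e := e) (H := fun a => H a * 3 ^ a.u (ce (A a)) * M a) (A := A)
    (A' := fun a => 3 ^ a.u (ce (A a))) (L := L) hs10 (by simp only [u0, ← hQ]; omega)
    (by simp only [u0, ← hQ]; omega) x1
  obtain ⟨x3, a3, b3⟩ := cT_spec X a.z (ce (A a)) (H a) (M a) (L a) (by have := hs.1; omega)
    (by rw [← hQ]; omega) (by rw [← hQ]; omega) x2
  obtain ⟨x4, a4, b4⟩ := pad_acts (e := e) (H := fun a => H a * 3 ^ a.u (ce (A a)) * M a) (A' := A)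
    (A := fun a => 3 ^ a.u (ce (A a))) (L := L) hs10 (by simp only [u0, ← hQ]; omega)
    (by simp only [u0, ← hQ]; omega) x3
  obtain ⟨x5, a5, b5⟩ := pad_acts (e := e) (H := H) (A' := A) (A := fun a => 3 ^ a.u (ce (A a)))
    (L := fun a => M a * A a * L a) hs10 (by simp only [u0, ← hQ, n1]; omega)
    (by simp only [u0, ← hQ, n0, n1]; omega) x4
  simp only [u0, ← hQ, n0, n1] at a1 b1 a2 b2 a3 b3 a4 b4 a5 b5
  refine ⟨x5, (a1.seq (a2.seq ((Acts.arg (a' := ⟨a.z, _⟩) rfl ⟨?_, ?_⟩ a3.fix).seq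
    (a4.seq a5)))).mono ?_, fun h hh α hα μ hμ β hβ l hl => ?_⟩
  · have := hs.1; simp; omega
  · simp only [List.mem_cons, List.not_mem_nil, or_false]
    rintro v (rfl | rfl | rfl | rfl)
    · exact b (v := A a * M a * A a * L a) (by ring)
    · exact hE.trans_lt Nat.lt_two_pow_self
    · exact b (v := H a * A a * A a * L a) (by ring)
    · exact b (v := H a * A a * M a * A a) (by ring)
  · have := Nat.mul_le_mul (tT_sub.1 c3) l2
    rw [ts, add_mul, mul_comm 9, mul_assoc (tT _)]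
    omega
  · rw [ix5_eq, b5 h hh α hα _ (ix_lt hμ hβ hl), if_pos (by omega), ← ix5_eq, ix5,
      b4 _ (ix_lt hh (by omega) hμ) β hβ l hl, if_pos (by omega), ← ix5,
      b3 h hh α (by omega) μ hμ β (by omega) l hl, ix5,
      b2 _ (ix_lt hh (by omega) hμ) α (by omega) l hl, if_pos hα, ← ix5, ix5_eq,
      b1 h hh β (by omega) _ (ix_lt hμ hα hl), if_pos hβ, ← ix5_eq]
theorem swp_acts {H A M L : Ar → ℕ} (hs : Sm 30 a) (h0 : 0 < H a * A a * M a * A a * L a)
    (hn : 300 * (H a * A a * M a * A a * L a) < 2 ^ a.z) (x : ℕ → Rec X.b) :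
    ∃ y, Acts X e (swp H A M L) a (arr (H a * A a * M a * A a * L a) x)
        (arr (H a * A a * M a * A a * L a) y) (tc (A a).size * (H a * A a * M a * A a * L a)) ∧
      ∀ h < H a, ∀ α < A a, ∀ μ < M a, ∀ β < A a, ∀ l < L a,
        y (ix5 (A a) (M a) (A a) (L a) h α μ β l) = x (ix5 (A a) (M a) (A a) (L a) h β μ α l) := by
  obtain ⟨y, h1, h2⟩ := swp_acts' (e := e) hs h0 hn x
  exact ⟨y, h1.mono (Nat.mul_le_mul_right _ (by unfold tc; omega)), h2⟩

noncomputable def ut (H A M C L : Ar → ℕ) (f : ℕ → Ar → ℕ) : Cmd :=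
  .seq (pm H A (fun a => 2 * A a) (fun a => M a * C a * L a) (fun _ α a => decide (α < A a))
      fun _ α a => α % A a)
    (.seq (pad H (fun a => 2 * A a) (fun a => C a * (2 * A a / C a + 1)) fun a => M a * C a * L a)
    (.seq (swp H C (fun a => (2 * A a / C a + 1) * M a) L)
    (.seq (lt (fun a => H a * C a) (fun a => 2 * A a / C a + 1) (fun a => M a * C a * L a)
      fun h a => ap1 f (h % C a) a % A a)
    (.seq (lt (fun a => H a * C a * ((2 * A a / C a + 1) * M a)) C L fun h a =>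
      ap1 f (h / M a / (2 * A a / C a + 1) % C a) a % A a / (2 * A a / C a + 1) +
        if 2 * A a / C a + 1 ≤ h / M a % (2 * A a / C a + 1) +
          ap1 f (h / M a / (2 * A a / C a + 1) % C a) a % A a % (2 * A a / C a + 1) then 1 else 0)
    (.seq (swp H C (fun a => (2 * A a / C a + 1) * M a) L)
      (pad H (fun a => C a * (2 * A a / C a + 1)) A fun a => M a * C a * L a))))))
theorem ut_ok {H A M C L f} (h1 : BT H) (h2 : BT A) (h3 : BT M) (h4 : BT C) (h5 : BT L)
    (hf : B1 f) : (ut H A M C L f).ok := by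
  refine ⟨pm_ok h1 h2 (by fun_prop) (by fun_prop) ?_ ?_,
    pad_ok h1 (by fun_prop) (by fun_prop) (by fun_prop), swp_ok h1 h4 (by fun_prop) h5,
    lt_ok (by fun_prop) (by fun_prop) (by fun_prop) ?_, lt_ok (by fun_prop) h4 h5 ?_,
    swp_ok h1 h4 (by fun_prop) h5, pad_ok h1 (by fun_prop) h2 (by fun_prop)⟩
  · unfold P2; fun_prop
  · unfold B2; fun_prop
  · unfold B1; fun_prop (disch := assumption)
  · unfold B1; fun_prop (disch := assumption)
theorem ut_acts {H A M C L : Ar → ℕ} {f : ℕ → Ar → ℕ} (hs : Sm 30 a)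
    (h0 : 0 < H a * A a * M a * C a * L a) (hn : 1000 * (H a * A a * M a * C a * L a) < 2 ^ a.z)
    (hC : C a ≤ A a) (x : ℕ → Rec X.b) :
    ∃ y, Acts X e (ut H A M C L f) a (arr (H a * A a * M a * C a * L a) x)
        (arr (H a * A a * M a * C a * L a) y) (tc (C a).size * (H a * A a * M a * C a * L a)) ∧
      ∀ h < H a, ∀ α < A a, ∀ μ < M a, ∀ γ < C a, ∀ l < L a,
        y (ix5 (A a) (M a) (C a) (L a) h α μ γ l) =
          x (ix5 (A a) (M a) (C a) (L a) h ((α + f γ a) % A a) μ γ l) := by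
  have hC0 : 0 < C a := Nat.pos_of_mul_pos_left (Nat.pos_of_mul_pos_right h0)
  have hs10 : Sm 10 a := hs.mono (by omega)
  obtain ⟨r, hr⟩ : ∃ r, r = 2 * A a / C a + 1 := ⟨_, rfl⟩
  have r1 : 2 * A a < C a * r := hr ▸ Nat.lt_mul_div_succ _ hC0
  have r2 : C a * r ≤ 3 * A a := by
    have := Nat.mul_div_le (2 * A a) (C a)
    rw [hr, mul_add]; omega
  have r0 : 0 < r := hr ▸ Nat.succ_pos _
  obtain ⟨N, hN⟩ : ∃ N, N = H a * A a * M a * C a * L a := ⟨_, rfl⟩
  obtain ⟨N', hN'⟩ : ∃ N', N' = H a * C a * (r * M a) * C a * L a := ⟨_, rfl⟩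
  have n0 : H a * A a * (M a * C a * L a) = N := by rw [hN]; ring
  have n1 : H a * (2 * A a) * (M a * C a * L a) = 2 * N := by rw [hN]; ring
  have n2 : H a * (C a * r) * (M a * C a * L a) = N' := by rw [hN']; ring
  have n3 : H a * C a * r * (M a * C a * L a) = N' := by rw [hN']; ring
  have l1 : N' ≤ 3 * N := by
    rw [← n2, hN]
    calc _ ≤ H a * (3 * A a) * (M a * C a * L a) := by gcongr
      _ = _ := by ring
  have l2 : 2 * N ≤ N' := by rw [← n1, ← n2]; gcongr
  rw [← hN] at h0 hn ⊢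
  obtain ⟨x1, a1, b1⟩ := pm_acts (e := e) (H := H) (A := A) (A' := fun a => 2 * A a)
    (L := fun a => M a * C a * L a) (p := fun _ α a => decide (α < A a)) (θ := fun _ α a => α % A a)
    hs10 (by simpa only [n0] using h0) (by simp only [n0, n1]; omega)
    (fun _ _ _ _ => Nat.mod_lt _ (by omega)) (fun _ _ α β h1 h2 h3 => by
      by_cases hb : β < A a
      · rw [Nat.mod_eq_of_lt hb, Nat.mod_eq_of_lt (by omega)]; omega
      · have ha : ¬ α < A a := by simpa [hb] using h3
        rw [Nat.mod_eq_sub_mod (by omega), Nat.mod_eq_sub_mod (a := β) (by omega),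
          Nat.mod_eq_of_lt (by omega), Nat.mod_eq_of_lt (by omega)]
        omega) x
  obtain ⟨x2, a2, b2⟩ := pad_acts (e := e) (H := H) (A := fun a => 2 * A a)
    (A' := fun a => C a * (2 * A a / C a + 1)) (L := fun a => M a * C a * L a) hs10
    (by simp only [n1]; omega) (by simp only [← hr, n1, n2]; omega) x1
  obtain ⟨x3, a3, b3⟩ := swp_acts' (e := e) (H := H) (A := C)
    (M := fun a => (2 * A a / C a + 1) * M a) (L := L) hs (by simp only [← hr, ← hN']; omega)
    (by simp only [← hr, ← hN']; omega) x2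
  obtain ⟨x4, a4, b4⟩ := lt_acts (e := e) (H := fun a => H a * C a)
    (A := fun a => 2 * A a / C a + 1) (L := fun a => M a * C a * L a)
    (f := fun h a => ap1 f (h % C a) a % A a) hs10 (by simp only [← hr, n3]; omega)
    (by simp only [← hr, n3]; omega) x3
  obtain ⟨x5, a5, b5⟩ := lt_acts (e := e) (H := fun a => H a * C a * ((2 * A a / C a + 1) * M a))
    (A := C) (L := L) (f := fun h a =>
      ap1 f (h / M a / (2 * A a / C a + 1) % C a) a % A a / (2 * A a / C a + 1) +
        if 2 * A a / C a + 1 ≤ h / M a % (2 * A a / C a + 1) +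
          ap1 f (h / M a / (2 * A a / C a + 1) % C a) a % A a % (2 * A a / C a + 1) then 1 else 0)
    hs10 (by simp only [← hr, ← hN']; omega) (by simp only [← hr, ← hN']; omega) x4
  obtain ⟨x6, a6, b6⟩ := swp_acts' (e := e) (H := H) (A := C)
    (M := fun a => (2 * A a / C a + 1) * M a) (L := L) hs (by simp only [← hr, ← hN']; omega)
    (by simp only [← hr, ← hN']; omega) x5
  obtain ⟨x7, a7, b7⟩ := pad_acts (e := e) (H := H) (A := fun a => C a * (2 * A a / C a + 1))
    (A' := A) (L := fun a => M a * C a * L a) hs10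
    (by simp only [← hr, n2]; omega) (by simp only [← hr, n0, n2]; omega) x6
  simp only [← hr, ← hN', n0, n1, n2, n3, ap1_eq] at a1 b1 a2 b2 a3 b3 a4 b4 a5 b5 a6 b6 a7 b7
  refine ⟨x7, ((a1.seq (a2.seq (a3.seq (a4.seq (a5.seq (a6.seq a7)))))).mono ?_ :),
    fun h hh α hα μ hμ γ hγ l hl => ?_⟩
  · have := Nat.mul_le_mul_left (ts (C a).size) l1
    rw [tc, add_mul, mul_comm 6, mul_assoc (ts _)]
    rw [← mul_assoc, mul_comm _ 3, mul_assoc] at this
    rw [← mul_assoc, mul_comm _ 6, mul_assoc]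
    omega
  · obtain ⟨s, hs'⟩ : ∃ s, s = f γ a % A a := ⟨_, rfl⟩
    have s1 : s < A a := hs' ▸ Nat.mod_lt _ (by omega)
    have i1 : ∀ α1 α0, ix (C a * r) (M a * C a * L a) h (α1 * r + α0) (ix (C a) (L a) μ γ l) =
        ix5 (C a) (r * M a) (C a) (L a) h α1 (α0 * M a + μ) γ l := by
      intros; simp only [ix5, ix]; ring
    have i2 : ∀ α0, ix (C a) (r * M a) h γ (α0 * M a + μ) = ix r (M a) (h * C a + γ) α0 μ := by
      intros; simp only [ix]; ring
    have i3 : ∀ α0 α1, ix (C a) (L a) (ix r (M a) (h * C a + γ) α0 μ) α1 l =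
        ix r (M a * C a * L a) (h * C a + γ) α0 (ix (C a) (L a) μ α1 l) := by
      intros; simp only [ix]; ring
    have d1 : α / r < C a := (Nat.div_lt_iff_lt_mul r0).2 (by omega)
    have d2 : (α + s) / r < C a := (Nat.div_lt_iff_lt_mul r0).2 (by omega)
    have m1 : α % r < r := Nat.mod_lt _ r0
    have m2 : (α + s) % r < r := Nat.mod_lt _ r0
    have hl' := ix_lt hμ hγ hl
    rw [ix5_eq, b7 h hh α hα _ hl', if_pos (by omega)]
    conv_lhs => rw [← Nat.div_add_mod' α r]
    rw [i1, b6 h hh _ d1 _ (lt2 m1 hμ) γ hγ l hl, ix5,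
      b5 _ (ix_lt hh hγ (lt2 m1 hμ)) _ d1 l hl, i2, ix_top m1 hμ, ix_mid m1 hμ,
      Nat.mul_add_mod_of_lt hγ, ← hs', ← add_assoc, ← Nat.add_div r0, Nat.mod_eq_of_lt d2, i3,
      b4 _ (lt2 hh hγ) _ m1 _ (ix_lt hμ d2 hl), Nat.mul_add_mod_of_lt hγ, ← hs', Nat.mod_add_mod,
      ← i3, ← i2, ← ix5, b3 h hh γ hγ _ (lt2 m2 hμ) _ d2 l hl, ← i1, Nat.div_add_mod',
      b2 h hh _ (by omega) _ hl', if_pos (by omega), b1 h hh _ (by omega) _ hl', ← ix5_eq, hs',
      Nat.add_mod_mod]

end Vale.Agent.P338
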