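import Vale.Agent.P338.Arr

/-! Sublinear recursions and the naive transposition. -/

namespace Vale.Agent.P338

open Function Vale.Agent.PT Vale.Agent.P320

/-- sublinear growth -/
def Sub (f : ℕ → ℕ) : Prop :=
  Monotone f ∧ ∃ C δ : ℝ, 0 < δ ∧ δ < 1 ∧ ∀ e : ℕ, (f e : ℝ) ≤ C * ((e : ℝ) + 1) ^ (1 - δ)

def srec (W m : ℕ) (hm : 2 ≤ m) (g : ℕ → ℕ) (e : ℕ) : ℕ :=
  if _h : e = 0 then g 0 else (W * m - 1) * srec W m hm g (e / m) / W + 1 + g e
termination_by e
decreasing_by exact Nat.div_lt_self (by omega) hm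

lemma srec_zero (W m hm g) : srec W m hm g 0 = g 0 := by rw [srec]; simp
lemma srec_pos (W m hm g) {e : ℕ} (he : 1 ≤ e) :
    srec W m hm g e = (W * m - 1) * srec W m hm g (e / m) / W + 1 + g e := by
  rw [srec, dif_neg (by omega)]

lemma exists_delta {W m : ℕ} (hW : 1 ≤ W) (hm : 2 ≤ m) {δ : ℝ} (h0 : 0 < δ) :
    ∃ δ' : ℝ, 0 < δ' ∧ δ' ≤ δ ∧ (m : ℝ) - 1 / W < (m : ℝ) ^ (1 - δ') := by
  have hm0 : (0 : ℝ) < m := by exact_mod_cast (by omega : 0 < m)
  have hc : ContinuousAt (fun x : ℝ => (m : ℝ) ^ (1 - x)) 0 :=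
    (Real.continuousAt_const_rpow hm0.ne').comp (f := fun x : ℝ => 1 - x) (by fun_prop)
  have h1 : (m : ℝ) - 1 / W < (fun x : ℝ => (m : ℝ) ^ (1 - x)) 0 := by
    have : (0 : ℝ) < 1 / W := by
      have : (0 : ℝ) < W := by exact_mod_cast hW
      positivity
    simp only [sub_zero, Real.rpow_one]; linarith
  obtain ⟨ε, hε, h⟩ := Metric.eventually_nhds_iff.1 (hc.eventually (lt_mem_nhds h1))
  refine ⟨min δ (ε / 2), by positivity, min_le_left _ _, h ?_⟩
  rw [Real.dist_eq, sub_zero, abs_of_pos (by positivity)]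
  exact (min_le_right _ _).trans_lt (by linarith)

/-- solving the recursion `W t(e) ≤ (W m - 1) t(e / m) + W g(e)` -/
theorem sub_rec {W m : ℕ} (hW : 1 ≤ W) (hm : 2 ≤ m) {g : ℕ → ℕ} (hg : Sub g) :
    ∃ t : ℕ → ℕ, Sub t ∧ (∀ e, g e ≤ t e) ∧
      ∀ e, 1 ≤ e → (W * m - 1) * t (e / m) + W * g e ≤ W * t e := by
  obtain ⟨gm, C, δ, hδ0, hδ1, hC⟩ := hg
  have hge : ∀ e, g e ≤ srec W m hm g e := fun e => by
    rcases Nat.eq_zero_or_pos e with rfl | he
    · rw [srec_zero]
    · rw [srec_pos _ _ _ _ he]; exact Nat.le_add_left _ _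
  refine ⟨srec W m hm g, ⟨?_, ?_⟩, hge, fun e he => ?_⟩
  · intro e e' h
    induction e' using Nat.strong_induction_on generalizing e with
    | _ e' ih =>
    rcases Nat.eq_zero_or_pos e with rfl | he
    · rw [srec_zero]; exact (gm h).trans (hge _)
    · rw [srec_pos _ _ _ _ he, srec_pos _ _ _ _ (he.trans_le h)]
      have h1 := ih (e' / m) (Nat.div_lt_self (by omega) hm) (Nat.div_le_div_right (c := m) h)
      have h2 := gm h
      have := Nat.div_le_div_right (c := W) (Nat.mul_le_mul_left (W * m - 1) h1)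
      omega
  · obtain ⟨δ', h0, h1, h2⟩ := exists_delta hW hm hδ0
    have hm0 : (0 : ℝ) < m := by exact_mod_cast (by omega : 0 < m)
    have hW0 : (0 : ℝ) < W := by exact_mod_cast hW
    have hp : 0 < (m : ℝ) ^ (1 - δ') := Real.rpow_pos_of_pos hm0 _
    set lam : ℝ := ((m : ℝ) - 1 / W) / (m : ℝ) ^ (1 - δ') with hlam
    have hl1 : lam < 1 := (div_lt_one hp).2 h2
    have hmW : 0 ≤ (m : ℝ) - 1 / W := by
      have : 1 / (W : ℝ) ≤ 1 := by rw [div_le_one hW0]; exact_mod_cast hW
      have : (2 : ℝ) ≤ m := by exact_mod_cast hm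
      linarith
    have hl0 : 0 ≤ lam := div_nonneg hmW hp.le
    set D : ℝ := m * g 0 + 1 + 2 * |C| with hD
    have hD0 : 0 ≤ D := by positivity
    set K : ℝ := D / (1 - lam) with hK
    have hK0 : 0 ≤ K := div_nonneg hD0 (by linarith)
    have hKD : lam * K + D = K := by
      rw [hK]; field_simp [(by linarith : 1 - lam ≠ 0)]; ring
    have key : ∀ e : ℕ, 1 ≤ e → (srec W m hm g e : ℝ) ≤ K * (e : ℝ) ^ (1 - δ') := by
      intro e
      induction e using Nat.strong_induction_on with
      | _ e ih =>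
      intro he
      have he1 : (1 : ℝ) ≤ e := by exact_mod_cast he
      have hE : 1 ≤ (e : ℝ) ^ (1 - δ') := Real.one_le_rpow he1 (by linarith)
      have a1 : (g e : ℝ) ≤ 2 * |C| * (e : ℝ) ^ (1 - δ') := by
        have b1 : ((e : ℝ) + 1) ^ (1 - δ) ≤ 2 * (e : ℝ) ^ (1 - δ') := by
          calc ((e : ℝ) + 1) ^ (1 - δ) ≤ (2 * e) ^ (1 - δ) :=
                Real.rpow_le_rpow (by positivity) (by linarith) (by linarith)
            _ = 2 ^ (1 - δ) * (e : ℝ) ^ (1 - δ) := Real.mul_rpow (by norm_num) (by positivity)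
            _ ≤ 2 * (e : ℝ) ^ (1 - δ') := by
                refine mul_le_mul ?_ (Real.rpow_le_rpow_of_exponent_le he1 (by linarith))
                  (by positivity) (by norm_num)
                calc (2 : ℝ) ^ (1 - δ) ≤ 2 ^ (1 : ℝ) :=
                      Real.rpow_le_rpow_of_exponent_le (by norm_num) (by linarith)
                  _ = 2 := Real.rpow_one 2
        calc (g e : ℝ) ≤ C * ((e : ℝ) + 1) ^ (1 - δ) := hC e
          _ ≤ |C| * ((e : ℝ) + 1) ^ (1 - δ) :=
              mul_le_mul_of_nonneg_right (le_abs_self C) (by positivity)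
          _ ≤ |C| * (2 * (e : ℝ) ^ (1 - δ')) := mul_le_mul_of_nonneg_left b1 (abs_nonneg C)
          _ = _ := by ring
      have a2 : (((W * m - 1) * srec W m hm g (e / m) / W : ℕ) : ℝ) ≤
          ((m : ℝ) - 1 / W) * srec W m hm g (e / m) := by
        refine Nat.cast_div_le.trans (le_of_eq ?_)
        have : 1 ≤ W * m := Nat.mul_pos hW (by omega)
        push_cast [Nat.cast_sub this]
        field_simp
      have a3 : ((m : ℝ) - 1 / W) * srec W m hm g (e / m) ≤
          lam * K * (e : ℝ) ^ (1 - δ') + m * g 0 := by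
        rcases Nat.eq_zero_or_pos (e / m) with h | h
        · rw [h, srec_zero]
          have : 0 ≤ lam * K * (e : ℝ) ^ (1 - δ') := by positivity
          have : 0 ≤ 1 / (W : ℝ) * g 0 := by positivity
          nlinarith
        · have b1 := ih (e / m) (Nat.div_lt_self (by omega) hm) h
          have b2 : ((e / m : ℕ) : ℝ) ^ (1 - δ') ≤ (e : ℝ) ^ (1 - δ') / (m : ℝ) ^ (1 - δ') := by
            rw [← Real.div_rpow (by positivity) hm0.le]
            exact Real.rpow_le_rpow (by positivity) Nat.cast_div_le (by linarith)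
          have : 0 ≤ (m : ℝ) * g 0 := by positivity
          calc _ ≤ ((m : ℝ) - 1 / W) * (K * ((e : ℝ) ^ (1 - δ') / (m : ℝ) ^ (1 - δ'))) :=
                mul_le_mul_of_nonneg_left (b1.trans (mul_le_mul_of_nonneg_left b2 hK0)) hmW
            _ = lam * K * (e : ℝ) ^ (1 - δ') := by rw [hlam]; field_simp
            _ ≤ _ := by linarith
      rw [srec_pos _ _ _ _ he]
      push_cast
      have a4 : (m * g 0 + 1 : ℝ) ≤ (m * g 0 + 1) * (e : ℝ) ^ (1 - δ') :=
        le_mul_of_one_le_right (by positivity) hE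
      calc _ ≤ lam * K * (e : ℝ) ^ (1 - δ') + (m * g 0 + 1) + 2 * |C| * (e : ℝ) ^ (1 - δ') := by
            linarith
        _ ≤ (lam * K + D) * (e : ℝ) ^ (1 - δ') := by rw [hD]; linarith
        _ = _ := by rw [hKD]
    refine ⟨K + g 0, δ', h0, by linarith, fun e => ?_⟩
    have hE : 1 ≤ ((e : ℝ) + 1) ^ (1 - δ') :=
      Real.one_le_rpow (by have : (0 : ℝ) ≤ e := by positivity
                           linarith) (by linarith)
    rcases Nat.eq_zero_or_pos e with rfl | he
    · rw [srec_zero]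
      have : (0 : ℝ) ≤ g 0 := by positivity
      nlinarith
    · have b : (e : ℝ) ^ (1 - δ') ≤ ((e : ℝ) + 1) ^ (1 - δ') :=
        Real.rpow_le_rpow (by positivity) (by linarith) (by linarith)
      have := key e he
      have h3 : (0 : ℝ) ≤ g 0 * ((e : ℝ) + 1) ^ (1 - δ') := by positivity
      nlinarith
  · rw [srec_pos _ _ _ _ he]
    have := Nat.lt_mul_div_succ ((W * m - 1) * srec W m hm g (e / m)) hW
    rw [mul_add, mul_add] at *
    omega

lemma Sub.const (c : ℕ) : Sub fun _ => c :=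
  ⟨monotone_const, c, 1 / 2, by norm_num, by norm_num, fun e => le_mul_of_one_le_right
    (by positivity) (Real.one_le_rpow (by have : (0 : ℝ) ≤ e := by positivity
                                          linarith) (by norm_num))⟩

lemma Sub.affine {f : ℕ → ℕ} (h : Sub f) (a c : ℕ) : Sub fun e => a * f e + c := by
  obtain ⟨hm, C, δ, h0, h1, hC⟩ := h
  refine ⟨fun x y hxy => by have := Nat.mul_le_mul_left a (hm hxy); simp only; omega,
    a * C + c, δ, h0, h1, fun e => ?_⟩
  have hE : 1 ≤ ((e : ℝ) + 1) ^ (1 - δ) :=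
    Real.one_le_rpow (by have : (0 : ℝ) ≤ e := by positivity
                         linarith) (by linarith)
  have h2 := mul_le_mul_of_nonneg_left (hC e) (Nat.cast_nonneg (α := ℝ) a)
  have h3 : (c : ℝ) ≤ c * ((e : ℝ) + 1) ^ (1 - δ) := le_mul_of_one_le_right (by positivity) hE
  push_cast
  nlinarith

/-- index in an array of shape `H × A × M × B × L` -/
def ix5 (A M B L h α μ β l : ℕ) : ℕ := ix B L (ix A M h α μ) β l

lemma ix5_lt {H A M B L h α μ β l : ℕ} (h1 : h < H) (h2 : α < A) (h3 : μ < M) (h4 : β < B)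
    (h5 : l < L) : ix5 A M B L h α μ β l < H * A * M * B * L := ix_lt (ix_lt h1 h2 h3) h4 h5

lemma ix5_surj {H A M B L i : ℕ} (hi : i < H * A * M * B * L) :
    ∃ h < H, ∃ α < A, ∃ μ < M, ∃ β < B, ∃ l < L, i = ix5 A M B L h α μ β l := by
  obtain ⟨j, hj, β, hβ, l, hl, rfl⟩ := ix_surj hi
  obtain ⟨h, hh, α, hα, μ, hμ, rfl⟩ := ix_surj hj
  exact ⟨h, hh, α, hα, μ, hμ, β, hβ, l, hl, rfl⟩

variable {X : Cx} {e : Cmd} {a : Ar}

def nswB (H A M L : Ar → ℕ) : Cmd :=
  .seq (swap2 (fun a => H a.t * A a.t * M a.t * A a.t * L a.t)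
      (fun a => H a.t * A a.t * M a.t * A a.t * L a.t))
    (.seq (dup fun a => H a.t * A a.t * M a.t * A a.t * L a.t)
      (.seq (swap2 (fun a => H a.t * A a.t * M a.t * A a.t * L a.t)
          (fun a => 2 * (H a.t * A a.t * M a.t * A a.t * L a.t)))
        (gather (fun a => H a.t * A a.t * M a.t * A a.t * L a.t)
          (fun a => H a.t * A a.t * M a.t * A a.t * L a.t)
          (fun a => H a.t * A a.t * M a.t * A a.t * L a.t) .snd .fst
          (fun i a => decide (i / L a.t / A a.t / M a.t % A a.t * A a.t + i / L a.t % A a.t = a.g 0))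
          (fun i _ => i)
          (fun i a => i + (a.g 0 % A a.t * (M a.t * A a.t * L a.t) + a.g 0 / A a.t * L a.t) -
            (a.g 0 / A a.t * (M a.t * A a.t * L a.t) + a.g 0 % A a.t * L a.t)))))

/-- naive transposition -/
def nsw (H A M L : Ar → ℕ) : Cmd :=
  .seq (dup fun a => H a * A a * M a * A a * L a)
    (.seq (loop (fun a => A a * A a) (nswB H A M L))
      (.seq (swap2 (fun a => H a * A a * M a * A a * L a) (fun a => H a * A a * M a * A a * L a))
        (drp fun a => H a * A a * M a * A a * L a)))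

theorem nsw_ok {H A M L} (h1 : BT H) (h2 : BT A) (h3 : BT M) (h4 : BT L) : (nsw H A M L).ok := by
  refine ⟨dup_ok (by fun_prop), loop_ok (by fun_prop) ⟨swap2_ok (by fun_prop) (by fun_prop),
    dup_ok (by fun_prop), swap2_ok (by fun_prop) (by fun_prop),
    gather_ok (by fun_prop) (by fun_prop) (by fun_prop) ?_ ?_ ?_⟩,
    swap2_ok (by fun_prop) (by fun_prop), drp_ok (by fun_prop)⟩
  · unfold P1; fun_prop
  · unfold B1; fun_prop
  · unfold B1; fun_prop

theorem nsw_acts {H A M L : Ar → ℕ} (hs : Sm 11 a) (h0 : 0 < H a * A a * M a * A a * L a)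
    (hn : 3 * (H a * A a * M a * A a * L a) < 2 ^ a.z) (x : ℕ → Rec X.b) :
    ∃ y, Acts X e (nsw H A M L) a (arr (H a * A a * M a * A a * L a) x)
        (arr (H a * A a * M a * A a * L a) y)
        (3000 * (A a * A a) * (H a * A a * M a * A a * L a)) ∧
      ∀ h < H a, ∀ α < A a, ∀ μ < M a, ∀ β < A a, ∀ l < L a,
        y (ix5 (A a) (M a) (A a) (L a) h α μ β l) = x (ix5 (A a) (M a) (A a) (L a) h β μ α l) := by
  have hL : 0 < L a := Nat.pos_of_mul_pos_left h0
  have h01 := Nat.pos_of_mul_pos_right h0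
  have hA : 0 < A a := Nat.pos_of_mul_pos_left h01
  have h02 := Nat.pos_of_mul_pos_right h01
  have hM : 0 < M a := Nat.pos_of_mul_pos_left h02
  have hH : 0 < H a := Nat.pos_of_mul_pos_right (Nat.pos_of_mul_pos_right h02)
  have hAA : A a * A a ≤ H a * A a * M a * A a * L a := by
    calc A a * A a = 1 * A a * 1 * A a * 1 := by ring
      _ ≤ _ := by gcongr <;> omega
  have hAA0 : 0 < A a * A a := Nat.mul_pos hA hA
  generalize hN : H a * A a * M a * A a * L a = N at *
  have hs10 : Sm 10 a := hs.mono (by omega)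
  obtain ⟨ys, h1, r, rfl, h2⟩ := loop_acts (X := X) (e := e) (n := fun a => A a * A a)
    (c := nswB H A M L) (hs.mono (by omega)) (by omega)
    (fun k ys => ∃ r, ys = arr N r ++ arr N x ∧ ∀ h < H a, ∀ α < A a, ∀ μ < M a, ∀ β < A a,
      ∀ l < L a, α * A a + β < k →
        r (ix5 (A a) (M a) (A a) (L a) h α μ β l) = x (ix5 (A a) (M a) (A a) (L a) h β μ α l))
    (fun _ => 1400 * N) (by
      rintro k hk _ ⟨r, rfl, hr⟩
      have hsk : Sm 10 (a.c k) := sm_c.2 ⟨by omega, hs⟩
      have key : ∀ h α μ β l, α < A a → μ < M a → β < A a → l < L a →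
          (ix5 (A a) (M a) (A a) (L a) h α μ β l / L a / A a / M a % A a * A a +
            ix5 (A a) (M a) (A a) (L a) h α μ β l / L a % A a = α * A a + β) ∧
          (α * A a + β = k → ix5 (A a) (M a) (A a) (L a) h α μ β l +
            (k % A a * (M a * A a * L a) + k / A a * L a) -
            (k / A a * (M a * A a * L a) + k % A a * L a) =
            ix5 (A a) (M a) (A a) (L a) h β μ α l) := by
        intro h α μ β l hα hμ hβ hl
        refine ⟨by rw [ix5, ix_top hβ hl, ix_mid hβ hl, ix_mid hα hμ], ?_⟩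
        rintro rfl
        rw [Nat.mul_add_mod_of_lt hβ, add_comm (α * A a), Nat.add_mul_div_right _ _ hA,
          Nat.div_eq_of_lt hβ, zero_add]
        refine Nat.sub_eq_of_eq_add ?_
        simp only [ix5, ix]; ring
      have g := fun e' => gather_acts (X := X) (e := e') (a := a.c k)
        (n1 := fun a => H a.t * A a.t * M a.t * A a.t * L a.t)
        (n2 := fun a => H a.t * A a.t * M a.t * A a.t * L a.t)
        (n' := fun a => H a.t * A a.t * M a.t * A a.t * L a.t) (o1 := .snd) (o2 := .fst)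
        (p := fun i a => decide (i / L a.t / A a.t / M a.t % A a.t * A a.t + i / L a.t % A a.t =
          a.g 0)) (φ := fun i _ => i)
        (ψ := fun i a => i + (a.g 0 % A a.t * (M a.t * A a.t * L a.t) + a.g 0 / A a.t * L a.t) -
            (a.g 0 / A a.t * (M a.t * A a.t * L a.t) + a.g 0 % A a.t * L a.t)) hsk
        (by simp only [Ar.c_t, Ar.c_z, hN]; omega) (by simpa [hN] using h0) (by simpa [hN] using h0)
        (fun i hi _ => hi) (fun i hi hu => by
          simp only [Ar.c_t, Ar.c_g0] at hi hu ⊢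
          obtain ⟨h, hh, α, hα, μ, hμ, β, hβ, l, hl, rfl⟩ := ix5_surj hi
          obtain ⟨k1, k2⟩ := key h α μ β l hα hμ hβ hl
          have : α * A a + β = k := by
            by_contra hh; simp [k1, hh, BOp.u2] at hu
          rw [k2 this]
          exact ix5_lt hh hβ hμ hα hl) (fun i j hij _ _ _ => hij.le)
        (fun i j hij _ _ _ => by omega) r x
      simp only [Ar.c_t, Ar.c_g0, hN] at g
      refine ⟨_, fun e' => ((swap2_acts hsk (by simp only [Ar.c_t, Ar.c_z, hN]; omega) _ _
        (by simp [hN]) (by simp [hN])).seq (((dup_acts hsk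
          (by simp only [Ar.c_t, Ar.c_z, hN]; omega) (arr N x) (by simp [hN])).frame (arr N r)).seq
          (((swap2_acts hsk (by simp only [Ar.c_t, Ar.c_z, hN]; omega) (arr N x)
            (arr N x ++ arr N r) (by simp [hN]) (by simp [hN]; omega)).congr
              (List.append_assoc _ _ _).symm rfl).seq ((g e').frame (arr N x))))).mono ?_,
        _, rfl, ?_⟩
      · simp only [Ar.c_t, hN, BOp.mc]; omega
      · intro h hh α hα μ hμ β hβ l hl hk'
        obtain ⟨k1, k2⟩ := key h α μ β l hα hμ hβ hl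
        by_cases hc : α * A a + β = k
        · simp only [k1, k2 hc, hc, decide_true, cond_true, BOp.sem]
        · simp only [k1, hc, decide_false, cond_false, BOp.sem]
          exact hr h hh α hα μ hμ β hβ l hl (by omega)) _ ⟨x, rfl, by simp⟩
  refine ⟨r, ((dup_acts hs10 (by simp only [hN]; omega) _ (by simp [hN])).seq (h1.seq
    ((swap2_acts hs10 (by simp only [hN]; omega) _ _ (by simp [hN]) (by simp [hN])).seq
      ((drp_acts hs10 (by simp only [hN]; omega) _ (by simp [hN])).frame (arr N r))))).mono ?_,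
    fun h hh α hα μ hμ β hβ l hl => h2 h hh α hα μ hμ β hβ l hl (by nlinarith)⟩
  simp only [Finset.sum_const, Finset.card_range, smul_eq_mul, hN]
  nlinarith

end Vale.Agent.P338
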