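import Vale.Agent.P338.TransA

/-! Mixed radix indices and linear index maps over `ZMod q`. -/

namespace Vale.Agent.P338.TrP

open Function Finset Vale.Agent.PT Vale.Agent.P320

def Lo (r : ℕ → ℕ) (p : ℕ) : ℕ := ∏ j ∈ range p, r j
def enc (r : ℕ → ℕ) (n : ℕ) (d : ℕ → ℕ) : ℕ := ∑ j ∈ range n, d j * Lo r j
def sh (p : ℕ) (r : ℕ → ℕ) : ℕ → ℕ := fun j => r (p + j)

lemma Lo_succ (r p) : Lo r (p + 1) = Lo r p * r p := prod_range_succ _ _
lemma enc_succ (r n d) : enc r (n + 1) d = enc r n d + d n * Lo r n := sum_range_succ _ _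
lemma Lo_add (r a k) : Lo r (a + k) = Lo r a * Lo (sh a r) k := prod_range_add _ _ _
lemma enc_add (r a k d) : enc r (a + k) d = enc r a d + Lo r a * enc (sh a r) k (sh a d) := by
  rw [enc, sum_range_add, enc, enc, mul_sum]
  congr 1
  refine sum_congr rfl fun j _ => ?_
  rw [Lo_add]; simp only [sh]; ring

lemma enc_lt {r d : ℕ → ℕ} {n : ℕ} (h : ∀ j < n, d j < r j) : enc r n d < Lo r n := by
  induction n with
  | zero => simp [enc, Lo]
  | succ n ih =>
    have h1 := ih fun j hj => h j (by omega)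
    have h2 := Nat.mul_le_mul_right (Lo r n) (Nat.succ_le_of_lt (h n (by omega)))
    rw [enc_succ, Lo_succ, mul_comm (Lo r n)]
    rw [Nat.succ_mul] at h2
    omega

lemma enc_congr {r d d' : ℕ → ℕ} {n : ℕ} (h : ∀ j < n, d j = d' j) : enc r n d = enc r n d' :=
  sum_congr rfl fun j hj => by rw [h j (mem_range.1 hj)]

def Hi (r : ℕ → ℕ) (n p : ℕ) : ℕ := Lo (sh (p + 1) r) (n - (p + 1))
def hi (r : ℕ → ℕ) (n p : ℕ) (d : ℕ → ℕ) : ℕ := enc (sh (p + 1) r) (n - (p + 1)) (sh (p + 1) d)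

lemma Lo_split {r : ℕ → ℕ} {n p : ℕ} (h : p < n) : Lo r n = Hi r n p * r p * Lo r p := by
  obtain ⟨k, rfl⟩ := Nat.exists_eq_add_of_lt h
  rw [show p + k + 1 = (p + 1) + k by ring, Lo_add, Lo_succ, Hi, Nat.add_sub_cancel_left]; ring

lemma enc_split {r : ℕ → ℕ} {n p : ℕ} (h : p < n) (d : ℕ → ℕ) :
    enc r n d = ix (r p) (Lo r p) (hi r n p d) (d p) (enc r p d) := by
  obtain ⟨k, rfl⟩ := Nat.exists_eq_add_of_lt h
  rw [show p + k + 1 = (p + 1) + k by ring, enc_add, enc_succ, Lo_succ, hi,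
    Nat.add_sub_cancel_left, ix]; ring

lemma hi_lt {r d : ℕ → ℕ} {n p : ℕ} (h : ∀ j < n, d j < r j) : hi r n p d < Hi r n p :=
  enc_lt fun j hj => h _ (by omega)

lemma hi_congr {r d d' : ℕ → ℕ} {n p : ℕ} (h : ∀ j, p < j → d j = d' j) :
    hi r n p d = hi r n p d' := enc_congr fun j _ => h _ (by omega)

lemma dig_enc {r d : ℕ → ℕ} {n p : ℕ} (h : ∀ j < n, d j < r j) (hp : p < n) :
    enc r n d / Lo r p % r p = d p := by
  rw [enc_split hp, ix_mid (h p hp) (enc_lt fun j hj => h j (by omega))]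

lemma hi_split {r : ℕ → ℕ} {n p p' : ℕ} (h : p < p') (h' : p' < n) (d : ℕ → ℕ) :
    hi r n p d = ix (r p') (Hi r p' p) (hi r n p' d) (d p') (hi r p' p d) ∧
      Hi r n p = Hi r n p' * r p' * Hi r p' p := by
  obtain ⟨j, rfl⟩ := Nat.exists_eq_add_of_lt h
  obtain ⟨k, rfl⟩ := Nat.exists_eq_add_of_lt h'
  have e1 : p + j + 1 + k + 1 - (p + 1) = j + k + 1 := by omega
  have e2 : p + j + 1 - (p + 1) = j := by omega
  have e3 : p + j + 1 + k + 1 - (p + j + 1 + 1) = j + k + 1 - (j + 1) := by omega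
  have e4 : ∀ f : ℕ → ℕ, sh (j + 1) (sh (p + 1) f) = sh (p + j + 1 + 1) f := fun f => by
    funext i; simp only [sh]; congr 1; ring
  have e5 : ∀ f : ℕ → ℕ, sh (p + 1) f j = f (p + j + 1) := fun f => by
    simp only [sh]; congr 1; ring
  constructor
  · rw [hi, e1, enc_split (p := j) (by omega)]
    simp only [hi, Hi, e2, e3, e4, e5]
  · rw [Hi, e1, Lo_split (p := j) (by omega)]
    simp only [Hi, e2, e3, e4, e5]

lemma BT_Lo {R : ℕ → Ar → ℕ} (hR : ∀ j, BT (R j)) (p : ℕ) : BT fun a => Lo (fun j => R j a) p := by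
  induction p with
  | zero => exact (BT.const 1).congr fun _ => by simp [Lo]
  | succ p ih => exact (ih.mul (hR p)).congr fun _ => (Lo_succ _ _).symm

lemma BT_Hi {R : ℕ → Ar → ℕ} (hR : ∀ j, BT (R j)) (n p : ℕ) :
    BT fun a => Hi (fun j => R j a) n p := BT_Lo (R := fun j => R (p + 1 + j)) (fun _ => hR _) _

/-! ### index maps over `ZMod q` -/

def dig {q : ℕ} (Q : ℕ → Bool) (o : ℕ → ℕ) (z : ℕ → ZMod q) : ℕ → ℕ :=
  fun p => if Q p then (z p).val else o p

variable {X : Cx} {e : Cmd} {a : Ar} {q : ℕ}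

/-- shape data -/
structure Shp (a : Ar) (R : ℕ → Ar → ℕ) (n : ℕ) (Q : ℕ → Bool) (q : ℕ) : Prop where
  sm : Sm 10 a
  pos : 0 < Lo (fun j => R j a) n
  lt : 6 * Lo (fun j => R j a) n < 2 ^ a.z
  hq : ∀ p, Q p → R p a = q
  odd : q % 2 = 1

def PullZ (X : Cx) (e c : Cmd) (a : Ar) (R : ℕ → Ar → ℕ) (n : ℕ) (Q : ℕ → Bool) (q : ℕ)
    (θ : (ℕ → ZMod q) → ℕ → ZMod q) (t : ℕ) : Prop :=
  ∀ x, ∃ y, Acts X e c a (arr (Lo (fun j => R j a) n) x) (arr (Lo (fun j => R j a) n) y)
      (t * Lo (fun j => R j a) n) ∧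
    ∀ o : ℕ → ℕ, (∀ p < n, ¬ Q p → o p < R p a) → ∀ z,
      y (enc (fun j => R j a) n (dig Q o z)) = x (enc (fun j => R j a) n (dig Q o (θ z)))

variable {R : ℕ → Ar → ℕ} {n : ℕ} {Q : ℕ → Bool}

lemma Shp.ne (S : Shp a R n Q q) : NeZero q := ⟨by have := S.odd; omega⟩

lemma Shp.valid (S : Shp a R n Q q) {o : ℕ → ℕ} (ho : ∀ p < n, ¬ Q p → o p < R p a)
    (z : ℕ → ZMod q) : ∀ p < n, dig Q o z p < R p a := by
  intro p hp
  have := S.ne
  unfold dig
  split_ifs with h
  · rw [S.hq p h]; exact ZMod.val_lt _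
  · exact ho p hp h

lemma PullZ.of {c θ θ' t t'} (h : PullZ X e c a R n Q q θ t) (hθ : ∀ z, θ z = θ' z) (ht : t ≤ t') :
    PullZ X e c a R n Q q θ' t' := by
  intro x
  obtain ⟨y, h1, h2⟩ := h x
  exact ⟨y, h1.mono (Nat.mul_le_mul_right _ ht), fun o ho z => by rw [← hθ]; exact h2 o ho z⟩

lemma PullZ.skip (S : Shp a R n Q q) : PullZ X e skip a R n Q q (fun z => z) 1 := fun x =>
  ⟨x, (Acts.skip _).mono (by have := S.pos; omega), fun _ _ _ => rfl⟩

lemma PullZ.seq (S : Shp a R n Q q) {c c' θ θ' t t'} (h : PullZ X e c a R n Q q θ t)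
    (h' : PullZ X e c' a R n Q q θ' t') :
    PullZ X e (.seq c c') a R n Q q (fun z => θ (θ' z)) (t + t' + 1) := by
  intro x
  obtain ⟨y, h1, h2⟩ := h x
  obtain ⟨y', h1', h2'⟩ := h' y
  refine ⟨y', (h1.seq h1').mono ?_, fun o ho z => (h2' o ho z).trans (h2 o ho _)⟩
  have := S.pos
  rw [add_mul, add_mul]; omega

lemma dig_update (Q : ℕ → Bool) (o : ℕ → ℕ) (z : ℕ → ZMod q) {p : ℕ} (hp : Q p) (v : ZMod q) :
    dig Q o (update z p v) = update (dig Q o z) p v.val := by
  funext j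
  by_cases hj : j = p
  · subst hj; simp [dig, hp]
  · simp [dig, hj]

lemma base1 (S : Shp a R n Q q) {p : ℕ} (hp : p < n) (hQ : Q p) {c : Cmd} {t : ℕ}
    (φ : ℕ → ℕ → ℕ) (ψ : (ℕ → ZMod q) → ZMod q)
    (h : ∀ x, ∃ y, Acts X e c a
      (arr (Hi (fun j => R j a) n p * R p a * Lo (fun j => R j a) p) x)
      (arr (Hi (fun j => R j a) n p * R p a * Lo (fun j => R j a) p) y)
      (t * (Hi (fun j => R j a) n p * R p a * Lo (fun j => R j a) p)) ∧
      ∀ h < Hi (fun j => R j a) n p, ∀ α < R p a, ∀ l < Lo (fun j => R j a) p,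
        y (ix (R p a) (Lo (fun j => R j a) p) h α l) =
          x (ix (R p a) (Lo (fun j => R j a) p) h (φ h α) l))
    (hψ : ∀ o : ℕ → ℕ, (∀ p < n, ¬ Q p → o p < R p a) → ∀ z,
      φ (hi (fun j => R j a) n p (dig Q o z)) (z p).val = (ψ z).val) :
    PullZ X e c a R n Q q (fun z => update z p (ψ z)) t := by
  intro x
  obtain ⟨y, h1, h2⟩ := h x
  rw [← Lo_split (r := fun j => R j a) hp] at h1
  refine ⟨y, h1, fun o ho z => ?_⟩
  have hv := S.valid ho z
  have e0 : dig Q o z p = (z p).val := if_pos hQ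
  rw [enc_split hp, h2 _ (hi_lt hv) _ (hv p hp) _ (enc_lt fun j hj => hv j (by omega)), e0,
    hψ o ho z, dig_update _ _ _ hQ, enc_split hp, update_self,
    hi_congr (d := update _ _ _) (d' := dig Q o z) fun j hj => update_of_ne (by omega) _ _,
    enc_congr (d := update _ _ _) (d' := dig Q o z) fun j hj => update_of_ne (by omega) _ _]

def HiA (R : ℕ → Ar → ℕ) (n p : ℕ) (a : Ar) : ℕ := Hi (fun j => R j a) n p
def LoA (R : ℕ → Ar → ℕ) (p : ℕ) (a : Ar) : ℕ := Lo (fun j => R j a) p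

def dlt (R : ℕ → Ar → ℕ) (n p p' : ℕ) (c : Ar → ℕ) : Cmd :=
  lt (HiA R n p) (R p) (LoA R p) fun h a => c a * (h / HiA R p' p a % R p' a)

lemma dlt_ok (hR : ∀ j, BT (R j)) (n p p' : ℕ) {c : Ar → ℕ} (hc : BT c) : (dlt R n p p' c).ok := by
  have h1 : BT (HiA R p' p) := BT_Hi hR _ _
  have h2 := hR p'
  refine lt_ok (BT_Hi hR _ _) (hR _) (BT_Lo hR _) ?_
  unfold B1; fun_prop

lemma dlt_pull (S : Shp a R n Q q) {p p' : ℕ} (hp : p < p') (hp' : p' < n) (hQ : Q p) (hQ' : Q p')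
    (c : Ar → ℕ) : PullZ X e (dlt R n p p' c) a R n Q q
      (fun z => update z p (z p + (c a : ZMod q) * z p')) 2000 := by
  have := S.ne
  have e1 := Lo_split (r := fun j => R j a) (hp.trans hp')
  refine base1 S (hp.trans hp') hQ
    (fun h α => (α + c a * (h / HiA R p' p a % R p' a)) % R p a) _
    (fun x => lt_acts S.sm (e1 ▸ S.pos) (e1 ▸ S.lt) x) fun o ho z => ?_
  have hv := S.valid ho z
  have e0 : dig Q o z p' = (z p').val := if_pos hQ'
  rw [(hi_split hp hp' _).1, HiA, ix_mid (hv p' hp') (hi_lt fun j hj => hv j (by omega)), e0,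
    S.hq p hQ, ← ZMod.val_natCast]
  simp

def dng (R : ℕ → Ar → ℕ) (n p : ℕ) : Cmd := ng (HiA R n p) (R p) (LoA R p)
lemma dng_ok (hR : ∀ j, BT (R j)) (n p : ℕ) : (dng R n p).ok :=
  ng_ok (BT_Hi hR _ _) (hR _) (BT_Lo hR _)
lemma dng_pull (S : Shp a R n Q q) {p : ℕ} (hp : p < n) (hQ : Q p) :
    PullZ X e (dng R n p) a R n Q q (fun z => update z p (-z p)) 4000 := by
  have := S.ne
  have e1 := Lo_split (r := fun j => R j a) hp
  refine base1 S hp hQ (fun _ α => (R p a - α) % R p a) _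
    (fun x => ng_acts S.sm (e1 ▸ S.pos) (e1 ▸ S.lt) x) fun o ho z => ?_
  rw [S.hq p hQ, ZMod.neg_val']

/-- one half -/
def hf (q : ℕ) : ZMod q := (((q + 1) / 2 : ℕ) : ZMod q)

lemma two_hf (h : q % 2 = 1) : 2 * hf q = 1 := by
  have : 2 * ((q + 1) / 2) = q + 1 := by omega
  have h2 := congrArg (Nat.cast : ℕ → ZMod q) this
  simpa [hf] using h2

def dsc (R : ℕ → Ar → ℕ) (n p : ℕ) (inv : Bool) : Cmd :=
  if inv then pm (HiA R n p) (R p) (R p) (LoA R p) (fun _ α _ => decide (α % 2 = 0))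
    (fun _ α a => if α % 2 = 0 then α / 2 else (α + R p a) / 2)
  else pm (HiA R n p) (R p) (R p) (LoA R p) (fun _ α a => decide (2 * α < R p a))
    (fun _ α a => 2 * α % R p a)

lemma dsc_ok (hR : ∀ j, BT (R j)) (n p : ℕ) (inv : Bool) : (dsc R n p inv).ok := by
  have h2 := hR p
  unfold dsc
  split_ifs
  · refine pm_ok (BT_Hi hR _ _) h2 h2 (BT_Lo hR _) ?_ ?_
    · unfold P2; fun_prop
    · unfold B2; fun_prop
  · refine pm_ok (BT_Hi hR _ _) h2 h2 (BT_Lo hR _) ?_ ?_
    · unfold P2; fun_prop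
    · unfold B2; fun_prop

lemma dsc_pull (S : Shp a R n Q q) {p : ℕ} (hp : p < n) (hQ : Q p) (inv : Bool) :
    PullZ X e (dsc R n p inv) a R n Q q
      (fun z => update z p ((if inv then hf q else 2) * z p)) 2000 := by
  have := S.ne
  have e1 := Lo_split (r := fun j => R j a) hp
  have e2 := S.hq p hQ
  have e3 := S.odd
  have l1 := S.lt
  rw [e1] at l1
  cases inv
  · refine base1 S hp hQ (fun _ α => 2 * α % R p a) _ (fun x => ?_) fun o ho z => ?_
    · obtain ⟨y, h1, h2⟩ := pm_acts (e := e) (H := HiA R n p) (A := R p) (A' := R p) (L := LoA R p)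
        (p := fun _ α a => decide (2 * α < R p a)) (θ := fun _ α a => 2 * α % R p a) S.sm
        (e1 ▸ S.pos) (by simp only [HiA, LoA]; omega) (fun _ _ α hα => Nat.mod_lt _ (by omega))
        (fun _ _ α β h1 h2 h3 => by
          by_cases hb : 2 * β < R p a
          · rw [Nat.mod_eq_of_lt hb, Nat.mod_eq_of_lt (by omega)]; omega
          · have ha : ¬ 2 * α < R p a := by simpa [hb] using h3
            rw [Nat.mod_eq_sub_mod (by omega), Nat.mod_eq_sub_mod (a := 2 * β) (by omega),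
              Nat.mod_eq_of_lt (by omega), Nat.mod_eq_of_lt (by omega)]
            omega) x
      exact ⟨y, h1.mono (by simp only [HiA, LoA]; omega), h2⟩
    · rw [e2, ← ZMod.val_natCast]
      simp
  · refine base1 S hp hQ (fun _ α => if α % 2 = 0 then α / 2 else (α + R p a) / 2) _ (fun x => ?_)
      fun o ho z => ?_
    · obtain ⟨y, h1, h2⟩ := pm_acts (e := e) (H := HiA R n p) (A := R p) (A' := R p) (L := LoA R p)
        (p := fun _ α _ => decide (α % 2 = 0))
        (θ := fun _ α a => if α % 2 = 0 then α / 2 else (α + R p a) / 2) S.sm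
        (e1 ▸ S.pos) (by simp only [HiA, LoA]; omega)
        (fun _ _ α hα => by split_ifs <;> omega)
        (fun _ _ α β h1 h2 h3 => by
          have : α % 2 = 0 ↔ β % 2 = 0 := by simpa using h3
          split_ifs <;> omega) x
      exact ⟨y, h1.mono (by simp only [HiA, LoA]; omega), h2⟩
    · have hv := ZMod.val_lt (z p)
      have h2 := two_hf e3
      generalize hθ : (if (z p).val % 2 = 0 then (z p).val / 2 else ((z p).val + R p a) / 2) = θ
      have a1 : θ < q := by rw [← hθ]; split_ifs <;> omega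
      have a2 : 2 * θ = (z p).val ∨ 2 * θ = (z p).val + q := by rw [← hθ]; split_ifs <;> omega
      have a3 : (2 : ZMod q) * θ = z p := by
        rcases a2 with h | h <;> simpa using congrArg (Nat.cast : ℕ → ZMod q) h
      rw [if_pos rfl, ← a3, ← mul_assoc, mul_comm (hf q), h2, one_mul, ZMod.val_cast_of_lt a1]

def scl (R : ℕ → Ar → ℕ) (n p : ℕ) (neg inv : Bool) : ℕ → Cmd
  | 0 => if neg then dng R n p else skip
  | k + 1 => .seq (dsc R n p inv) (scl R n p neg inv k)

lemma scl_ok (hR : ∀ j, BT (R j)) (n p : ℕ) (neg inv : Bool) (k : ℕ) : (scl R n p neg inv k).ok := by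
  induction k with
  | zero => cases neg; exacts [trivial, dng_ok hR _ _]
  | succ k ih => exact ⟨dsc_ok hR _ _ _, ih⟩

lemma scl_pull (S : Shp a R n Q q) {p : ℕ} (hp : p < n) (hQ : Q p) (neg inv : Bool) (k : ℕ) :
    PullZ X e (scl R n p neg inv k) a R n Q q
      (fun z => update z p ((if neg then -1 else 1) * (if inv then hf q else 2) ^ k * z p))
      (4000 + 2001 * k) := by
  induction k with
  | zero =>
    cases neg
    · exact (PullZ.skip S).of (fun z => by simp) (by omega)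
    · exact (dng_pull S hp hQ).of (fun z => by simp) le_rfl
  | succ k ih =>
    refine (PullZ.seq S (dsc_pull S hp hQ inv) ih).of (fun z => ?_) (by omega)
    simp only [update_self, update_idem]
    congr 1; ring

/-- the residue of `c / 2 ^ k` -/
def cf (c : ℤ) (k q : ℕ) : ℕ := (if c < 0 then q - 1 else 1) * c.natAbs * ((q + 1) / 2) ^ k

lemma cf_cast (hq : q % 2 = 1) (c : ℤ) (k : ℕ) : (cf c k q : ZMod q) = c * hf q ^ k := by
  have h1 : ((q - 1 : ℕ) : ZMod q) = -1 := by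
    rw [Nat.cast_sub (by omega)]; simp
  have h2 : ((c.natAbs : ℕ) : ZMod q) = ((|c| : ℤ) : ZMod q) := by
    rw [← Int.natCast_natAbs, Int.cast_natCast]
  unfold cf hf
  split_ifs with h
  · push_cast [h1, h2, abs_of_neg h]; ring
  · push_cast [h2, abs_of_nonneg (not_lt.1 h)]; ring

def mlt {ι : Type} (R : ℕ → Ar → ℕ) (n : ℕ) (t s : ι → ℕ) (c : ι → ℤ) (k : ℕ) : List ι → Cmd
  | [] => skip
  | g :: l => .seq (if c g = 0 then skip else dlt R n (t g) (s g) fun a => cf (c g) k (R (t g) a))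
      (mlt R n t s c k l)

lemma mlt_ok {ι : Type} (hR : ∀ j, BT (R j)) (n : ℕ) (t s : ι → ℕ) (c : ι → ℤ) (k : ℕ)
    (l : List ι) : (mlt R n t s c k l).ok := by
  induction l with
  | nil => trivial
  | cons g l ih =>
    refine ⟨?_, ih⟩
    split_ifs
    · trivial
    · refine dlt_ok hR _ _ _ ?_
      have := hR (t g)
      unfold cf
      split_ifs <;> fun_prop

lemma mlt_pull {ι : Type} (S : Shp a R n Q q) (t s : ι → ℕ) (c : ι → ℤ) (k : ℕ)
    (h1 : ∀ g, c g ≠ 0 → Q (t g) ∧ Q (s g) ∧ t g < s g ∧ s g < n)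
    (h2 : ∀ g g', c g ≠ 0 → c g' ≠ 0 → t g ≠ s g') (l : List ι) :
    PullZ X e (mlt R n t s c k l) a R n Q q
      (fun z p => z p + (l.map fun g => if t g = p then c g * hf q ^ k * z (s g) else 0).sum)
      (2001 * l.length + 1) := by
  induction l with
  | nil => exact (PullZ.skip S).of (fun z => by simp) (by simp)
  | cons g l ih =>
    by_cases hg : c g = 0
    · rw [mlt, if_pos hg]
      exact (PullZ.seq S (PullZ.skip S) ih).of (fun z => by simp [hg])
        (by rw [List.length_cons]; omega)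
    · rw [mlt, if_neg hg]
      obtain ⟨a1, a2, a3, a4⟩ := h1 g hg
      refine (PullZ.seq S (dlt_pull S a3 a4 a1 a2 _) ih).of (fun z => ?_)
        (by rw [List.length_cons]; omega)
      have e0 : (l.map fun g' => if t g' = s g then c g' * hf q ^ k * z (s g') else 0).sum = 0 := by
        refine List.sum_eq_zero fun x hx => ?_
        obtain ⟨g', _, rfl⟩ := List.mem_map.1 hx
        by_cases hg' : c g' = 0
        · simp [hg']
        · rw [if_neg (h2 g' g hg' hg)]
      rw [S.hq _ a1, cf_cast S.odd]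
      beta_reduce
      rw [e0]
      funext p
      by_cases hp : p = t g
      · subst hp
        simp only [update_self, List.map_cons, List.sum_cons, if_true]; ring
      · rw [update_of_ne hp, List.map_cons, List.sum_cons, if_neg (Ne.symm hp), zero_add]

def mng (R : ℕ → Ar → ℕ) (n : ℕ) : ℕ → Cmd
  | 0 => skip
  | k + 1 => .seq (dng R n (k + 1)) (mng R n k)

lemma mng_ok (hR : ∀ j, BT (R j)) (n k : ℕ) : (mng R n k).ok := by
  induction k with
  | zero => trivial
  | succ k ih => exact ⟨dng_ok hR _ _, ih⟩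

lemma mng_pull (S : Shp a R n Q q) (k : ℕ) (hk : k < n) (hQ : ∀ p, 1 ≤ p → p ≤ k → Q p) :
    PullZ X e (mng R n k) a R n Q q (fun z p => if 1 ≤ p ∧ p ≤ k then -z p else z p)
      (4001 * k + 1) := by
  induction k with
  | zero => exact (PullZ.skip S).of (fun z => by
      funext p; rw [if_neg (by omega)]) (by simp)
  | succ k ih =>
    refine (PullZ.seq S (dng_pull S hk (hQ _ (by omega) le_rfl))
      (ih (by omega) fun p h1 h2 => hQ p h1 (by omega))).of (fun z => ?_) (by omega)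
    funext p
    by_cases hp : p = k + 1
    · subst hp; simp
    · rw [update_of_ne hp]
      exact if_congr (by omega) rfl rfl

/-- the specification of the recursive command -/
def SwapSpec (X : Cx) (e : Cmd) (z E q t H M L : ℕ) : Prop :=
  ∀ x, ∃ y, Acts X e e ⟨z, [H, E, M, L]⟩ (arr (H * q * M * q * L) x) (arr (H * q * M * q * L) y)
      (t * (H * q * M * q * L)) ∧
    ∀ h < H, ∀ α < q, ∀ μ < M, ∀ β < q, ∀ l < L, y (ix5 q M q L h α μ β l) = x (ix5 q M q L h β μ α l)

def dsw (R : ℕ → Ar → ℕ) (E : Ar → ℕ) (n p p' : ℕ) : Cmd :=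
  .arg (fun a => [HiA R n p' a, E a, HiA R p' p a, LoA R p a]) .self

lemma dsw_ok (hR : ∀ j, BT (R j)) {E : Ar → ℕ} (hE : BT E) (n p p' : ℕ) : (dsw R E n p p').ok := by
  have h1 : BT (HiA R n p') := BT_Hi hR _ _
  have h2 : BT (HiA R p' p) := BT_Hi hR _ _
  have h3 : BT (LoA R p) := BT_Lo hR _
  exact ⟨by fun_prop, trivial⟩

lemma dsw_pull (S : Shp a R n Q q) {p p' : ℕ} (hp : p < p') (hp' : p' < n) (hQ : Q p) (hQ' : Q p')
    {E : Ar → ℕ} (hE : E a < 2 ^ a.z) {t : ℕ}
    (ih : ∀ H M L, H * q * M * q * L = Lo (fun j => R j a) n → SwapSpec X e a.z (E a) q t H M L) :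
    PullZ X e (dsw R E n p p') a R n Q q (fun z => update (update z p' (z p)) p (z p')) (t + 2) := by
  intro x
  have e1 : HiA R n p' a * q * HiA R p' p a * q * LoA R p a = Lo (fun j => R j a) n := by
    rw [Lo_split (hp.trans hp'), (hi_split hp hp' fun _ => 0).2, S.hq p hQ, S.hq p' hQ']; rfl
  obtain ⟨y, h1, h2⟩ := ih _ _ _ e1 x
  have h0 := S.pos
  have hl := S.lt
  have b : ∀ {u v w : ℕ}, u * v * w = Lo (fun j => R j a) n → v < 2 ^ a.z := by
    intro u v w h
    rw [← h] at h0 hl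
    have := Nat.le_mul_of_pos_left v (Nat.pos_of_mul_pos_right (Nat.pos_of_mul_pos_right h0))
    have := Nat.le_mul_of_pos_right (u * v) (Nat.pos_of_mul_pos_left h0)
    omega
  rw [e1] at h1
  refine ⟨y, (Acts.arg (a' := ⟨a.z, _⟩) rfl ⟨?_, ?_⟩ h1.self).mono (by rw [add_mul]; omega),
    fun o ho z => ?_⟩
  · have := S.sm.1; simp; omega
  · simp only [List.mem_cons, List.not_mem_nil, or_false]
    rintro v (rfl | rfl | rfl | rfl)
    · exact b (u := 1) (w := q * HiA R p' p a * q * LoA R p a) (by rw [← e1]; ring)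
    · exact hE
    · exact b (u := HiA R n p' a * q) (w := q * LoA R p a) (by rw [← e1]; ring)
    · exact b (u := HiA R n p' a * q * HiA R p' p a * q) (w := 1) (by rw [← e1]; ring)
  · have hv := S.valid ho z
    have := S.ne
    have sp : ∀ d : ℕ → ℕ, enc (fun j => R j a) n d = ix5 q (HiA R p' p a) q (LoA R p a)
        (hi (fun j => R j a) n p' d) (d p') (hi (fun j => R j a) p' p d) (d p)
        (enc (fun j => R j a) p d) := fun d => by
      rw [enc_split (hp.trans hp'), (hi_split hp hp' d).1, S.hq p hQ, S.hq p' hQ']; rfl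
    have e0 : dig Q o z p = (z p).val := if_pos hQ
    have e0' : dig Q o z p' = (z p').val := if_pos hQ'
    rw [sp, h2 _ (hi_lt hv) _ (by rw [e0']; exact ZMod.val_lt _) _
      (hi_lt fun j hj => hv j (by omega)) _ (by rw [e0]; exact ZMod.val_lt _) _
      (enc_lt fun j hj => hv j (by omega)), sp, dig_update _ _ _ hQ, dig_update _ _ _ hQ',
      update_self, update_of_ne hp.ne', update_self, e0, e0']
    congr 2
    · exact hi_congr fun j hj => by rw [update_of_ne (by omega), update_of_ne (by omega)]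
    · exact enc_congr fun j hj => by
        simp only [sh]; rw [update_of_ne (by omega), update_of_ne (by omega)]
    · exact enc_congr fun j hj => by rw [update_of_ne (by omega), update_of_ne (by omega)]

end Vale.Agent.P338.TrP
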