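import Vale.Agent.P338.TransB
import Vale.Agent.P338.NetDefs
import Vale.Agent.P338.Ring

/-! One move of the transposition network, and the simulation of the network. -/

namespace Vale.Agent.P338.TrP

open Function Finset Vale.Agent.PT Vale.Agent.P320

variable {m : ℕ}

def xp (g : Fin m) : ℕ := 1 + m + 1 + g
def yp (j : Fin m) : ℕ := 1 + j
def n0 (m : ℕ) : ℕ := 1 + m + 1 + m
def QQ (m : ℕ) (p : ℕ) : Bool := decide (p ≠ 0 ∧ p ≠ 1 + m ∧ p ≠ n0 m)

@[simp] lemma xp_inj {g g' : Fin m} : xp g = xp g' ↔ g = g' := by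
  simp [xp, Fin.ext_iff]
@[simp] lemma yp_inj {g g' : Fin m} : yp g = yp g' ↔ g = g' := by
  simp [yp, Fin.ext_iff]
lemma yp_lt_xp (g j : Fin m) : yp j < xp g := by simp only [xp, yp]; omega
@[simp] lemma xp_ne_yp (g j : Fin m) : ¬ xp g = yp j := (yp_lt_xp g j).ne'
@[simp] lemma yp_ne_xp (g j : Fin m) : ¬ yp j = xp g := (yp_lt_xp g j).ne
lemma Q_xp (g : Fin m) : QQ m (xp g) := decide_eq_true (by
  have := g.2; simp only [xp, n0]; omega)
lemma Q_yp (g : Fin m) : QQ m (yp g) := decide_eq_true (by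
  have := g.2; simp only [yp, n0]; omega)
lemma xp_lt (g : Fin m) : xp g < n0 m + 1 := by simp only [xp, n0]; omega

/-- the index map of the frame `A` -/
def shz {q : ℕ} (A : Mx m) (z : ℕ → ZMod q) : ℕ → ZMod q :=
  fun p => z p + ∑ g, if xp g = p then ∑ j, (A g j : ZMod q) * hf q ^ 3 * z (yp j) else 0

lemma shz_yp {q : ℕ} (A : Mx m) (z : ℕ → ZMod q) (j : Fin m) : shz A z (yp j) = z (yp j) := by
  simp [shz]

lemma shz_zero {q : ℕ} (z : ℕ → ZMod q) : shz (0 : Mx m) z = z := by
  funext p; simp [shz]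

lemma shz_add {q : ℕ} (A B : Mx m) (z : ℕ → ZMod q) : shz (A + B) z = shz B (shz A z) := by
  funext p
  rw [shz, shz]
  simp only [shz_yp]
  rw [shz, add_assoc, ← sum_add_distrib]
  congr 1
  refine sum_congr rfl fun g _ => ?_
  split_ifs
  · simp [add_mul, sum_add_distrib]
  · simp

def mvK (m : ℕ) : ℕ := 10000 * m + 50000

lemma sum_finRange {M : Type} [AddCommMonoid M] (f : Fin m → M) :
    ((List.finRange m).map f).sum = ∑ g, f g := (Fin.sum_univ_def f).symm

lemma exists_move {A : Mx m} {p : Bool} (hA : GenT A p) :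
    ∃ c : (ℕ → Ar → ℕ) → (Ar → ℕ) → Cmd, (∀ R E, (∀ j, BT (R j)) → BT E → (c R E).ok) ∧
      ∀ (X : Cx) (e : Cmd) (a : Ar) (R : ℕ → Ar → ℕ) (E : Ar → ℕ) (q t : ℕ),
        Shp a R (n0 m + 1) (QQ m) q → E a < 2 ^ a.z →
        (∀ H M L, H * q * M * q * L = Lo (fun j => R j a) (n0 m + 1) →
          SwapSpec X e a.z (E a) q t H M L) →
        PullZ X e (c R E) a R (n0 m + 1) (QQ m) q (shz A) (t + mvK m) := by
  obtain ⟨-, u, v, rfl, hu, hv⟩ := hA
  by_cases h0 : u = 0 ∨ v = 0
  · refine ⟨fun _ _ => skip, fun _ _ _ _ => trivial, fun X e a R E q t S _ _ =>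
      (PullZ.skip S).of (fun z => ?_) (by unfold mvK; omega)⟩
    rcases h0 with rfl | rfl <;> simp [shz_zero]
  push Not at h0
  obtain ⟨g0, hg0, mg0⟩ := exists_max_image (univ.filter fun g => u g ≠ 0) id (by
    obtain ⟨g, hg⟩ := Function.ne_iff.1 h0.1
    exact ⟨g, by simpa using hg⟩)
  obtain ⟨g1, hg1, mg1⟩ := exists_min_image (univ.filter fun g => v g ≠ 0) id (by
    obtain ⟨g, hg⟩ := Function.ne_iff.1 h0.2
    exact ⟨g, by simpa using hg⟩)
  simp only [mem_filter, mem_univ, true_and, id] at hg0 mg0 hg1 mg1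
  have hu0 : u g0 * u g0 = 1 := by rcases hu g0 with h | h | h <;> simp_all
  obtain ⟨ng, k, e0, hk, hb⟩ : ∃ (ng : Bool) (k e0 : ℕ), e0 + k = 3 ∧
      u g0 * v g1 = (if ng then -1 else 1) * 2 ^ e0 := by
    obtain ⟨e0, he0, h⟩ := (hv g1).resolve_left hg1
    rcases (hu g0).resolve_left hg0 with h' | h' <;> rcases h with h | h
    · exact ⟨false, 3 - e0, e0, by omega, by simp [h, h']⟩
    · exact ⟨true, 3 - e0, e0, by omega, by simp [h, h']⟩
    · exact ⟨true, 3 - e0, e0, by omega, by simp [h, h']⟩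
    · exact ⟨false, 3 - e0, e0, by omega, by simp [h, h']⟩
  obtain ⟨w, hw⟩ : ∃ w : ℤ, w = (if ng then -1 else 1) * 2 ^ k := ⟨_, rfl⟩
  let cx : ℤ → Fin m → ℤ := fun ε g => if g = g0 then 0 else ε * (u g0 * u g)
  let cy : ℤ → Fin m → ℤ := fun ε j => if j = g1 then 0 else ε * (w * (u g0 * v j))
  refine ⟨fun R E => .seq (mlt R (n0 m + 1) xp (fun _ => xp g0) (cx 1) 0 (List.finRange m))
    (.seq (mlt R (n0 m + 1) (fun _ => yp g1) yp (cy (-1)) 3 (List.finRange m))
    (.seq (mlt R (n0 m + 1) (fun _ => yp g1) (fun _ => xp g0) (fun _ => w) 0 [()])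
    (.seq (scl R (n0 m + 1) (xp g0) ng true k) (.seq (scl R (n0 m + 1) (yp g1) (!ng) false k)
    (.seq (dsw R E (n0 m + 1) (yp g1) (xp g0))
    (.seq (mlt R (n0 m + 1) (fun _ => yp g1) (fun _ => xp g0) (fun _ => w) 0 [()])
    (.seq (mlt R (n0 m + 1) (fun _ => yp g1) yp (cy 1) 3 (List.finRange m))
      (mlt R (n0 m + 1) xp (fun _ => xp g0) (cx (-1)) 0 (List.finRange m))))))))),
    fun R E hR hE => ⟨mlt_ok hR _ _ _ _ _ _, mlt_ok hR _ _ _ _ _ _, mlt_ok hR _ _ _ _ _ _,
      scl_ok hR _ _ _ _ _, scl_ok hR _ _ _ _ _, dsw_ok hR hE _ _ _, mlt_ok hR _ _ _ _ _ _,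
      mlt_ok hR _ _ _ _ _ _, mlt_ok hR _ _ _ _ _ _⟩, fun X e a R E q t S hE ih => ?_⟩
  have px : ∀ ε, PullZ X e (mlt R (n0 m + 1) xp (fun _ => xp g0) (cx ε) 0 (List.finRange m)) a R
      (n0 m + 1) (QQ m) q (fun z p => z p + ∑ g, if xp g = p then cx ε g * z (xp g0) else 0)
      (2001 * m + 1) := fun ε => by
    have hc : ∀ g, cx ε g ≠ 0 → g < g0 := fun g hg => by
      by_cases h : g = g0
      · simp [cx, h] at hg
      · exact lt_of_le_of_ne (mg0 g fun hh => by simp [cx, hh] at hg) h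
    refine (mlt_pull S xp (fun _ => xp g0) (cx ε) 0 (fun g hg => ⟨Q_xp _, Q_xp _, ?_, xp_lt _⟩)
      (fun g _ hg _ => by simpa using (hc g hg).ne) _).of (fun z => ?_) (by simp)
    · have := hc g hg
      simp only [xp]; omega
    · simp only [sum_finRange, pow_zero, mul_one]
  have py : ∀ ε, PullZ X e (mlt R (n0 m + 1) (fun _ => yp g1) yp (cy ε) 3 (List.finRange m)) a R
      (n0 m + 1) (QQ m) q
      (fun z => update z (yp g1) (z (yp g1) + ∑ j, cy ε j * hf q ^ 3 * z (yp j)))
      (2001 * m + 1) := fun ε => by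
    have hc : ∀ g, cy ε g ≠ 0 → g1 < g := fun g hg => by
      by_cases h : g = g1
      · simp [cy, h] at hg
      · exact lt_of_le_of_ne (mg1 g fun hh => by simp [cy, hh] at hg) (Ne.symm h)
    refine (mlt_pull S (fun _ => yp g1) yp (cy ε) 3
      (fun g hg => ⟨Q_yp _, Q_yp _, ?_, (yp_lt_xp g0 g).trans (xp_lt _)⟩)
      (fun _ g _ hg => by simpa using (hc g hg).ne) _).of (fun z => ?_) (by simp)
    · have := hc g hg
      simp only [yp]; omega
    · funext p
      by_cases hp : p = yp g1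
      · subst hp; simp [sum_finRange]
      · simp [hp, Ne.symm hp]
  have pl : PullZ X e (mlt R (n0 m + 1) (fun _ => yp g1) (fun _ => xp g0) (fun _ => w) 0 [()]) a R
      (n0 m + 1) (QQ m) q (fun z => update z (yp g1) (z (yp g1) + w * z (xp g0))) 2002 := by
    refine (mlt_pull S (fun _ => yp g1) (fun _ => xp g0) (fun _ => w) 0
      (fun _ _ => ⟨Q_yp _, Q_xp _, yp_lt_xp _ _, xp_lt _⟩) (fun _ _ _ _ => by simp) _).of
      (fun z => ?_) (by simp)
    funext p
    by_cases hp : p = yp g1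
    · subst hp; simp
    · simp [hp, Ne.symm hp]
  obtain ⟨U, hU⟩ : ∃ U : ZMod q, U = (if ng then -1 else 1) * hf q ^ k := ⟨_, rfl⟩
  have h2 := two_hf S.odd
  have hUw : U * w = 1 := by
    have : hf q ^ k * 2 ^ k = 1 := by rw [← mul_pow, mul_comm, h2, one_pow]
    rw [hU, hw]; cases ng <;> simpa using this
  have hUb : ((u g0 * v g1 : ℤ) : ZMod q) * hf q ^ 3 = U := by
    have : 2 ^ e0 * hf q ^ e0 = 1 := by rw [← mul_pow, h2, one_pow]
    rw [hb, hU, ← hk, pow_add]
    cases ng <;> simp [← mul_assoc, this]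
  have s1 : PullZ X e (scl R (n0 m + 1) (xp g0) ng true k) a R (n0 m + 1) (QQ m) q
      (fun z => update z (xp g0) (U * z (xp g0))) 11000 :=
    (scl_pull S (xp_lt g0) (Q_xp _) ng true k).of (fun z => by simp [hU]) (by omega)
  have s2 : PullZ X e (scl R (n0 m + 1) (yp g1) (!ng) false k) a R (n0 m + 1) (QQ m) q
      (fun z => update z (yp g1) (-w * z (yp g1))) 11000 :=
    (scl_pull S ((yp_lt_xp g0 g1).trans (xp_lt g0)) (Q_yp _) (!ng) false k).of
      (fun z => by rw [hw]; cases ng <;> simp) (by omega)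
  have sw := dsw_pull S (yp_lt_xp g0 g1) (xp_lt g0) (Q_yp _) (Q_xp _) hE ih
  have mid := (PullZ.seq S pl (PullZ.seq S s1 (PullZ.seq S s2 (PullZ.seq S sw
    (PullZ.seq S pl (PullZ.seq S (py 1) (px (-1)))))))).of
    (θ' := fun z : ℕ → ZMod q => update (update (fun p => z p + ∑ g, if xp g = p then (cx (-1) g : ZMod q) * z (xp g0)
      else 0) (yp g1) (z (yp g1) + ∑ j, (cy 1 j : ZMod q) * hf q ^ 3 * z (yp j))) (xp g0)
      (z (xp g0) + U * (z (yp g1) + ∑ j, (cy 1 j : ZMod q) * hf q ^ 3 * z (yp j)))) (fun z => by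
      have e1 : cx (-1) g0 = 0 := by simp [cx]
      funext p
      by_cases hp : p = yp g1
      · subst hp
        simp [update_of_ne, e1]
        linear_combination (z (yp g1) + ∑ j, (cy 1 j : ZMod q) * hf q ^ 3 * z (yp j) + w * z (xp g0)) * hUw
      · by_cases hp' : p = xp g0
        · subst hp'
          simp [update_of_ne, e1]
          linear_combination z (xp g0) * hUw
        · simp [hp, hp']) le_rfl
  refine (PullZ.seq S (px 1) (PullZ.seq S (py (-1)) mid)).of (fun z => ?_) (by unfold mvK; omega)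
  have hs : U * (z (yp g1) + ∑ j, (cy 1 j : ZMod q) * hf q ^ 3 * z (yp j)) =
      ∑ j, ((u g0 * v j : ℤ) : ZMod q) * hf q ^ 3 * z (yp j) := by
    rw [mul_add, mul_sum, ← add_sum_erase _ _ (mem_univ g1), ← add_sum_erase _ _ (mem_univ g1),
      hUb]
    simp only [cy, if_true, Int.cast_zero, zero_mul, mul_zero, zero_add]
    congr 1
    refine sum_congr rfl fun j hj => ?_
    rw [if_neg (ne_of_mem_erase hj)]
    push_cast
    linear_combination (u g0 * v j * hf q ^ 3 * z (yp j)) * hUw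
  have hu0' : (u g0 : ZMod q) * u g0 = 1 := by exact_mod_cast congrArg (Int.cast : ℤ → ZMod q) hu0
  have hs' : ∀ g, ∑ j, ((Matrix.vecMulVec u v g j : ℤ) : ZMod q) * hf q ^ 3 * z (yp j) =
      u g0 * u g * ∑ j, ((u g0 * v j : ℤ) : ZMod q) * hf q ^ 3 * z (yp j) := fun g => by
    rw [mul_sum]
    refine sum_congr rfl fun j _ => ?_
    simp only [Matrix.vecMulVec_apply]
    push_cast
    linear_combination (-(u g * v j * hf q ^ 3 * z (yp j))) * hu0'
  rw [hs]
  funext p
  simp only [shz, hs']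
  generalize ∑ j, ((u g0 * v j : ℤ) : ZMod q) * hf q ^ 3 * z (yp j) = s
  by_cases hp : p = yp g1
  · subst hp
    have : ∀ j, (cy (-1) j : ZMod q) * hf q ^ 3 * update (fun p => z p) (yp g1)
        (z (yp g1) + ∑ j, (cy 1 j : ZMod q) * hf q ^ 3 * z (yp j)) (yp j) =
        -((cy 1 j : ZMod q) * hf q ^ 3 * z (yp j)) := fun j => by
      by_cases hj : j = g1
      · simp [cy, hj]
      · simp [cy, hj]
    simp [update_of_ne, update_apply] at this ⊢
    simp [this]
  · by_cases hp' : ∃ g : Fin m, xp g = p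
    · obtain ⟨g, rfl⟩ := hp'
      by_cases hg : g = g0
      · subst hg
        simp [cx, update_of_ne, hu0']
      · simp [cx, update_of_ne, hg]
        ring
    · push Not at hp'
      simp [hp, hp', Ne.symm (hp' g0)]

/-! ### the network -/

abbrev VV (q : ℕ) := (ℕ → ℕ) × (ℕ → ZMod q) → Bool × ℕ → ZMod 2

def frz (q : ℕ) (A : Mx m) : Module.End (ZMod 2) (VV q) :=
  LinearMap.funLeft (ZMod 2) (Bool × ℕ → ZMod 2) fun oz => (oz.1, shz A oz.2)

lemma frz_zero (q : ℕ) : frz q (0 : Mx m) = 1 := by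
  ext v oz i; simp [frz, shz_zero]

lemma frz_add (q : ℕ) (A B : Mx m) : frz q (A + B) = frz q A * frz q B := by
  ext v oz i; simp [frz, shz_add]

def Rep {b : ℕ} (W m : ℕ) (r : ℕ → ℕ) (q : ℕ) (x : ℕ → Rec b) (v : Fin W → VV q) : Prop :=
  ∀ i : Fin W, ∀ o : ℕ → ℕ, (∀ p < n0 m + 1, ¬ QQ m p → o p < r p) → ∀ z,
    bv (x (ix W (Lo r (n0 m)) (o (n0 m)) i (enc r (n0 m) (dig (QQ m) o z)))) = v i (o, z)

lemma not_Q_n0 : ¬ QQ m (n0 m) := by simp [QQ]

lemma exists_net {W : ℕ} (l : List (Step W m)) (hl : ∀ s ∈ l, s.ok GenT) :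
    ∃ c : (ℕ → Ar → ℕ) → (Ar → ℕ) → Cmd, (∀ R E, (∀ j, BT (R j)) → BT E → (c R E).ok) ∧
      ∀ (X : Cx) (e : Cmd) (a : Ar) (R : ℕ → Ar → ℕ) (E : Ar → ℕ) (q t : ℕ),
        Shp a R (n0 m + 1) (QQ m) q → E a < 2 ^ a.z →
        (∀ H M L, H * q * M * q * L = Lo (fun j => R j a) (n0 m + 1) →
          SwapSpec X e a.z (E a) q t H M L) →
        6 * (R (n0 m) a * W * LoA R (n0 m) a) < 2 ^ a.z → 0 < W →
        ∀ x v, Rep W m (fun j => R j a) q x v → ∃ y,
          Acts X e (c R E) a (arr (R (n0 m) a * W * LoA R (n0 m) a) x)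
            (arr (R (n0 m) a * W * LoA R (n0 m) a) y)
            (l.length * (mvK m + 4001) * (R (n0 m) a * W * LoA R (n0 m) a) +
              paid l * t * (R (n0 m) a * LoA R (n0 m) a) + 1) ∧
          Rep W m (fun j => R j a) q y (runAll 1 (frz q) l v) := by
  induction l with
  | nil => exact ⟨fun _ _ => skip, fun _ _ _ _ => trivial, fun X e a R E q t _ _ _ _ _ x v h =>
      ⟨x, (Acts.skip _).mono (by omega), h⟩⟩
  | cons s l ih =>
    obtain ⟨c, ok, hc⟩ := ih fun s hs => hl s (by simp [hs])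
    have hs := hl s (by simp)
    cases s with
    | gate i j ng =>
      refine ⟨fun R E => .seq (gate (R (n0 m)) (fun _ => W) (LoA R (n0 m)) (fun _ => i) (fun _ => j)
        .xor) (c R E), fun R E hR hE => ⟨gate_ok (hR _) (BT.const _) (BT_Lo hR _) (BT.const _)
          (BT.const _), ok R E hR hE⟩, fun X e a R E q t S hE ih hn hW x v h => ?_⟩
      have h0 : 0 < R (n0 m) a * W * LoA R (n0 m) a := by
        have := S.pos
        rw [Lo_succ] at this
        exact Nat.mul_pos (Nat.mul_pos (Nat.pos_of_mul_pos_left this) hW)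
          (Nat.pos_of_mul_pos_right this)
      obtain ⟨y, h1, h2⟩ := gate_acts (e := e) (H := R (n0 m)) (A := fun _ => W) (L := LoA R (n0 m))
        (i := fun _ => i) (j := fun _ => j) (o := .xor) S.sm h0 hn j.2 rfl x
      obtain ⟨y', h3, h4⟩ := hc X e a R E q t S hE ih hn hW y
        ((Step.gate i j ng).run 1 (frz q) v) (by
          intro i' o ho z
          have hv := S.valid ho z
          have := h2 _ (ho _ (Nat.lt_succ_self _) not_Q_n0) i' i'.2 _
            (enc_lt (r := fun j => R j a) (n := n0 m) fun j hj => hv j (by omega))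
          refine (congrArg bv this).trans ?_
          by_cases hi : i' = i
          · subst hi
            have e1 : (if ng then -1 else 1 : ZMod 2) = 1 := by cases ng <;> rfl
            rw [if_pos rfl, bv_xor]
            simp only [Step.run, update_self, e1, one_smul, Pi.add_apply]
            exact congrArg₂ _ (h i' o ho z) (h j o ho z)
          · rw [if_neg (fun hh => hi (Fin.ext hh))]
            simp only [Step.run, update_of_ne hi]
            exact h i' o ho z)
      refine ⟨y', (h1.seq h3).mono ?_, h4⟩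
      have : paid (Step.gate i j ng :: l) = paid l := by simp [paid, Step.isPaid]
      rw [this, List.length_cons]
      nlinarith
    | move i A p =>
      obtain ⟨mv, mok, hmv⟩ := exists_move hs
      refine ⟨fun R E => .seq (focus (R (n0 m)) (fun _ => W) (LoA R (n0 m)) (fun _ => i) (fun _ => 1)
        (mv R E)) (c R E), fun R E hR hE => ⟨focus_ok (hR _) (BT.const _) (BT_Lo hR _) (BT.const _)
          (BT.const _) (mok R E hR hE), ok R E hR hE⟩, fun X e a R E q t S hE ih hn hW x v h => ?_⟩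
      have e1 : R (n0 m) a * 1 * LoA R (n0 m) a = Lo (fun j => R j a) (n0 m + 1) := by
        rw [Lo_succ, LoA]; ring
      obtain ⟨x', h1, h2⟩ := focus_acts (e := e) (H := R (n0 m)) (A := fun _ => W)
        (L := LoA R (n0 m)) (B := fun _ => i) (n := fun _ => 1) (c := mv R E) S.sm (e1 ▸ S.pos) hn
        i.2 x
      obtain ⟨y0, h3, h4⟩ := hmv X e a R E q t S hE ih x'
      obtain ⟨y, h5, h6⟩ := h2 y0 _ (e1 ▸ h3)
      have e2 : ∀ o z, enc (fun j => R j a) (n0 m + 1) (dig (QQ m) o z) =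
          ix 1 (LoA R (n0 m) a) (o (n0 m)) 0 (enc (fun j => R j a) (n0 m) (dig (q := q) (QQ m) o z)) := by
        intro o z
        rw [enc_succ, dig, if_neg not_Q_n0, ix, LoA]; ring
      obtain ⟨y', h7, h8⟩ := hc X e a R E q t S hE ih hn hW y
        ((Step.move i A p).run 1 (frz q) v) (by
          intro i' o ho z
          have hlt := fun z => enc_lt (r := fun j => R j a) (n := n0 m)
            fun j hj => S.valid ho z j (by omega)
          have ho' := ho _ (Nat.lt_succ_self _) not_Q_n0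
          have := h6 _ ho' i' i'.2 _ (hlt z)
          refine (congrArg bv this).trans ?_
          by_cases hi : i' = i
          · subst hi
            rw [if_pos (by omega), Nat.sub_self, ← e2, h4 o ho z, e2, h1 _ ho' 0 (by omega) _ (hlt _)]
            simp only [Step.run, update_self]
            exact h i' o ho _
          · rw [if_neg (fun hh => hi (Fin.ext (by omega)))]
            simp only [Step.run, update_of_ne hi]
            exact h i' o ho z)
      refine ⟨y', (h5.seq h7).mono ?_, h8⟩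
      have hp : p = true := hs.1
      have : paid (Step.move i A p :: l) = paid l + 1 := by
        subst hp; exact List.countP_cons_of_pos rfl
      rw [this, List.length_cons]
      have h0 := S.pos
      rw [← e1, mul_one] at h0
      have h9 : R (n0 m) a * LoA R (n0 m) a ≤ R (n0 m) a * W * LoA R (n0 m) a := by
        rw [mul_right_comm]; exact Nat.le_mul_of_pos_right _ hW
      have := Nat.mul_le_mul_left (mvK m) h9
      rw [mul_one]
      generalize R (n0 m) a * W * LoA R (n0 m) a = N at *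
      generalize R (n0 m) a * LoA R (n0 m) a = N1 at *
      nlinarith

end Vale.Agent.P338.TrP
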