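import Vale.Agent.P338.TransC
import Vale.Agent.P338.Net

/-! The recursive transposition of two fields of length `3 ^ e`. -/

namespace Vale.Agent.P338.TrP

open Function Finset Vale.Agent.PT Vale.Agent.P320

variable {m : ℕ}

def RR (m : ℕ) (H M L q : Ar → ℕ) (p : ℕ) : Ar → ℕ :=
  if p = 0 then L else if p = 1 + m then M else if p = n0 m then H else q

lemma RR_BT {H M L q : Ar → ℕ} (h1 : BT H) (h2 : BT M) (h3 : BT L) (h4 : BT q) (p : ℕ) :
    BT (RR m H M L q p) := by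
  unfold RR; split_ifs <;> assumption

lemma RR_top (H M L q : Ar → ℕ) : RR m H M L q (n0 m) = H := by
  unfold RR n0; rw [if_neg (by omega), if_neg (by omega), if_pos rfl]
lemma RR_zero (H M L q : Ar → ℕ) : RR m H M L q 0 = L := if_pos rfl
lemma RR_mid (H M L q : Ar → ℕ) : RR m H M L q (1 + m) = M := by
  unfold RR; rw [if_neg (by omega), if_pos rfl]
lemma RR_Q (H M L q : Ar → ℕ) {p : ℕ} (h : QQ m p) : RR m H M L q p = q := by
  obtain ⟨h1, h2, h3⟩ := of_decide_eq_true h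
  unfold RR; rw [if_neg h1, if_neg h2, if_neg h3]
lemma Q_lo {j : ℕ} (h : j < m) : QQ m (1 + j) := decide_eq_true (by unfold n0; omega)
lemma Q_hi {j : ℕ} (h : j < m) : QQ m (1 + m + 1 + j) := decide_eq_true (by unfold n0; omega)

lemma Lo_congr {r r' : ℕ → ℕ} {n : ℕ} (h : ∀ j < n, r j = r' j) : Lo r n = Lo r' n :=
  prod_congr rfl fun j hj => h j (mem_range.1 hj)

lemma enc_congr' {r r' d d' : ℕ → ℕ} {n : ℕ} (h : ∀ j < n, r j = r' j) (h' : ∀ j < n, d j = d' j) :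
    enc r n d = enc r' n d' :=
  sum_congr rfl fun j hj => by
    have := mem_range.1 hj
    rw [h' j this, Lo_congr fun i hi => h i (by omega)]

lemma Lo_const (q n : ℕ) : Lo (fun _ => q) n = q ^ n := by simp [Lo]

lemma enc_digits {q n α : ℕ} (h : α < q ^ n) : enc (fun _ => q) n (fun j => α / q ^ j % q) = α := by
  have : ∀ n, enc (fun _ => q) n (fun j => α / q ^ j % q) = α % q ^ n := fun n => by
    induction n with
    | zero => simp [enc, Nat.mod_one]
    | succ n ih => rw [enc_succ, ih, Lo_const, Nat.mod_pow_succ]; ring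
  rw [this, Nat.mod_eq_of_lt h]

section
variable (H M L q : Ar → ℕ) (a : Ar)

lemma Lo_RR1 : Lo (sh 1 fun j => RR m H M L q j a) m = q a ^ m := by
  rw [← Lo_const]; exact Lo_congr fun j hj => by simp only [sh, RR_Q _ _ _ _ (Q_lo hj)]
lemma Lo_RR2 : Lo (sh (1 + m + 1) fun j => RR m H M L q j a) m = q a ^ m := by
  rw [← Lo_const]; exact Lo_congr fun j hj => by simp only [sh, RR_Q _ _ _ _ (Q_hi hj)]
lemma Lo_RR0 : Lo (fun j => RR m H M L q j a) 1 = L a := by simp [Lo, RR_zero]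

lemma Lo_RR : Lo (fun j => RR m H M L q j a) (n0 m) = q a ^ m * M a * q a ^ m * L a := by
  rw [n0, Lo_add, Lo_succ, Lo_add, Lo_RR1, Lo_RR2, Lo_RR0, RR_mid]; ring

lemma enc_RR (d : ℕ → ℕ) : enc (fun j => RR m H M L q j a) (n0 m + 1) d =
    ix5 (q a ^ m) (M a) (q a ^ m) (L a) (d (n0 m))
      (enc (fun _ => q a) m fun j => d (1 + m + 1 + j)) (d (1 + m))
      (enc (fun _ => q a) m fun j => d (1 + j)) (d 0) := by
  have e1 : enc (sh 1 fun j => RR m H M L q j a) m (sh 1 d) =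
      enc (fun _ => q a) m fun j => d (1 + j) :=
    enc_congr' (fun j hj => by simp only [sh, RR_Q _ _ _ _ (Q_lo hj)]) fun _ _ => rfl
  have e2 : enc (sh (1 + m + 1) fun j => RR m H M L q j a) m (sh (1 + m + 1) d) =
      enc (fun _ => q a) m fun j => d (1 + m + 1 + j) :=
    enc_congr' (fun j hj => by simp only [sh, RR_Q _ _ _ _ (Q_hi hj)]) fun _ _ => rfl
  have e0 : enc (fun j => RR m H M L q j a) 1 d = d 0 := by simp [enc, Lo]
  rw [enc_succ, Lo_RR, n0, enc_add, enc_succ, enc_add, Lo_succ _ (1 + m), Lo_add, Lo_RR1, Lo_RR0,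
    RR_mid, e0,
    e1, e2, ix5, ix, ix]
  ring

end

lemma exists_swapXY {W : ℕ} (hW : 0 < W) (l : List (Step W m)) (hl : ∀ s ∈ l, s.ok GenT)
    (hp : paid l + 1 ≤ W * m)
    (hnet : ∀ (V : Type) [AddCommGroup V] [Module (ZMod 2) V] (fr : Mx m → Module.End (ZMod 2) V),
      fr 0 = 1 → (∀ A B, fr (A + B) = fr A * fr B) →
      ∀ X, runAll (1 : ZMod 2) fr l X = fun i => fr ((8 : ℤ) • 1) (X i)) :
    ∃ (K : ℕ) (c : (Ar → ℕ) → (Ar → ℕ) → (Ar → ℕ) → (Ar → ℕ) → (Ar → ℕ) → Cmd),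
      (∀ H M L q E, BT H → BT M → BT L → BT q → BT E → (c H M L q E).ok) ∧
      ∀ (X : Cx) (e : Cmd) (a : Ar) (H M L q E : Ar → ℕ) (t : ℕ), Sm 10 a → q a % 2 = 1 →
        0 < H a * W * q a ^ m * M a * q a ^ m * L a →
        6 * (H a * W * q a ^ m * M a * q a ^ m * L a) < 2 ^ a.z → E a < 2 ^ a.z →
        (∀ H' M' L', H' * q a * M' * q a * L' = H a * (q a ^ m * M a * q a ^ m * L a) →
          SwapSpec X e a.z (E a) (q a) t H' M' L') →
        ∀ x, ∃ y, Acts X e (c H M L q E) a (arr (H a * W * q a ^ m * M a * q a ^ m * L a) x)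
          (arr (H a * W * q a ^ m * M a * q a ^ m * L a) y)
          (((W * m - 1) * t / W + K) * (H a * W * q a ^ m * M a * q a ^ m * L a)) ∧
          ∀ h < H a * W, ∀ α < q a ^ m, ∀ μ < M a, ∀ β < q a ^ m, ∀ l < L a,
            y (ix5 (q a ^ m) (M a) (q a ^ m) (L a) h α μ β l) =
              x (ix5 (q a ^ m) (M a) (q a ^ m) (L a) h β μ α l) := by
  obtain ⟨net, nok, hnt⟩ := exists_net l hl
  refine ⟨l.length * (mvK m + 4001) + 2 + 10000 * m + 10, fun H M L q E =>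
    .seq (mng (RR m (fun a => H a * W) M L q) (n0 m + 1) m)
      (.seq (mlt (RR m (fun a => H a * W) M L q) (n0 m + 1) yp xp (fun _ => -1) 0 (List.finRange m))
        (.seq (net (RR m H M L q) E)
          (mlt (RR m (fun a => H a * W) M L q) (n0 m + 1) yp xp (fun _ => -1) 0
            (List.finRange m)))), fun H M L q E h1 h2 h3 h4 h5 => ?_,
    fun X e a H M L q E t hs hq h0 hn hE ih => ?_⟩
  · have hR := RR_BT (m := m) (H := fun a => H a * W) (by fun_prop) h2 h3 h4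
    exact ⟨mng_ok hR _ _, mlt_ok hR _ _ _ _ _ _, nok _ _ (RR_BT h1 h2 h3 h4) h5,
      mlt_ok hR _ _ _ _ _ _⟩
  have e1 : Lo (fun j => RR m (fun a => H a * W) M L q j a) (n0 m + 1) =
      H a * W * q a ^ m * M a * q a ^ m * L a := by rw [Lo_succ, Lo_RR, RR_top]; ring
  have e2 : Lo (fun j => RR m H M L q j a) (n0 m + 1) = H a * (q a ^ m * M a * q a ^ m * L a) := by
    rw [Lo_succ, Lo_RR, RR_top]; ring
  have e3 : H a * W * q a ^ m * M a * q a ^ m * L a = W * (H a * (q a ^ m * M a * q a ^ m * L a)) := by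
    ring
  have e4 : RR m H M L q (n0 m) a * W * LoA (RR m H M L q) (n0 m) a =
      H a * W * q a ^ m * M a * q a ^ m * L a := by rw [LoA, Lo_RR, RR_top]; ring
  have e5 : RR m H M L q (n0 m) a * LoA (RR m H M L q) (n0 m) a =
      H a * (q a ^ m * M a * q a ^ m * L a) := by rw [LoA, Lo_RR, RR_top]
  have S' : Shp a (RR m (fun a => H a * W) M L q) (n0 m + 1) (QQ m) (q a) :=
    ⟨hs, e1 ▸ h0, e1 ▸ hn, fun p hp => by rw [RR_Q _ _ _ _ hp], hq⟩
  have hle : H a * (q a ^ m * M a * q a ^ m * L a) ≤ H a * W * q a ^ m * M a * q a ^ m * L a := by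
    rw [e3]; exact Nat.le_mul_of_pos_left _ hW
  have S : Shp a (RR m H M L q) (n0 m + 1) (QQ m) (q a) :=
    ⟨hs, by rw [e2]; rw [e3] at h0; exact Nat.pos_of_mul_pos_left h0, by rw [e2]; omega,
      fun p hp => by rw [RR_Q _ _ _ _ hp], hq⟩
  have pn : PullZ X e (net (RR m H M L q) E) a (RR m (fun a => H a * W) M L q) (n0 m + 1) (QQ m)
      (q a) (shz ((8 : ℤ) • (1 : Mx m))) ((W * m - 1) * t / W + l.length * (mvK m + 4001) + 2) := by
    intro x
    obtain ⟨y, h1, h2⟩ := hnt X e a (RR m H M L q) E (q a) t S hE (fun H' M' L' h => ih _ _ _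
      (h.trans e2)) (e4 ▸ hn) hW x (fun i oz => bv (x (ix W (Lo (fun j => RR m H M L q j a) (n0 m))
        (oz.1 (n0 m)) i (enc (fun j => RR m H M L q j a) (n0 m) (dig (QQ m) oz.1 oz.2)))))
      (fun _ _ _ _ => rfl)
    rw [hnet _ _ (frz_zero _) (frz_add _)] at h2
    rw [e4, e5] at h1
    rw [e1]
    refine ⟨y, h1.mono ?_, fun o ho z => ?_⟩
    · have a1 : paid l * t ≤ (W * m - 1) * t := Nat.mul_le_mul_right _ (by omega)
      have a2 := (Nat.lt_mul_div_succ ((W * m - 1) * t) hW).le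
      have a3 := Nat.mul_le_mul_right (H a * (q a ^ m * M a * q a ^ m * L a)) (a1.trans a2)
      rw [e3] at h0 ⊢
      generalize H a * (q a ^ m * M a * q a ^ m * L a) = N1 at *
      nlinarith
    · have ho1 := ho _ (Nat.lt_succ_self _) not_Q_n0
      rw [RR_top] at ho1
      have key : ∀ z : ℕ → ZMod (q a), enc (fun j => RR m (fun a => H a * W) M L q j a) (n0 m + 1)
          (dig (QQ m) o z) = ix W (Lo (fun j => RR m H M L q j a) (n0 m)) (o (n0 m) / W)
            (o (n0 m) % W) (enc (fun j => RR m H M L q j a) (n0 m)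
              (dig (QQ m) (update o (n0 m) (o (n0 m) / W)) z)) := by
        intro z
        rw [enc_succ, ix, Nat.div_add_mod', dig, if_neg not_Q_n0, Lo_RR, Lo_RR, add_comm]
        congr 1
        refine enc_congr' (fun j hj => ?_) fun j hj => ?_
        · simp only [RR, if_neg hj.ne]
        · simp only [dig, update_of_ne hj.ne]
      have := h2 ⟨o (n0 m) % W, Nat.mod_lt _ hW⟩ (update o (n0 m) (o (n0 m) / W)) (by
        intro p hp hQ
        by_cases h : p = n0 m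
        · subst h
          beta_reduce
          rw [update_self, RR_top]
          exact (Nat.div_lt_iff_lt_mul hW).2 ho1
        · have := ho p hp hQ
          rw [update_of_ne h]
          simpa only [RR, if_neg h] using this) z
      rw [key, key]
      apply bv_inj
      simpa only [update_self, frz, LinearMap.funLeft_apply] using this
  have pl : PullZ X e (mlt (RR m (fun a => H a * W) M L q) (n0 m + 1) yp xp (fun _ => -1) 0
      (List.finRange m)) a (RR m (fun a => H a * W) M L q) (n0 m + 1) (QQ m) (q a)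
      (fun z p => z p + ∑ g : Fin m, if yp g = p then -z (xp g) else 0) (2001 * m + 1) :=
    (mlt_pull S' yp xp (fun _ => -1) 0 (fun g _ => ⟨Q_yp _, Q_xp _, yp_lt_xp _ _, xp_lt _⟩)
      (fun _ _ _ _ => yp_ne_xp _ _) _).of (fun z => by simp [sum_finRange]) (by simp)
  have all := PullZ.seq S' (mng_pull (X := X) (e := e) S' m (by unfold n0; omega)
    fun p h1 h2 => decide_eq_true (by unfold n0; omega)) (PullZ.seq S' pl (PullZ.seq S' pn pl))
  have h8 : (8 : ZMod (q a)) * hf (q a) ^ 3 = 1 := by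
    have := two_hf hq
    calc (8 : ZMod (q a)) * hf (q a) ^ 3 = (2 * hf (q a)) ^ 3 := by ring
      _ = 1 := by rw [this, one_pow]
  obtain ⟨θ, all, hx, hy⟩ : ∃ θ, PullZ X e _ a _ (n0 m + 1) (QQ m) (q a) θ _ ∧
      (∀ z (g : Fin m), θ z (xp g) = z (yp g)) ∧ ∀ z (g : Fin m), θ z (yp g) = z (xp g) := by
    have s1 : ∀ (z : ℕ → ZMod (q a)) (g : Fin m),
        shz ((8 : ℤ) • (1 : Mx m)) z (xp g) = z (xp g) + z (yp g) := fun z g => by
      have : ∀ j, ((((8 : ℤ) • (1 : Mx m)) g j : ℤ) : ZMod (q a)) * hf (q a) ^ 3 * z (yp j) =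
          if g = j then z (yp j) else 0 := fun j => by
        rw [Matrix.smul_apply, Matrix.one_apply]
        split_ifs <;> simp [h8]
      simp only [shz, xp_inj, sum_ite_eq', mem_univ, if_true, this, sum_ite_eq]
    refine ⟨_, all, fun z g => ?_, fun z g => ?_⟩
    · rw [if_neg (by simp only [xp]; omega)]
      simp only [s1]
      simp
    · rw [if_pos (by have := g.2; simp only [yp]; omega)]
      simp only [s1, shz_yp]
      simp
  intro x
  obtain ⟨y, h1, h2⟩ := all x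
  rw [e1] at h1
  refine ⟨y, h1.mono (Nat.mul_le_mul_right _ (by omega)), fun h hh α hα μ hμ β hβ l' hl' => ?_⟩
  have := S.ne
  have hq0 : 0 < q a := by omega
  obtain ⟨z, z1, z2⟩ : ∃ z : ℕ → ZMod (q a), (∀ j < m, (z (1 + m + 1 + j)).val = α / q a ^ j % q a) ∧
      ∀ j < m, (z (1 + j)).val = β / q a ^ j % q a := by
    refine ⟨fun p => if p ≤ m then ((β / q a ^ (p - 1) % q a : ℕ) : ZMod (q a))
      else ((α / q a ^ (p - (1 + m + 1)) % q a : ℕ) : ZMod (q a)), fun j hj => ?_, fun j hj => ?_⟩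
    · beta_reduce
      rw [if_neg (by omega), Nat.add_sub_cancel_left, ZMod.val_cast_of_lt (Nat.mod_lt _ hq0)]
    · beta_reduce
      rw [if_pos (by omega), Nat.add_sub_cancel_left, ZMod.val_cast_of_lt (Nat.mod_lt _ hq0)]
  have := h2 (fun p => if p = 0 then l' else if p = 1 + m then μ else h) (by
    intro p hp hQ
    have : p = 0 ∨ p = 1 + m ∨ p = n0 m := by
      by_contra hh; exact hQ (decide_eq_true (by tauto))
    rcases this with rfl | rfl | rfl
    · simpa [RR_zero]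
    · simpa [RR_mid]
    · rw [RR_top, if_neg (by unfold n0; omega), if_neg (by unfold n0; omega)]; exact hh) z
  rw [enc_RR, enc_RR] at this
  have n1 : ¬ QQ m 0 := by simp [QQ]
  have n2 : ¬ QQ m (1 + m) := by simp [QQ]
  have n3 : n0 m ≠ 0 := by unfold n0; omega
  have n4 : n0 m ≠ 1 + m := by unfold n0; omega
  have n5 : 1 + m ≠ 0 := by omega
  simp only [dig, if_neg n1, if_neg n2, if_neg not_Q_n0, if_neg n3, if_neg n4, if_neg n5,
    if_true] at this
  refine Eq.trans ?_ (this.trans ?_)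
  · congr 2
    · exact (enc_digits hα).symm.trans (enc_congr fun j hj => by rw [if_pos (Q_hi hj), z1 j hj])
    · exact (enc_digits hβ).symm.trans (enc_congr fun j hj => by rw [if_pos (Q_lo hj), z2 j hj])
  · congr 2
    · refine Eq.trans (enc_congr fun j hj => ?_) (enc_digits hβ)
      rw [if_pos (Q_hi hj), ← z2 j hj]
      exact congrArg _ (hx z ⟨j, hj⟩)
    · refine Eq.trans (enc_congr fun j hj => ?_) (enc_digits hα)
      rw [if_pos (Q_lo hj), ← z1 j hj]
      exact congrArg _ (hy z ⟨j, hj⟩)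

lemma lt2 {u v U V : ℕ} (h1 : u < U) (h2 : v < V) : u * V + v < U * V := by nlinarith

theorem exists_cT : ∃ (c : Cmd) (t : ℕ → ℕ), c.ok ∧ Sub t ∧ ∀ (X : Cx) (z E H M L : ℕ), 15 ≤ z →
    0 < H * 3 ^ E * M * 3 ^ E * L → 6 * (H * 3 ^ E * M * 3 ^ E * L) < 2 ^ z →
    SwapSpec X c z E (3 ^ E) (t E) H M L := by
  obtain ⟨m, W0, hm, hnet⟩ := netT
  obtain ⟨l, hl, hp, hnet⟩ := hnet (3 ^ W0) (Nat.lt_pow_self (by norm_num)).le
  generalize W0 = w at *
  have hW : 0 < 3 ^ w := by positivity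
  obtain ⟨K, sw, swok, hsw⟩ := exists_swapXY hW l hl hp hnet
  obtain ⟨t, ht, hg, hrec⟩ := sub_rec hW hm (Sub.const (3000 * (3 ^ (w + m) * 3 ^ (w + m)) + K + 2))
  let E0 : Ar → ℕ := fun a => a.u (a.g 1)
  let E1 : Ar → ℕ := fun a => a.u ((a.g 1 - w) / m)
  let r : Ar → ℕ := fun a => a.u ((a.g 1 - w) % m)
  have b0 : PT Bool E0 := by fun_prop
  have b1 : PT Bool E1 := by fun_prop
  have b2 : PT Bool r := by fun_prop
  let c : Cmd := .ite (fun a => decide (a.g 1 < w + m))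
    (nsw (fun a => a.g 0) (fun a => 3 ^ E0 a) (fun a => a.g 2) (fun a => a.g 3))
    (.seq (nsw (fun a => a.g 0) (fun a => 3 ^ r a * 3 ^ w) (fun a => (3 ^ E1 a) ^ m * a.g 2)
      (fun a => (3 ^ E1 a) ^ m * a.g 3))
      (sw (fun a => a.g 0 * 3 ^ r a) (fun a => a.g 2 * (3 ^ r a * 3 ^ w)) (fun a => a.g 3)
        (fun a => 3 ^ E1 a) E1))
  refine ⟨c, t, ⟨by fun_prop, nsw_ok (by fun_prop) (by fun_prop) (by fun_prop)
      (by fun_prop), nsw_ok (by fun_prop) (by fun_prop) (by fun_prop) (by fun_prop),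
      swok _ _ _ _ _ (by fun_prop) (by fun_prop) (by fun_prop) (by fun_prop) (by fun_prop)⟩, ht, ?_⟩
  intro X z E
  induction E using Nat.strong_induction_on with
  | _ E ih =>
  intro H M L hz h0 hn x
  have hL : 0 < L := Nat.pos_of_mul_pos_left h0
  have h01 := Nat.pos_of_mul_pos_right (Nat.pos_of_mul_pos_right h0)
  have hM : 0 < M := Nat.pos_of_mul_pos_left h01
  have hH : 0 < H := Nat.pos_of_mul_pos_right (Nat.pos_of_mul_pos_right h01)
  have h3 : 0 < 3 ^ E := by positivity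
  have b : ∀ {u v : ℕ}, u * v = H * 3 ^ E * M * 3 ^ E * L → u < 2 ^ z := by
    intro u v h
    rw [← h] at h0 hn
    have := Nat.le_mul_of_pos_right u (Nat.pos_of_mul_pos_left h0)
    omega
  have hE3 : 3 ^ E < 2 ^ z := b (v := H * M * 3 ^ E * L) (by ring)
  have hE : E < 2 ^ z := (Nat.lt_pow_self (by norm_num)).trans hE3
  have hEz : E ≤ z := ((Nat.pow_lt_pow_iff_right (by norm_num)).1
    ((Nat.pow_le_pow_left (by norm_num : 2 ≤ 3) E).trans_lt hE3)).le
  have hs : Sm 11 (⟨z, [H, E, M, L]⟩ : Ar) := by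
    refine ⟨by simp; omega, ?_⟩
    simp only [List.mem_cons, List.not_mem_nil, or_false]
    rintro v (rfl | rfl | rfl | rfl)
    · exact b (v := 3 ^ E * M * 3 ^ E * L) (by ring)
    · exact hE
    · exact b (v := H * 3 ^ E * 3 ^ E * L) (by ring)
    · exact b (v := H * 3 ^ E * M * 3 ^ E) (by ring)
  have u0 : E0 ⟨z, [H, E, M, L]⟩ = E := Ar.u_eq _ hEz
  have u1 : E1 ⟨z, [H, E, M, L]⟩ = (E - w) / m :=
    Ar.u_eq _ ((Nat.div_le_self _ _).trans ((Nat.sub_le _ _).trans hEz))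
  have u2 : r ⟨z, [H, E, M, L]⟩ = (E - w) % m :=
    Ar.u_eq _ ((Nat.mod_le _ _).trans ((Nat.sub_le _ _).trans hEz))
  have g0 : (⟨z, [H, E, M, L]⟩ : Ar).g 0 = H := rfl
  have g2 : (⟨z, [H, E, M, L]⟩ : Ar).g 2 = M := rfl
  have g3 : (⟨z, [H, E, M, L]⟩ : Ar).g 3 = L := rfl
  by_cases hc : E < w + m
  · obtain ⟨y, h1, h2⟩ := nsw_acts (X := X) (e := c) (H := fun a => a.g 0)
      (A := fun a => 3 ^ E0 a) (M := fun a => a.g 2) (L := fun a => a.g 3) hs
      (by simpa only [u0, g0, g2, g3] using h0) (by simp only [u0, g0, g2, g3]; omega) x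
    simp only [u0, g0, g2, g3] at h1 h2
    refine ⟨y, (Acts.ite_pos (decide_eq_true hc) h1).mono ?_, h2⟩
    have a1 : 3 ^ E ≤ 3 ^ (w + m) := Nat.pow_le_pow_right (by norm_num) hc.le
    have a2 : 3000 * (3 ^ E * 3 ^ E) + 1 ≤ t E := by
      have := hg E
      have := Nat.mul_le_mul a1 a1
      omega
    have := Nat.mul_le_mul_right (H * 3 ^ E * M * 3 ^ E * L) a2
    rw [add_mul] at this
    omega
  obtain ⟨E', hE'⟩ : ∃ E', E' = (E - w) / m := ⟨_, rfl⟩
  obtain ⟨ρ, hρ⟩ : ∃ ρ, ρ = (E - w) % m := ⟨_, rfl⟩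
  rw [← hE'] at u1
  rw [← hρ] at u2
  have hρm : ρ < m := hρ ▸ Nat.mod_lt _ (by omega)
  have eE : E = ρ + w + E' * m := by
    have := Nat.mod_add_div' (E - w) m
    rw [← hE', ← hρ] at this; omega
  have hE1 : E' ≤ E / m := hE' ▸ Nat.div_le_div_right (Nat.sub_le _ _)
  have hE2 : E' < E := hE1.trans_lt (Nat.div_lt_self (by omega) hm)
  obtain ⟨Q, hQ⟩ : ∃ Q, Q = (3 ^ E') ^ m := ⟨_, rfl⟩
  obtain ⟨T, hT⟩ : ∃ T, T = 3 ^ ρ * 3 ^ w := ⟨_, rfl⟩
  have e3 : 3 ^ E = T * Q := by rw [eE, hT, hQ, pow_add, pow_add, pow_mul]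
  have n1 : H * T * (Q * M) * T * (Q * L) = H * 3 ^ E * M * 3 ^ E * L := by rw [e3]; ring
  have n2 : H * 3 ^ ρ * 3 ^ w * Q * (M * T) * Q * L = H * 3 ^ E * M * 3 ^ E * L := by
    rw [e3, mul_assoc H, ← hT]; ring
  obtain ⟨y, h1, h2⟩ := nsw_acts (X := X) (e := c) (H := fun a => a.g 0)
    (A := fun a => 3 ^ r a * 3 ^ w) (M := fun a => (3 ^ E1 a) ^ m * a.g 2)
    (L := fun a => (3 ^ E1 a) ^ m * a.g 3) hs
    (by simpa only [u1, u2, g0, g2, g3, ← hQ, ← hT, n1] using h0)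
    (by simp only [u1, u2, g0, g2, g3, ← hQ, ← hT, n1]; omega) x
  obtain ⟨y', h3', h4⟩ := hsw X c ⟨z, [H, E, M, L]⟩ (fun a => a.g 0 * 3 ^ r a)
    (fun a => a.g 2 * (3 ^ r a * 3 ^ w)) (fun a => a.g 3) (fun a => 3 ^ E1 a) E1 (t E')
    (hs.mono (by omega)) (by simp [Nat.pow_mod])
    (by simpa only [u1, u2, g0, g2, g3, ← hQ, ← hT, n2] using h0)
    (by simpa only [u1, u2, g0, g2, g3, ← hQ, ← hT, n2] using hn) (by rw [u1]; exact hE2.trans hE)
    (by
      simp only [u1, u2, g0, g2, g3, ← hQ, ← hT]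
      intro H' M' L' hh
      have a1 : 3 ^ w * (H' * 3 ^ E' * M' * 3 ^ E' * L') = H * 3 ^ E * M * 3 ^ E * L := by
        rw [hh, ← n2]; ring
      rw [← a1] at h0 hn
      have := Nat.le_mul_of_pos_left (H' * 3 ^ E' * M' * 3 ^ E' * L') hW
      exact ih E' hE2 H' M' L' hz (Nat.pos_of_mul_pos_left h0) (by omega)) y
  simp only [u1, u2, g0, g2, g3, ← hQ, ← hT, n1, n2] at h1 h2 h3' h4
  refine ⟨y', (Acts.ite_neg (decide_eq_false hc) (h1.seq h3')).mono ?_, ?_⟩
  · have a1 : T ≤ 3 ^ (w + m) := by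
      rw [hT, ← pow_add]; exact Nat.pow_le_pow_right (by norm_num) (by omega)
    have a2 : (3 ^ w * m - 1) * t E' / 3 ^ w + (3000 * (3 ^ (w + m) * 3 ^ (w + m)) + K + 2) ≤
        t E := by
      have a3 := hrec E (by omega)
      have a4 := Nat.mul_le_mul_left (3 ^ w * m - 1) (ht.1 hE1)
      have a5 := Nat.mul_div_le ((3 ^ w * m - 1) * t E') (3 ^ w)
      refine Nat.le_of_mul_le_mul_left ?_ hW
      rw [mul_add]; omega
    have a3 : 3000 * (T * T) + ((3 ^ w * m - 1) * t E' / 3 ^ w + K) + 2 ≤ t E := by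
      have := Nat.mul_le_mul a1 a1
      omega
    have := Nat.mul_le_mul_right (H * 3 ^ E * M * 3 ^ E * L) a3
    rw [add_mul, add_mul] at this
    omega
  · intro h hh α hα μ hμ β hβ l' hl'
    rw [e3] at hα hβ ⊢
    have hQ0 : 0 < Q := by rw [hQ]; positivity
    have a1 : α / Q < T := (Nat.div_lt_iff_lt_mul hQ0).2 hα
    have a2 : β / Q < T := (Nat.div_lt_iff_lt_mul hQ0).2 hβ
    have a3 : α % Q < Q := Nat.mod_lt _ hQ0
    have a4 : β % Q < Q := Nat.mod_lt _ hQ0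
    rw [← Nat.div_add_mod' α Q, ← Nat.div_add_mod' β Q]
    generalize α / Q = α1 at *
    generalize β / Q = β1 at *
    generalize α % Q = α0 at *
    generalize β % Q = β0 at *
    have i1 : ∀ α1 α0 β1 β0, ix5 (T * Q) M (T * Q) L h (α1 * Q + α0) μ (β1 * Q + β0) l' =
        ix5 Q (M * T) Q L (h * T + α1) α0 (μ * T + β1) β0 l' := by
      intros; simp only [ix5, ix]; ring
    have i2 : ∀ α1 α0 β1 β0, ix5 (T * Q) M (T * Q) L h (α1 * Q + α0) μ (β1 * Q + β0) l' =
        ix5 T (Q * M) T (Q * L) h α1 (α0 * M + μ) β1 (β0 * L + l') := by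
      intros; simp only [ix5, ix]; ring
    rw [i1, h4 _ (by rw [mul_assoc, ← hT]; exact lt2 hh a1) _ a3 _ (lt2 hμ a2) _ a4 _ hl', ← i1, i2,
      h2 _ hh _ a1 _ (lt2 a4 hμ) _ a2 _ (lt2 a3 hl'), ← i2]

end Vale.Agent.P338.TrP
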