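import Vale.Agent.P338.Word
import Vale.Agent.P320.Bin

/-! Word arithmetic and registers. -/

namespace Vale.Agent.P338

open Function
open Vale.Agent.P320 (ofBits)

inductive Loc
  | X (y : Bool) | Z | K | U | V | F | W | C | H | N | Acc | Out | R (i : Fin 8) | D (i : Fin 5)
  deriving DecidableEq

inductive Reg
  | loc (l : Loc) | slow (n : ℕ) | sub (r : Reg)
  deriving DecidableEq

def bitsL (k z : ℕ) : List Bool := (List.range k).map z.testBit

@[simp] lemma bitsL_length (k z : ℕ) : (bitsL k z).length = k := by simp [bitsL]

lemma bin_eq (k z : ℕ) : bin k z = (bitsL k z).reverse := by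
  refine List.ext_getElem (by simp [bin]) fun i h1 h2 => ?_
  simp [bin, bitsL]

def XR (y : Bool) : Reg := .loc (.X y)

/-- `p` multiplies `n`-bit numbers within `T n` steps and cleans up -/
def IsMul (p : Pg Reg Sym) (T : ℕ → ℕ) : Prop :=
  ∀ x y : List Bool, x.length = y.length → Run p (st2 XR x y)
    (update (fun _ => []) (.loc .Z) (eb (bin (2 * x.length) (ofBits x * ofBits y)))) (T x.length)

def fa (c a y : Bool) : Bool × Bool := ((a ^^ y) ^^ c, (a && y) || (c && (a ^^ y)))
def addW (x y : List Bool) : List Bool :=
  (zipL fa (zipL fa false x y).2 (zipL fa false x y).1 []).1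
def xorW (x y : List Bool) : List Bool := (zipL (fun c a y => (a ^^ y, c)) false x y).1
def halfW (x : List Bool) : List Bool := x.tail ++ x.take 1
def shrW (b : ℕ) (x : List Bool) : List Bool :=
  x.drop (3 * b) ++ List.replicate (3 * b) (x.getLastD false)
def mulW (b : ℕ) (x y : List Bool) : List Bool :=
  addW (bitsL (10 * b) (ofBits x * ofBits y)) (bitsL (10 * b) (ofBits x * ofBits y / 2 ^ (10 * b)))
def readW (b : ℕ) (x : List Bool) : List Bool :=
  List.replicate (3 * b) false ++ (padTake b x ++ List.replicate (6 * b) false)

@[simp] lemma addW_length (x y) : (addW x y).length = x.length := by simp [addW, zipL_length]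
@[simp] lemma xorW_length (x y) : (xorW x y).length = x.length := by simp [xorW, zipL_length]
@[simp] lemma halfW_length (x) : (halfW x).length = x.length := by cases x <;> simp [halfW]
@[simp] lemma mulW_length (b x y) : (mulW b x y).length = 10 * b := by simp [mulW]
@[simp] lemma padTake_length (n x) : (padTake n x).length = n := by simp [padTake]
@[simp] lemma readW_length (b x) : (readW b x).length = 10 * b := by simp [readW]; omega
lemma shrW_length {b x} (h : x.length = 10 * b) : (shrW b x).length = 10 * b := by
  simp [shrW, h]; omega

end Vale.Agent.P338
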