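import Vale.Agent.P338.Compile

/-! Linear-time word programs. -/

namespace Vale.Agent.P338

open Function

variable {ρ : Type} [DecidableEq ρ]

abbrev eb (l : List Bool) : List Sym := l.map Sym.b

def popB (F r A : ρ) : Option Sym → Pg ρ Sym
  | some (.b c) => (Pg.pop r).seq (Pg.push A (.b c))
  | _ => (Pg.pop r).seq (Pg.pop F)

/-- pop the top word of `r` (up to the separator) onto `A`, reversing it -/
def popW (F r A : ρ) : Pg ρ Sym := (Pg.push F .sep).seq (Pg.loop F (Pg.cas r (popB F r A)))

theorem popW_run {F r A : ρ} (h1 : F ≠ r) (h2 : F ≠ A) (h3 : r ≠ A) (w : List Bool)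
    (rest : List Sym) (s : ρ → List Sym) (hF : s F = []) (hr : s r = eb w ++ .sep :: rest) :
    Run (popW F r A) s (update (update s r rest) A ((eb w).reverse ++ s A)) (4 * w.length + 6) := by
  have key : ∀ (w : List Bool) (s : ρ → List Sym), s F = [.sep] → s r = eb w ++ .sep :: rest →
      Run (Pg.loop F (Pg.cas r (popB F r A))) s
        (update (update (update s F []) r rest) A ((eb w).reverse ++ s A)) (4 * w.length + 5) := by
    intro w
    induction w with
    | nil =>
      intro s hF hr
      refine (Run.loop1 (by simp [hF]) (Run.cas (o := some .sep) (by simp [hr])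
        ((Run.pop _ _).seq (Run.pop _ _))) (Run.loop0 (by simp [h1, hF]))).of ?_ (by simp)
      funext k
      simp only [update_apply]
      split_ifs <;> simp_all
    | cons c w ih =>
      intro s hF hr
      refine (Run.loop1 (by simp [hF]) (Run.cas (o := some (.b c)) (by simp [hr])
        ((Run.pop _ _).seq (Run.push _ _ _))) (ih _ (by simp [h1, h2, hF])
          (by simp [h3, hr]))).of ?_ (by simp; omega)
      funext k
      simp only [update_apply]
      split_ifs <;> simp_all
  refine ((Run.push _ _ _).seq (key w _ (by simp [hF]) (by simp [h1.symm, hr]))).of ?_ (by omega)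
  funext k
  simp only [update_apply]
  split_ifs <;> simp_all

def getW (F W r A : ρ) : Pg ρ Sym := (popW F r W).seq (move W A)

theorem getW_run {F W r A : ρ} (h1 : F ≠ r) (h2 : F ≠ W) (h3 : r ≠ W) (h4 : W ≠ A) (h5 : r ≠ A)
    (w : List Bool) (rest : List Sym) (s : ρ → List Sym) (hF : s F = []) (hW : s W = [])
    (hA : s A = []) (hr : s r = eb w ++ .sep :: rest) :
    Run (getW F W r A) s (update (update s r rest) A (eb w)) (8 * w.length + 7) := by
  refine ((popW_run h1 h2 h3 w rest s hF hr).seq (move_run h4 _)).of ?_ (by simp [hW]; omega)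
  funext k
  simp only [update_apply]
  split_ifs <;> simp_all

def putW (W A r : ρ) : Pg ρ Sym := (move A W).seq ((Pg.push r .sep).seq (move W r))

theorem putW_run {W A r : ρ} (h1 : A ≠ W) (h2 : W ≠ r) (h3 : A ≠ r) (s : ρ → List Sym)
    (hW : s W = []) :
    Run (putW W A r) s (update (update s A []) r (s A ++ .sep :: s r)) (8 * (s A).length + 3) := by
  refine ((move_run h1 s).seq ((Run.push _ _ _).seq (move_run h2 _))).of ?_
    (by simp [hW, h2]; omega)
  funext k
  simp only [update_apply]
  split_ifs <;> simp_all

def cpy (W A B : ρ) : Pg ρ Sym := (move A W).seq (move2 W A B)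

theorem cpy_run {W A B : ρ} (h1 : A ≠ W) (h2 : W ≠ B) (h3 : A ≠ B) (s : ρ → List Sym)
    (hW : s W = []) :
    Run (cpy W A B) s (update s B (s A ++ s B)) (9 * (s A).length + 2) := by
  refine ((move_run h1 s).seq (move2_run h1.symm h2 h3 _)).of ?_ (by simp [hW]; omega)
  funext k
  simp only [update_apply]
  split_ifs <;> simp_all

def shift (W A B : ρ) : Pg ρ Sym := (move A W).seq (move W B)

theorem shift_run {W A B : ρ} (h1 : A ≠ W) (h2 : W ≠ B) (h3 : A ≠ B) (s : ρ → List Sym)
    (hW : s W = []) :
    Run (shift W A B) s (update (update s A []) B (s A ++ s B)) (8 * (s A).length + 2) := by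
  refine ((move_run h1 s).seq (move_run h2 _)).of ?_ (by simp [hW]; omega)
  funext k
  simp only [update_apply]
  split_ifs <;> simp_all

/-- run `p` once for every symbol of `U` -/
def forU (U V : ρ) (p : Pg ρ Sym) : Pg ρ Sym :=
  (each U fun c => (Pg.push V c).seq p).seq (move V U)

theorem forU_run {U V : ρ} (h : U ≠ V) (p : Pg ρ Sym) (T b : ℕ) (σ : ℕ → ρ → List Sym)
    (hU : ∀ i, σ i U = List.replicate b .sep) (hV : ∀ i, σ i V = [])
    (hp : ∀ i < b, ∀ u v, Run p (update (update (σ i) U u) V v)
      (update (update (σ (i + 1)) U u) V v) T) :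
    Run (forU U V p) (σ 0) (σ b) (b * (T + 8) + 2) := by
  have := each_run' U (fun c => (Pg.push V c).seq p) (1 + T)
    (fun u l => update (update (σ u.length) U l) V u.reverse) (fun u l => by simp [h])
    (List.replicate b .sep) (fun u c l hu => by
      have hl : u.length < b := by
        have := congrArg List.length hu
        simp at this; omega
      refine ((Run.push _ _ _).congr ?_).seq (by simpa using hp _ hl l (c :: u.reverse))
      funext k
      simp only [update_apply]
      split_ifs <;> simp_all)
  simp only [List.length_nil, List.reverse_nil, List.length_replicate,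
    List.reverse_replicate] at this
  rw [← hU 0, update_eq_self, ← hV 0, update_eq_self] at this
  refine (this.seq (move_run h.symm _)).of ?_ (by simp [hU]; nlinarith)
  funext k
  simp only [update_apply]
  split_ifs <;> simp_all

def rep (n : ℕ) (p : Pg ρ Sym) : Pg ρ Sym := match n with
  | 0 => Pg.skip
  | n + 1 => (rep n p).seq p

theorem rep_run (p : Pg ρ Sym) (T n : ℕ) (σ : ℕ → ρ → List Sym)
    (hp : ∀ i < n, Run p (σ i) (σ (i + 1)) T) : Run (rep n p) (σ 0) (σ n) (n * T + 1) := by
  induction n with
  | zero => exact (Run.skip _).mono (by simp)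
  | succ n ih =>
    exact ((ih fun i hi => hp i (by omega)).seq (hp n (by omega))).mono (by ring_nf; omega)

/-- run `p` exactly `n * b` times -/
theorem repU_run {U V : ρ} (h : U ≠ V) (p : Pg ρ Sym) (T b n : ℕ) (σ : ℕ → ρ → List Sym)
    (hU : ∀ i, σ i U = List.replicate b .sep) (hV : ∀ i, σ i V = [])
    (hp : ∀ i, ∀ u v, Run p (update (update (σ i) U u) V v)
      (update (update (σ (i + 1)) U u) V v) T) :
    Run (rep n (forU U V p)) (σ 0) (σ (n * b)) (n * (b * (T + 8) + 2) + 1) := by
  have := rep_run (forU U V p) (b * (T + 8) + 2) n (fun i => σ (i * b)) (fun i _ => by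
    have := forU_run h p T b (fun j => σ (i * b + j)) (fun _ => hU _) (fun _ => hV _)
      (fun j _ u v => hp _ u v)
    simpa [add_mul] using this)
  simpa using this

def fill (U V A : ρ) (c : Sym) (n : ℕ) : Pg ρ Sym := rep n (forU U V (Pg.push A c))

theorem fill_run {U V A : ρ} (h : U ≠ V) (h1 : A ≠ U) (h2 : A ≠ V) (c : Sym) (n b : ℕ)
    (s : ρ → List Sym) (hU : s U = List.replicate b .sep) (hV : s V = []) :
    Run (fill U V A c n) s (update s A (List.replicate (n * b) c ++ s A))
      (n * (b * 9 + 2) + 1) := by
  have := repU_run h (Pg.push A c) 1 b n (fun i => update s A (List.replicate i c ++ s A))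
    (fun _ => by simp [h1.symm, hU]) (fun _ => by simp [h2.symm, hV]) (fun i u v => by
      refine (Run.push _ _ _).congr ?_
      funext k
      simp only [update_apply]
      split_ifs <;> simp_all [List.replicate_succ])
  simpa [fill] using this

def padTake (n : ℕ) (l : List Bool) : List Bool := (List.range n).map fun i => l.getD i false

/-- move `n * b` bits from `A` to `B` (zeros once `A` is exhausted) -/
def takeU (U V A B : ρ) (n : ℕ) : Pg ρ Sym :=
  rep n (forU U V (Pg.cas A fun o => (Pg.pop A).seq (Pg.push B (o.getD (.b false)))))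

theorem takeU_run {U V A B : ρ} (h : U ≠ V) (h1 : A ≠ U) (h2 : A ≠ V) (h3 : B ≠ U) (h4 : B ≠ V)
    (h5 : A ≠ B) (n b : ℕ) (s : ρ → List Sym) (a : List Bool) (hA : s A = eb a)
    (hU : s U = List.replicate b .sep) (hV : s V = []) :
    Run (takeU U V A B n) s (update (update s A (eb (a.drop (n * b)))) B
      ((eb (padTake (n * b) a)).reverse ++ s B)) (n * (b * 11 + 2) + 1) := by
  have := repU_run h (Pg.cas A fun o => (Pg.pop A).seq (Pg.push B (o.getD (.b false)))) 3 b n
    (fun i => update (update s A (eb (a.drop i))) B ((eb (padTake i a)).reverse ++ s B))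
    (fun _ => by simp [h1.symm, h3.symm, hU]) (fun _ => by simp [h2.symm, h4.symm, hV])
    (fun i u v => by
      refine (Run.cas (o := (a[i]?).map Sym.b) (by simp [h1, h2, h5])
        ((Run.pop _ _).seq (Run.push _ _ _))).congr ?_
      have e : (Option.map Sym.b a[i]?).getD (Sym.b false) = .b (a.getD i false) := by
        rw [List.getD_eq_getElem?_getD]; cases a[i]? <;> rfl
      rw [e]
      funext k
      simp only [update_apply]
      split_ifs <;> simp_all [padTake, List.range_succ])
  simp only [padTake, List.range_zero, List.drop_zero, List.map_nil, List.reverse_nil,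
    List.nil_append, ← hA, update_eq_self] at this
  exact this

def Sym.bit : Sym → Bool
  | .b x => x
  | .sep => false

def zipL (δ : Bool → Bool → Bool → Bool × Bool) : Bool → List Bool → List Bool → List Bool × Bool
  | c, [], _ => ([], c)
  | c, a :: x, y => ((δ c a (y.headD false)).1 :: (zipL δ (δ c a (y.headD false)).2 x y.tail).1,
      (zipL δ (δ c a (y.headD false)).2 x y.tail).2)

lemma zipL_length (δ) (c : Bool) (x y : List Bool) : (zipL δ c x y).1.length = x.length := by
  induction x generalizing c y with
  | nil => rfl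
  | cons a x ih => simp [zipL, ih]

def zipP (δ : Bool → Bool → Bool → Bool × Bool) (W C A B : ρ) : Pg ρ Sym :=
  (each A fun a => Pg.cas C fun c => Pg.cas B fun y =>
    (Pg.pop B).seq ((Pg.pop C).seq
      ((Pg.push C (.b (δ (c.getD .sep).bit a.bit (y.getD .sep).bit).2)).seq
        (Pg.push W (.b (δ (c.getD .sep).bit a.bit (y.getD .sep).bit).1))))).seq (move W A)

theorem zipP_run (δ) {W C A B : ρ} (h1 : A ≠ W) (h2 : A ≠ C) (h3 : A ≠ B) (h4 : W ≠ C)
    (h5 : W ≠ B) (h6 : C ≠ B) (s : ρ → List Sym) (x y : List Bool) (c : Bool) (hA : s A = eb x)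
    (hB : s B = eb y) (hC : s C = [.b c]) (hW : s W = []) :
    Run (zipP δ W C A B) s (update (update (update s A (eb (zipL δ c x y).1)) B
      (eb (y.drop x.length))) C [.b (zipL δ c x y).2]) (13 * x.length + 2) := by
  have key : ∀ (x y : List Bool) (c : Bool) (s : ρ → List Sym), s A = eb x → s B = eb y →
      s C = [.b c] → Run (each A fun a => Pg.cas C fun c => Pg.cas B fun y =>
    (Pg.pop B).seq ((Pg.pop C).seq
      ((Pg.push C (.b (δ (c.getD .sep).bit a.bit (y.getD .sep).bit).2)).seq
        (Pg.push W (.b (δ (c.getD .sep).bit a.bit (y.getD .sep).bit).1))))) s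
      (update (update (update (update s A []) B (eb (y.drop x.length))) C [.b (zipL δ c x y).2]) W
        ((eb (zipL δ c x y).1).reverse ++ s W)) (9 * x.length + 1) := by
    intro x
    induction x with
    | nil =>
      intro y c s hA hB hC
      refine (Run.loop0 hA).of ?_ (by simp)
      funext k
      simp only [update_apply]
      split_ifs <;> simp_all [zipL]
    | cons a x ih =>
      intro y c s hA hB hC
      have e : ((eb y).head?.getD .sep).bit = y.headD false := by cases y <;> rfl
      refine (Run.loop1 (by simp [hA]) (Run.cas (o := some (.b a)) (by simp [hA])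
        ((Run.pop _ _).seq (Run.cas (o := some (.b c)) (by simp [h2.symm, hC])
          (Run.cas (o := (eb y).head?) (by simp [h3.symm, hB]) ((Run.pop _ _).seq
            ((Run.pop _ _).seq ((Run.push _ _ _).seq (Run.push _ _ _))))))))
        (ih y.tail (δ c a (y.headD false)).2 _ (by simp [h1, h2, h3, hA])
          (by simp [h5.symm, h6.symm, h3.symm, hB])
          (by rw [e]; simp [h4.symm, h6, h2.symm, hC, Sym.bit]))).of ?_ (by simp; omega)
      rw [e]
      funext k
      simp only [update_apply]
      split_ifs <;> simp_all [zipL, Sym.bit]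
  refine ((key x y c s hA hB hC).seq (move_run h1.symm _)).of ?_
    (by simp [hW, zipL_length]; omega)
  funext k
  simp only [update_apply]
  split_ifs <;> simp_all

/-- dispatch on a unary number -/
def disp (r : ρ) : ℕ → (ℕ → Pg ρ Sym) → Pg ρ Sym
  | 0, _ => Pg.skip
  | n + 1, f => Pg.cas r fun o => match o with
    | none => f 0
    | some _ => (Pg.pop r).seq (disp r n fun i => f (i + 1))

theorem disp_run (r : ρ) (c : Sym) (i : ℕ) : ∀ (n : ℕ) (f : ℕ → Pg ρ Sym) (s s' : ρ → List Sym)
    (T : ℕ), i < n → s r = List.replicate i c → Run (f i) (update s r []) s' T →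
    Run (disp r n f) s s' (T + 2 * i + 1) := by
  induction i with
  | zero =>
    rintro (_ | n) f s s' T hi hs h
    · omega
    · rw [← hs.trans (List.replicate_zero), update_eq_self] at h
      exact Run.cas (o := none) (by simp [hs]) h
  | succ i ih =>
    rintro (_ | n) f s s' T hi hs h
    · omega
    · refine (Run.cas (o := some c) (by simp [hs, List.replicate_succ]) ((Run.pop _ _).seq
        (ih n _ _ s' T (by omega) (by simp [hs, List.replicate_succ]) (by simpa using h)))).mono
        (by omega)

end Vale.Agent.P338
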